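import Mathlib.Algebra.BigOperators.Intervals
import Mathlib.Algebra.Order.Archimedean.Basic
import Mathlib.Algebra.Order.Archimedean.Real.Basic
import Mathlib.Algebra.Order.BigOperators.Group.Finset
import Mathlib.Algebra.Order.BigOperators.Ring.Finset
import Mathlib.Algebra.Order.Floor.Ring
import Mathlib.Analysis.Complex.Circle
import Mathlib.Analysis.Complex.ExponentialBounds
import Mathlib.Analysis.Complex.Norm
import Mathlib.Analysis.SpecialFunctions.Exp
import Mathlib.Analysis.SpecificLimits.Basic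
import Mathlib.Combinatorics.SimpleGraph.Connectivity.Connected
import Mathlib.Combinatorics.SimpleGraph.Paths
import Mathlib.Combinatorics.SimpleGraph.Walk.Basic
import Mathlib.Combinatorics.SimpleGraph.Walk.Maps
import Mathlib.Combinatorics.SimpleGraph.Walk.Operations
import Mathlib.Combinatorics.SimpleGraph.Walk.Subwalks
import Mathlib.Data.Finset.Lattice.Fold
import Mathlib.Data.Int.Interval
import Mathlib.Data.List.Perm.Subperm
import Mathlib.Data.Real.Basic
import Mathlib.Data.Set.Finite.List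
import Mathlib.Data.ZMod.Basic
import Mathlib.Logic.Relation
import Mathlib.MeasureTheory.Constructions.BorelSpace.Order
import Mathlib.MeasureTheory.Constructions.BorelSpace.Real
import Mathlib.MeasureTheory.Constructions.ProjectiveFamilyContent
import Mathlib.MeasureTheory.Group.Arithmetic
import Mathlib.MeasureTheory.Integral.Marginal
import Mathlib.MeasureTheory.Integral.MeanInequalities
import Mathlib.MeasureTheory.MeasurableSpace.Constructions
import Mathlib.MeasureTheory.Measure.MeasuredSets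
import Mathlib.MeasureTheory.Measure.Prod
import Mathlib.MeasureTheory.Measure.Typeclasses.NullSingletonClass
import Mathlib.MeasureTheory.Measure.Typeclasses.Probability
import Mathlib.MeasureTheory.Measure.WithDensity
import Mathlib.Order.ConditionallyCompleteLattice.Finset
import Mathlib.Order.ConditionallyCompleteLattice.Indexed
import Mathlib.Order.Filter.AtTopBot.Archimedean
import Mathlib.Order.Filter.AtTopBot.Basic
import Mathlib.Order.Filter.AtTopBot.Field
import Mathlib.Order.Filter.Ultrafilter.Basic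
import Mathlib.Order.Interval.Finset.Defs
import Mathlib.Order.Interval.Finset.Nat
import Mathlib.Probability.CDF
import Mathlib.Probability.Independence.InfinitePi
import Mathlib.Probability.Independence.Integration
import Mathlib.Probability.ProductMeasure
import Mathlib.Tactic.FieldSimp
import Mathlib.Tactic.Linarith
import Mathlib.Tactic.LinearCombination
import Mathlib.Tactic.Positivity
import Mathlib.Tactic.Ring
import Mathlib.Topology.Instances.Real.Lemmas
import Mathlib.Topology.Order.MonotoneConvergence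
import Mathlib.MeasureTheory.Integral.Lebesgue.Add
import Mathlib.MeasureTheory.Integral.Lebesgue.Map
import Vale.Agent.P158.Stmt

set_option linter.all false

section

section

section

/-! Basic definitions for planar first-passage percolation. -/

namespace Vale.Agent.P158

open Filter

instance : DecidableRel latt.Adj := fun x y =>
  inferInstanceAs (Decidable (|x.1 - y.1| + |x.2 - y.2| = 1))

/-- The weight of a walk for a weight function `w` on ordered pairs. -/
def ww (w : V → V → ℝ) {x y : V} (p : latt.Walk x y) : ℝ :=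
  (p.darts.map fun d => w d.fst d.snd).sum

/-- Passage time restricted to walks inside `S`. -/
noncomputable def PT (w : V → V → ℝ) (S : Set V) (x y : V) : ℝ :=
  ⨅ p : {p : latt.Walk x y // ∀ z ∈ p.support, z ∈ S}, ww w p.1

/-- Passage time. -/
noncomputable def T (w : V → V → ℝ) (x y : V) : ℝ := PT w Set.univ x y

/-- Admissible weight functions. -/
structure Adm (w : V → V → ℝ) : Prop where
  symm : ∀ x y, w x y = w y x
  pos : ∀ x y, latt.Adj x y → 0 < w x y

/-- The half plane left of column `N`. -/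
def HN (N : ℤ) : Set V := {z | z.1 ≤ N}

/-- Difference of half-plane passage times to the vertex of height `j` in column `N`. -/
noncomputable def g (w : V → V → ℝ) (N : ℤ) (x y : V) (j : ℤ) : ℝ :=
  PT w (HN N) x (N, j) - PT w (HN N) y (N, j)

/-- Window of slope `m` and relative width `1/k` seen from `z`, in column `N`. -/
def J (m : ℝ) (z : V) (k : ℕ) (N j : ℤ) : Prop :=
  (k : ℝ) * |((j - z.2 : ℤ) : ℝ) - m * ((N - z.1 : ℤ) : ℝ)| ≤ ((N - z.1 : ℤ) : ℝ)

/-- Small oscillation. -/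
def Small (w : V → V → ℝ) (m : ℝ) (x y : V) : Prop :=
  ∀ n : ℕ, ∃ k : ℕ, ∃ᶠ N : ℤ in atTop, ∀ j j' : ℤ, J m x k N j → J m x k N j' →
    g w N x y j - g w N x y j' ≤ 1 / ((n : ℝ) + 1)

/-- `a` is a step from `z`. -/
def Step (w : V → V → ℝ) (m : ℝ) (z a : V) : Prop :=
  latt.Adj z a ∧
  (∀ n : ℕ, ∃ k : ℕ, ∃ᶠ N : ℤ in atTop, ∀ j : ℤ, J m z k N j →
    w z a - 1 / ((n : ℝ) + 1) ≤ g w N z a j) ∧
  (∀ n k : ℕ, ∀ᶠ N : ℤ in atTop, ∃ j : ℤ, J m z k N j ∧
    w z a - 1 / ((n : ℝ) + 1) ≤ g w N z a j)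

/-- Geodesic ray. -/
def IsRay (w : V → V → ℝ) (r : ℕ → V) : Prop :=
  (∀ i, latt.Adj (r i) (r (i + 1))) ∧
  ∀ n, ∑ i ∈ Finset.range n, w (r i) (r (i + 1)) = T w (r 0) (r n)

/-- The path goes to the right with slope `m`. -/
def Slope (m : ℝ) (r : ℕ → V) : Prop :=
  ∀ q : ℕ, ∀ᶠ i in atTop, (q : ℝ) * |((r i).2 : ℝ) - m * ((r i).1 : ℝ)| ≤ ((r i).1 : ℝ) ∧
    (q : ℝ) ≤ ((r i).1 : ℝ)

/-- Busemann function of a ray, normalised at its starting point. -/
noncomputable def bus (w : V → V → ℝ) (r : ℕ → V) (x : V) : ℝ :=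
  ⨅ n : ℕ, (T w x (r n) - T w (r 0) (r n))

/-- Environments. -/
abbrev Env : Type := latt.edgeSet → ℝ

/-- The weight function of an environment. -/
noncomputable def wt (t : Env) (x y : V) : ℝ :=
  if h : latt.Adj x y then t ⟨s(x, y), h⟩ else 0

end Vale.Agent.P158
end
end
end

section

section

section

/-! Basic facts on restricted passage times. -/

namespace Vale.Agent.P158

open Filter

variable {w : V → V → ℝ} {S S' : Set V} {x y z : V}

/-- `x` and `y` are joined by a walk inside `S`. -/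
def Conn (S : Set V) (x y : V) : Prop := ∃ p : latt.Walk x y, ∀ z ∈ p.support, z ∈ S

theorem Conn.refl' (hx : x ∈ S) : Conn S x x :=
  ⟨SimpleGraph.Walk.nil, by simpa using hx⟩

theorem Conn.trans' (h1 : Conn S x y) (h2 : Conn S y z) : Conn S x z := by
  obtain ⟨p, hp⟩ := h1
  obtain ⟨q, hq⟩ := h2
  refine ⟨p.append q, fun u hu => ?_⟩
  rw [SimpleGraph.Walk.mem_support_append_iff] at hu
  rcases hu with hu | hu
  · exact hp u hu
  · exact hq u hu

theorem Conn.symm' (h : Conn S x y) : Conn S y x := by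
  obtain ⟨p, hp⟩ := h
  exact ⟨p.reverse, fun u hu => hp u (by simpa using hu)⟩

theorem Conn.of_adj (h : latt.Adj x y) (hx : x ∈ S) (hy : y ∈ S) : Conn S x y := by
  refine ⟨SimpleGraph.Walk.cons h SimpleGraph.Walk.nil, fun u hu => ?_⟩
  simp at hu
  rcases hu with rfl | rfl
  · exact hx
  · exact hy

theorem Conn.mono (hS : S ⊆ S') (h : Conn S x y) : Conn S' x y := by
  obtain ⟨p, hp⟩ := h
  exact ⟨p, fun u hu => hS (hp u hu)⟩

theorem adj_right (a b : ℤ) : latt.Adj ((a, b) : V) (a + 1, b) := by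
  simp only [latt, sub_add_cancel_left, Int.reduceNeg, abs_neg, abs_one, sub_self, abs_zero, add_zero]

theorem adj_left (a b : ℤ) : latt.Adj ((a, b) : V) (a - 1, b) := by
  simp only [latt, sub_sub_cancel, abs_one, sub_self, abs_zero, add_zero]

theorem adj_up (a b : ℤ) : latt.Adj ((a, b) : V) (a, b + 1) := by
  simp only [latt, sub_self, abs_zero, sub_add_cancel_left, Int.reduceNeg, abs_neg, abs_one, zero_add]

theorem adj_down (a b : ℤ) : latt.Adj ((a, b) : V) (a, b - 1) := by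
  simp only [latt, sub_self, abs_zero, sub_sub_cancel, abs_one, zero_add]

theorem conn_left {N a b : ℤ} (h : a ≤ N) (n : ℕ) : Conn (HN N) (a, b) (a - n, b) := by
  induction n with
  | zero => simpa using Conn.refl' (S := HN N) (x := (a, b)) h
  | succ n ih =>
    refine ih.trans' ?_
    have : ((a - ((n + 1 : ℕ) : ℤ), b) : V) = ((a - n) - 1, b) := by
      push_cast; ext <;> simp; ring
    rw [this]
    refine Conn.of_adj (adj_left _ _) ?_ ?_ <;> simp only [HN, Set.mem_ofPred_eq] <;> omega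

theorem conn_up {N a b : ℤ} (h : a ≤ N) (n : ℕ) : Conn (HN N) (a, b) (a, b + n) := by
  induction n with
  | zero => simpa using Conn.refl' (S := HN N) (x := (a, b)) h
  | succ n ih =>
    refine ih.trans' ?_
    have : ((a, b + ((n + 1 : ℕ) : ℤ)) : V) = (a, (b + n) + 1) := by
      push_cast; ext <;> simp only; ring
    rw [this]
    refine Conn.of_adj (adj_up _ _) ?_ ?_ <;> simp only [HN, Set.mem_ofPred_eq] <;> omega

theorem conn_HN {N : ℤ} {x y : V} (hx : x ∈ HN N) (hy : y ∈ HN N) : Conn (HN N) x y := by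
  have hx' : x.1 ≤ N := hx
  have hy' : y.1 ≤ N := hy
  have h1 : Conn (HN N) x (min x.1 y.1, x.2) := by
    have := conn_left (N := N) (a := x.1) (b := x.2) hx' (x.1 - min x.1 y.1).toNat
    rwa [Int.toNat_of_nonneg (by omega), sub_sub_cancel] at this
  have h2 : Conn (HN N) y (min x.1 y.1, y.2) := by
    have := conn_left (N := N) (a := y.1) (b := y.2) hy' (y.1 - min x.1 y.1).toNat
    rwa [Int.toNat_of_nonneg (by omega), sub_sub_cancel] at this
  have h3 : Conn (HN N) (min x.1 y.1, x.2) (min x.1 y.1, y.2) := by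
    rcases le_total x.2 y.2 with h | h
    · have := conn_up (N := N) (a := min x.1 y.1) (b := x.2) (by omega) (y.2 - x.2).toNat
      rwa [Int.toNat_of_nonneg (by omega), add_sub_cancel] at this
    · have := conn_up (N := N) (a := min x.1 y.1) (b := y.2) (by omega) (x.2 - y.2).toNat
      rw [Int.toNat_of_nonneg (by omega), add_sub_cancel] at this
      exact this.symm'
  exact (h1.trans' h3).trans' h2.symm'

theorem conn_univ (x y : V) : Conn Set.univ x y :=
  (conn_HN (N := max x.1 y.1) (x := x) (y := y) (by simp only [HN, le_sup_iff, Set.mem_ofPred_eq, Std.le_refl, true_or]) (by simp only [HN, le_sup_iff, Set.mem_ofPred_eq, Std.le_refl, or_true])).mono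
    (Set.subset_univ _)

theorem ww_nil : ww w (SimpleGraph.Walk.nil : latt.Walk x x) = 0 := rfl

theorem ww_cons (h : latt.Adj x y) (p : latt.Walk y z) :
    ww w (SimpleGraph.Walk.cons h p) = w x y + ww w p := by
  simp [ww]

theorem ww_nonneg (hw : Adm w) (p : latt.Walk x y) : 0 ≤ ww w p := by
  unfold ww
  refine List.sum_nonneg fun a ha => ?_
  obtain ⟨d, -, rfl⟩ := List.mem_map.1 ha
  exact (hw.pos _ _ d.adj).le

theorem ww_append (p : latt.Walk x y) (q : latt.Walk y z) :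
    ww w (p.append q) = ww w p + ww w q := by
  simp [ww]

theorem ww_reverse (hw : Adm w) (p : latt.Walk x y) : ww w p.reverse = ww w p := by
  induction p with
  | nil => rfl
  | cons h p ih =>
    rw [SimpleGraph.Walk.reverse_cons, ww_append, ih, ww_cons, ww_cons, ww_nil, hw.symm]
    ring

theorem bddBelow_ww (hw : Adm w) (S : Set V) (x y : V) :
    BddBelow (Set.range fun p : {p : latt.Walk x y // ∀ z ∈ p.support, z ∈ S} => ww w p.1) :=
  ⟨0, by rintro _ ⟨p, rfl⟩; exact ww_nonneg hw _⟩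

theorem PT_le (hw : Adm w) (p : latt.Walk x y) (hp : ∀ z ∈ p.support, z ∈ S) :
    PT w S x y ≤ ww w p :=
  ciInf_le (bddBelow_ww hw S x y) ⟨p, hp⟩

theorem PT_nonneg (hw : Adm w) : 0 ≤ PT w S x y :=
  Real.iInf_nonneg fun _ => ww_nonneg hw _

theorem exists_walk (_hw : Adm w) (hc : Conn S x y) {ε : ℝ} (hε : 0 < ε) :
    ∃ p : latt.Walk x y, (∀ z ∈ p.support, z ∈ S) ∧ ww w p < PT w S x y + ε := by
  obtain ⟨p0, hp0⟩ := hc
  have : Nonempty {p : latt.Walk x y // ∀ z ∈ p.support, z ∈ S} := ⟨⟨p0, hp0⟩⟩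
  obtain ⟨p, hp⟩ := exists_lt_of_ciInf_lt (lt_add_of_pos_right (PT w S x y) hε)
  exact ⟨p.1, p.2, hp⟩

theorem le_PT (hc : Conn S x y) {c : ℝ}
    (h : ∀ p : latt.Walk x y, (∀ z ∈ p.support, z ∈ S) → c ≤ ww w p) : c ≤ PT w S x y := by
  obtain ⟨p0, hp0⟩ := hc
  have : Nonempty {p : latt.Walk x y // ∀ z ∈ p.support, z ∈ S} := ⟨⟨p0, hp0⟩⟩
  exact le_ciInf fun p => h p.1 p.2

theorem PT_comm (hw : Adm w) : PT w S x y = PT w S y x := by
  have key : ∀ a b : V, PT w S a b ≤ PT w S b a := by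
    intro a b
    by_cases hc : Conn S b a
    · refine le_PT hc fun p hp => ?_
      rw [← ww_reverse hw p]
      exact PT_le hw _ fun u hu => hp u (by simpa using hu)
    · have hc' : ¬ Conn S a b := fun h => hc h.symm'
      have e1 : IsEmpty {p : latt.Walk a b // ∀ z ∈ p.support, z ∈ S} :=
        ⟨fun p => hc' ⟨p.1, p.2⟩⟩
      have e2 : IsEmpty {p : latt.Walk b a // ∀ z ∈ p.support, z ∈ S} :=
        ⟨fun p => hc ⟨p.1, p.2⟩⟩
      unfold PT
      rw [Real.iInf_of_isEmpty, Real.iInf_of_isEmpty]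
  exact le_antisymm (key x y) (key y x)

theorem PT_self (hw : Adm w) : PT w S x x = 0 := by
  by_cases hx : x ∈ S
  · refine le_antisymm ?_ (PT_nonneg hw)
    exact (PT_le hw SimpleGraph.Walk.nil (by simpa using hx)).trans_eq ww_nil
  · have e1 : IsEmpty {p : latt.Walk x x // ∀ z ∈ p.support, z ∈ S} :=
      ⟨fun p => hx (p.2 x p.1.start_mem_support)⟩
    unfold PT
    rw [Real.iInf_of_isEmpty]

theorem PT_triangle (hw : Adm w) (h1 : Conn S x y) (h2 : Conn S y z) :
    PT w S x z ≤ PT w S x y + PT w S y z := by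
  refine le_of_forall_pos_le_add fun ε hε => ?_
  obtain ⟨p, hp, hp'⟩ := exists_walk hw h1 (half_pos hε)
  obtain ⟨q, hq, hq'⟩ := exists_walk hw h2 (half_pos hε)
  have := PT_le (S := S) hw (p.append q) fun u hu => by
    rw [SimpleGraph.Walk.mem_support_append_iff] at hu
    rcases hu with hu | hu
    · exact hp u hu
    · exact hq u hu
  rw [ww_append] at this
  linarith

theorem PT_mono (hw : Adm w) (hS : S ⊆ S') (hc : Conn S x y) : PT w S' x y ≤ PT w S x y :=
  le_PT hc fun p hp => PT_le hw p fun u hu => hS (hp u hu)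

theorem PT_adj_le (hw : Adm w) (h : latt.Adj x y) (hx : x ∈ S) (hy : y ∈ S) :
    PT w S x y ≤ w x y := by
  have := PT_le (S := S) hw (SimpleGraph.Walk.cons h SimpleGraph.Walk.nil) fun u hu => by
    simp at hu
    rcases hu with rfl | rfl
    · exact hx
    · exact hy
  rwa [ww_cons, ww_nil, add_zero] at this

theorem T_triangle (hw : Adm w) (x y z : V) : T w x z ≤ T w x y + T w y z :=
  PT_triangle hw (conn_univ _ _) (conn_univ _ _)

theorem T_comm (hw : Adm w) (x y : V) : T w x y = T w y x := PT_comm hw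

theorem T_nonneg (hw : Adm w) (x y : V) : 0 ≤ T w x y := PT_nonneg hw

theorem T_self (hw : Adm w) (x : V) : T w x x = 0 := PT_self hw

theorem T_adj_le (hw : Adm w) {x y : V} (h : latt.Adj x y) : T w x y ≤ w x y :=
  PT_adj_le hw h (Set.mem_univ _) (Set.mem_univ _)

theorem T_le (hw : Adm w) (p : latt.Walk x y) : T w x y ≤ ww w p :=
  PT_le hw p fun _ _ => Set.mem_univ _

theorem T_le_PT (hw : Adm w) (hc : Conn S x y) : T w x y ≤ PT w S x y :=
  PT_mono hw (Set.subset_univ _) hc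

theorem ww_mono {w w' : V → V → ℝ}
    (h : ∀ x y, latt.Adj x y → w x y ≤ w' x y) (p : latt.Walk x y) : ww w p ≤ ww w' p := by
  unfold ww
  exact List.sum_le_sum fun d _ => h _ _ d.adj

theorem PT_mono_weight {w w' : V → V → ℝ} (hw : Adm w)
    (h : ∀ x y, latt.Adj x y → w x y ≤ w' x y) (hc : Conn S x y) :
    PT w S x y ≤ PT w' S x y :=
  le_PT hc fun p hp => (PT_le hw p hp).trans (ww_mono h p)

/-- Raising the weights raises passage times. -/
theorem T_mono_weight {w w' : V → V → ℝ} (hw : Adm w)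
    (h : ∀ x y, latt.Adj x y → w x y ≤ w' x y) (x y : V) : T w x y ≤ T w' x y :=
  PT_mono_weight hw h (conn_univ _ _)

theorem mem_HN_col (N j : ℤ) : ((N, j) : V) ∈ HN N := le_refl N

theorem HN_subset {N N' : ℤ} (h : N ≤ N') : HN N ⊆ HN N' := fun _ hx => le_trans hx h

theorem abs_g_le (hw : Adm w) {N : ℤ} (hx : x ∈ HN N) (hy : y ∈ HN N) (j : ℤ) :
    |g w N x y j| ≤ PT w (HN N) x y := by
  have hj := mem_HN_col N j
  have h1 := PT_triangle hw (conn_HN hx hy) (conn_HN hy hj)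
  have h2 := PT_triangle hw (conn_HN hy hx) (conn_HN hx hj)
  rw [PT_comm hw (x := y) (y := x)] at h2
  unfold g
  rw [abs_le]
  constructor <;> linarith only [h1, h2]

theorem g_swap (N : ℤ) (x y : V) (j : ℤ) : g w N y x j = - g w N x y j := by
  unfold g; ring

end Vale.Agent.P158
end
end
end

section

section

section

/-! Geodesic rays and their Busemann functions. -/

namespace Vale.Agent.P158

open Filter

variable {w : V → V → ℝ} {m : ℝ} {r r' : ℕ → V}

theorem conn_of_path {S : Set V} (hadj : ∀ i, latt.Adj (r i) (r (i + 1))) {i : ℕ} (n : ℕ)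
    (hS : ∀ k, i ≤ k → k ≤ i + n → r k ∈ S) : Conn S (r i) (r (i + n)) := by
  induction n with
  | zero => exact Conn.refl' (hS i le_rfl (by omega))
  | succ n ih =>
    refine (ih fun k h1 h2 => hS k h1 (by omega)).trans' ?_
    exact Conn.of_adj (hadj (i + n)) (hS _ (by omega) (by omega)) (hS _ (by omega) (by omega))

theorem PT_le_sum {S : Set V} (hw : Adm w) (hadj : ∀ i, latt.Adj (r i) (r (i + 1))) {i : ℕ}
    (n : ℕ) (hS : ∀ k, i ≤ k → k ≤ i + n → r k ∈ S) :
    PT w S (r i) (r (i + n)) ≤ ∑ k ∈ Finset.Ico i (i + n), w (r k) (r (k + 1)) := by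
  induction n with
  | zero => simp only [add_zero, PT_self hw, Std.le_refl, Finset.Ico_eq_empty_of_le, Finset.sum_empty]
  | succ n ih =>
    have h1 := ih fun k h1 h2 => hS k h1 (by omega)
    have hc := conn_of_path (S := S) hadj (i := i) n fun k h1 h2 => hS k h1 (by omega)
    have hn := hS (i + n) (by omega) (by omega)
    have hn1 := hS (i + n + 1) (by omega) (by omega)
    have h2 := PT_triangle hw hc (Conn.of_adj (hadj (i + n)) hn hn1)
    have h3 := PT_adj_le hw (hadj (i + n)) hn hn1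
    rw [← add_assoc, Finset.sum_Ico_succ_top (by omega)]
    linarith

theorem T_le_sum (hw : Adm w) (hadj : ∀ i, latt.Adj (r i) (r (i + 1))) {i j : ℕ}
    (hij : i ≤ j) : T w (r i) (r j) ≤ ∑ k ∈ Finset.Ico i j, w (r k) (r (k + 1)) := by
  obtain ⟨n, rfl⟩ := Nat.exists_eq_add_of_le hij
  exact PT_le_sum hw hadj n fun _ _ _ => Set.mem_univ _

theorem IsRay.sum_Ico (hw : Adm w) (hr : IsRay w r) {i j : ℕ} (hij : i ≤ j) :
    ∑ k ∈ Finset.Ico i j, w (r k) (r (k + 1)) = T w (r i) (r j) := by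
  refine le_antisymm ?_ (T_le_sum hw hr.1 hij)
  have h1 := hr.2 j
  have h2 := hr.2 i
  have h3 := T_triangle hw (r 0) (r i) (r j)
  have h4 := Finset.sum_range_add_sum_Ico (fun k => w (r k) (r (k + 1))) hij
  linarith only [h1, h2, h3, h4]

theorem IsRay.tail (hw : Adm w) (hr : IsRay w r) (n : ℕ) : IsRay w (fun i => r (i + n)) := by
  refine ⟨fun i => ?_, fun k => ?_⟩
  · have := hr.1 (i + n)
    rwa [add_right_comm] at this
  · have := hr.sum_Ico hw (Nat.le_add_left n k)
    rw [← zero_add n] at this ⊢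
    simp only [zero_add] at this ⊢
    rw [← this, Finset.sum_Ico_eq_sum_range, Nat.add_sub_cancel]
    refine Finset.sum_congr rfl fun i _ => ?_
    rw [add_right_comm, add_comm i n]

theorem IsRay.add (hw : Adm w) (hr : IsRay w r) {i j k : ℕ} (hij : i ≤ j) (hjk : j ≤ k) :
    T w (r i) (r k) = T w (r i) (r j) + T w (r j) (r k) := by
  rw [← hr.sum_Ico hw hij, ← hr.sum_Ico hw hjk, ← hr.sum_Ico hw (hij.trans hjk),
    Finset.sum_Ico_consecutive _ hij hjk]

theorem IsRay.step (hw : Adm w) (hr : IsRay w r) (i : ℕ) :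
    T w (r i) (r (i + 1)) = w (r i) (r (i + 1)) := by
  rw [← hr.sum_Ico hw (Nat.le_succ i)]; simp only [Nat.succ_eq_add_one, Nat.Ico_succ_singleton, Finset.sum_singleton]

theorem IsRay.pos (hw : Adm w) (hr : IsRay w r) {i j : ℕ} (hij : i < j) :
    0 < T w (r i) (r j) := by
  rw [← hr.sum_Ico hw hij.le]
  refine Finset.sum_pos (fun k _ => hw.pos _ _ (hr.1 k)) ?_
  rwa [Finset.nonempty_Ico]

theorem IsRay.injective (hw : Adm w) (hr : IsRay w r) : Function.Injective r := by
  intro i j hij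
  by_contra hne
  rcases lt_or_gt_of_ne hne with h | h
  · have := hr.pos hw h
    rw [hij, T_self hw] at this
    exact lt_irrefl _ this
  · have := hr.pos hw h
    rw [hij, T_self hw] at this
    exact lt_irrefl _ this

theorem bus_antitone (hw : Adm w) (hr : IsRay w r) (x : V) :
    Antitone (fun n => T w x (r n) - T w (r 0) (r n)) := by
  refine antitone_nat_of_succ_le fun n => ?_
  have h1 := hr.add hw (Nat.zero_le n) (Nat.le_succ n)
  have h2 := T_triangle hw x (r n) (r (n + 1))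
  simp only [Nat.succ_eq_add_one] at h1
  linarith

theorem bus_bdd (hw : Adm w) (r : ℕ → V) (x : V) :
    BddBelow (Set.range fun n : ℕ => T w x (r n) - T w (r 0) (r n)) := by
  refine ⟨- T w x (r 0), ?_⟩
  rintro _ ⟨n, rfl⟩
  have := T_triangle hw (r 0) x (r n)
  rw [T_comm hw (r 0) x] at this
  simp only
  linarith

theorem tendsto_bus (hw : Adm w) (hr : IsRay w r) (x : V) :
    Tendsto (fun n => T w x (r n) - T w (r 0) (r n)) atTop (nhds (bus w r x)) :=
  tendsto_atTop_ciInf (bus_antitone hw hr x) (bus_bdd hw r x)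

theorem bus_le (hw : Adm w) (r : ℕ → V) (x : V) (n : ℕ) :
    bus w r x ≤ T w x (r n) - T w (r 0) (r n) :=
  ciInf_le (bus_bdd hw r x) n

theorem bus_sub_le (hw : Adm w) (hr : IsRay w r) (x y : V) :
    bus w r x - bus w r y ≤ T w x y := by
  refine le_of_tendsto' ((tendsto_bus hw hr x).sub (tendsto_bus hw hr y)) fun n => ?_
  have := T_triangle hw x y (r n)
  linarith

theorem bus_self (hw : Adm w) (hr : IsRay w r) (i : ℕ) :
    bus w r (r i) = - T w (r 0) (r i) := by
  refine tendsto_nhds_unique (tendsto_bus hw hr (r i)) ?_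
  refine tendsto_const_nhds.congr' ?_
  filter_upwards [eventually_ge_atTop i] with n hn
  rw [hr.add hw (Nat.zero_le i) hn]
  ring

theorem bus_tail (hw : Adm w) (hr : IsRay w r) (n : ℕ) (x : V) :
    bus w (fun i => r (i + n)) x = bus w r x + T w (r 0) (r n) := by
  refine tendsto_nhds_unique (tendsto_bus hw (hr.tail hw n) x) ?_
  have h := ((tendsto_add_atTop_iff_nat n).2 (tendsto_bus hw hr x)).add_const (T w (r 0) (r n))
  refine h.congr fun i => ?_
  have := hr.add hw (Nat.zero_le n) (Nat.le_add_left n i)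
  simp only [zero_add]
  linarith only [this]

theorem bus_step_ray (hw : Adm w) (hr : IsRay w r) (i : ℕ) :
    bus w r (r i) - bus w r (r (i + 1)) = w (r i) (r (i + 1)) := by
  rw [bus_self hw hr, bus_self hw hr, hr.add hw (Nat.zero_le i) (Nat.le_succ i)]
  have := hr.step hw i
  simp only [Nat.succ_eq_add_one]
  linarith only [this]

theorem Slope.tail (hs : Slope m r) (n : ℕ) : Slope m (fun i => r (i + n)) := fun q =>
  (tendsto_add_atTop_nat n).eventually (hs q)

theorem adj_fst_le {x y : V} (h : latt.Adj x y) : y.1 ≤ x.1 + 1 := by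
  have h' : |x.1 - y.1| + |x.2 - y.2| = 1 := h
  have h1 := neg_abs_le (x.1 - y.1)
  have h2 := abs_nonneg (x.2 - y.2)
  omega

/-- First hit of a column. -/
theorem exists_hit (hr : IsRay w r) (hs : Slope m r) {N : ℤ} (hN : (r 0).1 ≤ N) :
    ∃ n, (r n).1 = N ∧ ∀ i, i ≤ n → (r i).1 ≤ N := by
  have hex : ∃ i, N ≤ (r i).1 := by
    obtain ⟨q, hq⟩ := exists_nat_ge (N : ℝ)
    obtain ⟨i, hi⟩ := (hs q).exists
    refine ⟨i, ?_⟩
    have := hq.trans hi.2
    exact_mod_cast this
  classical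
  refine ⟨Nat.find hex, ?_, fun i hi => ?_⟩
  · refine le_antisymm ?_ (Nat.find_spec hex)
    rcases Nat.eq_zero_or_pos (Nat.find hex) with h0 | h0
    · rw [h0]; exact hN
    · have h1 := Nat.find_min hex (Nat.sub_lt h0 one_pos)
      have h2 := adj_fst_le (hr.1 (Nat.find hex - 1))
      rw [Nat.sub_add_cancel h0] at h2
      omega
  · rcases Nat.lt_or_ge i (Nat.find hex) with h | h
    · exact (not_le.1 (Nat.find_min hex h)).le
    · have : i = Nat.find hex := le_antisymm hi h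
      rw [this]
      rcases Nat.eq_zero_or_pos (Nat.find hex) with h0 | h0
      · rw [h0]; exact hN
      · have h1 := Nat.find_min hex (Nat.sub_lt h0 one_pos)
        have h2 := adj_fst_le (hr.1 (Nat.find hex - 1))
        rw [Nat.sub_add_cancel h0] at h2
        omega

theorem eventually_hit_gt (r : ℕ → V) (n : ℕ) :
    ∀ᶠ N : ℤ in atTop, ∀ i, (r i).1 = N → n < i := by
  have : ∀ᶠ N : ℤ in atTop, ∀ i ∈ Finset.range (n + 1), (r i).1 < N :=
    (Finset.eventually_all _).2 fun i _ => eventually_gt_atTop _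
  filter_upwards [this] with N hN i hi
  by_contra h
  have := hN i (Finset.mem_range.2 (by omega))
  omega

theorem eventually_walk_HN {x y : V} (p : latt.Walk x y) :
    ∀ᶠ N : ℤ in atTop, ∀ z ∈ p.support, z ∈ HN N := by
  have : ∀ᶠ N : ℤ in atTop, ∀ z ∈ p.support.toFinset, z.1 ≤ N :=
    (Finset.eventually_all _).2 fun i _ => eventually_ge_atTop _
  filter_upwards [this] with N hN z hz
  exact hN z (List.mem_toFinset.2 hz)

/-- Half-plane passage times to first hits compute the Busemann function. -/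
theorem hit_bus (hw : Adm w) (hr : IsRay w r) (x : V) {ε : ℝ} (hε : 0 < ε) :
    ∀ᶠ N : ℤ in atTop, ∀ n, (r n).1 = N → (∀ i, i ≤ n → (r i).1 ≤ N) →
      |PT w (HN N) x (r n) - T w (r 0) (r n) - bus w r x| ≤ ε := by
  obtain ⟨n₀, hn₀⟩ := ((tendsto_bus hw hr x).eventually
    (gt_mem_nhds (lt_add_of_pos_right (bus w r x) (half_pos hε)))).exists
  obtain ⟨p, -, hp⟩ := exists_walk hw (conn_univ x (r n₀)) (half_pos hε)
  filter_upwards [eventually_hit_gt r n₀, eventually_walk_HN p, eventually_ge_atTop x.1]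
    with N hN1 hN2 hN3 n hn hn'
  have hlt := hN1 n hn
  have hrn : r n ∈ HN N := hn' n le_rfl
  have hx : x ∈ HN N := hN3
  have hrn₀ : r n₀ ∈ HN N := hn' n₀ hlt.le
  have h1 : T w x (r n) ≤ PT w (HN N) x (r n) := T_le_PT hw (conn_HN hx hrn)
  have h2 := bus_le hw r x n
  have h3 : PT w (HN N) x (r n₀) ≤ ww w p := PT_le hw p hN2
  have h4 : PT w (HN N) (r n₀) (r n) ≤ T w (r n₀) (r n) := by
    rw [← hr.sum_Ico hw hlt.le]
    obtain ⟨d, rfl⟩ := Nat.exists_eq_add_of_le hlt.le
    exact PT_le_sum hw hr.1 d fun k _ hk => hn' k hk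
  have h5 := PT_triangle hw (conn_HN hx hrn₀) (conn_HN hrn₀ hrn)
  have h6 := hr.add hw (Nat.zero_le n₀) hlt.le
  have hp' : ww w p < T w x (r n₀) + ε / 2 := hp
  rw [abs_le]
  constructor <;> linarith only [hn₀, h3, h4, h5, h6, hp', hε, h1, h2]

theorem eventually_J (hs : Slope m r) (z : V) (k : ℕ) :
    ∀ᶠ N : ℤ in atTop, ∀ n, (r n).1 = N → J m z k N (r n).2 := by
  obtain ⟨n₀, hn₀⟩ := eventually_atTop.1 (hs (2 * k))
  have hbig : ∀ᶠ N : ℤ in atTop,
      (k : ℝ) * (|(z.2 : ℝ)| + |m| * |(z.1 : ℝ)|) + (z.1 : ℝ) ≤ (N : ℝ) / 2 := by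
    obtain ⟨M, hM⟩ := exists_nat_ge
      (2 * ((k : ℝ) * (|(z.2 : ℝ)| + |m| * |(z.1 : ℝ)|) + (z.1 : ℝ)))
    filter_upwards [eventually_ge_atTop (M : ℤ)] with N hN
    have : (M : ℝ) ≤ (N : ℝ) := by exact_mod_cast hN
    linarith
  filter_upwards [eventually_hit_gt r n₀, hbig] with N hN1 hN2 n hn
  have h1 := (hn₀ n (hN1 n hn).le).1
  rw [hn] at h1
  unfold J
  push_cast at h1 ⊢
  have h2 : |((r n).2 : ℝ) - (z.2 : ℝ) - m * ((N : ℝ) - (z.1 : ℝ))| ≤
      |((r n).2 : ℝ) - m * (N : ℝ)| + (|(z.2 : ℝ)| + |m| * |(z.1 : ℝ)|) := by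
    have e : ((r n).2 : ℝ) - (z.2 : ℝ) - m * ((N : ℝ) - (z.1 : ℝ)) =
      (((r n).2 : ℝ) - m * (N : ℝ)) + (-(z.2 : ℝ) + m * (z.1 : ℝ)) := by ring
    rw [e]
    refine (abs_add_le _ _).trans (add_le_add le_rfl ?_)
    refine (abs_add_le _ _).trans ?_
    rw [abs_neg, abs_mul]
  have h3 := mul_le_mul_of_nonneg_left h2 (Nat.cast_nonneg (α := ℝ) k)
  rw [mul_add] at h3
  linarith only [hN2, h1, h3]

/-- First hits of far columns by a ray of slope `m` compute its Busemann function. -/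
theorem ray_hit (hw : Adm w) (hr : IsRay w r) (hs : Slope m r) (x y z : V) (k : ℕ)
    {ε : ℝ} (hε : 0 < ε) :
    ∀ᶠ N : ℤ in atTop, ∃ j : ℤ, J m z k N j ∧
      |g w N x y j - (bus w r x - bus w r y)| ≤ ε := by
  filter_upwards [hit_bus hw hr x (half_pos hε), hit_bus hw hr y (half_pos hε),
    eventually_J hs z k, eventually_ge_atTop (r 0).1] with N h1 h2 h3 h4
  obtain ⟨n, hn, hn'⟩ := exists_hit hr hs h4
  refine ⟨(r n).2, h3 n hn, ?_⟩
  have e : ((N, (r n).2) : V) = r n := by rw [← hn]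
  have a1 := h1 n hn hn'
  have a2 := h2 n hn hn'
  unfold g
  rw [e]
  rw [abs_le] at a1 a2 ⊢
  constructor <;> linarith only [a1, a2]

theorem bus_eq (hw : Adm w) (hr : IsRay w r) (hs : Slope m r) (hr' : IsRay w r')
    (hs' : Slope m r') {x y : V} (hsm : Small w m x y) :
    bus w r x - bus w r y = bus w r' x - bus w r' y := by
  have key : ∀ {r r' : ℕ → V}, IsRay w r → Slope m r → IsRay w r' → Slope m r' →
      bus w r x - bus w r y ≤ bus w r' x - bus w r' y := by
    intro r r' hr hs hr' hs'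
    refine le_of_forall_pos_le_add fun δ hδ => ?_
    obtain ⟨n, hn⟩ := exists_nat_one_div_lt (div_pos hδ (by norm_num : (0 : ℝ) < 3))
    obtain ⟨k, hk⟩ := hsm n
    obtain ⟨N, hN1, ⟨j, hj, hj1⟩, ⟨j', hj', hj1'⟩⟩ := (hk.and_eventually
      ((ray_hit hw hr hs x y x k (div_pos hδ (by norm_num : (0 : ℝ) < 3))).and
        (ray_hit hw hr' hs' x y x k (div_pos hδ (by norm_num : (0 : ℝ) < 3))))).exists
    have := hN1 j j' hj hj'
    rw [abs_le] at hj1 hj1'
    linarith only [hn, hj1, hj1', this]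
  exact le_antisymm (key hr hs hr' hs') (key hr' hs' hr hs)

theorem step_of_ray (hw : Adm w) (hr : IsRay w r) (hs : Slope m r)
    (hsm : ∀ x y, Small w m x y) (i : ℕ) : Step w m (r i) (r (i + 1)) := by
  have hB := bus_step_ray hw hr i
  refine ⟨hr.1 i, fun n => ?_, fun n k => ?_⟩
  · obtain ⟨k, hk⟩ := hsm (r i) (r (i + 1)) (2 * n + 1)
    refine ⟨k, ?_⟩
    have hpos : (0 : ℝ) < 1 / (2 * ((n : ℝ) + 1)) := by (clear * -; positivity)
    refine (hk.and_eventually (ray_hit hw hr hs (r i) (r (i + 1)) (r i) k hpos)).mono ?_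
    rintro N ⟨hN1, j, hj, hj'⟩ j' hj''
    have h1 := hN1 j j' hj hj''
    rw [abs_le, hB] at hj'
    have e : 1 / (((2 * n + 1 : ℕ) : ℝ) + 1) = 1 / (2 * ((n : ℝ) + 1)) := by
      push_cast; congr 1; ring
    rw [e] at h1
    have e2 : 1 / (2 * ((n : ℝ) + 1)) + 1 / (2 * ((n : ℝ) + 1)) = 1 / ((n : ℝ) + 1) := by
      field_simp; ring
    linarith only [hj', h1, e2]
  · have hpos : (0 : ℝ) < 1 / ((n : ℝ) + 1) := by (clear * -; positivity)
    filter_upwards [ray_hit hw hr hs (r i) (r (i + 1)) (r i) k hpos] with N hN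
    obtain ⟨j, hj, hj'⟩ := hN
    refine ⟨j, hj, ?_⟩
    rw [abs_le, hB] at hj'
    linarith only [hj']

end Vale.Agent.P158
end
end
end

section

section

section

/-! Planarity in a half plane: parity of horizontal edges below a point. -/

namespace Vale.Agent.P158

/-- Indicator that the step from `a` to `b` joins columns `i` and `i+1` at height at most `j`. -/
def hor (i j : ℤ) (a b : V) : ZMod 2 :=
  if a.2 = b.2 ∧ a.2 ≤ j ∧ ((a.1 = i ∧ b.1 = i + 1) ∨ (b.1 = i ∧ a.1 = i + 1)) then 1 else 0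

/-- Indicator that the step from `a` to `b` joins `(i,j)` and `(i,j+1)`. -/
def ver (i j : ℤ) (a b : V) : ZMod 2 :=
  if a.1 = i ∧ b.1 = i ∧ ((a.2 = j ∧ b.2 = j + 1) ∨ (b.2 = j ∧ a.2 = j + 1)) then 1 else 0

/-- Indicator of the half column below `(i,j)`. -/
def low (i j : ℤ) (a : V) : ZMod 2 := if a.1 = i ∧ a.2 ≤ j then 1 else 0

/-- Total parity of horizontal steps. -/
def par (i j : ℤ) {x y : V} (p : latt.Walk x y) : ZMod 2 :=
  (p.darts.map fun d => hor i j d.fst d.snd).sum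

/-- Total parity of vertical steps. -/
def pver (i j : ℤ) {x y : V} (p : latt.Walk x y) : ZMod 2 :=
  (p.darts.map fun d => ver i j d.fst d.snd).sum

theorem two_zero (a : ZMod 2) : a + a = 0 := by
  revert a; decide

theorem adj_cases {a b : V} (h : latt.Adj a b) :
    (b.1 = a.1 + 1 ∧ b.2 = a.2) ∨ (b.1 = a.1 - 1 ∧ b.2 = a.2) ∨
    (b.1 = a.1 ∧ b.2 = a.2 + 1) ∨ (b.1 = a.1 ∧ b.2 = a.2 - 1) := by
  have h' : |a.1 - b.1| + |a.2 - b.2| = 1 := h
  rcases abs_cases (a.1 - b.1) with h1 | h1 <;> rcases abs_cases (a.2 - b.2) with h2 | h2 <;>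
    omega

theorem dart_id (i j : ℤ) {a b : V} (h : latt.Adj a b) :
    hor i j a b + hor (i - 1) j a b + ver i j a b = low i j a + low i j b := by
  obtain ⟨a1, a2⟩ := a
  obtain ⟨b1, b2⟩ := b
  have hc := adj_cases h
  simp only at hc
  unfold hor ver low
  simp only
  rcases hc with ⟨h1, h2⟩ | ⟨h1, h2⟩ | ⟨h1, h2⟩ | ⟨h1, h2⟩ <;> subst h1 <;> subst h2 <;>
    split_ifs <;> first | rfl | (exfalso; omega)

theorem par_id (i j : ℤ) {x y : V} (p : latt.Walk x y) :
    par i j p + par (i - 1) j p + pver i j p = low i j x + low i j y := by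
  induction p with
  | nil => simp [par, pver, two_zero]
  | @cons a b c h p ih =>
    have hd := dart_id i j h
    simp only [par, pver, SimpleGraph.Walk.darts_cons, List.map_cons, List.sum_cons] at ih ⊢
    have e : low i j a + low i j c = (low i j a + low i j b) + (low i j b + low i j c) := by
      have := two_zero (low i j b)
      linear_combination -this
    rw [e, ← hd, ← ih]
    ring

theorem pver_eq_zero {i j : ℤ} {x y : V} (p : latt.Walk x y) (h : ((i, j) : V) ∉ p.support) :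
    pver i j p = 0 := by
  unfold pver
  refine List.sum_eq_zero fun a ha => ?_
  obtain ⟨d, hd, rfl⟩ := List.mem_map.1 ha
  unfold ver
  rw [if_neg]
  rintro ⟨h1, h2, ⟨h3, h4⟩ | ⟨h3, h4⟩⟩
  · exact h (by
      have := p.dart_fst_mem_support_of_mem_darts hd
      rwa [show d.fst = (i, j) from Prod.ext h1 h3] at this)
  · exact h (by
      have := p.dart_snd_mem_support_of_mem_darts hd
      rwa [show d.snd = (i, j) from Prod.ext h2 h3] at this)

theorem par_vert {i j : ℤ} {x y : V} (p : latt.Walk x y) (h : ((i, j) : V) ∉ p.support) :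
    par i j p = par i (j - 1) p := by
  unfold par
  congr 1
  refine List.map_congr_left fun d hd => ?_
  have h1 : d.fst ≠ (i, j) := fun e => h (e ▸ p.dart_fst_mem_support_of_mem_darts hd)
  have h2 : d.snd ≠ (i, j) := fun e => h (e ▸ p.dart_snd_mem_support_of_mem_darts hd)
  have h1' : ¬ (d.fst.1 = i ∧ d.fst.2 = j) := fun e => h1 (Prod.ext e.1 e.2)
  have h2' : ¬ (d.snd.1 = i ∧ d.snd.2 = j) := fun e => h2 (Prod.ext e.1 e.2)
  unfold hor
  refine if_congr ?_ rfl rfl
  constructor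
  · rintro ⟨e1, e2, e3⟩
    exact ⟨e1, by rcases e3 with e3 | e3 <;> omega, e3⟩
  · rintro ⟨e1, e2, e3⟩
    exact ⟨e1, by omega, e3⟩

theorem par_col {N j : ℤ} {x y : V} (p : latt.Walk x y) (h : ∀ z ∈ p.support, z ∈ HN N) :
    par N j p = 0 := by
  unfold par
  refine List.sum_eq_zero fun a ha => ?_
  obtain ⟨d, hd, rfl⟩ := List.mem_map.1 ha
  have h1 : d.fst.1 ≤ N := h _ (p.dart_fst_mem_support_of_mem_darts hd)
  have h2 : d.snd.1 ≤ N := h _ (p.dart_snd_mem_support_of_mem_darts hd)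
  unfold hor
  rw [if_neg]
  rintro ⟨-, -, h3 | h3⟩ <;> omega

/-- The parity function of a walk `A` in the half plane from `(N,a)` to `(N,a')`. -/
def wpar (N a a' : ℤ) {x y : V} (A : latt.Walk x y) (v : V) : ZMod 2 :=
  par v.1 v.2 A + if v.1 = N then
    ((if a ≤ v.2 then 1 else 0) + (if a' ≤ v.2 then 1 else 0)) else 0

theorem low_col (N a i j : ℤ) :
    low i j ((N, a) : V) = if N = i ∧ a ≤ j then 1 else 0 := rfl

theorem wpar_right {N a a' : ℤ} (A : latt.Walk ((N, a) : V) (N, a'))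
    (hA : ∀ z ∈ A.support, z ∈ HN N) {i j : ℤ} (hi : i ≤ N) (h : ((i, j) : V) ∉ A.support) :
    wpar N a a' A (i, j) = wpar N a a' A (i - 1, j) := by
  have h1 := par_id i j A
  rw [pver_eq_zero A h, add_zero, low_col, low_col] at h1
  unfold wpar
  simp only
  rcases eq_or_lt_of_le hi with rfl | hlt
  · rw [par_col A hA] at h1 ⊢
    rw [zero_add] at h1 ⊢
    rw [h1, if_pos rfl, if_neg (by omega : ¬ i - 1 = i), add_zero]
    simp only [true_and]
  · have hne : ¬ i = N := hlt.ne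
    have hne' : ¬ N = i := fun e => hne e.symm
    rw [if_neg hne, if_neg (by omega : ¬ i - 1 = N), add_zero, add_zero]
    simp only [hne', false_and, if_false, add_zero] at h1
    have := two_zero (par (i - 1) j A)
    linear_combination h1 - this

theorem wpar_up {N a a' : ℤ} (A : latt.Walk ((N, a) : V) (N, a'))
    {i j : ℤ} (h : ((i, j) : V) ∉ A.support) :
    wpar N a a' A (i, j) = wpar N a a' A (i, j - 1) := by
  unfold wpar
  simp only
  rw [par_vert A h]
  congr 1
  by_cases hi : i = N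
  · subst hi
    have h1 : j ≠ a := fun e => h (e ▸ A.start_mem_support)
    have h2 : j ≠ a' := fun e => h (e ▸ A.end_mem_support)
    rw [if_pos rfl, if_pos rfl]
    congr 1
    · exact if_congr (by omega) rfl rfl
    · exact if_congr (by omega) rfl rfl
  · rw [if_neg hi, if_neg hi]

theorem wpar_adj {N a a' : ℤ} (A : latt.Walk ((N, a) : V) (N, a'))
    (hA : ∀ z ∈ A.support, z ∈ HN N) {u v : V} (huv : latt.Adj u v) (hu : u ∈ HN N)
    (hv : v ∈ HN N) (hu' : u ∉ A.support) (hv' : v ∉ A.support) :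
    wpar N a a' A u = wpar N a a' A v := by
  obtain ⟨u1, u2⟩ := u
  obtain ⟨v1, v2⟩ := v
  have hc := adj_cases huv
  simp only at hc
  have hu1 : u1 ≤ N := hu
  have hv1 : v1 ≤ N := hv
  rcases hc with ⟨h1, h2⟩ | ⟨h1, h2⟩ | ⟨h1, h2⟩ | ⟨h1, h2⟩ <;> subst h1 <;> subst h2
  · have := wpar_right A hA hv1 hv'
    rw [this, add_sub_cancel_right]
  · exact wpar_right A hA hu1 hu'
  · have := wpar_up A hv'
    rw [this, add_sub_cancel_right]
  · exact wpar_up A hu'

theorem wpar_walk {N a a' : ℤ} (A : latt.Walk ((N, a) : V) (N, a'))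
    (hA : ∀ z ∈ A.support, z ∈ HN N) {u v : V} (B : latt.Walk u v)
    (hB : ∀ z ∈ B.support, z ∈ HN N) (hAB : ∀ z ∈ A.support, z ∉ B.support) :
    wpar N a a' A u = wpar N a a' A v := by
  induction B with
  | nil => rfl
  | @cons x y z h p ih =>
    have hx := hB x (by simp)
    have hy := hB y (by simp)
    rw [wpar_adj A hA h hx hy (fun hh => hAB _ hh (by simp)) (fun hh => hAB _ hh (by simp))]
    exact ih (fun z hz => hB z (by simp [hz])) (fun z hz hz' => hAB z hz (by simp [hz']))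

theorem crossing {N a₁ a₂ a₃ a₄ : ℤ} (h12 : a₁ < a₂) (h23 : a₂ < a₃) (h34 : a₃ < a₄)
    (p : latt.Walk ((N, a₁) : V) (N, a₃)) (q : latt.Walk ((N, a₂) : V) (N, a₄))
    (hp : ∀ z ∈ p.support, z ∈ HN N) (hq : ∀ z ∈ q.support, z ∈ HN N) :
    ∃ z, z ∈ p.support ∧ z ∈ q.support := by
  by_contra hcon
  push Not at hcon
  have h := wpar_walk p hp q hq hcon
  unfold wpar at h
  simp only [par_col p hp, if_true, zero_add] at h
  rw [if_pos h12.le, if_neg (by omega), if_pos (by omega), if_pos (by omega)] at h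
  revert h; decide

theorem trapped {N a a' h : ℤ} (h1 : a < h) (h2 : h < a')
    (A : latt.Walk ((N, a) : V) (N, a')) (hA : ∀ z ∈ A.support, z ∈ HN N)
    {p : V} (B : latt.Walk ((N, h) : V) p) (hB : ∀ z ∈ B.support, z ∈ HN N)
    (hAB : ∀ z ∈ A.support, z ∉ B.support) :
    ∃ z ∈ A.support, z.1 ≤ p.1 := by
  have hw := wpar_walk A hA B hB hAB
  by_contra hcon
  push Not at hcon
  have hpN : p.1 < N := hcon (N, a) A.start_mem_support
  unfold wpar at hw
  simp only [par_col A hA, if_true, zero_add] at hw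
  rw [if_pos h1.le, if_neg (by omega), if_neg hpN.ne, add_zero, add_zero] at hw
  have : par p.1 p.2 A = 0 := by
    unfold par
    refine List.sum_eq_zero fun c hc => ?_
    obtain ⟨d, hd, rfl⟩ := List.mem_map.1 hc
    have e1 := hcon _ (A.dart_fst_mem_support_of_mem_darts hd)
    have e2 := hcon _ (A.dart_snd_mem_support_of_mem_darts hd)
    unfold hor
    rw [if_neg]
    rintro ⟨-, -, h3 | h3⟩ <;> omega
  rw [this] at hw
  revert hw; decide

end Vale.Agent.P158
end
end
end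

section

section

section

/-! Trunks: vertices on biinfinite step orbits. -/

namespace Vale.Agent.P158

open Filter

open Classical in
/-- The (first) step from `z`. -/
noncomputable def phi (w : V → V → ℝ) (m : ℝ) (z : V) : V :=
  if Step w m z (z.1 + 1, z.2) then (z.1 + 1, z.2) else
  if Step w m z (z.1 - 1, z.2) then (z.1 - 1, z.2) else
  if Step w m z (z.1, z.2 + 1) then (z.1, z.2 + 1) else
  if Step w m z (z.1, z.2 - 1) then (z.1, z.2 - 1) else z

/-- The orbit of `z`. -/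
noncomputable def orb (w : V → V → ℝ) (m : ℝ) (z : V) (n : ℕ) : V := (phi w m)^[n] z

/-- Good weight functions. -/
structure Good (w : V → V → ℝ) (m : ℝ) : Prop where
  adm : Adm w
  small : ∀ x y, Small w m x y
  uniq : ∀ z a a', Step w m z a → Step w m z a' → a = a'

/-- The orbit of `z` is a geodesic ray of slope `m`. -/
def Orb (w : V → V → ℝ) (m : ℝ) (z : V) : Prop :=
  IsRay w (orb w m z) ∧ Slope m (orb w m z)

/-- `v` lies on a trunk. -/
def Trunk (w : V → V → ℝ) (m : ℝ) (v : V) : Prop :=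
  ∀ n : ℕ, ∃ u, orb w m u n = v ∧ Orb w m u

/-- The orbits of `u` and `v` merge. -/
def Same (w : V → V → ℝ) (m : ℝ) (u v : V) : Prop :=
  ∃ n k : ℕ, orb w m u n = orb w m v k

variable {w : V → V → ℝ} {m : ℝ} {u v x y z a : V}

theorem phi_eq (hg : Good w m) (h : Step w m z a) : phi w m z = a := by
  have key : ∀ b, Step w m z b → b = a := fun b hb => hg.uniq z b a hb h
  unfold phi
  by_cases h1 : Step w m z (z.1 + 1, z.2)
  · rw [if_pos h1]; exact key _ h1
  rw [if_neg h1]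
  by_cases h2 : Step w m z (z.1 - 1, z.2)
  · rw [if_pos h2]; exact key _ h2
  rw [if_neg h2]
  by_cases h3 : Step w m z (z.1, z.2 + 1)
  · rw [if_pos h3]; exact key _ h3
  rw [if_neg h3]
  by_cases h4 : Step w m z (z.1, z.2 - 1)
  · rw [if_pos h4]; exact key _ h4
  exfalso
  rcases adj_cases h.1 with ⟨e1, e2⟩ | ⟨e1, e2⟩ | ⟨e1, e2⟩ | ⟨e1, e2⟩
  · exact h1 (by rwa [← e1, ← e2])
  · exact h2 (by rwa [← e1, ← e2])
  · exact h3 (by rwa [← e1, ← e2])
  · exact h4 (by rwa [← e1, ← e2])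

theorem orb_zero (w : V → V → ℝ) (m : ℝ) (z : V) : orb w m z 0 = z := rfl

theorem orb_succ (w : V → V → ℝ) (m : ℝ) (z : V) (n : ℕ) :
    orb w m z (n + 1) = phi w m (orb w m z n) := Function.iterate_succ_apply' _ _ _

theorem orb_add (w : V → V → ℝ) (m : ℝ) (z : V) (n k : ℕ) :
    orb w m z (n + k) = orb w m (orb w m z k) n := Function.iterate_add_apply _ _ _ _

theorem orb_orb (w : V → V → ℝ) (m : ℝ) (z : V) (k : ℕ) :
    orb w m (orb w m z k) = fun i => orb w m z (i + k) := by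
  funext i; rw [orb_add]

theorem orb_ray (hg : Good w m) {r : ℕ → V} (hr : IsRay w r) (hs : Slope m r) (n : ℕ) :
    orb w m (r 0) n = r n := by
  induction n with
  | zero => rfl
  | succ n ih =>
    rw [orb_succ, ih]
    exact phi_eq hg (step_of_ray hg.adm hr hs hg.small n)

theorem Orb.of_ray (hg : Good w m) {r : ℕ → V} (hr : IsRay w r) (hs : Slope m r) :
    Orb w m (r 0) := by
  have : orb w m (r 0) = r := funext (orb_ray hg hr hs)
  unfold Orb
  rw [this]
  exact ⟨hr, hs⟩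

theorem Orb.orb (hw : Adm w) (h : Orb w m z) (n : ℕ) : Orb w m (orb w m z n) := by
  unfold Orb
  rw [orb_orb]
  exact ⟨h.1.tail hw n, h.2.tail n⟩

theorem Trunk.toOrb (h : Trunk w m v) : Orb w m v := by
  obtain ⟨u, hu, h⟩ := h 0
  rw [orb_zero] at hu
  rwa [← hu]

theorem Trunk.phi (hw : Adm w) (h : Trunk w m v) : Trunk w m (phi w m v) := by
  intro n
  cases n with
  | zero => exact ⟨_, rfl, h.toOrb.orb hw 1⟩
  | succ n =>
    obtain ⟨u, hu, h'⟩ := h n
    exact ⟨u, by rw [orb_succ, hu], h'⟩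

theorem Trunk.orb (hw : Adm w) (h : Trunk w m v) (n : ℕ) : Trunk w m (orb w m v n) := by
  induction n with
  | zero => exact h
  | succ n ih => rw [orb_succ]; exact ih.phi hw

theorem Trunk.pred (hw : Adm w) (h : Trunk w m v) :
    ∃ u, Trunk w m u ∧ Vale.Agent.P158.phi w m u = v := by
  by_contra hcon
  push Not at hcon
  have h1 : ∀ c : V, Vale.Agent.P158.phi w m c = v →
      ∃ n : ℕ, ∀ u, Vale.Agent.P158.orb w m u n = c → ¬ Orb w m u := by
    intro c hc
    by_contra h2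
    push Not at h2
    exact hcon c h2 hc
  choose! f hf using h1
  set M := max (f (v.1 + 1, v.2)) (max (f (v.1 - 1, v.2)) (max (f (v.1, v.2 + 1))
    (f (v.1, v.2 - 1)))) with hM
  obtain ⟨u, hu, hu'⟩ := h (M + 1)
  set c := Vale.Agent.P158.orb w m u M with hc
  have hcv : Vale.Agent.P158.phi w m c = v := by rw [hc, ← orb_succ, hu]
  have hadj : latt.Adj v c := by
    have := hu'.1.1 M
    rw [hu] at this
    exact this.symm
  have hle : f c ≤ M := by
    rcases adj_cases hadj with ⟨e1, e2⟩ | ⟨e1, e2⟩ | ⟨e1, e2⟩ | ⟨e1, e2⟩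
    · have : c = (v.1 + 1, v.2) := Prod.ext e1 e2
      rw [this, hM]; exact le_max_left _ _
    · have : c = (v.1 - 1, v.2) := Prod.ext e1 e2
      rw [this, hM]; exact le_trans (le_max_left _ _) (le_max_right _ _)
    · have : c = (v.1, v.2 + 1) := Prod.ext e1 e2
      rw [this, hM]
      exact le_trans (le_trans (le_max_left _ _) (le_max_right _ _)) (le_max_right _ _)
    · have : c = (v.1, v.2 - 1) := Prod.ext e1 e2
      rw [this, hM]
      exact le_trans (le_trans (le_max_right _ _) (le_max_right _ _)) (le_max_right _ _)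
  refine hf c hcv (Vale.Agent.P158.orb w m u (M - f c)) ?_ (hu'.orb hw _)
  rw [← orb_add, show f c + (M - f c) = M by omega]

theorem Same.refl (w : V → V → ℝ) (m : ℝ) (u : V) : Same w m u u := ⟨0, 0, rfl⟩

theorem Same.symm (h : Same w m u v) : Same w m v u := by
  obtain ⟨n, k, h⟩ := h
  exact ⟨k, n, h.symm⟩

theorem Same.trans (h : Same w m u v) (h' : Same w m v x) : Same w m u x := by
  obtain ⟨n, k, h⟩ := h
  obtain ⟨n', k', h'⟩ := h'
  refine ⟨n' + n, k + k', ?_⟩
  rw [orb_add, h, ← orb_add, orb_add w m x, ← h', ← orb_add, add_comm]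

theorem same_orb (w : V → V → ℝ) (m : ℝ) (u : V) (n : ℕ) : Same w m (orb w m u n) u :=
  ⟨0, n, rfl⟩

/-- Injectivity of the step on trunks. -/
def InjT (w : V → V → ℝ) (m : ℝ) : Prop :=
  ∀ u u', Trunk w m u → Trunk w m u' → phi w m u = phi w m u' → u = u'

theorem InjT.eq_of_orb (hw : Adm w) (hi : InjT w m) (hu : Trunk w m u) (hv : Trunk w m v) (n : ℕ)
    (h : orb w m u n = orb w m v n) : u = v := by
  induction n with
  | zero => exact h
  | succ n ih =>
    rw [orb_succ, orb_succ] at h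
    exact ih (hi _ _ (hu.orb hw n) (hv.orb hw n) h)

theorem Same.comparable (hw : Adm w) (hi : InjT w m) (hu : Trunk w m u) (hv : Trunk w m v)
    (h : Same w m u v) : ∃ n, orb w m u n = v ∨ orb w m v n = u := by
  obtain ⟨n, k, h⟩ := h
  rcases le_total n k with hnk | hnk
  · obtain ⟨d, rfl⟩ := Nat.exists_eq_add_of_le hnk
    rw [orb_add] at h
    exact ⟨d, Or.inr (hi.eq_of_orb hw hu (hv.orb hw d) n h).symm⟩
  · obtain ⟨d, rfl⟩ := Nat.exists_eq_add_of_le hnk
    rw [orb_add] at h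
    exact ⟨d, Or.inl (hi.eq_of_orb hw (hu.orb hw d) hv k h)⟩

/-- A biinfinite geodesic whose right end has slope `m` lies in the trunk set. -/
theorem trunk_of_bi (hg : Good w m) {γ : ℤ → V}
    (hr : ∀ n : ℤ, IsRay w (fun i : ℕ => γ (n + i)))
    (hs : ∀ n : ℤ, Slope m (fun i : ℕ => γ (n + i))) (n : ℤ) : Trunk w m (γ n) := by
  intro k
  refine ⟨γ (n - k), ?_, ?_⟩
  · have := orb_ray hg (hr (n - k)) (hs (n - k)) k
    simpa using this
  · have := Orb.of_ray hg (hr (n - k)) (hs (n - k))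
    simpa using this

theorem exists_bi (hw : Adm w) (hv : Trunk w m v) :
    ∃ γ : ℤ → V, γ 0 = v ∧ ∀ n, Trunk w m (γ n) ∧ phi w m (γ n) = γ (n + 1) := by
  have hpred : ∀ c : {c : V // Trunk w m c}, ∃ b : {c : V // Trunk w m c},
      phi w m b.1 = c.1 := fun c => by
    obtain ⟨b, hb, hb'⟩ := c.2.pred hw
    exact ⟨⟨b, hb⟩, hb'⟩
  choose ψ hψ using hpred
  refine ⟨fun n => if 0 ≤ n then orb w m v n.toNat else (ψ^[(-n).toNat] ⟨v, hv⟩).1,
    by simp [orb_zero], fun n => ?_⟩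
  rcases lt_or_ge n 0 with h | h
  · simp only [if_neg (not_le.2 h)]
    refine ⟨(ψ^[(-n).toNat] ⟨v, hv⟩).2, ?_⟩
    have e : (-n).toNat = (-(n + 1)).toNat + 1 := by omega
    rw [e, Function.iterate_succ_apply', hψ]
    rcases eq_or_lt_of_le (Int.add_one_le_iff.2 h) with h' | h'
    · rw [h']; simp [orb_zero]
    · rw [if_neg (not_le.2 h')]
  · simp only [if_pos h, if_pos (add_nonneg h zero_le_one)]
    refine ⟨hv.orb hw _, ?_⟩
    rw [← orb_succ]
    congr 1
    (clear * - h; omega)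

/-- Regret of `x` with respect to the orbit of `v`. -/
noncomputable def Reg (w : V → V → ℝ) (m : ℝ) (x v : V) : ℝ := T w x v - bus w (orb w m v) x

theorem bus_orb_phi (hw : Adm w) (hv : Orb w m v) (x : V) :
    bus w (orb w m (phi w m v)) x = bus w (orb w m v) x + T w v (phi w m v) := by
  have h1 := bus_tail hw hv.1 1 x
  have h2 : orb w m (phi w m v) = fun i => orb w m v (i + 1) := orb_orb w m v 1
  rw [h2, h1]
  rfl

theorem Reg.phi_le (hw : Adm w) (hv : Orb w m v) : Reg w m x (phi w m v) ≤ Reg w m x v := by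
  have h1 := bus_orb_phi hw hv x
  have h2 := T_triangle hw x v (phi w m v)
  unfold Reg
  linarith only [h1, h2]

theorem Reg.eq_orb (hw : Adm w) (hv : Orb w m v) (n : ℕ) :
    Reg w m x (orb w m v n) =
      T w x (orb w m v n) - T w v (orb w m v n) - bus w (orb w m v) x := by
  have h1 := bus_tail hw hv.1 n x
  unfold Reg
  rw [orb_orb, h1, orb_zero]
  ring

theorem Reg.tendsto (hw : Adm w) (hv : Orb w m v) (x : V) :
    Tendsto (fun n => Reg w m x (orb w m v n)) atTop (nhds 0) := by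
  have h := (tendsto_bus hw hv.1 x).sub_const (bus w (orb w m v) x)
  rw [sub_self] at h
  refine h.congr fun n => ?_
  rw [Reg.eq_orb hw hv]
  rfl

end Vale.Agent.P158
end
end
end

section

section

section

/-! Planarity of trunks: at most two nearest trunks. -/

namespace Vale.Agent.P158

open Filter

variable {w : V → V → ℝ} {m : ℝ} {u v x y z a : V}

theorem exists_walk_seg {r : ℕ → V} (hadj : ∀ i, latt.Adj (r i) (r (i + 1))) (n : ℕ) :
    ∃ p : latt.Walk (r 0) (r n), ∀ z ∈ p.support, ∃ k, k ≤ n ∧ z = r k := by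
  induction n with
  | zero => exact ⟨SimpleGraph.Walk.nil, fun z hz => ⟨0, le_rfl, by simpa using hz⟩⟩
  | succ n ih =>
    obtain ⟨p, hp⟩ := ih
    refine ⟨p.append (SimpleGraph.Walk.cons (hadj n) SimpleGraph.Walk.nil),
      fun z hz => ?_⟩
    rw [SimpleGraph.Walk.mem_support_append_iff] at hz
    rcases hz with hz | hz
    · obtain ⟨k, h2, h3⟩ := hp z hz
      exact ⟨k, by omega, h3⟩
    · simp only [SimpleGraph.Walk.support_cons, SimpleGraph.Walk.support_nil,
        List.mem_cons, List.not_mem_nil, or_false] at hz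
      rcases hz with hz | hz
      · exact ⟨n, by omega, hz⟩
      · exact ⟨n + 1, by omega, hz⟩

/-- First hitting time of column `N`. -/
noncomputable def hitn (r : ℕ → V) (N : ℤ) : ℕ := sInf {n | (r n).1 = N}

theorem hitn_spec {r : ℕ → V} (hr : IsRay w r) (hs : Slope m r) {N : ℤ} (hN : (r 0).1 ≤ N) :
    (r (hitn r N)).1 = N ∧ ∀ i, i ≤ hitn r N → (r i).1 ≤ N := by
  obtain ⟨n, hn, hn'⟩ := exists_hit hr hs hN
  have hne : {n | (r n).1 = N}.Nonempty := ⟨n, hn⟩
  refine ⟨Nat.sInf_mem hne, fun i hi => ?_⟩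
  exact hn' i (hi.trans (Nat.sInf_le hn))

/-- Height of the first hit of column `N`. -/
noncomputable def hth (r : ℕ → V) (N : ℤ) : ℤ := (r (hitn r N)).2

theorem hth_spec {r : ℕ → V} (hr : IsRay w r) (hs : Slope m r) {N : ℤ} (hN : (r 0).1 ≤ N) :
    r (hitn r N) = (N, hth r N) := Prod.ext (hitn_spec hr hs hN).1 rfl

theorem exists_lower {r : ℕ → V} (hs : Slope m r) : ∃ L : ℤ, ∀ i, L ≤ (r i).1 := by
  obtain ⟨n, hn⟩ := eventually_atTop.1 (hs 0)
  obtain ⟨L, hL⟩ : ∃ L : ℤ, ∀ i ∈ Finset.range n, L ≤ (r i).1 := by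
    obtain ⟨L, hL⟩ := ((Finset.range n).image fun i => (r i).1).bddBelow
    exact ⟨L, fun i hi => hL (by simpa only [Finset.coe_image, Finset.coe_range, Set.mem_image, Set.mem_Iio] using ⟨i, by simpa using hi, rfl⟩)⟩
  refine ⟨min L 0, fun i => ?_⟩
  rcases Nat.lt_or_ge i n with h | h
  · exact (min_le_left _ _).trans (hL i (Finset.mem_range.2 h))
  · have := (hn i h).2
    have h' : (0 : ℤ) ≤ (r i).1 := by exact_mod_cast (by simpa only [Int.cast_nonneg_iff, CharP.cast_eq_zero] using this : (0 : ℝ) ≤ (r i).1)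
    exact (min_le_right _ _).trans h'

/-- Two paths to column `N` from the ends of a connecting walk. -/
theorem sandwich_aux {r₀ r₂ : ℕ → V} (h0 : IsRay w r₀) (hs0 : Slope m r₀)
    (h2 : IsRay w r₂) (hs2 : Slope m r₂) (P : latt.Walk (r₀ 0) (r₂ 0))
    {β : ℕ → V} (hβ : ∀ i, latt.Adj (β i) (β (i + 1))) {r₁ : ℕ → V} (h1 : IsRay w r₁)
    (hs1 : Slope m r₁) (h01 : r₁ 0 = β 0)
    (d0 : ∀ i j, r₀ i ≠ β j) (d2 : ∀ i j, r₂ i ≠ β j) (dP : ∀ j, β j ∉ P.support)
    (d0' : ∀ i j, r₀ i ≠ r₁ j) (d2' : ∀ i j, r₂ i ≠ r₁ j) (dP' : ∀ j, r₁ j ∉ P.support)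
    (hbtw : ∃ᶠ N : ℤ in atTop, hth r₀ N < hth r₁ N ∧ hth r₁ N < hth r₂ N) :
    ∃ L : ℤ, ∀ i, L ≤ (β i).1 := by
  obtain ⟨L0, hL0⟩ := exists_lower hs0
  obtain ⟨L2, hL2⟩ := exists_lower hs2
  obtain ⟨L3, hL3⟩ : ∃ L : ℤ, ∀ z ∈ P.support, L ≤ z.1 := by
    obtain ⟨L, hL⟩ := (P.support.toFinset.image fun z => z.1).bddBelow
    exact ⟨L, fun i hi => hL (by
      simp only [Finset.coe_image, Set.mem_image, List.coe_toFinset]
      exact ⟨i, hi, rfl⟩)⟩
  refine ⟨min L0 (min L2 L3), fun k => ?_⟩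
  obtain ⟨Q, hQ⟩ := exists_walk_seg hβ k
  have hev : ∀ᶠ N : ℤ in atTop, (r₀ 0).1 ≤ N ∧ (r₁ 0).1 ≤ N ∧ (r₂ 0).1 ≤ N ∧
      (∀ z ∈ P.support, z ∈ HN N) ∧ (∀ z ∈ Q.support, z ∈ HN N) :=
    (eventually_ge_atTop _).and ((eventually_ge_atTop _).and ((eventually_ge_atTop _).and
      ((eventually_walk_HN P).and (eventually_walk_HN Q))))
  obtain ⟨N, ⟨hb1, hb2⟩, hN0, hN1, hN2, hNP, hNQ⟩ := (hbtw.and_eventually hev).exists
  obtain ⟨s0, hs0'⟩ := exists_walk_seg h0.1 (hitn r₀ N)
  obtain ⟨s1, hs1'⟩ := exists_walk_seg h1.1 (hitn r₁ N)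
  obtain ⟨s2, hs2'⟩ := exists_walk_seg h2.1 (hitn r₂ N)
  have e0 := hth_spec h0 hs0 hN0
  have e1 := hth_spec h1 hs1 hN1
  have e2 := hth_spec h2 hs2 hN2
  have f0 := (hitn_spec h0 hs0 hN0).2
  have f1 := (hitn_spec h1 hs1 hN1).2
  have f2 := (hitn_spec h2 hs2 hN2).2
  have hA : ∀ z, z ∈ (((s0.copy rfl e0).reverse.append P).append (s2.copy rfl e2)).support →
      z ∈ HN N ∧ (∀ j, z ≠ β j) ∧ (∀ j, z ≠ r₁ j) ∧ min L0 (min L2 L3) ≤ z.1 := by
    intro z hz
    rw [SimpleGraph.Walk.mem_support_append_iff, SimpleGraph.Walk.mem_support_append_iff,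
      SimpleGraph.Walk.support_reverse, List.mem_reverse, SimpleGraph.Walk.support_copy,
      SimpleGraph.Walk.support_copy] at hz
    rcases hz with (hz | hz) | hz
    · obtain ⟨i, hi, rfl⟩ := hs0' z hz
      exact ⟨f0 i hi, d0 i, d0' i, (min_le_left _ _).trans (hL0 i)⟩
    · refine ⟨hNP z hz, fun j e => dP j (e ▸ hz), fun j e => dP' j (e ▸ hz), ?_⟩
      exact ((min_le_right _ _).trans (min_le_right _ _)).trans (hL3 z hz)
    · obtain ⟨i, hi, rfl⟩ := hs2' z hz
      exact ⟨f2 i hi, d2 i, d2' i, ((min_le_right _ _).trans (min_le_left _ _)).trans (hL2 i)⟩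
  have hB : ∀ z, z ∈ ((s1.copy rfl e1).reverse.append (Q.copy h01.symm rfl)).support →
      z ∈ HN N ∧ ((∃ j, z = β j) ∨ ∃ j, z = r₁ j) := by
    intro z hz
    rw [SimpleGraph.Walk.mem_support_append_iff, SimpleGraph.Walk.support_reverse,
      List.mem_reverse, SimpleGraph.Walk.support_copy, SimpleGraph.Walk.support_copy] at hz
    rcases hz with hz | hz
    · obtain ⟨i, hi, rfl⟩ := hs1' z hz
      exact ⟨f1 i hi, Or.inr ⟨i, rfl⟩⟩
    · refine ⟨hNQ z hz, Or.inl ?_⟩
      obtain ⟨i, -, rfl⟩ := hQ z hz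
      exact ⟨i, rfl⟩
  obtain ⟨z, hz, hz'⟩ := trapped hb1 hb2 _ (fun z hz => (hA z hz).1) _
    (fun z hz => (hB z hz).1) (fun z hz hz' => by
      rcases (hB z hz').2 with ⟨j, hj⟩ | ⟨j, hj⟩
      · exact (hA z hz).2.1 j hj
      · exact (hA z hz).2.2.1 j hj)
  exact ((hA z hz).2.2.2).trans hz'

theorem sandwich {r₀ r₂ : ℕ → V} (h0 : IsRay w r₀) (hs0 : Slope m r₀)
    (h2 : IsRay w r₂) (hs2 : Slope m r₂) (P : latt.Walk (r₀ 0) (r₂ 0))
    {β : ℕ → V} (hβ : ∀ i, latt.Adj (β i) (β (i + 1))) {r₁ : ℕ → V} (h1 : IsRay w r₁)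
    (hs1 : Slope m r₁) (h01 : r₁ 0 = β 0)
    (d0 : ∀ i j, r₀ i ≠ β j) (d2 : ∀ i j, r₂ i ≠ β j) (dP : ∀ j, β j ∉ P.support)
    (d0' : ∀ i j, r₀ i ≠ r₁ j) (d2' : ∀ i j, r₂ i ≠ r₁ j) (dP' : ∀ j, r₁ j ∉ P.support)
    (hbtw : ∃ᶠ N : ℤ in atTop, (hth r₀ N < hth r₁ N ∧ hth r₁ N < hth r₂ N) ∨
      (hth r₂ N < hth r₁ N ∧ hth r₁ N < hth r₀ N)) :
    ∃ L : ℤ, ∀ i, L ≤ (β i).1 := by
  rw [frequently_or_distrib] at hbtw
  rcases hbtw with hbtw | hbtw
  · exact sandwich_aux h0 hs0 h2 hs2 P hβ h1 hs1 h01 d0 d2 dP d0' d2' dP' hbtw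
  · exact sandwich_aux h2 hs2 h0 hs0 P.reverse hβ h1 hs1 h01 d2 d0
      (fun j => by simpa using dP j) d2' d0' (fun j => by simpa using dP' j) hbtw

/-- The trunk classes of `u` and `v` are joined by a walk of length `d`. -/
def Near (w : V → V → ℝ) (m : ℝ) (d : ℕ) (u v : V) : Prop :=
  ∃ x y, Trunk w m x ∧ Trunk w m y ∧ Same w m x u ∧ Same w m y v ∧
    ∃ p : latt.Walk x y, p.length = d

/-- The trunk of `u` is a nearest trunk to the trunk of `v`. -/
def Nst (w : V → V → ℝ) (m : ℝ) (u v : V) : Prop :=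
  Trunk w m u ∧ ¬ Same w m u v ∧ ∃ d, Near w m d u v ∧
    ∀ u' d', Trunk w m u' → ¬ Same w m u' v → Near w m d' u' v → d ≤ d'

/-- No trunk is bounded on the left. -/
def LeftUnb (w : V → V → ℝ) (m : ℝ) : Prop :=
  ∀ v, Trunk w m v → ∀ L : ℤ, ∃ u, Trunk w m u ∧ Same w m u v ∧ u.1 < L

theorem bi_orb {γ : ℤ → V} (h : ∀ n, Trunk w m (γ n) ∧ phi w m (γ n) = γ (n + 1)) (n : ℤ)
    (k : ℕ) : orb w m (γ n) k = γ (n + k) := by
  induction k with
  | zero => simp [orb_zero]
  | succ k ih =>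
    rw [orb_succ, ih, (h _).2]
    congr 1
    push_cast; ring

theorem bi_cover (hw : Adm w) (hi : InjT w m) {γ : ℤ → V}
    (h : ∀ n, Trunk w m (γ n) ∧ phi w m (γ n) = γ (n + 1)) (hu : Trunk w m u)
    (hs : Same w m u (γ 0)) : ∃ n, u = γ n := by
  obtain ⟨n, hn | hn⟩ := hs.comparable hw hi hu (h 0).1
  · refine ⟨-n, hi.eq_of_orb hw hu (h _).1 n ?_⟩
    rw [hn, bi_orb h]
    simp
  · rw [bi_orb h] at hn
    exact ⟨_, hn.symm⟩

theorem pair_false (hw : Adm w) (hi : InjT w m) (hl : LeftUnb w m) {c x₁ x₂ : V}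
    (hc : Trunk w m c) (h1 : Trunk w m x₁) (h2 : Trunk w m x₂) (P : latt.Walk c x₂)
    (hP : ∀ z ∈ P.support, Trunk w m z → Same w m z c ∨ Same w m z x₂)
    (n1 : ¬ Same w m x₁ c) (n2 : ¬ Same w m x₁ x₂)
    (hbtw : ∃ᶠ N : ℤ in atTop,
      (hth (orb w m c) N < hth (orb w m x₁) N ∧ hth (orb w m x₁) N < hth (orb w m x₂) N) ∨
      (hth (orb w m x₂) N < hth (orb w m x₁) N ∧ hth (orb w m x₁) N < hth (orb w m c) N)) :
    False := by
  obtain ⟨γ, hγ0, hγ⟩ := exists_bi hw h1
  have hb : ∀ k : ℕ, Same w m (γ (-k)) x₁ := fun k => by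
    refine ⟨k, 0, ?_⟩
    rw [bi_orb hγ, orb_zero, ← hγ0]
    simp
  have hro : ∀ k : ℕ, Same w m (orb w m x₁ k) x₁ := same_orb w m x₁
  have key : ∀ z, Same w m z x₁ → Trunk w m z → (∀ i, orb w m c i ≠ z) ∧
      (∀ i, orb w m x₂ i ≠ z) ∧ z ∉ P.support := by
    intro z hz hz'
    refine ⟨fun i e => n1 (hz.symm.trans (e ▸ same_orb w m c i)),
      fun i e => n2 (hz.symm.trans (e ▸ same_orb w m x₂ i)), fun e => ?_⟩
    rcases hP z e hz' with h | h
    · exact n1 (hz.symm.trans h)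
    · exact n2 (hz.symm.trans h)
  have kb := fun k : ℕ => key _ (hb k) (hγ _).1
  have kr := fun k : ℕ => key _ (hro k) (h1.orb hw k)
  obtain ⟨L, hL⟩ := sandwich (w := w) (m := m) hc.toOrb.1 hc.toOrb.2 h2.toOrb.1 h2.toOrb.2 P
    (β := fun k => γ (-k)) (fun i => by
      have h3 := (hγ (-((i : ℤ) + 1))).1.toOrb.1.1 0
      rw [zero_add, orb_zero] at h3
      have h4 : orb w m (γ (-((i : ℤ) + 1))) 1 = γ (-i) := by
        rw [bi_orb hγ]; congr 1; push_cast; ring
      rw [h4] at h3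
      have := h3.symm
      simpa only [Nat.cast_add, Nat.cast_one, neg_add_rev, Int.reduceNeg] using this)
    h1.toOrb.1 h1.toOrb.2 (by simpa [orb_zero] using hγ0.symm)
    (fun i j => (kb j).1 i) (fun i j => (kb j).2.1 i) (fun j => (kb j).2.2)
    (fun i j => (kr j).1 i) (fun i j => (kr j).2.1 i) (fun j => (kr j).2.2) hbtw
  obtain ⟨L', hL'⟩ := exists_lower h1.toOrb.2
  obtain ⟨u, hu, hus, hul⟩ := hl x₁ h1 (min L L')
  obtain ⟨n, rfl⟩ := bi_cover hw hi hγ hu (by rw [hγ0]; exact hus)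
  rcases le_total 0 n with hn | hn
  · have h5 := bi_orb hγ 0 n.toNat
    rw [zero_add, Int.toNat_of_nonneg hn, hγ0] at h5
    have := hL' n.toNat
    rw [h5] at this
    have := min_le_right L L'
    omega
  · have := hL (-n).toNat
    rw [Int.toNat_of_nonneg (by omega), neg_neg] at this
    have := min_le_left L L'
    omega

theorem common_anc (hw : Adm w) (hi : InjT w m) (hu : Trunk w m u) (hv : Trunk w m v)
    (h : Same w m u v) : ∃ c, Trunk w m c ∧ (∃ i, orb w m c i = u) ∧ ∃ j, orb w m c j = v := by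
  obtain ⟨n, hn | hn⟩ := h.comparable hw hi hu hv
  · exact ⟨u, hu, ⟨0, rfl⟩, n, hn⟩
  · exact ⟨v, hv, ⟨n, hn⟩, 0, rfl⟩

theorem hth_ne (h1 : Orb w m u) (h2 : Orb w m v) (hn : ¬ Same w m u v) :
    ∀ᶠ N : ℤ in atTop, hth (orb w m u) N ≠ hth (orb w m v) N := by
  filter_upwards [eventually_ge_atTop u.1, eventually_ge_atTop v.1] with N hN1 hN2 he
  have e1 := hth_spec h1.1 h1.2 (N := N) hN1
  have e2 := hth_spec h2.1 h2.2 (N := N) hN2
  exact hn ⟨_, _, e1.trans ((congrArg (Prod.mk N) he).trans e2.symm)⟩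

theorem order3 {c a b d : ℤ} (hac : a ≠ c) (hbc : b ≠ c) (hdc : d ≠ c) (hab : a ≠ b)
    (had : a ≠ d) (hbd : b ≠ d)
    (g12 : ¬ ((c < a ∧ a < b) ∨ (b < a ∧ a < c))) (g13 : ¬ ((c < a ∧ a < d) ∨ (d < a ∧ a < c)))
    (g21 : ¬ ((c < b ∧ b < a) ∨ (a < b ∧ b < c))) (g23 : ¬ ((c < b ∧ b < d) ∨ (d < b ∧ b < c)))
    (g31 : ¬ ((c < d ∧ d < a) ∨ (a < d ∧ d < c))) (g32 : ¬ ((c < d ∧ d < b) ∨ (b < d ∧ d < c))) :
    False := by
  rcases lt_or_gt_of_ne hac with h1 | h1 <;> rcases lt_or_gt_of_ne hbc with h2 | h2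
  · rcases lt_or_gt_of_ne hab with h3 | h3
    · exact g21 (Or.inr ⟨h3, h2⟩)
    · exact g12 (Or.inr ⟨h3, h1⟩)
  · rcases lt_or_gt_of_ne hdc with h4 | h4
    · rcases lt_or_gt_of_ne had with h5 | h5
      · exact g31 (Or.inr ⟨h5, h4⟩)
      · exact g13 (Or.inr ⟨h5, h1⟩)
    · rcases lt_or_gt_of_ne hbd with h5 | h5
      · exact g23 (Or.inl ⟨h2, h5⟩)
      · exact g32 (Or.inl ⟨h4, h5⟩)
  · rcases lt_or_gt_of_ne hdc with h4 | h4
    · rcases lt_or_gt_of_ne hbd with h5 | h5
      · exact g32 (Or.inr ⟨h5, h4⟩)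
      · exact g23 (Or.inr ⟨h5, h2⟩)
    · rcases lt_or_gt_of_ne had with h5 | h5
      · exact g13 (Or.inl ⟨h1, h5⟩)
      · exact g31 (Or.inl ⟨h4, h5⟩)
  · rcases lt_or_gt_of_ne hab with h3 | h3
    · exact g12 (Or.inl ⟨h1, h3⟩)
    · exact g21 (Or.inl ⟨h2, h3⟩)

/-- There are at most two nearest trunks. -/
theorem no_three (hw : Adm w) (hi : InjT w m) (hl : LeftUnb w m) {u₁ u₂ u₃ : V}
    (h1 : Nst w m u₁ v) (h2 : Nst w m u₂ v) (h3 : Nst w m u₃ v)
    (h12 : ¬ Same w m u₁ u₂) (h13 : ¬ Same w m u₁ u₃) (h23 : ¬ Same w m u₂ u₃) : False := by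
  -- data of a connecting walk
  have data : ∀ u, Nst w m u v → ∃ x y, Trunk w m x ∧ Trunk w m y ∧ Same w m x u ∧
      Same w m y v ∧ ∃ p : latt.Walk y x, ∀ z ∈ p.support, Trunk w m z →
        Same w m z v ∨ Same w m z u := by
    rintro u ⟨hu, hns, d, ⟨x, y, hx, hy, hxu, hyv, p, hp⟩, hmin⟩
    refine ⟨x, y, hx, hy, hxu, hyv, p.reverse, fun z hz hzT => ?_⟩
    rw [SimpleGraph.Walk.support_reverse, List.mem_reverse] at hz
    by_cases hzv : Same w m z v
    · exact Or.inl hzv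
    right
    have hd := hmin z (p.dropUntil z hz).length hzT hzv
      ⟨z, y, hzT, hy, Same.refl _ _ _, hyv, _, rfl⟩
    have hlen := congrArg SimpleGraph.Walk.length (p.take_spec hz)
    rw [SimpleGraph.Walk.length_append] at hlen
    have h0 : (p.takeUntil z hz).length = 0 := by omega
    have := SimpleGraph.Walk.eq_of_length_eq_zero h0
    rwa [← this]
  obtain ⟨x₁, y₁, hx₁, hy₁, hxu₁, hyv₁, p₁, hp₁⟩ := data u₁ h1
  obtain ⟨x₂, y₂, hx₂, hy₂, hxu₂, hyv₂, p₂, hp₂⟩ := data u₂ h2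
  obtain ⟨x₃, y₃, hx₃, hy₃, hxu₃, hyv₃, p₃, hp₃⟩ := data u₃ h3
  obtain ⟨c', hc', ⟨i', hi'⟩, ⟨j', hj'⟩⟩ := common_anc hw hi hy₁ hy₂ (hyv₁.trans hyv₂.symm)
  have hc'v : Same w m c' v := by
    have := same_orb w m c' i'
    rw [hi'] at this
    exact this.symm.trans hyv₁
  obtain ⟨c, hc, ⟨i, hic⟩, ⟨k₃, hk₃⟩⟩ := common_anc hw hi hc' hy₃ (hc'v.trans hyv₃.symm)
  have hcv : Same w m c v := by
    have := same_orb w m c i
    rw [hic] at this
    exact this.symm.trans hc'v
  have hk₁ : orb w m c (i' + i) = y₁ := by rw [orb_add, hic, hi']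
  have hk₂ : orb w m c (j' + i) = y₂ := by rw [orb_add, hic, hj']
  -- extended walks
  have ext : ∀ {x y u : V} (k : ℕ), orb w m c k = y → Same w m x u → ¬ Same w m u v →
      (p : latt.Walk y x) → (∀ z ∈ p.support, Trunk w m z → Same w m z v ∨ Same w m z u) →
      ∃ P : latt.Walk c x, ∀ z ∈ P.support, Trunk w m z → Same w m z c ∨ Same w m z x := by
    intro x y u k hk hxu _ p hp
    obtain ⟨q, hq⟩ := exists_walk_seg hc.toOrb.1.1 k
    refine ⟨(q.copy (orb_zero w m c) hk).append p, fun z hz hzT => ?_⟩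
    rw [SimpleGraph.Walk.mem_support_append_iff, SimpleGraph.Walk.support_copy] at hz
    rcases hz with hz | hz
    · obtain ⟨n, -, rfl⟩ := hq z hz
      exact Or.inl (same_orb w m c n)
    · rcases hp z hz hzT with h | h
      · exact Or.inl (h.trans hcv.symm)
      · exact Or.inr (h.trans hxu.symm)
  obtain ⟨P₁, hP₁⟩ := ext _ hk₁ hxu₁ h1.2.1 p₁ hp₁
  obtain ⟨P₂, hP₂⟩ := ext _ hk₂ hxu₂ h2.2.1 p₂ hp₂
  obtain ⟨P₃, hP₃⟩ := ext _ hk₃ hxu₃ h3.2.1 p₃ hp₃
  have nc₁ : ¬ Same w m x₁ c := fun h => h1.2.1 (hxu₁.symm.trans (h.trans hcv))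
  have nc₂ : ¬ Same w m x₂ c := fun h => h2.2.1 (hxu₂.symm.trans (h.trans hcv))
  have nc₃ : ¬ Same w m x₃ c := fun h => h3.2.1 (hxu₃.symm.trans (h.trans hcv))
  have n12 : ¬ Same w m x₁ x₂ := fun h => h12 (hxu₁.symm.trans (h.trans hxu₂))
  have n13 : ¬ Same w m x₁ x₃ := fun h => h13 (hxu₁.symm.trans (h.trans hxu₃))
  have n23 : ¬ Same w m x₂ x₃ := fun h => h23 (hxu₂.symm.trans (h.trans hxu₃))
  have hne := (hth_ne hx₁.toOrb hc.toOrb nc₁).and ((hth_ne hx₂.toOrb hc.toOrb nc₂).and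
    ((hth_ne hx₃.toOrb hc.toOrb nc₃).and ((hth_ne hx₁.toOrb hx₂.toOrb n12).and
    ((hth_ne hx₁.toOrb hx₃.toOrb n13).and (hth_ne hx₂.toOrb hx₃.toOrb n23)))))
  have f12 := mt (pair_false hw hi hl hc hx₁ hx₂ P₂ hP₂ nc₁ n12) not_false
  have f13 := mt (pair_false hw hi hl hc hx₁ hx₃ P₃ hP₃ nc₁ n13) not_false
  have f21 := mt (pair_false hw hi hl hc hx₂ hx₁ P₁ hP₁ nc₂ (fun h => n12 h.symm)) not_false
  have f23 := mt (pair_false hw hi hl hc hx₂ hx₃ P₃ hP₃ nc₂ n23) not_false
  have f31 := mt (pair_false hw hi hl hc hx₃ hx₁ P₁ hP₁ nc₃ (fun h => n13 h.symm)) not_false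
  have f32 := mt (pair_false hw hi hl hc hx₃ hx₂ P₂ hP₂ nc₃ (fun h => n23 h.symm)) not_false
  rw [not_frequently] at f12 f13 f21 f23 f31 f32
  obtain ⟨N, ⟨a1, a2, a3, a4, a5, a6⟩, g12, g13, g21, g23, g31, g32⟩ :=
    (hne.and (f12.and (f13.and (f21.and (f23.and (f31.and f32)))))).exists
  exact order3 a1 a2 a3 a4 a5 a6 g12 g13 g21 g23 g31 g32

end Vale.Agent.P158
end
end
end

section

section

section

/-! Tie breaking: raising an edge weight on a trunk creates positive regret. -/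

namespace Vale.Agent.P158

open Filter

variable {w₀ w₁ : V → V → ℝ} {m : ℝ} {z a : V}

theorem tiebreak (h0 : Adm w₀) (h1 : Adm w₁) (hle : ∀ x y, w₀ x y ≤ w₁ x y)
    (hsm0 : ∀ x y, Small w₀ m x y) (hsm1 : ∀ x y, Small w₁ m x y)
    (hz0 : Orb w₀ m z) (hza0 : phi w₀ m z = a) (hz1 : Orb w₁ m z) (hza1 : phi w₁ m z = a)
    {r : ℕ → V} (hr0 : IsRay w₀ r) (hr1 : IsRay w₁ r) (hs : Slope m r)
    (heq : ∀ i, w₀ (r i) (r (i + 1)) = w₁ (r i) (r (i + 1))) :
    w₁ z a - w₀ z a ≤ Reg w₁ m (r 0) z := by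
  have hB1 : bus w₁ r z - bus w₁ r a = w₁ z a := by
    rw [bus_eq h1 hr1 hs hz1.1 hz1.2 (hsm1 z a)]
    have := bus_step_ray h1 hz1.1 0
    rw [zero_add] at this
    have e : orb w₁ m z 1 = a := by rw [← hza1]; rfl
    rw [orb_zero, e] at this
    exact this
  have hB0 : bus w₀ r z - bus w₀ r a = w₀ z a := by
    rw [bus_eq h0 hr0 hs hz0.1 hz0.2 (hsm0 z a)]
    have := bus_step_ray h0 hz0.1 0
    rw [zero_add] at this
    have e : orb w₀ m z 1 = a := by rw [← hza0]; rfl
    rw [orb_zero, e] at this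
    exact this
  have hmono : bus w₀ r a ≤ bus w₁ r a := by
    refine le_of_tendsto_of_tendsto' (tendsto_bus h0 hr0 a) (tendsto_bus h1 hr1 a) fun n => ?_
    have e1 : T w₀ (r 0) (r n) = T w₁ (r 0) (r n) := by
      rw [← hr0.2 n, ← hr1.2 n]
      exact Finset.sum_congr rfl fun i _ => heq i
    have e2 := T_mono_weight h0 (fun x y _ => hle x y) a (r n)
    linarith only [e1, e2]
  have hc := bus_eq h1 hr1 hs hz1.1 hz1.2 (hsm1 (r 0) z)
  have e3 : bus w₁ (orb w₁ m z) z = 0 := by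
    have := bus_self h1 hz1.1 0
    rwa [orb_zero, T_self h1, neg_zero] at this
  have e4 : bus w₁ r (r 0) = 0 := by
    have := bus_self h1 hr1 0
    rwa [T_self h1, neg_zero] at this
  have e5 : bus w₀ r (r 0) = 0 := by
    have := bus_self h0 hr0 0
    rwa [T_self h0, neg_zero] at this
  have e6 := bus_sub_le h0 hr0 (r 0) z
  have e7 := T_mono_weight h0 (fun x y _ => hle x y) (r 0) z
  unfold Reg
  linarith only [hB1, hB0, hmono, hc, e3, e4, e5, e6, e7]

end Vale.Agent.P158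
end
end
end

section

section

section

/-! Deterministic consequences: regrets to nearest trunks, tie breaking, box bound. -/

namespace Vale.Agent.P158

open Filter

variable {w : V → V → ℝ} {m : ℝ} {u v x y z a : V}

/-- Some nearest trunk has uniformly positive regret at `v`. -/
def Aev (w : V → V → ℝ) (m : ℝ) (n : ℕ) (v : V) : Prop :=
  ∃ u, Nst w m u v ∧ ∀ x, Trunk w m x → Same w m x u → 1 / ((n : ℝ) + 1) < Reg w m x v

theorem Nst.congr (h : Nst w m u v) (hs : Same w m v x) : Nst w m u x := by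
  obtain ⟨hu, hns, d, ⟨a, b, ha, hb, hau, hbv, p, hp⟩, hmin⟩ := h
  refine ⟨hu, fun h => hns (h.trans hs.symm), d, ⟨a, b, ha, hb, hau, hbv.trans hs, p, hp⟩, ?_⟩
  rintro u' d' hu' hns' ⟨a', b', ha', hb', hau', hbv', p', hp'⟩
  exact hmin u' d' hu' (fun h => hns' (h.trans hs))
    ⟨a', b', ha', hb', hau', hbv'.trans hs.symm, p', hp'⟩

theorem Aev.of_phi (hw : Adm w) {n : ℕ} (hv : Trunk w m v) (h : Aev w m n (phi w m v)) :
    Aev w m n v := by
  obtain ⟨u, hu, hx⟩ := h
  exact ⟨u, hu.congr (same_orb w m v 1), fun x hxT hxu =>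
    (hx x hxT hxu).trans_le (Reg.phi_le hw hv.toOrb)⟩

theorem Aev.fail (hw : Adm w) (hi : InjT w m) (hl : LeftUnb w m) (hv : Trunk w m v) (n : ℕ) :
    ∃ k, ¬ Aev w m n (orb w m v k) := by
  by_contra hcon
  push Not at hcon
  choose u hu hux using hcon
  have hu' : ∀ k, Nst w m (u k) v := fun k => (hu k).congr (same_orb w m v k)
  obtain ⟨u₁, u₂, hT1, hT2, h12⟩ : ∃ u₁ u₂, Trunk w m u₁ ∧ Trunk w m u₂ ∧
      ∀ k, Same w m (u k) u₁ ∨ Same w m (u k) u₂ := by
    by_cases h : ∀ k, Same w m (u k) (u 0)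
    · exact ⟨u 0, u 0, (hu' 0).1, (hu' 0).1, fun k => Or.inl (h k)⟩
    · push Not at h
      obtain ⟨k₂, hk₂⟩ := h
      refine ⟨u 0, u k₂, (hu' 0).1, (hu' k₂).1, fun k => ?_⟩
      by_contra h3
      push Not at h3
      exact no_three hw hi hl (hu' k) (hu' 0) (hu' k₂) h3.1 h3.2 (fun h => hk₂ h.symm)
  have hε : (0 : ℝ) < 1 / ((n : ℝ) + 1) := by (clear * -; positivity)
  obtain ⟨k, hk1, hk2⟩ := (((Reg.tendsto hw hv.toOrb u₁).eventually (gt_mem_nhds hε)).and
    ((Reg.tendsto hw hv.toOrb u₂).eventually (gt_mem_nhds hε))).exists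
  rcases h12 k with h | h
  · exact lt_irrefl _ ((hux k u₁ hT1 h.symm).trans hk1)
  · exact lt_irrefl _ ((hux k u₂ hT2 h.symm).trans hk2)

/-- Zero regret from `z` to another trunk. -/
def TBev (w : V → V → ℝ) (m : ℝ) (u z : V) : Prop :=
  Trunk w m z ∧ Trunk w m u ∧ ¬ Same w m u z ∧
    ∀ n : ℕ, ∃ x, Trunk w m x ∧ Same w m x u ∧ Reg w m x z ≤ 1 / ((n : ℝ) + 1)

theorem all_same (hw : Adm w) (hi : InjT w m) (hl : LeftUnb w m)
    (hA : ∀ n v, Trunk w m v → Aev w m n v → Aev w m n (phi w m v))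
    (hTB : ∀ u z, ¬ TBev w m u z) (hu : Trunk w m u) (hv : Trunk w m v) : Same w m u v := by
  by_contra hns
  have hA' : ∀ n, ¬ Aev w m n v := by
    intro n hn
    obtain ⟨k, hk⟩ := Aev.fail hw hi hl hv n
    apply hk
    clear hk
    induction k with
    | zero => exact hn
    | succ k ih => rw [orb_succ]; exact hA n _ (hv.orb hw k) ih
  classical
  have hex : ∃ d, ∃ u', Trunk w m u' ∧ ¬ Same w m u' v ∧ Near w m d u' v := by
    obtain ⟨p, -⟩ := conn_univ u v
    exact ⟨p.length, u, hu, hns, u, v, hu, hv, Same.refl _ _ _, Same.refl _ _ _, p, rfl⟩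
  obtain ⟨u', hu', hns', hnear⟩ := Nat.find_spec hex
  have hN : Nst w m u' v := ⟨hu', hns', _, hnear, fun u'' d' h1 h2 h3 =>
    Nat.find_min' hex ⟨u'', h1, h2, h3⟩⟩
  refine hTB u' v ⟨hv, hu', hns', fun n => ?_⟩
  by_contra hcon
  push Not at hcon
  exact hA' n ⟨u', hN, hcon⟩

/-- At most one value of the weight of the edge `{z,a}` allows a tie. -/
theorem tb_subsingleton {w₀ w₁ : V → V → ℝ} (h0 : Good w₀ m) (h1 : Good w₁ m)
    (hi1 : InjT w₁ m) (hlt : w₀ z a < w₁ z a)
    (heq : ∀ x y, s(x, y) ≠ s(z, a) → w₀ x y = w₁ x y)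
    (hT0 : TBev w₀ m u z) (hT1 : TBev w₁ m u z) (hp0 : phi w₀ m z = a)
    (hp1 : phi w₁ m z = a) : False := by
  have hle : ∀ x y, w₀ x y ≤ w₁ x y := by
    intro x y
    by_cases hxy : s(x, y) = s(z, a)
    · rw [Sym2.eq_iff] at hxy
      rcases hxy with ⟨rfl, rfl⟩ | ⟨rfl, rfl⟩
      · exact hlt.le
      · rw [h0.adm.symm, h1.adm.symm x y]; exact hlt.le
    · exact (heq x y hxy).le
  obtain ⟨γ, hγ0, hγ⟩ := exists_bi h0.adm hT0.2.1
  have hγz : ∀ n, γ n ≠ z := by
    intro n hn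
    apply hT0.2.2.1
    rcases le_total 0 n with h | h
    · have := bi_orb hγ 0 n.toNat
      rw [zero_add, Int.toNat_of_nonneg h, hn, hγ0] at this
      rw [← this]
      exact (same_orb w₀ m u n.toNat).symm
    · have := bi_orb hγ n (-n).toNat
      rw [Int.toNat_of_nonneg (by omega), add_neg_cancel, hn, hγ0] at this
      rw [← this]
      exact same_orb w₀ m z _
  have heq' : ∀ n, w₀ (γ n) (γ (n + 1)) = w₁ (γ n) (γ (n + 1)) := by
    intro n
    apply heq
    intro h
    rw [Sym2.eq_iff] at h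
    rcases h with ⟨h, -⟩ | ⟨-, h⟩
    · exact hγz _ h
    · exact hγz _ h
  have hr0 : ∀ n : ℤ, IsRay w₀ (fun i : ℕ => γ (n + i)) := by
    intro n
    have := (hγ n).1.toOrb.1
    have e : orb w₀ m (γ n) = fun i : ℕ => γ (n + i) := funext fun i => bi_orb hγ n i
    rwa [e] at this
  have hs : ∀ n : ℤ, Slope m (fun i : ℕ => γ (n + i)) := by
    intro n
    have := (hγ n).1.toOrb.2
    have e : orb w₀ m (γ n) = fun i : ℕ => γ (n + i) := funext fun i => bi_orb hγ n i
    rwa [e] at this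
  have hr1 : ∀ n : ℤ, IsRay w₁ (fun i : ℕ => γ (n + i)) := by
    intro n
    refine ⟨(hr0 n).1, fun k => le_antisymm ?_ ?_⟩
    · have h2 := (hr0 n).2 k
      have h3 := T_mono_weight h0.adm (fun x y _ => hle x y) (γ (n + (0 : ℕ))) (γ (n + k))
      refine le_trans (le_of_eq ?_) (h2.trans_le h3)
      refine Finset.sum_congr rfl fun i _ => ?_
      have := (heq' (n + i)).symm
      push_cast
      rw [← add_assoc]
      exact this
    · have := T_le_sum h1.adm (hr0 n).1 (Nat.zero_le k)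
      rwa [Nat.Ico_zero_eq_range] at this
  have hγ1 : ∀ n, Trunk w₁ m (γ n) ∧ phi w₁ m (γ n) = γ (n + 1) := by
    intro n
    refine ⟨trunk_of_bi h1 hr1 hs n, ?_⟩
    have := orb_ray h1 (hr1 n) (hs n) 1
    simpa [orb_succ, orb_zero] using this
  obtain ⟨k, hk⟩ := exists_nat_one_div_lt (sub_pos.2 hlt)
  obtain ⟨x, hx, hxu, hreg⟩ := hT1.2.2.2 k
  obtain ⟨n, rfl⟩ := bi_cover h1.adm hi1 hγ1 hx (by rw [hγ0]; exact hxu)
  have := tiebreak h0.adm h1.adm hle h0.small h1.small hT0.1.toOrb hp0 hT1.1.toOrb hp1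
    (hr0 n) (hr1 n) (hs n) (fun i => by
      have := heq' (n + i)
      push_cast
      rw [← add_assoc]
      exact this)
  simp only [Nat.cast_zero, add_zero] at this
  linarith

end Vale.Agent.P158
end
end
end

section

section

section

/-! Oscillation counting. -/

namespace Vale.Agent.P158

open Filter

variable {w : V → V → ℝ} {x y z : V}

/-- Negation of small oscillation at level `1/(n+1)`. -/
def Bad (w : V → V → ℝ) (m : ℝ) (x y : V) (n : ℕ) : Prop :=
  ∀ k : ℕ, ∀ᶠ N : ℤ in atTop, ∃ j j' : ℤ, J m x k N j ∧ J m x k N j' ∧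
    1 / ((n : ℝ) + 1) < g w N x y j - g w N x y j'

theorem small_iff (w : V → V → ℝ) (m : ℝ) (x y : V) :
    Small w m x y ↔ ∀ n, ¬ Bad w m x y n := by
  unfold Small Bad
  refine forall_congr' fun n => ?_
  rw [not_forall]
  refine exists_congr fun k => ?_
  rw [not_eventually]
  refine Iff.of_eq (congrArg (fun P => ∃ᶠ N : ℤ in atTop, P N) (funext fun N => ?_))
  refine propext ⟨fun h => ?_, fun h j j' h1 h2 => ?_⟩
  · rintro ⟨j, j', h1, h2, h3⟩
    exact absurd (h j j' h1 h2) (not_le.2 h3)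
  · by_contra h3
    exact h ⟨j, j', h1, h2, not_le.1 h3⟩

theorem cross_le (hw : Adm w) {S : Set V} {v u : V} {ε : ℝ}
    (p : latt.Walk x v) (q : latt.Walk y u) (hp : ∀ z ∈ p.support, z ∈ S)
    (hq : ∀ z ∈ q.support, z ∈ S) (hp' : ww w p < PT w S x v + ε)
    (hq' : ww w q < PT w S y u + ε) (hz : z ∈ p.support) (hz' : z ∈ q.support) :
    PT w S x u + PT w S y v ≤ PT w S x v + PT w S y u + 2 * ε := by
  have h1 := PT_le (S := S) hw ((p.takeUntil z hz).append (q.dropUntil z hz')) fun a ha => by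
    rw [SimpleGraph.Walk.mem_support_append_iff] at ha
    rcases ha with ha | ha
    · exact hp a (p.support_takeUntil_subset_support hz ha)
    · exact hq a (q.support_dropUntil_subset_support hz' ha)
  have h2 := PT_le (S := S) hw ((q.takeUntil z hz').append (p.dropUntil z hz)) fun a ha => by
    rw [SimpleGraph.Walk.mem_support_append_iff] at ha
    rcases ha with ha | ha
    · exact hq a (q.support_takeUntil_subset_support hz' ha)
    · exact hp a (p.support_dropUntil_subset_support hz ha)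
  have h3 := congrArg (ww w) (p.take_spec hz)
  have h4 := congrArg (ww w) (q.take_spec hz')
  rw [ww_append] at h1 h2 h3 h4
  linarith only [hp', hq', h1, h2, h3, h4]

/-- No alternation of half-plane passage time differences along a column. -/
theorem nonalt (hw : Adm w) {N : ℤ} (hx : x ∈ HN N) (hy : y ∈ HN N) {j₁ j₂ j₃ j₄ : ℤ}
    (h12 : j₁ < j₂) (h23 : j₂ < j₃) (h34 : j₃ < j₄) :
    min (g w N x y j₂) (g w N x y j₄) ≤ max (g w N x y j₁) (g w N x y j₃) := by
  by_contra hcon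
  rw [not_le] at hcon
  set ε := (min (g w N x y j₂) (g w N x y j₄) - max (g w N x y j₁) (g w N x y j₃)) / 2 with hε
  have hε0 : 0 < ε := half_pos (sub_pos.2 hcon)
  have a1 := le_max_left (g w N x y j₁) (g w N x y j₃)
  have a2 := le_max_right (g w N x y j₁) (g w N x y j₃)
  have a3 := min_le_left (g w N x y j₂) (g w N x y j₄)
  have a4 := min_le_right (g w N x y j₂) (g w N x y j₄)
  have hε2 : 0 < ε / 2 := half_pos hε0
  obtain ⟨p₁, hp₁, hp₁'⟩ := exists_walk hw (conn_HN hx (mem_HN_col N j₁)) hε2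
  obtain ⟨p₃, hp₃, hp₃'⟩ := exists_walk hw (conn_HN hx (mem_HN_col N j₃)) hε2
  obtain ⟨q₂, hq₂, hq₂'⟩ := exists_walk hw (conn_HN hy (mem_HN_col N j₂)) hε2
  obtain ⟨q₄, hq₄, hq₄'⟩ := exists_walk hw (conn_HN hy (mem_HN_col N j₄)) hε2
  obtain ⟨z, hz, hz'⟩ := crossing h12 h23 h34 (p₁.reverse.append p₃) (q₂.reverse.append q₄)
    (fun a ha => by
      rw [SimpleGraph.Walk.mem_support_append_iff] at ha
      rcases ha with ha | ha
      · exact hp₁ a (by simpa using ha)
      · exact hp₃ a ha)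
    (fun a ha => by
      rw [SimpleGraph.Walk.mem_support_append_iff] at ha
      rcases ha with ha | ha
      · exact hq₂ a (by simpa using ha)
      · exact hq₄ a ha)
  rw [SimpleGraph.Walk.mem_support_append_iff] at hz hz'
  unfold g at a1 a2 a3 a4 hε
  rcases hz with hz | hz <;> rcases hz' with hz' | hz'
  · have := cross_le hw p₁ q₂ hp₁ hq₂ hp₁' hq₂' (by simpa using hz) (by simpa using hz')
    linarith only [hε, hε0, a1, a3, this]
  · have := cross_le hw p₁ q₄ hp₁ hq₄ hp₁' hq₄' (by simpa using hz) hz'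
    linarith only [hε, hε0, a1, a4, this]
  · have := cross_le hw p₃ q₂ hp₃ hq₂ hp₃' hq₂' hz (by simpa using hz')
    linarith only [hε, hε0, a2, a3, this]
  · have := cross_le hw p₃ q₄ hp₃ hq₄ hp₃' hq₄' hz hz'
    linarith only [hε, hε0, a2, a4, this]

theorem J_lt {m m' : ℝ} {k : ℕ} {N j j' : ℤ} (hk : 2 < (k : ℝ) * (m' - m)) (hN : x.1 < N)
    (hj : J m x k N j) (hj' : J m' x k N j') : j < j' := by
  unfold J at hj hj'
  have hk0 : (0 : ℝ) ≤ k := Nat.cast_nonneg k
  have hN' : (0 : ℝ) < ((N - x.1 : ℤ) : ℝ) := by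
    have : 0 < N - x.1 := by omega
    exact_mod_cast this
  have h1 := mul_le_mul_of_nonneg_left
    (le_abs_self (((j - x.2 : ℤ) : ℝ) - m * ((N - x.1 : ℤ) : ℝ))) hk0
  have h2 := mul_le_mul_of_nonneg_left
    (neg_abs_le (((j' - x.2 : ℤ) : ℝ) - m' * ((N - x.1 : ℤ) : ℝ))) hk0
  have h3 := mul_lt_mul_of_pos_right hk hN'
  have h4 : (k : ℝ) * (((j' - x.2 : ℤ) : ℝ) - ((j - x.2 : ℤ) : ℝ)) > 0 := by
    linarith
  by_contra hcon
  have h5 : ((j' - x.2 : ℤ) : ℝ) - ((j - x.2 : ℤ) : ℝ) ≤ 0 := by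
    have : (j' - x.2) - (j - x.2) ≤ 0 := by (clear * - hcon; omega)
    exact_mod_cast this
  have h6 := mul_nonpos_of_nonneg_of_nonpos hk0 h5
  linarith only [hj, hj', h1, h2, h3, h6]

/-- Window data of one slope at level `s`. -/
def Cross (w : V → V → ℝ) (x y : V) (N : ℤ) (k : ℕ) (s m : ℝ) : Prop :=
  ∃ j j' : ℤ, J m x k N j ∧ J m x k N j' ∧ g w N x y j' < s ∧ s < g w N x y j

theorem three_windows (hw : Adm w) {N : ℤ} (hx : x ∈ HN N) (hy : y ∈ HN N) (hN : x.1 < N)
    {k : ℕ} {s m₁ m₂ m₃ : ℝ} (h12 : 2 < (k : ℝ) * (m₂ - m₁)) (h23 : 2 < (k : ℝ) * (m₃ - m₂))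
    (h1 : Cross w x y N k s m₁) (h2 : Cross w x y N k s m₂) (h3 : Cross w x y N k s m₃) :
    False := by
  obtain ⟨a, b, ha, hb, hb', ha'⟩ := h1
  obtain ⟨c, d, hc, hd, hd', hc'⟩ := h2
  obtain ⟨e, f, he, hf, hf', he'⟩ := h3
  have hne : a ≠ b := by
    rintro rfl
    exact lt_irrefl _ (hb'.trans ha')
  rcases lt_or_gt_of_ne hne with hab | hab
  · have := nonalt (w := w) hw hy hx hab (J_lt h12 hN hb hc) (J_lt h23 hN hc hf)
    rw [g_swap N x y, g_swap N x y, g_swap N x y, g_swap N x y] at this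
    rcases min_le_iff.1 this with h | h <;> rcases le_max_iff.1 h with h | h <;> linarith only [ha', hf', h, hb', hc']
  · have := nonalt (w := w) hw hx hy hab (J_lt h12 hN ha hd) (J_lt h23 hN hd he)
    rcases min_le_iff.1 this with h | h <;> rcases le_max_iff.1 h with h | h <;> linarith only [ha', hd', h, hb', he']

theorem eventually_gap (F : Finset ℝ) :
    ∀ᶠ k : ℕ in atTop, ∀ m ∈ F, ∀ m' ∈ F, m < m' → 2 < (k : ℝ) * (m' - m) := by
  refine (Finset.eventually_all _).2 fun m _ => (Finset.eventually_all _).2 fun m' _ => ?_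
  by_cases h : m < m'
  · have := (tendsto_natCast_atTop_atTop (R := ℝ)).atTop_mul_const (sub_pos.2 h)
    filter_upwards [this.eventually_gt_atTop 2] with k hk _
    exact hk
  · exact Eventually.of_forall fun _ h' => absurd h' h

/-- A bounded number of slopes are bad at a given level. -/
theorem card_bad (hw : Adm w) (x y : V) (n : ℕ) {K : ℝ}
    (hK : PT w (HN (max x.1 y.1)) x y ≤ K) (F : Finset ℝ) (hF : ∀ m ∈ F, Bad w m x y n) :
    (F.card : ℝ) ≤ 4 * K * ((n : ℝ) + 1) + 2 := by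
  obtain ⟨k, hk⟩ := (eventually_gap F).exists
  have hev : ∀ᶠ N : ℤ in atTop, ∀ m ∈ F, ∃ j j' : ℤ, J m x k N j ∧ J m x k N j' ∧
      1 / ((n : ℝ) + 1) < g w N x y j - g w N x y j' :=
    (Finset.eventually_all _).2 fun m hm => hF m hm k
  obtain ⟨N, hN, hN1, hN2⟩ := (hev.and ((eventually_gt_atTop x.1).and
    (eventually_ge_atTop (max x.1 y.1)))).exists
  have hx : x ∈ HN N := le_trans (le_max_left _ _) hN2
  have hy : y ∈ HN N := le_trans (le_max_right _ _) hN2
  have hx0 : x ∈ HN (max x.1 y.1) := le_max_left x.1 y.1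
  have hy0 : y ∈ HN (max x.1 y.1) := le_max_right x.1 y.1
  have hg : ∀ j, |g w N x y j| ≤ K := fun j =>
    (abs_g_le hw hx hy j).trans ((PT_mono hw (HN_subset hN2) (conn_HN hx0 hy0)).trans hK)
  set δ : ℝ := 1 / ((n : ℝ) + 1) with hδ
  have hδ0 : 0 < δ := by (clear * -; positivity)
  have hlev : ∀ m ∈ F, ∃ l : ℤ, l ∈ Finset.Icc (-⌊K / δ⌋) ⌊K / δ⌋ ∧
      Cross w x y N k (l * δ) m := by
    intro m hm
    obtain ⟨j, j', hj, hj', hlt⟩ := hN m hm
    refine ⟨⌊g w N x y j' / δ⌋ + 1, ?_, j, j', hj, hj', ?_, ?_⟩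
    · have h1 : g w N x y j' < (⌊g w N x y j' / δ⌋ + 1 : ℤ) * δ := by
        have := Int.lt_floor_add_one (g w N x y j' / δ)
        rw [div_lt_iff₀ hδ0] at this
        push_cast; exact this
      have h2 : ((⌊g w N x y j' / δ⌋ + 1 : ℤ) : ℝ) * δ < g w N x y j := by
        have := Int.floor_le (g w N x y j' / δ)
        rw [le_div_iff₀ hδ0] at this
        push_cast; linarith only [hlt, this]
      have b1 := abs_le.1 (hg j)
      have b2 := abs_le.1 (hg j')
      rw [Finset.mem_Icc]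
      constructor
      · rw [neg_le]
        rw [Int.le_floor, le_div_iff₀ hδ0]
        push_cast at h1 h2 ⊢
        linarith only [b2, h1]
      · rw [Int.le_floor, le_div_iff₀ hδ0]
        linarith only [h2, b1]
    · have := Int.lt_floor_add_one (g w N x y j' / δ)
      rw [div_lt_iff₀ hδ0] at this
      push_cast; exact this
    · have := Int.floor_le (g w N x y j' / δ)
      rw [le_div_iff₀ hδ0] at this
      push_cast; (clear * - hlt this; linarith)
  classical
  choose! l hl1 hl2 using hlev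
  have hcard := Finset.card_le_mul_card_image_of_maps_to (f := l) (s := F)
    (t := Finset.Icc (-⌊K / δ⌋) ⌊K / δ⌋) hl1 2 (fun b _ => by
      by_contra hcon
      rw [not_le] at hcon
      obtain ⟨m₁, h1, m₂, h2, m₃, h3, h12, h13, h23⟩ := Finset.two_lt_card.1 hcon
      rw [Finset.mem_filter] at h1 h2 h3
      have c1 := hl2 m₁ h1.1
      have c2 := hl2 m₂ h2.1
      have c3 := hl2 m₃ h3.1
      rw [h1.2] at c1
      rw [h2.2] at c2
      rw [h3.2] at c3
      have key : ∀ {a b' c : ℝ}, a ∈ F → b' ∈ F → c ∈ F → a < b' → b' < c →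
          Cross w x y N k (b * δ) a → Cross w x y N k (b * δ) b' →
          Cross w x y N k (b * δ) c → False := fun ha hb hc hab hbc x1 x2 x3 =>
        three_windows hw hx hy hN1 (hk _ ha _ hb hab) (hk _ hb _ hc hbc) x1 x2 x3
      rcases lt_or_gt_of_ne h12 with h12 | h12 <;> rcases lt_or_gt_of_ne h13 with h13 | h13 <;>
        rcases lt_or_gt_of_ne h23 with h23 | h23
      · exact key h1.1 h2.1 h3.1 h12 h23 c1 c2 c3
      · exact key h1.1 h3.1 h2.1 h13 h23 c1 c3 c2
      · linarith only [h12, h13, h23]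
      · exact key h3.1 h1.1 h2.1 h13 h12 c3 c1 c2
      · exact key h2.1 h1.1 h3.1 h12 h13 c2 c1 c3
      · linarith only [h12, h13, h23]
      · exact key h2.1 h3.1 h1.1 h23 h13 c2 c3 c1
      · exact key h3.1 h2.1 h1.1 h23 h12 c3 c2 c1)
  have hK0 : 0 ≤ K := (PT_nonneg hw).trans hK
  have hfl : 0 ≤ ⌊K / δ⌋ := Int.floor_nonneg.2 (div_nonneg hK0 hδ0.le)
  rw [Int.card_Icc] at hcard
  have h1 : (F.card : ℤ) ≤ 2 * (2 * ⌊K / δ⌋ + 1) := by
    have : ((⌊K / δ⌋ + 1 - -⌊K / δ⌋).toNat : ℤ) = 2 * ⌊K / δ⌋ + 1 := by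
      rw [Int.toNat_of_nonneg (by (clear * - hfl; omega))]; ring
    calc (F.card : ℤ) ≤ ((2 * (⌊K / δ⌋ + 1 - -⌊K / δ⌋).toNat : ℕ) : ℤ) := by exact_mod_cast hcard
      _ = 2 * (2 * ⌊K / δ⌋ + 1) := by push_cast; rw [← this]
  have h2 : (F.card : ℝ) ≤ 2 * (2 * (⌊K / δ⌋ : ℝ) + 1) := by exact_mod_cast h1
  have h3 := Int.floor_le (K / δ)
  have h4 : K / δ = K * ((n : ℝ) + 1) := by rw [hδ]; (clear * -; field_simp)
  rw [h4] at h3 h2
  linarith only [h2, h3]

end Vale.Agent.P158
end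
end
end

section

section

section

/-! Measurability of the events. -/

namespace Vale.Agent.P158

open Filter MeasureTheory

variable {α : Type*} [MeasurableSpace α]

theorem mle {f g : α → ℝ} (hf : Measurable f) (hg : Measurable g) :
    Measurable fun t => f t ≤ g t := measurableSet_setOfPred.1 (measurableSet_le hf hg)

theorem mlt {f g : α → ℝ} (hf : Measurable f) (hg : Measurable g) :
    Measurable fun t => f t < g t := measurableSet_setOfPred.1 (measurableSet_lt hf hg)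

theorem mconst (p : Prop) : Measurable fun _ : α => p := measurable_const

theorem m_ev_int {P : α → ℤ → Prop} (h : ∀ N, Measurable fun t => P t N) :
    Measurable fun t => ∀ᶠ N in atTop, P t N := by
  simp only [eventually_atTop]
  exact Measurable.exists fun M => Measurable.forall fun N => (mconst _).imp (h N)

theorem m_ev_nat {P : α → ℕ → Prop} (h : ∀ N, Measurable fun t => P t N) :
    Measurable fun t => ∀ᶠ N in atTop, P t N := by
  simp only [eventually_atTop]
  exact Measurable.exists fun M => Measurable.forall fun N => (mconst _).imp (h N)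

theorem m_fr_int {P : α → ℤ → Prop} (h : ∀ N, Measurable fun t => P t N) :
    Measurable fun t => ∃ᶠ N in atTop, P t N := (m_ev_int fun N => (h N).not).not

theorem m_subst {β : Type*} [MeasurableSpace β] {F : α → V → β}
    (hF : ∀ z, Measurable fun t => F t z) {f : α → V} (hf : Measurable f) :
    Measurable fun t => F t (f t) := by
  have h : Measurable (fun p : V × α => F p.2 p.1) :=
    measurable_from_prod_countable_right fun z => hF z
  exact h.comp (hf.prodMk measurable_id)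

theorem measurable_wt (x y : V) : Measurable fun t : Env => wt t x y := by
  unfold wt
  by_cases h : latt.Adj x y
  · simp only [dif_pos h]; exact measurable_pi_apply _
  · simp only [dif_neg h]; exact measurable_const

instance (x y : V) : Countable (latt.Walk x y) := by
  have : Function.Injective (fun p : latt.Walk x y => p.support) := fun p q h =>
    SimpleGraph.Walk.ext_support h
  exact this.countable

theorem measurable_ww {x y : V} (p : latt.Walk x y) : Measurable fun t : Env => ww (wt t) p := by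
  induction p with
  | nil => simp only [ww_nil]; exact measurable_const
  | cons h p ih => simp only [ww_cons]; exact (measurable_wt _ _).add ih

theorem measurable_PT (S : Set V) (x y : V) : Measurable fun t : Env => PT (wt t) S x y :=
  Measurable.iInf fun p => measurable_ww p.1

theorem measurable_T (x y : V) : Measurable fun t : Env => T (wt t) x y := measurable_PT _ _ _

theorem measurable_g (N : ℤ) (x y : V) (j : ℤ) :
    Measurable fun t : Env => g (wt t) N x y j := (measurable_PT _ _ _).sub (measurable_PT _ _ _)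

theorem measurable_Step (m : ℝ) (z a : V) : Measurable fun t : Env => Step (wt t) m z a := by
  unfold Step
  refine (mconst _).and (Measurable.and ?_ ?_)
  · exact Measurable.forall fun n => Measurable.exists fun k => m_fr_int fun N =>
      Measurable.forall fun j => (mconst _).imp
        (mle ((measurable_wt _ _).sub measurable_const) (measurable_g _ _ _ _))
  · exact Measurable.forall fun n => Measurable.forall fun k => m_ev_int fun N =>
      Measurable.exists fun j => (mconst _).and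
        (mle ((measurable_wt _ _).sub measurable_const) (measurable_g _ _ _ _))

theorem measurable_Bad (m : ℝ) (x y : V) (n : ℕ) :
    Measurable fun t : Env => Bad (wt t) m x y n := by
  unfold Bad
  exact Measurable.forall fun k => m_ev_int fun N => Measurable.exists fun j =>
    Measurable.exists fun j' => (mconst _).and ((mconst _).and
      (mlt measurable_const ((measurable_g _ _ _ _).sub (measurable_g _ _ _ _))))

theorem measurable_Small (m : ℝ) (x y : V) :
    Measurable fun t : Env => Small (wt t) m x y := by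
  simp only [small_iff]
  exact Measurable.forall fun n => (measurable_Bad m x y n).not

theorem measurable_phi (m : ℝ) (z : V) : Measurable fun t : Env => phi (wt t) m z := by
  unfold phi
  exact Measurable.ite (measurable_Step _ _ _).setOf measurable_const
    (Measurable.ite (measurable_Step _ _ _).setOf measurable_const
      (Measurable.ite (measurable_Step _ _ _).setOf measurable_const
        (Measurable.ite (measurable_Step _ _ _).setOf measurable_const measurable_const)))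

theorem measurable_orb (m : ℝ) (z : V) (n : ℕ) :
    Measurable fun t : Env => orb (wt t) m z n := by
  induction n with
  | zero => exact measurable_const
  | succ n ih =>
    simp only [orb_succ]
    exact m_subst (F := fun t z => phi (wt t) m z) (measurable_phi m) ih

theorem m_eqV {f g : α → V} (hf : Measurable f) (hg : Measurable g) :
    Measurable fun t => f t = g t := by
  have h := m_subst (F := fun t z => f t = z) (fun z =>
    measurableSet_setOfPred.1 (hf (measurableSet_singleton z))) hg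
  exact h

theorem measurable_Orb (m : ℝ) (z : V) : Measurable fun t : Env => Orb (wt t) m z := by
  have ho := measurable_orb m z
  unfold Orb IsRay Slope
  refine Measurable.and (Measurable.and ?_ ?_) ?_
  · refine Measurable.forall fun i => ?_
    exact m_subst (F := fun t y => latt.Adj (orb (wt t) m z i) y)
      (fun y => m_subst (F := fun _ x => latt.Adj x y) (fun x => mconst _) (ho i)) (ho (i + 1))
  · refine Measurable.forall fun n => ?_
    refine measurableSet_setOfPred.1 (measurableSet_eq_fun ?_ ?_)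
    · refine Finset.measurable_sum _ fun i _ => ?_
      exact m_subst (F := fun t y => wt t (orb (wt t) m z i) y)
        (fun y => m_subst (F := fun t x => wt t x y) (fun x => measurable_wt x y) (ho i))
        (ho (i + 1))
    · exact m_subst (F := fun t y => T (wt t) (orb (wt t) m z 0) y)
        (fun y => m_subst (F := fun t x => T (wt t) x y) (fun x => measurable_T x y) (ho 0))
        (ho n)
  · refine Measurable.forall fun q => m_ev_nat fun i => ?_
    exact m_subst (F := fun _ (y : V) => (q : ℝ) * |(y.2 : ℝ) - m * (y.1 : ℝ)| ≤ (y.1 : ℝ) ∧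
      (q : ℝ) ≤ (y.1 : ℝ)) (fun y => mconst _) (ho i)

theorem measurable_Trunk (m : ℝ) (v : V) : Measurable fun t : Env => Trunk (wt t) m v := by
  unfold Trunk
  exact Measurable.forall fun n => Measurable.exists fun u =>
    (m_eqV (measurable_orb m u n) measurable_const).and (measurable_Orb m u)

theorem measurable_Same (m : ℝ) (u v : V) : Measurable fun t : Env => Same (wt t) m u v := by
  unfold Same
  exact Measurable.exists fun n => Measurable.exists fun k =>
    m_eqV (measurable_orb m u n) (measurable_orb m v k)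

theorem measurable_Reg (m : ℝ) (x v : V) : Measurable fun t : Env => Reg (wt t) m x v := by
  unfold Reg bus
  refine (measurable_T x v).sub (Measurable.iInf fun n => ?_)
  refine Measurable.sub ?_ ?_
  · exact m_subst (F := fun t y => T (wt t) x y) (fun y => measurable_T x y)
      (measurable_orb m v n)
  · exact m_subst (F := fun t y => T (wt t) (orb (wt t) m v 0) y)
        (fun y => m_subst (F := fun t x => T (wt t) x y) (fun x => measurable_T x y)
        (measurable_orb m v 0)) (measurable_orb m v n)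

theorem measurable_Near (m : ℝ) (d : ℕ) (u v : V) :
    Measurable fun t : Env => Near (wt t) m d u v := by
  unfold Near
  exact Measurable.exists fun x => Measurable.exists fun y =>
    (measurable_Trunk m x).and ((measurable_Trunk m y).and ((measurable_Same m x u).and
      ((measurable_Same m y v).and (mconst _))))

theorem measurable_Nst (m : ℝ) (u v : V) : Measurable fun t : Env => Nst (wt t) m u v := by
  unfold Nst
  exact (measurable_Trunk m u).and ((measurable_Same m u v).not.and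
    (Measurable.exists fun d => (measurable_Near m d u v).and
      (Measurable.forall fun u' => Measurable.forall fun d' => (measurable_Trunk m u').imp
        ((measurable_Same m u' v).not.imp ((measurable_Near m d' u' v).imp (mconst _))))))

theorem measurable_Aev (m : ℝ) (n : ℕ) (v : V) :
    Measurable fun t : Env => Aev (wt t) m n v := by
  unfold Aev
  exact Measurable.exists fun u => (measurable_Nst m u v).and (Measurable.forall fun x =>
    (measurable_Trunk m x).imp ((measurable_Same m x u).imp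
      (mlt measurable_const (measurable_Reg m x v))))

theorem measurable_TBev (m : ℝ) (u z : V) :
    Measurable fun t : Env => TBev (wt t) m u z := by
  unfold TBev
  exact (measurable_Trunk m z).and ((measurable_Trunk m u).and
    ((measurable_Same m u z).not.and (Measurable.forall fun n => Measurable.exists fun x =>
      (measurable_Trunk m x).and ((measurable_Same m x u).and
        (mle (measurable_Reg m x z) measurable_const)))))

theorem measurable_Adm : Measurable fun t : Env => Adm (wt t) := by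
  have : (fun t : Env => Adm (wt t)) = fun t => (∀ x y, wt t x y = wt t y x) ∧
      ∀ x y, latt.Adj x y → 0 < wt t x y := by
    funext t
    exact propext ⟨fun h => ⟨h.symm, h.pos⟩, fun h => ⟨h.1, h.2⟩⟩
  rw [this]
  exact (Measurable.forall fun x => Measurable.forall fun y =>
    measurableSet_setOfPred.1 (measurableSet_eq_fun (measurable_wt _ _)
      (measurable_wt _ _))).and (Measurable.forall fun x => Measurable.forall fun y =>
      (mconst _).imp (mlt measurable_const (measurable_wt _ _)))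

theorem measurable_Good (m : ℝ) : Measurable fun t : Env => Good (wt t) m := by
  have : (fun t : Env => Good (wt t) m) = fun t => Adm (wt t) ∧
      (∀ x y, Small (wt t) m x y) ∧
      ∀ z a a', Step (wt t) m z a → Step (wt t) m z a' → a = a' := by
    funext t
    exact propext ⟨fun h => ⟨h.adm, h.small, h.uniq⟩, fun h => ⟨h.1, h.2.1, h.2.2⟩⟩
  rw [this]
  exact measurable_Adm.and ((Measurable.forall fun x => Measurable.forall fun y =>
    measurable_Small m x y).and (Measurable.forall fun z => Measurable.forall fun a =>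
      Measurable.forall fun a' => (measurable_Step m z a).imp
        ((measurable_Step m z a').imp (mconst _))))

theorem measurable_InjT (m : ℝ) : Measurable fun t : Env => InjT (wt t) m := by
  unfold InjT
  exact Measurable.forall fun u => Measurable.forall fun u' => (measurable_Trunk m u).imp
    ((measurable_Trunk m u').imp ((m_eqV (measurable_phi m u) (measurable_phi m u')).imp
      (mconst _)))

end Vale.Agent.P158
end
end
end

section

section

section

/-! Translation equivariance. -/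

namespace Vale.Agent.P158

open Filter

variable {w : V → V → ℝ} {m : ℝ} {u v x y z a : V}

/-- Translated weight function. -/
def sh (u : V) (w : V → V → ℝ) (x y : V) : ℝ := w (x + u) (y + u)

theorem adj_add (h : latt.Adj x y) (u : V) : latt.Adj (x + u) (y + u) := by
  have h' : |x.1 - y.1| + |x.2 - y.2| = 1 := h
  change |(x + u).1 - (y + u).1| + |(x + u).2 - (y + u).2| = 1
  simpa only [Prod.fst_add, add_sub_add_right_eq_sub, Prod.snd_add] using h'

theorem adj_add_iff (u : V) : latt.Adj (x + u) (y + u) ↔ latt.Adj x y := by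
  refine ⟨fun h => ?_, fun h => adj_add h u⟩
  have := adj_add h (-u)
  simpa using this

/-- Translation as a graph homomorphism. -/
def shHom (u : V) : latt →g latt where
  toFun x := x + u
  map_rel' h := adj_add h u

theorem Adm.sh (hw : Adm w) (u : V) : Adm (sh u w) :=
  ⟨fun _ _ => hw.symm _ _, fun _ _ h => hw.pos _ _ (adj_add h u)⟩

theorem sh_sh (u : V) (w : V → V → ℝ) : sh (-u) (sh u w) = w := by
  funext x y
  simp [sh]

theorem ww_map (u : V) (w : V → V → ℝ) (p : latt.Walk x y) :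
    ww w (p.map (shHom u)) = ww (sh u w) p := by
  induction p with
  | nil => rfl
  | cons h p ih =>
    rw [SimpleGraph.Walk.map_cons, ww_cons, ww_cons, ih]
    rfl

/-- Translated set. -/
def trs (u : V) (S : Set V) : Set V := {z | z - u ∈ S}

theorem Conn.sh {S : Set V} (h : Conn S x y) (u : V) : Conn (trs u S) (x + u) (y + u) := by
  obtain ⟨p, hp⟩ := h
  refine ⟨p.map (shHom u), fun z hz0 => ?_⟩
  have hz : z ∈ (SimpleGraph.Walk.map (shHom u) p).support := hz0
  rw [SimpleGraph.Walk.support_map, List.mem_map] at hz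
  obtain ⟨b, hb, rfl⟩ := hz
  change b + u - u ∈ S
  rw [add_sub_cancel_right]
  exact hp b hb

theorem trs_trs (u : V) (S : Set V) : trs (-u) (trs u S) = S := by
  ext z; simp only [trs, sub_neg_eq_add, Set.mem_ofPred_eq, add_sub_cancel_right, Set.ofPred_mem_eq]

theorem PT_sh_le (hw : Adm w) {S : Set V} (h : Conn S x y) (u : V) :
    PT w (trs u S) (x + u) (y + u) ≤ PT (sh u w) S x y := by
  refine le_PT h fun p hp => ?_
  rw [← ww_map]
  refine PT_le hw _ fun z hz0 => ?_
  have hz : z ∈ (SimpleGraph.Walk.map (shHom u) p).support := hz0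
  rw [SimpleGraph.Walk.support_map, List.mem_map] at hz
  obtain ⟨b, hb, rfl⟩ := hz
  change b + u - u ∈ S
  rw [add_sub_cancel_right]
  exact hp b hb

theorem PT_sh (hw : Adm w) {S : Set V} (h : Conn S x y) (u : V) :
    PT (sh u w) S x y = PT w (trs u S) (x + u) (y + u) := by
  refine le_antisymm ?_ (PT_sh_le hw h u)
  have := PT_sh_le (hw.sh u) (h.sh u) (-u)
  rwa [trs_trs, sh_sh, add_neg_cancel_right, add_neg_cancel_right] at this

theorem trs_HN (u : V) (N : ℤ) : trs u (HN N) = HN (N + u.1) := by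
  ext z
  change (z - u).1 ≤ N ↔ z.1 ≤ N + u.1
  rw [Prod.fst_sub]
  omega

theorem T_sh (hw : Adm w) (u x y : V) : T (sh u w) x y = T w (x + u) (y + u) := by
  unfold T
  rw [PT_sh hw (conn_univ x y) u]
  rfl

theorem g_sh (hw : Adm w) (u : V) {N : ℤ} {x y : V} (hx : x ∈ HN N) (hy : y ∈ HN N) (j : ℤ) :
    g (sh u w) N x y j = g w (N + u.1) (x + u) (y + u) (j + u.2) := by
  unfold g
  rw [PT_sh hw (conn_HN hx (mem_HN_col N j)) u, PT_sh hw (conn_HN hy (mem_HN_col N j)) u,
    trs_HN]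
  rfl

theorem J_sh (u : V) (m : ℝ) (x : V) (k : ℕ) (N j : ℤ) :
    J m (x + u) k (N + u.1) (j + u.2) ↔ J m x k N j := by
  unfold J
  rw [Prod.fst_add, Prod.snd_add, add_sub_add_right_eq_sub, add_sub_add_right_eq_sub]

theorem eventually_add_iff (c : ℤ) (P : ℤ → Prop) :
    (∀ᶠ N in atTop, P (N + c)) ↔ ∀ᶠ N in atTop, P N := by
  rw [eventually_atTop, eventually_atTop]
  constructor
  · rintro ⟨b, hb⟩
    exact ⟨b + c, fun n hn => by simpa using hb (n - c) (by omega)⟩
  · rintro ⟨b, hb⟩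
    exact ⟨b - c, fun n hn => hb _ (by omega)⟩

theorem frequently_add_iff (c : ℤ) (P : ℤ → Prop) :
    (∃ᶠ N in atTop, P (N + c)) ↔ ∃ᶠ N in atTop, P N := by
  unfold Filter.Frequently
  rw [not_iff_not]
  exact eventually_add_iff c fun N => ¬ P N

theorem Step_sh (hw : Adm w) (u : V) (m : ℝ) (z a : V) :
    Step (sh u w) m z a ↔ Step w m (z + u) (a + u) := by
  have hz : ∀ᶠ N : ℤ in atTop, z ∈ HN N ∧ a ∈ HN N :=
    (eventually_ge_atTop z.1).and (eventually_ge_atTop a.1)
  unfold Step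
  refine and_congr (adj_add_iff u).symm (and_congr ?_ ?_)
  · refine forall_congr' fun n => exists_congr fun k => ?_
    rw [← frequently_add_iff u.1 (fun N => ∀ j : ℤ, J m (z + u) k N j →
      w (z + u) (a + u) - 1 / ((n : ℝ) + 1) ≤ g w N (z + u) (a + u) j)]
    refine Filter.frequently_congr ?_
    filter_upwards [hz] with N hN
    constructor
    · intro h j hj
      have h1 := h (j - u.2) (by
        rw [← J_sh u]; simpa using hj)
      rw [g_sh hw u hN.1 hN.2] at h1
      simpa only [one_div, tsub_le_iff_right, ge_iff_le, sh, sub_add_cancel] using h1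
    · intro h j hj
      rw [g_sh hw u hN.1 hN.2]
      exact h _ ((J_sh u m z k N j).2 hj)
  · refine forall_congr' fun n => forall_congr' fun k => ?_
    rw [← eventually_add_iff u.1 (fun N => ∃ j : ℤ, J m (z + u) k N j ∧
      w (z + u) (a + u) - 1 / ((n : ℝ) + 1) ≤ g w N (z + u) (a + u) j)]
    refine Filter.eventually_congr ?_
    filter_upwards [hz] with N hN
    constructor
    · rintro ⟨j, hj, hj'⟩
      rw [g_sh hw u hN.1 hN.2] at hj'
      exact ⟨j + u.2, (J_sh u m z k N j).2 hj, hj'⟩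
    · rintro ⟨j, hj, hj'⟩
      refine ⟨j - u.2, ?_, ?_⟩
      · rw [← J_sh u]; simpa using hj
      · rw [g_sh hw u hN.1 hN.2]
        simpa only [sh, one_div, sub_add_cancel, tsub_le_iff_right] using hj'

theorem phi_sh (hw : Adm w) (u : V) (m : ℝ) (z : V) :
    phi (sh u w) m z + u = phi w m (z + u) := by
  have e1 : ((z.1 + 1, z.2) : V) + u = ((z + u).1 + 1, (z + u).2) := by
    ext <;> simp; ring
  have e2 : ((z.1 - 1, z.2) : V) + u = ((z + u).1 - 1, (z + u).2) := by
    ext <;> simp; ring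
  have e3 : ((z.1, z.2 + 1) : V) + u = ((z + u).1, (z + u).2 + 1) := by
    ext <;> simp; ring
  have e4 : ((z.1, z.2 - 1) : V) + u = ((z + u).1, (z + u).2 - 1) := by
    ext <;> simp; ring
  have s1 := Step_sh hw u m z (z.1 + 1, z.2)
  have s2 := Step_sh hw u m z (z.1 - 1, z.2)
  have s3 := Step_sh hw u m z (z.1, z.2 + 1)
  have s4 := Step_sh hw u m z (z.1, z.2 - 1)
  rw [e1] at s1
  rw [e2] at s2
  rw [e3] at s3
  rw [e4] at s4
  unfold phi
  by_cases h1 : Step w m (z + u) ((z + u).1 + 1, (z + u).2)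
  · rw [if_pos (s1.2 h1), if_pos h1]; exact e1
  rw [if_neg (mt s1.1 h1), if_neg h1]
  by_cases h2 : Step w m (z + u) ((z + u).1 - 1, (z + u).2)
  · rw [if_pos (s2.2 h2), if_pos h2]; exact e2
  rw [if_neg (mt s2.1 h2), if_neg h2]
  by_cases h3 : Step w m (z + u) ((z + u).1, (z + u).2 + 1)
  · rw [if_pos (s3.2 h3), if_pos h3]; exact e3
  rw [if_neg (mt s3.1 h3), if_neg h3]
  by_cases h4 : Step w m (z + u) ((z + u).1, (z + u).2 - 1)
  · rw [if_pos (s4.2 h4), if_pos h4]; exact e4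
  rw [if_neg (mt s4.1 h4), if_neg h4]

theorem orb_sh (hw : Adm w) (u : V) (m : ℝ) (z : V) (n : ℕ) :
    orb (sh u w) m z n + u = orb w m (z + u) n := by
  induction n with
  | zero => rfl
  | succ n ih => rw [orb_succ, orb_succ, ← ih, phi_sh hw]

theorem IsRay_sh (hw : Adm w) (u : V) (r : ℕ → V) :
    IsRay (sh u w) r ↔ IsRay w (fun i => r i + u) := by
  unfold IsRay
  refine and_congr (forall_congr' fun i => (adj_add_iff u).symm) (forall_congr' fun n => ?_)
  rw [T_sh hw]
  rfl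

theorem Slope.add {r : ℕ → V} (hs : Slope m r) (u : V) : Slope m (fun i => r i + u) := by
  intro q
  obtain ⟨M, hM⟩ := exists_nat_ge
    (2 * ((q : ℝ) * (|(u.2 : ℝ)| + |m| * |(u.1 : ℝ)|) + |(u.1 : ℝ)|) + q)
  filter_upwards [hs (2 * q), hs M] with i h1 h2
  have h1' := h1.1
  have h2' := h2.2
  simp only [Prod.fst_add, Prod.snd_add]
  push_cast at h1' ⊢
  have hq : (0 : ℝ) ≤ q := Nat.cast_nonneg q
  have hu := neg_abs_le (u.1 : ℝ)
  have hu' := abs_nonneg (u.1 : ℝ)
  have h0 : (0 : ℝ) ≤ (q : ℝ) * (|(u.2 : ℝ)| + |m| * |(u.1 : ℝ)|) := by (clear * -; positivity)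
  constructor
  · have h3 : |((r i).2 : ℝ) + (u.2 : ℝ) - m * (((r i).1 : ℝ) + (u.1 : ℝ))| ≤
        |((r i).2 : ℝ) - m * ((r i).1 : ℝ)| + (|(u.2 : ℝ)| + |m| * |(u.1 : ℝ)|) := by
      have e : ((r i).2 : ℝ) + (u.2 : ℝ) - m * (((r i).1 : ℝ) + (u.1 : ℝ)) =
        (((r i).2 : ℝ) - m * ((r i).1 : ℝ)) + ((u.2 : ℝ) + -(m * (u.1 : ℝ))) := by ring
      rw [e]
      refine (abs_add_le _ _).trans (add_le_add le_rfl ?_)
      refine (abs_add_le _ _).trans ?_
      rw [abs_neg, abs_mul]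
    have h4 := mul_le_mul_of_nonneg_left h3 hq
    have h5 : (q : ℝ) * (|((r i).2 : ℝ) - m * ((r i).1 : ℝ)| +
        (|(u.2 : ℝ)| + |m| * |(u.1 : ℝ)|)) = (q : ℝ) * |((r i).2 : ℝ) - m * ((r i).1 : ℝ)| +
        (q : ℝ) * (|(u.2 : ℝ)| + |m| * |(u.1 : ℝ)|) := by ring
    rw [h5] at h4
    linarith only [hM, h2, h1', hu, h4]
  · linarith

theorem Slope_add_iff {r : ℕ → V} (u : V) : Slope m (fun i => r i + u) ↔ Slope m r := by
  refine ⟨fun h => ?_, fun h => h.add u⟩
  have := h.add (-u)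
  simpa using this

theorem Orb_sh (hw : Adm w) (u : V) (m : ℝ) (z : V) :
    Orb (sh u w) m z ↔ Orb w m (z + u) := by
  unfold Orb
  have e : orb w m (z + u) = fun i => orb (sh u w) m z i + u :=
    funext fun i => (orb_sh hw u m z i).symm
  rw [IsRay_sh hw, e, Slope_add_iff]

theorem exists_add_iff (u : V) (P : V → Prop) : (∃ x, P (x + u)) ↔ ∃ x, P x :=
  ⟨fun ⟨x, hx⟩ => ⟨x + u, hx⟩, fun ⟨x, hx⟩ => ⟨x - u, by simpa using hx⟩⟩

theorem forall_add_iff (u : V) (P : V → Prop) : (∀ x, P (x + u)) ↔ ∀ x, P x :=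
  ⟨fun h x => by simpa using h (x - u), fun h x => h (x + u)⟩

theorem Trunk_sh (hw : Adm w) (u : V) (m : ℝ) (v : V) :
    Trunk (sh u w) m v ↔ Trunk w m (v + u) := by
  unfold Trunk
  refine forall_congr' fun n => ?_
  rw [← exists_add_iff u (fun x => orb w m x n = v + u ∧ Orb w m x)]
  refine exists_congr fun x => and_congr ?_ (Orb_sh hw u m x)
  rw [← orb_sh hw, add_left_inj]

theorem Same_sh (hw : Adm w) (u : V) (m : ℝ) (x y : V) :
    Same (sh u w) m x y ↔ Same w m (x + u) (y + u) := by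
  unfold Same
  refine exists_congr fun n => exists_congr fun k => ?_
  rw [← orb_sh hw, ← orb_sh hw, add_left_inj]

theorem bus_sh (hw : Adm w) (u : V) (r : ℕ → V) (x : V) :
    bus (sh u w) r x = bus w (fun i => r i + u) (x + u) := by
  unfold bus
  simp only [T_sh hw]

theorem Reg_sh (hw : Adm w) (u : V) (m : ℝ) (x v : V) :
    Reg (sh u w) m x v = Reg w m (x + u) (v + u) := by
  unfold Reg
  have e : orb w m (v + u) = fun i => orb (sh u w) m v i + u :=
    funext fun i => (orb_sh hw u m v i).symm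
  rw [T_sh hw, bus_sh hw, e]

theorem walk_len_sh (u : V) (x y : V) (d : ℕ) :
    (∃ p : latt.Walk (x + u) (y + u), p.length = d) ↔ ∃ p : latt.Walk x y, p.length = d := by
  constructor
  · rintro ⟨p, hp⟩
    refine ⟨(p.map (shHom (-u))).copy (by simp [shHom]) (by simp [shHom]), ?_⟩
    rw [SimpleGraph.Walk.length_copy, SimpleGraph.Walk.length_map, hp]
  · rintro ⟨p, hp⟩
    exact ⟨p.map (shHom u), (SimpleGraph.Walk.length_map _ _).trans hp⟩

theorem Near_sh (hw : Adm w) (u : V) (m : ℝ) (d : ℕ) (x v : V) :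
    Near (sh u w) m d x v ↔ Near w m d (x + u) (v + u) := by
  unfold Near
  rw [← exists_add_iff u (fun a => ∃ y, Trunk w m a ∧ Trunk w m y ∧ Same w m a (x + u) ∧
    Same w m y (v + u) ∧ ∃ p : latt.Walk a y, p.length = d)]
  refine exists_congr fun a => ?_
  rw [← exists_add_iff u (fun y => Trunk w m (a + u) ∧ Trunk w m y ∧
    Same w m (a + u) (x + u) ∧ Same w m y (v + u) ∧ ∃ p : latt.Walk (a + u) y, p.length = d)]
  refine exists_congr fun b => ?_
  rw [Trunk_sh hw, Trunk_sh hw, Same_sh hw, Same_sh hw, walk_len_sh]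

theorem Nst_sh (hw : Adm w) (u : V) (m : ℝ) (x v : V) :
    Nst (sh u w) m x v ↔ Nst w m (x + u) (v + u) := by
  unfold Nst
  rw [Trunk_sh hw, Same_sh hw]
  refine and_congr Iff.rfl (and_congr Iff.rfl (exists_congr fun d =>
    and_congr (Near_sh hw u m d x v) ?_))
  rw [← forall_add_iff u (fun u' => ∀ d', Trunk w m u' → ¬ Same w m u' (v + u) →
    Near w m d' u' (v + u) → d ≤ d')]
  refine forall_congr' fun u' => forall_congr' fun d' => ?_
  rw [Trunk_sh hw, Same_sh hw, Near_sh hw]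

theorem Aev_sh (hw : Adm w) (u : V) (m : ℝ) (n : ℕ) (v : V) :
    Aev (sh u w) m n v ↔ Aev w m n (v + u) := by
  unfold Aev
  rw [← exists_add_iff u (fun x => Nst w m x (v + u) ∧ ∀ y, Trunk w m y → Same w m y x →
    1 / ((n : ℝ) + 1) < Reg w m y (v + u))]
  refine exists_congr fun x => and_congr (Nst_sh hw u m x v) ?_
  rw [← forall_add_iff u (fun y => Trunk w m y → Same w m y (x + u) →
    1 / ((n : ℝ) + 1) < Reg w m y (v + u))]
  refine forall_congr' fun y => ?_
  rw [Trunk_sh hw, Same_sh hw, Reg_sh hw]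

end Vale.Agent.P158
end
end
end

section

section

section

/-! Two different steps from the same vertex: at most one value of an edge weight. -/

namespace Vale.Agent.P158

open Filter

/-- A walk that avoids `z` has the same weight for weight functions that agree off the
edges at `z`. -/
theorem ww_congr_of_avoid {w₀ w₁ : V → V → ℝ} {z : V}
    (heq : ∀ x y, x ≠ z → y ≠ z → w₀ x y = w₁ x y) {x y : V} (p : latt.Walk x y)
    (hz : z ∉ p.support) : ww w₀ p = ww w₁ p := by
  induction p with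
  | nil => rfl
  | cons h p ih =>
    rw [SimpleGraph.Walk.support_cons, List.mem_cons, not_or] at hz
    rw [ww_cons, ww_cons, ih hz.2, heq _ _ (fun h => hz.1 h.symm)
      (fun h => hz.2 (h ▸ p.start_mem_support))]

theorem tie {w₀ w₁ : V → V → ℝ} {m : ℝ} (h0 : Adm w₀) (h1 : Adm w₁) {z a a' : V}
    (hlt : w₀ z a < w₁ z a) (heq : ∀ x y, s(x, y) ≠ s(z, a) → w₀ x y = w₁ x y)
    (haa : a ≠ a') (hS0 : Step w₀ m z a') (hS1 : Step w₁ m z a) : False := by
  obtain ⟨hadj', -, hS0⟩ := hS0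
  obtain ⟨hadj, hS1, -⟩ := hS1
  have ht' : w₀ z a' = w₁ z a' := by
    apply heq
    intro h
    rw [Sym2.eq_iff] at h
    rcases h with ⟨-, h⟩ | ⟨h, h'⟩
    · exact haa h.symm
    · rw [h] at hadj; exact latt.loopless.irrefl _ hadj
  have hpos : 0 < w₀ z a' := h0.pos _ _ hadj'
  have hle : ∀ x y, w₀ x y ≤ w₁ x y := by
    intro x y
    by_cases hxy : s(x, y) = s(z, a)
    · rw [Sym2.eq_iff] at hxy
      rcases hxy with ⟨rfl, rfl⟩ | ⟨rfl, rfl⟩
      · exact hlt.le
      · rw [h0.symm, h1.symm x y]; exact hlt.le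
    · exact (heq x y hxy).le
  obtain ⟨n, hn⟩ := exists_nat_one_div_lt
    (lt_min (half_pos (sub_pos.2 hlt)) (half_pos hpos))
  set ε : ℝ := 1 / ((n : ℝ) + 1) with hε
  have hε0 : 0 < ε := by (clear * -; positivity)
  have hε1 : 2 * ε < w₁ z a - w₀ z a := by
    have := (lt_min_iff.1 hn).1; linarith only [this]
  have hε2 : 2 * ε < w₀ z a' := by
    have := (lt_min_iff.1 hn).2; linarith only [this]
  obtain ⟨k, hk⟩ := hS1 n
  have hk' := hS0 n k
  obtain ⟨N, hN1, hN2, hN3⟩ := (hk.and_eventually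
    (hk'.and (eventually_ge_atTop (max z.1 (max a.1 a'.1))))).exists
  obtain ⟨j, hj, hj'⟩ := hN2
  have hj1 := hN1 j hj
  have hzN : z ∈ HN N := le_trans (le_max_left _ _) hN3
  have haN : a ∈ HN N := le_trans (le_trans (le_max_left _ _) (le_max_right _ _)) hN3
  have haN' : a' ∈ HN N := le_trans (le_trans (le_max_right _ _) (le_max_right _ _)) hN3
  have hvN := mem_HN_col N j
  set v : V := (N, j) with hv
  have e1 : w₁ z a - ε ≤ PT w₁ (HN N) z v - PT w₁ (HN N) a v := hj1
  have e2 : w₀ z a' - ε ≤ PT w₀ (HN N) z v - PT w₀ (HN N) a' v := hj'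
  have e3 : PT w₀ (HN N) a v ≤ PT w₁ (HN N) a v :=
    PT_mono_weight h0 (fun x y _ => hle x y) (conn_HN haN hvN)
  have e4 : PT w₀ (HN N) z v ≤ w₀ z a + PT w₀ (HN N) a v := by
    have := PT_triangle h0 (conn_HN hzN haN) (conn_HN haN hvN)
    have h' := PT_adj_le (S := HN N) h0 hadj hzN haN
    linarith only [this, h']
  have e5 : min (PT w₀ (HN N) z v) (PT w₁ (HN N) z v - w₀ z a') ≤ PT w₀ (HN N) a' v := by
    refine le_PT (conn_HN haN' hvN) fun q hq => ?_
    by_cases hzq : z ∈ q.support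
    · refine (min_le_left _ _).trans ?_
      have hq2 : ∀ u ∈ (q.dropUntil z hzq).support, u ∈ HN N := fun u hu =>
        hq u (q.support_dropUntil_subset_support hzq hu)
      have := PT_le h0 (q.dropUntil z hzq) hq2
      refine this.trans ?_
      have hspec := congrArg (ww w₀) (q.take_spec hzq)
      rw [ww_append] at hspec
      have := ww_nonneg h0 (q.takeUntil z hzq)
      linarith only [hspec, this]
    · refine (min_le_right _ _).trans ?_
      have hcong : ww w₀ q = ww w₁ q := by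
        refine ww_congr_of_avoid (z := z) (fun x y hx hy => heq x y ?_) q hzq
        intro h
        rw [Sym2.eq_iff] at h
        rcases h with ⟨h, -⟩ | ⟨-, h⟩
        · exact hx h
        · exact hy h
      have := PT_le (S := HN N) h1 (SimpleGraph.Walk.cons hadj' q) fun u hu => by
        rw [SimpleGraph.Walk.support_cons, List.mem_cons] at hu
        rcases hu with rfl | hu
        · exact hzN
        · exact hq u hu
      rw [ww_cons, ← ht', ← hcong] at this
      linarith only [this]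
  rcases min_le_iff.1 e5 with h | h
  · linarith only [hε0, hε2, e2, h]
  · linarith only [hε1, e1, e2, e3, e4, h]

end Vale.Agent.P158
end
end
end

section

section

section

/-! The product measure: invariance, resampling, mass transport. -/

namespace Vale.Agent.P158

open Filter MeasureTheory
open scoped ENNReal

/-- The law of an i.i.d. environment. -/
noncomputable def PG (G : Measure ℝ) [IsProbabilityMeasure G] : Measure Env :=
  Measure.infinitePi (fun _ : latt.edgeSet => G)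

variable {G : Measure ℝ} [IsProbabilityMeasure G] {m : ℝ}

instance : IsProbabilityMeasure (PG G) := by unfold PG; infer_instance

theorem mp_perm (σ : latt.edgeSet ≃ latt.edgeSet) :
    MeasurePreserving (fun (t : Env) e => t (σ e)) (PG G) (PG G) := by
  classical
  have hm : Measurable (fun (t : Env) (e : latt.edgeSet) => t (σ e)) :=
    measurable_pi_lambda _ fun e => measurable_pi_apply _
  refine ⟨hm, ?_⟩
  refine Measure.eq_infinitePi _ fun s t ht => ?_
  rw [Measure.map_apply hm (MeasurableSet.pi s.countable_toSet fun i _ => ht i)]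
  have e1 : (fun (t : Env) (e : latt.edgeSet) => t (σ e)) ⁻¹' (Set.pi s t) =
      Set.pi (s.map σ.toEmbedding : Finset latt.edgeSet) (fun e => t (σ.symm e)) := by
    ext x
    simp only [Set.mem_preimage, Set.mem_pi, Finset.mem_coe, Finset.mem_map, Equiv.coe_toEmbedding]
    constructor
    · rintro h _ ⟨e, he, rfl⟩
      rw [Equiv.symm_apply_apply]
      exact h e he
    · intro h e he
      have := h (σ e) ⟨e, he, rfl⟩
      rwa [Equiv.symm_apply_apply] at this
  rw [e1]
  unfold PG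
  rw [Measure.infinitePi_pi _ fun i _ => ht _, Finset.prod_map]
  simp only [Function.Embedding.coeFn_mk, Equiv.symm_apply_apply]

theorem mp_update (e : latt.edgeSet) :
    MeasurePreserving (fun p : Env × ℝ => Function.update p.1 e p.2) ((PG G).prod G) (PG G) := by
  classical
  have hm : Measurable (fun p : Env × ℝ => Function.update p.1 e p.2) := by
    refine measurable_pi_lambda _ fun i => ?_
    by_cases h : i = e
    · subst h
      simp only [Function.update_self]
      exact measurable_snd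
    · simp only [Function.update_of_ne h]
      exact (measurable_pi_apply i).comp measurable_fst
  refine ⟨hm, ?_⟩
  refine Measure.eq_infinitePi _ fun s t ht => ?_
  rw [Measure.map_apply hm (MeasurableSet.pi s.countable_toSet fun i _ => ht i)]
  by_cases he : e ∈ s
  · have e1 : (fun p : Env × ℝ => Function.update p.1 e p.2) ⁻¹' (Set.pi s t) =
        (Set.pi (s.erase e : Finset latt.edgeSet) t) ×ˢ (t e) := by
      ext ⟨x, r⟩
      simp only [Set.mem_preimage, Set.mem_pi, Finset.mem_coe, Finset.mem_erase, Set.mem_prod]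
      constructor
      · intro h
        refine ⟨fun i hi => ?_, ?_⟩
        · have := h i hi.2
          rwa [Function.update_of_ne hi.1] at this
        · have := h e he
          rwa [Function.update_self] at this
      · rintro ⟨h1, h2⟩ i hi
        by_cases hie : i = e
        · subst hie; rwa [Function.update_self]
        · rw [Function.update_of_ne hie]; exact h1 i ⟨hie, hi⟩
    rw [e1, Measure.prod_prod]
    unfold PG
    rw [Measure.infinitePi_pi _ fun i _ => ht _, Finset.prod_erase_mul _ _ he]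
  · have e1 : (fun p : Env × ℝ => Function.update p.1 e p.2) ⁻¹' (Set.pi s t) =
        (Set.pi (s : Finset latt.edgeSet) t) ×ˢ Set.univ := by
      ext ⟨x, r⟩
      simp only [Set.mem_preimage, Set.mem_pi, Finset.mem_coe, Set.mem_prod, Set.mem_univ,
        and_true]
      refine forall_congr' fun i => forall_congr' fun hi => ?_
      have hie : i ≠ e := fun h => he (h ▸ hi)
      rw [Function.update_of_ne hie]
    rw [e1, Measure.prod_prod, measure_univ, mul_one]
    unfold PG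
    rw [Measure.infinitePi_pi _ fun i _ => ht _]

/-- Resampling one edge. -/
theorem null_of_section [NullSingletonClass G] {A : Set Env} (hA : MeasurableSet A) (e : latt.edgeSet)
    (h : ∀ (t : Env) (s₀ s₁ : ℝ), s₀ < s₁ → Function.update t e s₀ ∈ A →
      Function.update t e s₁ ∈ A → False) : PG G A = 0 := by
  have hmp := mp_update (G := G) e
  rw [← hmp.measure_preimage hA.nullMeasurableSet,
    Measure.measure_prod_null (hmp.measurable hA)]
  refine Eventually.of_forall fun t => ?_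
  refine Set.Subsingleton.measure_zero ?_ G
  intro a ha b hb
  by_contra hab
  rcases lt_or_gt_of_ne hab with hlt | hlt
  · exact h t a b hlt ha hb
  · exact h t b a hlt hb ha

/-- Translation as a graph isomorphism. -/
def shIso (u : V) : latt ≃g latt where
  toEquiv := Equiv.addRight u
  map_rel_iff' := adj_add_iff u

/-- Environment seen through a graph automorphism. -/
def isoE (φ : latt ≃g latt) (t : Env) : Env := fun e => t (φ.mapEdgeSet e)

theorem wt_isoE (φ : latt ≃g latt) (t : Env) (x y : V) :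
    wt (isoE φ t) x y = wt t (φ x) (φ y) := by
  unfold wt
  by_cases h : latt.Adj x y
  · rw [dif_pos h, dif_pos (φ.map_adj_iff.2 h)]
    rfl
  · rw [dif_neg h, dif_neg (fun h' => h (φ.map_adj_iff.1 h'))]

/-- Translated environment. -/
def shE (u : V) (t : Env) : Env := isoE (shIso u) t

theorem wt_shE (u : V) (t : Env) : wt (shE u t) = sh u (wt t) := by
  funext x y
  exact wt_isoE (shIso u) t x y

theorem mp_iso (φ : latt ≃g latt) : MeasurePreserving (isoE φ) (PG G) (PG G) :=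
  mp_perm φ.mapEdgeSet

theorem mp_sh (u : V) : MeasurePreserving (shE u) (PG G) (PG G) := mp_iso (shIso u)

theorem ae_shift {Q : Env → Prop} (h : ∀ᵐ t ∂PG G, Q t) : ∀ᵐ t ∂PG G, ∀ u, Q (shE u t) :=
  ae_all_iff.2 fun u => (mp_sh u).quasiMeasurePreserving.ae h

/-- Mass transport. -/
theorem mtp (f : Env → V → V → ℝ≥0∞) (hf : ∀ x y, Measurable fun t => f t x y)
    (hinv : ∀ᵐ t ∂PG G, ∀ u x y, f (shE u t) x y = f t (x + u) (y + u)) :
    ∫⁻ t, ∑' y, f t 0 y ∂PG G = ∫⁻ t, ∑' y, f t y 0 ∂PG G := by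
  rw [lintegral_tsum fun y => (hf 0 y).aemeasurable,
    lintegral_tsum fun y => (hf y 0).aemeasurable]
  have key : ∀ u : V, ∫⁻ t, f t u 0 ∂PG G = ∫⁻ t, f t 0 (-u) ∂PG G := by
    intro u
    rw [← (mp_sh (G := G) u).lintegral_comp (hf 0 (-u))]
    refine lintegral_congr_ae ?_
    filter_upwards [hinv] with t ht
    rw [ht]
    simp
  simp only [key]
  exact ((Equiv.neg V).tsum_eq (fun y => ∫⁻ t, f t 0 y ∂PG G)).symm

theorem wt_symm (t : Env) (x y : V) : wt t x y = wt t y x := by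
  unfold wt
  by_cases h : latt.Adj x y
  · rw [dif_pos h, dif_pos h.symm]
    congr 2
    exact Sym2.eq_swap
  · rw [dif_neg h, dif_neg (fun h' => h h'.symm)]

theorem ae_adm [NullSingletonClass G] (hG : G (Set.Iio 0) = 0) : ∀ᵐ t ∂PG G, Adm (wt t) := by
  have h0 : G (Set.Iic 0) = 0 := by
    rw [← Set.Iio_union_right, measure_union_null_iff]
    exact ⟨hG, measure_singleton _⟩
  have h : ∀ᵐ t ∂PG G, ∀ e : latt.edgeSet, 0 < t e := by
    rw [ae_all_iff]
    intro e
    have hmp : MeasurePreserving (fun t : Env => t e) (PG G) G :=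
      measurePreserving_eval_infinitePi (fun _ : latt.edgeSet => G) e
    have : ∀ᵐ s ∂G, 0 < s := by
      rw [ae_iff]
      simp only [not_lt]
      exact h0
    exact hmp.quasiMeasurePreserving.ae this
  filter_upwards [h] with t ht
  refine ⟨wt_symm t, fun x y hxy => ?_⟩
  unfold wt
  rw [dif_pos hxy]
  exact ht _

theorem wt_update_self (t : Env) {x y : V} (h : latt.Adj x y) (s : ℝ) :
    wt (Function.update t ⟨s(x, y), h⟩ s) x y = s := by
  unfold wt
  rw [dif_pos h, Function.update_self]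

theorem wt_update_of_ne (t : Env) {x y : V} (h : latt.Adj x y) (s : ℝ) {a b : V}
    (hab : s(a, b) ≠ s(x, y)) : wt (Function.update t ⟨s(x, y), h⟩ s) a b = wt t a b := by
  unfold wt
  by_cases h' : latt.Adj a b
  · rw [dif_pos h', dif_pos h', Function.update_of_ne]
    intro h2
    exact hab (congrArg Subtype.val h2)
  · rw [dif_neg h', dif_neg h']

end Vale.Agent.P158
end
end
end

section

section

section

/-! Almost sure statements: countably many bad slopes, uniqueness of steps and trunks. -/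

namespace Vale.Agent.P158

open Filter MeasureTheory
open scoped ENNReal

variable {G : Measure ℝ} [IsProbabilityMeasure G] {m : ℝ}

/-- Events with bounded overlap: countably many have positive probability. -/
theorem countable_of_overlap {Ω ι : Type*} [MeasurableSpace Ω] {μ : Measure Ω}
    [IsProbabilityMeasure μ] (A : ι → Set Ω) (hA : ∀ i, MeasurableSet (A i)) (C : ℕ)
    (hC : ∀ ω, ∀ F : Finset ι, (∀ i ∈ F, ω ∈ A i) → F.card ≤ C) :
    {i | μ (A i) ≠ 0}.Countable := by
  classical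
  have h1 : {i | μ (A i) ≠ 0} ⊆ ⋃ p : ℕ, {i | ((p : ℝ≥0∞) + 1)⁻¹ < μ (A i)} := by
    intro i hi
    have hi' : μ (A i) ≠ 0 := hi
    obtain ⟨p, hp⟩ := ENNReal.exists_inv_nat_lt hi'
    refine Set.mem_iUnion.2 ⟨p, lt_of_le_of_lt ?_ hp⟩
    exact ENNReal.inv_le_inv.2 (by exact le_self_add)
  refine Set.Countable.mono h1 (Set.countable_iUnion fun p => Set.Finite.countable ?_)
  by_contra hinf
  obtain ⟨F, hF, hcard⟩ := Set.Infinite.exists_subset_card_eq hinf (C * (p + 1) + 1)
  have h2 : ∑ i ∈ F, μ (A i) ≤ C := by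
    calc ∑ i ∈ F, μ (A i) = ∑ i ∈ F, ∫⁻ ω, (A i).indicator 1 ω ∂μ := by
          refine Finset.sum_congr rfl fun i _ => ?_
          rw [lintegral_indicator_one (hA i)]
      _ = ∫⁻ ω, ∑ i ∈ F, (A i).indicator 1 ω ∂μ := by
          rw [lintegral_finsetSum]
          exact fun i _ => measurable_one.indicator (hA i)
      _ ≤ ∫⁻ _, (C : ℝ≥0∞) ∂μ := by
          refine lintegral_mono fun ω => ?_
          have : ∑ i ∈ F, (A i).indicator (1 : Ω → ℝ≥0∞) ω =
              ((F.filter fun i => ω ∈ A i).card : ℝ≥0∞) := by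
            rw [Finset.card_filter]
            push_cast
            refine Finset.sum_congr rfl fun i _ => ?_
            by_cases h : ω ∈ A i
            · simp [h]
            · simp [h]
          rw [this]
          have h9 : (F.filter fun i => ω ∈ A i).card ≤ C :=
            hC ω _ fun i hi => (Finset.mem_filter.1 hi).2
          exact Nat.cast_le.2 h9
      _ = C := by simp only [lintegral_const, measure_univ, mul_one]
  have h3 : (F.card : ℝ≥0∞) * ((p : ℝ≥0∞) + 1)⁻¹ ≤ ∑ i ∈ F, μ (A i) := by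
    rw [← nsmul_eq_mul, ← Finset.sum_const]
    exact Finset.sum_le_sum fun i hi => (hF hi).le
  have h4 := h3.trans h2
  have h5 : (F.card : ℝ≥0∞) ≤ C * ((p : ℝ≥0∞) + 1) := by
    have h6 := mul_le_mul_left h4 ((p : ℝ≥0∞) + 1)
    rwa [mul_assoc, ENNReal.inv_mul_cancel (by simp only [ne_eq, add_eq_zero, Nat.cast_eq_zero, one_ne_zero, and_false, not_false_eq_true]) (by
      exact ENNReal.add_ne_top.2 ⟨ENNReal.natCast_ne_top p, ENNReal.one_ne_top⟩), mul_one] at h6
  have h7 : F.card ≤ C * (p + 1) := by exact_mod_cast h5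
  omega

/-- Exceptional slopes. -/
def badSlopes (G : Measure ℝ) [IsProbabilityMeasure G] : Set ℝ :=
  {m | ∃ (x y : V) (n : ℕ), PG G {t | Bad (wt t) m x y n} ≠ 0}

theorem countable_badSlopes [NullSingletonClass G] (hG : G (Set.Iio 0) = 0) :
    (badSlopes G).Countable := by
  have h1 : badSlopes G ⊆ ⋃ x : V, ⋃ y : V, ⋃ n : ℕ, ⋃ K : ℕ,
      {m | PG G {t | (Adm (wt t) ∧ PT (wt t) (HN (max x.1 y.1)) x y ≤ K) ∧
        Bad (wt t) m x y n} ≠ 0} := by
    rintro m ⟨x, y, n, h⟩
    simp only [Set.mem_iUnion]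
    refine ⟨x, y, n, ?_⟩
    by_contra hcon
    push Not at hcon
    apply h
    have h2 : ∀ K : ℕ, PG G {t | (Adm (wt t) ∧ PT (wt t) (HN (max x.1 y.1)) x y ≤ K) ∧
        Bad (wt t) m x y n} = 0 := fun K => by
      have := hcon K
      simpa only [ne_eq, Set.mem_ofPred_eq, Decidable.not_not] using this
    have h3 := measure_iUnion_null h2
    have h4 : ∀ᵐ t ∂PG G, ¬ Bad (wt t) m x y n := by
      have h5 : ∀ᵐ t ∂PG G, t ∉ ⋃ K : ℕ, {t | (Adm (wt t) ∧
          PT (wt t) (HN (max x.1 y.1)) x y ≤ K) ∧ Bad (wt t) m x y n} :=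
        measure_eq_zero_iff_ae_notMem.1 h3
      filter_upwards [h5, ae_adm hG] with t ht hadm hbad
      obtain ⟨K, hK⟩ := exists_nat_ge (PT (wt t) (HN (max x.1 y.1)) x y)
      exact ht (Set.mem_iUnion.2 ⟨K, ⟨hadm, hK⟩, hbad⟩)
    rw [ae_iff] at h4
    simpa only [not_not] using h4
  refine Set.Countable.mono h1 ?_
  refine Set.countable_iUnion fun x => Set.countable_iUnion fun y =>
    Set.countable_iUnion fun n => Set.countable_iUnion fun K => ?_
  refine countable_of_overlap _ (fun m => ?_) ⌊4 * (K : ℝ) * ((n : ℝ) + 1) + 2⌋₊ ?_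
  · exact ((measurable_Adm.and (mle (measurable_PT _ _ _) measurable_const)).and
      (measurable_Bad m x y n)).setOf
  · intro t F hF
    rcases F.eq_empty_or_nonempty with rfl | ⟨m₀, hm₀⟩
    · simp only [Finset.card_empty, zero_le]
    obtain ⟨⟨hadm, hK⟩, -⟩ := hF m₀ hm₀
    exact Nat.le_floor (card_bad hadm x y n hK F fun m hm => (hF m hm).2)

theorem ae_good [NullSingletonClass G] (hG : G (Set.Iio 0) = 0) (hm : m ∉ badSlopes G) :
    ∀ᵐ t ∂PG G, Good (wt t) m := by
  have h1 : ∀ᵐ t ∂PG G, ∀ x y, Small (wt t) m x y := by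
    simp only [small_iff]
    rw [ae_all_iff]
    intro x
    rw [ae_all_iff]
    intro y
    rw [ae_all_iff]
    intro n
    rw [ae_iff]
    simp only [not_not]
    by_contra h
    exact hm ⟨x, y, n, h⟩
  have h2 : ∀ᵐ t ∂PG G, ∀ z a a' : V, ¬ ((Adm (wt t) ∧ a ≠ a') ∧
      (Step (wt t) m z a ∧ Step (wt t) m z a')) := by
    rw [ae_all_iff]
    intro z
    rw [ae_all_iff]
    intro a
    rw [ae_all_iff]
    intro a'
    rw [ae_iff]
    simp only [not_not]
    by_cases hadj : latt.Adj z a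
    · refine null_of_section ?_ ⟨s(z, a), hadj⟩ ?_
      · exact ((measurable_Adm.and (mconst _)).and
          ((measurable_Step m z a).and (measurable_Step m z a'))).setOf
      · rintro t s₀ s₁ hlt ⟨⟨hA0, hne⟩, -, hS0⟩ ⟨⟨hA1, -⟩, hS1, -⟩
        refine tie hA0 hA1 ?_ (fun x y hxy => ?_) hne hS0 hS1
        · rw [wt_update_self, wt_update_self]; exact hlt
        · rw [wt_update_of_ne _ _ _ hxy, wt_update_of_ne _ _ _ hxy]
    · convert measure_empty (μ := PG G)
      ext t
      simp only [Set.mem_ofPred_eq, Set.mem_empty_iff_false, iff_false]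
      rintro ⟨-, h, -⟩
      exact hadj h.1
  filter_upwards [ae_adm hG, h1, h2] with t h3 h4 h5
  refine ⟨h3, h4, fun z a a' ha ha' => ?_⟩
  by_contra hne
  exact h5 z a a' ⟨⟨h3, hne⟩, ha, ha'⟩

end Vale.Agent.P158
end
end
end

section

section

section

/-! Consequences of mass transport. -/

namespace Vale.Agent.P158

open Filter MeasureTheory
open scoped ENNReal

variable {G : Measure ℝ} [IsProbabilityMeasure G] {m : ℝ}

theorem ae_pred (hadm : ∀ᵐ t ∂PG G, Adm (wt t)) (B : Env → V → Prop)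
    (hB : ∀ v, Measurable fun t => B t v)
    (hinv : ∀ᵐ t ∂PG G, ∀ u v, B (shE u t) v ↔ B t (v + u))
    (hpred : ∀ᵐ t ∂PG G, ∀ v, B t v → ∃ x, B t x ∧ phi (wt t) m x = v) :
    ∀ᵐ t ∂PG G, ∀ x y, B t x → B t y → phi (wt t) m x = phi (wt t) m y →
      x = y ∧ B t (phi (wt t) m x) := by
  classical
  set f : Env → V → V → ℝ≥0∞ := fun t x y => if B t x ∧ phi (wt t) m x = y then 1 else 0
    with hf
  have hfm : ∀ x y, Measurable fun t => f t x y := fun x y =>
    Measurable.ite ((hB x).and (m_eqV (measurable_phi m x) measurable_const)).setOf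
      measurable_const measurable_const
  have hfi : ∀ᵐ t ∂PG G, ∀ u x y, f (shE u t) x y = f t (x + u) (y + u) := by
    filter_upwards [hadm, hinv] with t h1 h2 u x y
    simp only [hf]
    have e1 : (B (shE u t) x ∧ phi (wt (shE u t)) m x = y) ↔
        (B t (x + u) ∧ phi (wt t) m (x + u) = y + u) := by
      rw [h2, wt_shE, ← phi_sh h1, add_left_inj]
    by_cases h : B t (x + u) ∧ phi (wt t) m (x + u) = y + u
    · rw [if_pos h, if_pos (e1.2 h)]
    · rw [if_neg h, if_neg (fun h' => h (e1.1 h'))]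
  have hmt := mtp f hfm hfi
  have hO : ∀ t, ∑' y, f t 0 y = if B t 0 then 1 else 0 := by
    intro t
    simp only [hf]
    by_cases h : B t 0
    · rw [if_pos h, tsum_eq_single (phi (wt t) m 0)]
      · rw [if_pos ⟨h, rfl⟩]
      · intro y hy
        rw [if_neg (fun h' => hy h'.2.symm)]
    · rw [if_neg h]
      simp [h]
  have hle : (fun t => ∑' y, f t 0 y) ≤ᵐ[PG G] fun t => ∑' y, f t y 0 := by
    filter_upwards [hpred] with t ht
    rw [hO]
    by_cases h : B t 0
    · rw [if_pos h]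
      obtain ⟨x, hx, hx'⟩ := ht 0 h
      refine le_trans (le_of_eq ?_) (ENNReal.le_tsum x)
      simp only [hf]
      rw [if_pos ⟨hx, hx'⟩]
    · rw [if_neg h]; exact bot_le
  have hfin : ∫⁻ t, ∑' y, f t 0 y ∂PG G ≠ ∞ := by
    refine ne_of_lt (lt_of_le_of_lt (b := ∫⁻ _, 1 ∂PG G) ?_ (by simp only [lintegral_const, measure_univ, mul_one, ENNReal.one_lt_top]))
    refine lintegral_mono fun t => ?_
    rw [hO]
    split_ifs <;> simp
  have heq := ae_eq_of_ae_le_of_lintegral_le hle hfin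
    (Measurable.tsum fun y => hfm y 0).aemeasurable hmt.symm.le
  have h0 : ∀ᵐ t ∂PG G, ∀ x y, B t x → B t y → phi (wt t) m x = 0 → phi (wt t) m y = 0 →
      x = y ∧ B t 0 := by
    filter_upwards [heq] with t ht x y hx hy hx' hy'
    rw [hO] at ht
    have fx : f t x 0 = 1 := by simp only [hf]; rw [if_pos ⟨hx, hx'⟩]
    have fy : f t y 0 = 1 := by simp only [hf]; rw [if_pos ⟨hy, hy'⟩]
    constructor
    · by_contra hne
      have h1 : (2 : ℝ≥0∞) ≤ ∑' y, f t y 0 := by
        refine le_trans (le_of_eq ?_) (ENNReal.sum_le_tsum {x, y})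
        rw [Finset.sum_pair hne, fx, fy]
        norm_num
      rw [← ht] at h1
      split_ifs at h1 <;> norm_num at h1
    · by_contra hne
      rw [if_neg hne] at ht
      have h1 := ENNReal.le_tsum (f := fun y => f t y 0) x
      rw [← ht] at h1
      simp only [fx] at h1
      norm_num at h1
  filter_upwards [hadm, hinv, ae_shift h0] with t h1 h2 h3 x y hx hy hxy
  have h4 := h3 (phi (wt t) m x) (x - phi (wt t) m x) (y - phi (wt t) m x)
    (by rw [h2, sub_add_cancel]; exact hx) (by rw [h2, sub_add_cancel]; exact hy)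
    (by
      rw [wt_shE]
      have := phi_sh h1 (phi (wt t) m x) m (x - phi (wt t) m x)
      rw [sub_add_cancel] at this
      exact add_eq_right.1 this)
    (by
      rw [wt_shE]
      have := phi_sh h1 (phi (wt t) m x) m (y - phi (wt t) m x)
      rw [sub_add_cancel, ← hxy] at this
      exact add_eq_right.1 this)
  refine ⟨by simpa using h4.1, ?_⟩
  have := h4.2
  rwa [h2, zero_add] at this

theorem ae_inj (hadm : ∀ᵐ t ∂PG G, Adm (wt t)) : ∀ᵐ t ∂PG G, InjT (wt t) m := by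
  have h := ae_pred (m := m) hadm (fun t v => Trunk (wt t) m v) (measurable_Trunk m)
    (by
      filter_upwards [hadm] with t ht u v
      rw [wt_shE]
      exact Trunk_sh ht u m v)
    (by
      filter_upwards [hadm] with t ht v hv
      exact hv.pred ht)
  filter_upwards [h] with t ht u u' hu hu' huu
  exact (ht u u' hu hu' huu).1

theorem ae_aev (hadm : ∀ᵐ t ∂PG G, Adm (wt t)) :
    ∀ᵐ t ∂PG G, ∀ n v, Trunk (wt t) m v → Aev (wt t) m n v →
      Aev (wt t) m n (phi (wt t) m v) := by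
  rw [ae_all_iff]
  intro n
  have h := ae_pred (m := m) hadm (fun t v => Trunk (wt t) m v ∧ Aev (wt t) m n v)
    (fun v => (measurable_Trunk m v).and (measurable_Aev m n v))
    (by
      filter_upwards [hadm] with t ht u v
      rw [wt_shE]
      exact and_congr (Trunk_sh ht u m v) (Aev_sh ht u m n v))
    (by
      filter_upwards [hadm] with t ht v hv
      obtain ⟨x, hx, hx'⟩ := hv.1.pred ht
      exact ⟨x, ⟨hx, Aev.of_phi ht hx (by rw [hx']; exact hv.2)⟩, hx'⟩)
  filter_upwards [h] with t ht v hv hA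
  exact (ht v v ⟨hv, hA⟩ ⟨hv, hA⟩ rfl).2.2

/-- `v` is the last leftmost vertex of its trunk. -/
def LL (w : V → V → ℝ) (m : ℝ) (v : V) : Prop :=
  Trunk w m v ∧ (∀ u, Trunk w m u → Same w m u v → v.1 ≤ u.1) ∧
    ∀ n : ℕ, v.1 < (orb w m v (n + 1)).1

theorem measurable_LL (m : ℝ) (v : V) : Measurable fun t : Env => LL (wt t) m v := by
  unfold LL
  refine (measurable_Trunk m v).and (Measurable.and ?_ ?_)
  · exact Measurable.forall fun u => (measurable_Trunk m u).imp
      ((measurable_Same m u v).imp (mconst _))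
  · exact Measurable.forall fun n => m_subst (F := fun _ (y : V) => v.1 < y.1)
      (fun y => mconst _) (measurable_orb m v (n + 1))

theorem LL_sh {w : V → V → ℝ} (hw : Adm w) (u : V) (m : ℝ) (v : V) :
    LL (sh u w) m v ↔ LL w m (v + u) := by
  unfold LL
  rw [Trunk_sh hw]
  refine and_congr Iff.rfl (and_congr ?_ ?_)
  · rw [← forall_add_iff u (fun x => Trunk w m x → Same w m x (v + u) → (v + u).1 ≤ x.1)]
    refine forall_congr' fun x => ?_
    rw [Trunk_sh hw, Same_sh hw, Prod.fst_add, Prod.fst_add, add_le_add_iff_right]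
  · refine forall_congr' fun n => ?_
    rw [← orb_sh hw, Prod.fst_add, Prod.fst_add, add_lt_add_iff_right]

theorem LL_unique {w : V → V → ℝ} (hw : Adm w) (hi : InjT w m) {u v : V} (hu : LL w m u)
    (hv : LL w m v) (h : Same w m u v) : u = v := by
  obtain ⟨n, hn | hn⟩ := h.comparable hw hi hu.1 hv.1
  · cases n with
    | zero => exact hn
    | succ n =>
      have h1 := hu.2.2 n
      rw [hn] at h1
      have h2 := hv.2.1 u hu.1 h
      omega
  · cases n with
    | zero => exact hn.symm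
    | succ n =>
      have h1 := hv.2.2 n
      rw [hn] at h1
      have h2 := hu.2.1 v hv.1 h.symm
      omega

theorem exists_LL {w : V → V → ℝ} (hw : Adm w) {v : V} (hv : Trunk w m v) {L : ℤ}
    (hL : ∀ u, Trunk w m u → Same w m u v → L ≤ u.1) : ∃ u, LL w m u := by
  classical
  -- a vertex with minimal first coordinate
  obtain ⟨b, ⟨u, hu, huv, hub⟩, hmin⟩ := Int.exists_least_of_bdd
    (P := fun b : ℤ => ∃ u, Trunk w m u ∧ Same w m u v ∧ u.1 = b)
    ⟨L, by rintro _ ⟨u, hu, huv, rfl⟩; exact hL u hu huv⟩ ⟨v.1, v, hv, Same.refl _ _ _, rfl⟩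
  obtain ⟨M, hM⟩ := eventually_atTop.1 (hu.toOrb.2 ((b + 1).toNat))
  have hbig : ∀ n, M ≤ n → b < (orb w m u n).1 := by
    intro n hn
    have h1 := (hM n hn).2
    have h2 : ((b + 1).toNat : ℤ) ≤ (orb w m u n).1 := by exact_mod_cast h1
    omega
  set n₀ := Nat.findGreatest (fun n => (orb w m u n).1 = b) M with hn₀
  have hspec : (orb w m u n₀).1 = b :=
    Nat.findGreatest_spec (P := fun n => (orb w m u n).1 = b) (Nat.zero_le M) hub
  have hT : ∀ n, Trunk w m (orb w m u n) ∧ Same w m (orb w m u n) v := fun n =>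
    ⟨hu.orb hw n, (same_orb w m u n).trans huv⟩
  have hgt : ∀ n, n₀ < n → b < (orb w m u n).1 := by
    intro n hn
    rcases Nat.lt_or_ge n M with h | h
    · have h1 : (orb w m u n).1 ≠ b :=
        Nat.findGreatest_is_greatest (P := fun n => (orb w m u n).1 = b) hn h.le
      have h2 := hmin _ ⟨orb w m u n, (hT n).1, (hT n).2, rfl⟩
      omega
    · exact hbig n h
  refine ⟨orb w m u n₀, (hT n₀).1, fun u' hu' hs' => ?_, fun n => ?_⟩
  · rw [hspec]
    exact hmin _ ⟨u', hu', hs'.trans (hT n₀).2, rfl⟩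
  · rw [hspec, ← orb_add]
    exact hgt _ (by omega)

theorem ae_noLL (hadm : ∀ᵐ t ∂PG G, Adm (wt t)) : ∀ᵐ t ∂PG G, ∀ v, ¬ LL (wt t) m v := by
  classical
  set f : Env → V → V → ℝ≥0∞ := fun t x y =>
    if LL (wt t) m y ∧ Same (wt t) m x y ∧ Trunk (wt t) m x then 1 else 0 with hf
  have hfm : ∀ x y, Measurable fun t => f t x y := fun x y =>
    Measurable.ite ((measurable_LL m y).and ((measurable_Same m x y).and
      (measurable_Trunk m x))).setOf measurable_const measurable_const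
  have hfi : ∀ᵐ t ∂PG G, ∀ u x y, f (shE u t) x y = f t (x + u) (y + u) := by
    filter_upwards [hadm] with t h1 u x y
    simp only [hf]
    have e1 : (LL (wt (shE u t)) m y ∧ Same (wt (shE u t)) m x y ∧ Trunk (wt (shE u t)) m x) ↔
        (LL (wt t) m (y + u) ∧ Same (wt t) m (x + u) (y + u) ∧ Trunk (wt t) m (x + u)) := by
      rw [wt_shE, LL_sh h1, Same_sh h1, Trunk_sh h1]
    by_cases h : LL (wt t) m (y + u) ∧ Same (wt t) m (x + u) (y + u) ∧
        Trunk (wt t) m (x + u)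
    · rw [if_pos h, if_pos (e1.2 h)]
    · rw [if_neg h, if_neg (fun h' => h (e1.1 h'))]
  have hmt := mtp f hfm hfi
  have hle : ∫⁻ t, ∑' y, f t 0 y ∂PG G ≤ 1 := by
    refine le_trans (lintegral_mono_ae (g := fun _ => 1) ?_) (by simp)
    filter_upwards [hadm, ae_inj (m := m) hadm] with t h1 h2
    by_cases h : ∃ y, LL (wt t) m y ∧ Same (wt t) m 0 y ∧ Trunk (wt t) m 0
    · obtain ⟨y, hy⟩ := h
      rw [tsum_eq_single y]
      · simp only [hf]; split_ifs <;> simp
      · intro y' hy'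
        simp only [hf]
        rw [if_neg]
        rintro ⟨a1, a2, -⟩
        exact hy' (LL_unique h1 h2 a1 hy.1 (a2.symm.trans hy.2.1))
    · push Not at h
      have : ∀ y, f t 0 y = 0 := fun y => by
        simp only [hf]
        rw [if_neg]
        rintro ⟨a1, a2, a3⟩
        exact h y a1 a2 a3
      simp only [this, tsum_zero, zero_le]
  have hfin : ∀ᵐ t ∂PG G, ∑' y, f t y 0 < ∞ := by
    refine ae_lt_top (Measurable.tsum fun y => hfm y 0) ?_
    rw [← hmt]
    exact ne_of_lt (lt_of_le_of_lt hle ENNReal.one_lt_top)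
  have h0 : ∀ᵐ t ∂PG G, ¬ LL (wt t) m 0 := by
    filter_upwards [hadm, hfin] with t h1 h2 h3
    have hinj : Function.Injective (orb (wt t) m 0) := h3.1.toOrb.1.injective h1
    have h4 := ENNReal.tsum_comp_le_tsum_of_injective hinj (fun y => f t y 0)
    have h5 : ∀ n, f t (orb (wt t) m 0 n) 0 = 1 := fun n => by
      simp only [hf]
      rw [if_pos ⟨h3, same_orb _ _ _ _, h3.1.orb h1 n⟩]
    simp only [h5, ENNReal.tsum_const_eq_top_of_ne_zero one_ne_zero] at h4
    exact absurd h2 (not_lt.2 h4)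
  filter_upwards [hadm, ae_shift h0] with t h1 h2 v hv
  apply h2 v
  rw [wt_shE, LL_sh h1, zero_add]
  exact hv

theorem ae_leftUnb (hadm : ∀ᵐ t ∂PG G, Adm (wt t)) : ∀ᵐ t ∂PG G, LeftUnb (wt t) m := by
  filter_upwards [hadm, ae_noLL (m := m) hadm] with t h1 h2 v hv L
  by_contra hcon
  push Not at hcon
  obtain ⟨u, hu⟩ := exists_LL h1 hv (L := L) hcon
  exact h2 u hu

theorem ae_noTB [NullSingletonClass G] (hgood : ∀ᵐ t ∂PG G, Good (wt t) m) :
    ∀ᵐ t ∂PG G, ∀ u z, ¬ TBev (wt t) m u z := by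
  have hadm : ∀ᵐ t ∂PG G, Adm (wt t) := by
    filter_upwards [hgood] with t ht
    exact ht.adm
  have h : ∀ᵐ t ∂PG G, ∀ u z a : V, ¬ ((Good (wt t) m ∧ InjT (wt t) m) ∧
      TBev (wt t) m u z ∧ phi (wt t) m z = a) := by
    rw [ae_all_iff]
    intro u
    rw [ae_all_iff]
    intro z
    rw [ae_all_iff]
    intro a
    rw [ae_iff]
    simp only [not_not]
    by_cases hadj : latt.Adj z a
    · refine null_of_section ?_ ⟨s(z, a), hadj⟩ ?_
      · exact (((measurable_Good m).and (measurable_InjT m)).and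
          ((measurable_TBev m u z).and (m_eqV (measurable_phi m z) measurable_const))).setOf
      · rintro t s₀ s₁ hlt ⟨⟨hG0, -⟩, hT0, hp0⟩ ⟨⟨hG1, hI1⟩, hT1, hp1⟩
        refine tb_subsingleton hG0 hG1 hI1 ?_ (fun x y hxy => ?_) hT0 hT1 hp0 hp1
        · rw [wt_update_self, wt_update_self]; exact hlt
        · rw [wt_update_of_ne _ _ _ hxy, wt_update_of_ne _ _ _ hxy]
    · convert measure_empty (μ := PG G)
      ext t
      simp only [Set.mem_ofPred_eq, Set.mem_empty_iff_false, iff_false]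
      rintro ⟨-, h, h'⟩
      have := h.1.toOrb.1.1 0
      rw [zero_add, orb_zero] at this
      exact hadj (h' ▸ this)
  filter_upwards [h, hgood, ae_inj (m := m) hadm] with t h1 h2 h3 u z hT
  exact h1 u z _ ⟨⟨h2, h3⟩, hT, rfl⟩

theorem ae_all_same [NullSingletonClass G] (hgood : ∀ᵐ t ∂PG G, Good (wt t) m) :
    ∀ᵐ t ∂PG G, ∀ u v, Trunk (wt t) m u → Trunk (wt t) m v → Same (wt t) m u v := by
  have hadm : ∀ᵐ t ∂PG G, Adm (wt t) := by
    filter_upwards [hgood] with t ht
    exact ht.adm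
  filter_upwards [hadm, ae_inj (m := m) hadm, ae_leftUnb (m := m) hadm, ae_aev (m := m) hadm,
    ae_noTB hgood] with t h1 h2 h3 h4 h5 u v hu hv
  exact all_same h1 h2 h3 h4 h5 hu hv

end Vale.Agent.P158
end
end
end

section

section

section

/-! A single trunk has density zero. -/

namespace Vale.Agent.P158

open Filter MeasureTheory
open scoped ENNReal

variable {w : V → V → ℝ} {m : ℝ} {u v x y z a : V}

theorem T_col (hw : Adm w) (c : ℤ) {j j' : ℤ} (h : j ≤ j') :
    T w (c, j) (c, j') ≤ ∑ i ∈ Finset.Ico j j', w (c, i) (c, i + 1) := by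
  induction j', h using Int.leInduction with
  | base => simp only [T_self hw, Std.le_refl, Finset.Ico_eq_empty_of_le, Finset.sum_empty]
  | succ k hk ih =>
    have e : Finset.Ico j (k + 1) = insert k (Finset.Ico j k) := by
      ext i; simp only [Finset.mem_Ico, Finset.mem_insert]; omega
    rw [e, Finset.sum_insert (by simp only [Finset.mem_Ico, lt_self_iff_false, and_false, not_false_eq_true])]
    have h1 := T_triangle hw (c, j) (c, k) (c, k + 1)
    have h2 := T_adj_le hw (adj_up c k)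
    linarith only [ih, h1, h2]

theorem T_row (hw : Adm w) (c : ℤ) {j j' : ℤ} (h : j ≤ j') :
    T w (j, c) (j', c) ≤ ∑ i ∈ Finset.Ico j j', w (i, c) (i + 1, c) := by
  induction j', h using Int.leInduction with
  | base => simp only [T_self hw, Std.le_refl, Finset.Ico_eq_empty_of_le, Finset.sum_empty]
  | succ k hk ih =>
    have e : Finset.Ico j (k + 1) = insert k (Finset.Ico j k) := by
      ext i; simp only [Finset.mem_Ico, Finset.mem_insert]; (clear * - hk; omega)
    rw [e, Finset.sum_insert (by simp only [Finset.mem_Ico, lt_self_iff_false, and_false, not_false_eq_true])]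
    have h1 := T_triangle hw (j, c) (k, c) (k + 1, c)
    have h2 := T_adj_le hw (adj_right k c)
    linarith only [ih, h1, h2]

/-- Sum of the weights along the boundary of the square of radius `N`. -/
noncomputable def bsum (w : V → V → ℝ) (N : ℤ) : ℝ :=
  ∑ i ∈ Finset.Ico (-N) N, (w (N, i) (N, i + 1) + w (-N, i) (-N, i + 1) +
    w (i, N) (i + 1, N) + w (i, -N) (i + 1, -N))

theorem T_corner (hw : Adm w) {N : ℤ} (hN : 0 ≤ N) {b : V} (h1 : -N ≤ b.1) (h2 : b.1 ≤ N)
    (h3 : -N ≤ b.2) (h4 : b.2 ≤ N) (hb : b.1 = N ∨ b.1 = -N ∨ b.2 = N ∨ b.2 = -N) :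
    T w b (N, N) ≤ bsum w N := by
  obtain ⟨b1, b2⟩ := b
  simp only at h1 h2 h3 h4 hb
  unfold bsum
  simp only [Finset.sum_add_distrib]
  have nn : ∀ (c : ℤ) (s : Finset ℤ), 0 ≤ ∑ i ∈ s, w (c, i) (c, i + 1) := fun c s =>
    Finset.sum_nonneg fun i _ => (hw.pos _ _ (adj_up c i)).le
  have nn' : ∀ (c : ℤ) (s : Finset ℤ), 0 ≤ ∑ i ∈ s, w (i, c) (i + 1, c) := fun c s =>
    Finset.sum_nonneg fun i _ => (hw.pos _ _ (adj_right i c)).le
  have sub : ∀ (c j : ℤ), -N ≤ j → ∑ i ∈ Finset.Ico j N, w (c, i) (c, i + 1) ≤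
      ∑ i ∈ Finset.Ico (-N) N, w (c, i) (c, i + 1) := fun c j hj =>
    Finset.sum_le_sum_of_subset_of_nonneg (Finset.Ico_subset_Ico_left hj)
      fun i _ _ => (hw.pos _ _ (adj_up c i)).le
  have sub' : ∀ (c j : ℤ), -N ≤ j → ∑ i ∈ Finset.Ico j N, w (i, c) (i + 1, c) ≤
      ∑ i ∈ Finset.Ico (-N) N, w (i, c) (i + 1, c) := fun c j hj =>
    Finset.sum_le_sum_of_subset_of_nonneg (Finset.Ico_subset_Ico_left hj)
      fun i _ _ => (hw.pos _ _ (adj_right i c)).le
  have n1 := nn N (Finset.Ico (-N) N)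
  have n2 := nn (-N) (Finset.Ico (-N) N)
  have n3 := nn' N (Finset.Ico (-N) N)
  have n4 := nn' (-N) (Finset.Ico (-N) N)
  rcases hb with hb | hb | hb | hb
  · subst hb
    have := (T_col hw b1 h4).trans (sub b1 b2 h3)
    linarith only [n2, n3, n4, this]
  · subst hb
    have t1 := (T_col hw (-N) h4).trans (sub (-N) b2 h3)
    have t2 := (T_row hw N (by omega : -N ≤ N))
    have t3 := T_triangle hw (-N, b2) (-N, N) (N, N)
    linarith
  · subst hb
    have := (T_row hw b2 h2).trans (sub' b2 b1 h1)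
    linarith only [n1, n2, n4, this]
  · subst hb
    have t1 := (T_row hw (-N) h2).trans (sub' (-N) b1 h1)
    have t2 := (T_col hw N (by omega : -N ≤ N))
    have t3 := T_triangle hw (b1, -N) (N, -N) (N, N)
    linarith

/-- The box of radius `n`. -/
noncomputable def Box (n : ℤ) : Finset V := Finset.Icc (-n) n ×ˢ Finset.Icc (-n) n

theorem mem_Box {n : ℤ} {v : V} :
    v ∈ Box n ↔ (-n ≤ v.1 ∧ v.1 ≤ n) ∧ (-n ≤ v.2 ∧ v.2 ≤ n) := by
  unfold Box
  rw [Finset.mem_product, Finset.mem_Icc, Finset.mem_Icc]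

theorem T_exit (hw : Adm w) {n : ℤ} (hn : 0 ≤ n) {a b : V} (ha : a ∈ Box n) (hb : b ∉ Box n)
    (hab : latt.Adj a b) : T w b (n + 1, n + 1) ≤ bsum w (n + 1) := by
  rw [mem_Box] at ha hb
  rcases adj_cases hab with ⟨e1, e2⟩ | ⟨e1, e2⟩ | ⟨e1, e2⟩ | ⟨e1, e2⟩ <;>
    refine T_corner hw (by omega) ?_ ?_ ?_ ?_ ?_ <;> omega

open Classical in
/-- Weight of the trunk step at `v`. -/
noncomputable def tw (w : V → V → ℝ) (m : ℝ) (v : V) : ℝ :=
  if Trunk w m v then w v (phi w m v) else 0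

theorem box_bound (hw : Adm w) (hi : InjT w m)
    (hs : ∀ u v, Trunk w m u → Trunk w m v → Same w m u v) {n : ℤ} (hn : 0 ≤ n) :
    ∑ v ∈ Box n, tw w m v ≤ 2 * bsum w (n + 1) := by
  classical
  have hb0 : 0 ≤ bsum w (n + 1) := by
    unfold bsum
    refine Finset.sum_nonneg fun i _ => ?_
    have h1 := (hw.pos _ _ (adj_up (n + 1) i)).le
    have h2 := (hw.pos _ _ (adj_up (-(n + 1)) i)).le
    have h3 := (hw.pos _ _ (adj_right i (n + 1))).le
    have h4 := (hw.pos _ _ (adj_right i (-(n + 1)))).le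
    linarith only [h1, h2, h3, h4]
  by_cases hex : ∃ v ∈ Box n, Trunk w m v
  swap
  · push Not at hex
    have : ∑ v ∈ Box n, tw w m v = 0 := Finset.sum_eq_zero fun v hv => by
      unfold tw; rw [if_neg (hex v hv)]
    rw [this]; linarith only [hb0]
  obtain ⟨v₀, hv₀, hT₀⟩ := hex
  obtain ⟨γ, hγ0, hγ⟩ := exists_bi hw hT₀
  have hadj : ∀ i, latt.Adj (γ i) (γ (i + 1)) := by
    intro i
    have := (hγ i).1.toOrb.1.1 0
    rwa [zero_add, orb_zero, bi_orb hγ, Nat.cast_one] at this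
  have hr : ∀ i : ℤ, IsRay w (fun k : ℕ => γ (i + k)) := by
    intro i
    have := (hγ i).1.toOrb.1
    have e : orb w m (γ i) = fun k : ℕ => γ (i + k) := funext fun k => bi_orb hγ i k
    rwa [e] at this
  have hinj : Function.Injective γ := by
    intro i j hij
    by_contra hne
    have key : ∀ i j : ℤ, i < j → γ i ≠ γ j := by
      intro i j hlt h
      have := (hr i).injective hw (a₁ := 0) (a₂ := (j - i).toNat) (by
        rw [Int.toNat_of_nonneg (by omega)]
        simpa using h)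
      omega
    rcases lt_or_gt_of_ne hne with h | h
    · exact key i j h hij
    · exact key j i h hij.symm
  have hcov : ∀ v, Trunk w m v → ∃ i, γ i = v := fun v hv => by
    obtain ⟨i, hi'⟩ := bi_cover hw hi hγ hv (hs _ _ hv (hγ 0).1)
    exact ⟨i, hi'.symm⟩
  set I : Finset ℤ := ((Box n).preimage γ hinj.injOn) with hI
  have hmemI : ∀ i, i ∈ I ↔ γ i ∈ Box n := fun i => by rw [hI, Finset.mem_preimage]
  have hIne : I.Nonempty := ⟨0, (hmemI 0).2 (hγ0 ▸ hv₀)⟩
  set i₀ := I.min' hIne with hi₀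
  set i₁ := I.max' hIne with hi₁
  have h01 : i₀ ≤ i₁ := I.min'_le_max' hIne
  have hsum : ∑ v ∈ Box n, tw w m v = ∑ i ∈ I, w (γ i) (γ (i + 1)) := by
    rw [← Finset.sum_filter_of_ne (p := fun v => Trunk w m v)]
    · symm
      refine Finset.sum_bij (fun i _ => γ i) (fun i hi => ?_) (fun i _ j _ h => hinj h)
        (fun v hv => ?_) (fun i _ => ?_)
      · rw [Finset.mem_filter]
        exact ⟨(hmemI i).1 hi, (hγ i).1⟩
      · rw [Finset.mem_filter] at hv
        obtain ⟨i, rfl⟩ := hcov v hv.2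
        exact ⟨i, (hmemI i).2 hv.1, rfl⟩
      · unfold tw
        rw [if_pos (hγ i).1, (hγ i).2]
    · intro v _ hv
      by_contra h
      exact hv (by unfold tw; rw [if_neg h])
  have hsub : I ⊆ Finset.Ico (i₀ - 1) (i₁ + 1) := by
    intro i hi
    rw [Finset.mem_Ico]
    have h1 := I.min'_le i hi
    have h2 := I.le_max' i hi
    omega
  have hle : ∑ i ∈ I, w (γ i) (γ (i + 1)) ≤
      ∑ i ∈ Finset.Ico (i₀ - 1) (i₁ + 1), w (γ i) (γ (i + 1)) :=
    Finset.sum_le_sum_of_subset_of_nonneg hsub fun i _ _ => (hw.pos _ _ (hadj i)).le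
  have hT : ∑ i ∈ Finset.Ico (i₀ - 1) (i₁ + 1), w (γ i) (γ (i + 1)) =
      T w (γ (i₀ - 1)) (γ (i₁ + 1)) := by
    have h1 := (hr (i₀ - 1)).2 (i₁ + 1 - (i₀ - 1)).toNat
    simp only [Nat.cast_zero, add_zero] at h1
    rw [Int.toNat_of_nonneg (by omega), add_sub_cancel] at h1
    rw [← h1]
    symm
    refine Finset.sum_bij (fun (k : ℕ) _ => i₀ - 1 + (k : ℤ)) (fun k hk => ?_)
      (fun k _ l _ h => by omega) (fun i hi => ?_) (fun k _ => ?_)
    · rw [Finset.mem_range] at hk
      rw [Finset.mem_Ico]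
      omega
    · rw [Finset.mem_Ico] at hi
      refine ⟨(i - (i₀ - 1)).toNat, ?_, ?_⟩
      · rw [Finset.mem_range]; omega
      · omega
    · push_cast
      rw [add_assoc]
  have hout0 : γ (i₀ - 1) ∉ Box n := fun h => by
    have := I.min'_le _ ((hmemI _).2 h)
    omega
  have hout1 : γ (i₁ + 1) ∉ Box n := fun h => by
    have := I.le_max' _ ((hmemI _).2 h)
    omega
  have hin0 : γ i₀ ∈ Box n := (hmemI _).1 (I.min'_mem hIne)
  have hin1 : γ i₁ ∈ Box n := (hmemI _).1 (I.max'_mem hIne)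
  have hA0 : latt.Adj (γ i₀) (γ (i₀ - 1)) := by
    have := hadj (i₀ - 1)
    rw [sub_add_cancel] at this
    exact this.symm
  have t0 := T_exit hw hn hin0 hout0 hA0
  have t1 := T_exit hw hn hin1 hout1 (hadj i₁)
  have t2 := T_triangle hw (γ (i₀ - 1)) (n + 1, n + 1) (γ (i₁ + 1))
  rw [T_comm hw (n + 1, n + 1) (γ (i₁ + 1))] at t2
  rw [hsum]
  linarith

variable {G : Measure ℝ} [IsProbabilityMeasure G]

theorem measurable_tw (m : ℝ) (v : V) : Measurable fun t : Env => tw (wt t) m v := by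
  unfold tw
  exact Measurable.ite (measurable_Trunk m v).setOf
    (m_subst (F := fun t y => wt t v y) (fun y => measurable_wt v y) (measurable_phi m v))
    measurable_const

theorem tw_nonneg (hw : Adm w) (v : V) : 0 ≤ tw w m v := by
  unfold tw
  split_ifs with h
  · have := h.toOrb.1.1 0
    rw [zero_add, orb_zero] at this
    exact (hw.pos _ _ this).le
  · exact le_rfl

theorem tw_sh (hw : Adm w) (u : V) (m : ℝ) (v : V) : tw (sh u w) m v = tw w m (v + u) := by
  unfold tw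
  by_cases h : Trunk w m (v + u)
  · rw [if_pos h, if_pos ((Trunk_sh hw u m v).2 h)]
    change w (v + u) (phi (sh u w) m v + u) = _
    rw [phi_sh hw]
  · rw [if_neg h, if_neg (fun h' => h ((Trunk_sh hw u m v).1 h'))]

theorem lintegral_wt (x y : V) (h : latt.Adj x y) :
    ∫⁻ t, ENNReal.ofReal (wt t x y) ∂PG G = ∫⁻ s, ENNReal.ofReal s ∂G := by
  have hmp : MeasurePreserving (fun t : Env => t ⟨s(x, y), h⟩) (PG G) G :=
    measurePreserving_eval_infinitePi (fun _ : latt.edgeSet => G) _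
  rw [← hmp.lintegral_comp ENNReal.measurable_ofReal]
  refine lintegral_congr fun t => ?_
  unfold wt
  rw [dif_pos h]

theorem lintegral_bsum_le (hadm : ∀ᵐ t ∂PG G, Adm (wt t)) {N : ℤ} (hN : 0 ≤ N) :
    ∫⁻ t, ENNReal.ofReal (bsum (wt t) N) ∂PG G ≤
      (8 * N.toNat : ℕ) * ∫⁻ s, ENNReal.ofReal s ∂G := by
  have h1 : ∫⁻ t, ENNReal.ofReal (bsum (wt t) N) ∂PG G ≤
      ∫⁻ t, ∑ i ∈ Finset.Ico (-N) N, (ENNReal.ofReal (wt t (N, i) (N, i + 1)) +
        ENNReal.ofReal (wt t (-N, i) (-N, i + 1)) + ENNReal.ofReal (wt t (i, N) (i + 1, N)) +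
        ENNReal.ofReal (wt t (i, -N) (i + 1, -N))) ∂PG G := by
    refine lintegral_mono_ae ?_
    filter_upwards [hadm] with t ht
    unfold bsum
    have h1 : ∀ i : ℤ, 0 ≤ wt t (N, i) (N, i + 1) := fun i => (ht.pos _ _ (adj_up _ _)).le
    have h2 : ∀ i : ℤ, 0 ≤ wt t (-N, i) (-N, i + 1) := fun i => (ht.pos _ _ (adj_up _ _)).le
    have h3 : ∀ i : ℤ, 0 ≤ wt t (i, N) (i + 1, N) := fun i => (ht.pos _ _ (adj_right _ _)).le
    have h4 : ∀ i : ℤ, 0 ≤ wt t (i, -N) (i + 1, -N) := fun i =>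
      (ht.pos _ _ (adj_right _ _)).le
    rw [ENNReal.ofReal_sum_of_nonneg fun i _ =>
      add_nonneg (add_nonneg (add_nonneg (h1 i) (h2 i)) (h3 i)) (h4 i)]
    refine Finset.sum_le_sum fun i _ => ?_
    refine ENNReal.ofReal_add_le.trans (add_le_add ?_ le_rfl)
    refine ENNReal.ofReal_add_le.trans (add_le_add ?_ le_rfl)
    exact ENNReal.ofReal_add_le
  refine h1.trans (le_of_eq ?_)
  have hm : ∀ x y : V, Measurable fun t : Env => ENNReal.ofReal (wt t x y) := fun x y =>
    ENNReal.measurable_ofReal.comp (measurable_wt x y)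
  have hs : ∀ i : ℤ, Measurable fun t : Env => (ENNReal.ofReal (wt t (N, i) (N, i + 1)) +
        ENNReal.ofReal (wt t (-N, i) (-N, i + 1)) + ENNReal.ofReal (wt t (i, N) (i + 1, N)) +
        ENNReal.ofReal (wt t (i, -N) (i + 1, -N))) := fun i =>
    (((hm _ _).add (hm _ _)).add (hm _ _)).add (hm _ _)
  rw [lintegral_finsetSum _ fun i _ => hs i]
  have h2 : ∀ i ∈ Finset.Ico (-N) N, ∫⁻ t, (ENNReal.ofReal (wt t (N, i) (N, i + 1)) +
        ENNReal.ofReal (wt t (-N, i) (-N, i + 1)) + ENNReal.ofReal (wt t (i, N) (i + 1, N)) +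
        ENNReal.ofReal (wt t (i, -N) (i + 1, -N))) ∂PG G =
      4 * ∫⁻ s, ENNReal.ofReal s ∂G := by
    intro i _
    rw [lintegral_add_right _ (hm _ _), lintegral_add_right _ (hm _ _),
      lintegral_add_right _ (hm _ _), lintegral_wt _ _ (adj_up _ _),
      lintegral_wt _ _ (adj_up _ _), lintegral_wt _ _ (adj_right _ _),
      lintegral_wt _ _ (adj_right _ _)]
    ring
  rw [Finset.sum_congr rfl h2, Finset.sum_const, Int.card_Ico, nsmul_eq_mul, ← mul_assoc]
  congr 1
  have e : (N - -N).toNat = 2 * N.toNat := by (clear * - hN; omega)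
  rw [e]
  push_cast
  ring

theorem ae_no_trunk [NullSingletonClass G] (hmean : ∫⁻ s, ENNReal.ofReal s ∂G ≠ ∞)
    (hgood : ∀ᵐ t ∂PG G, Good (wt t) m) : ∀ᵐ t ∂PG G, ∀ v, ¬ Trunk (wt t) m v := by
  have hadm : ∀ᵐ t ∂PG G, Adm (wt t) := by
    filter_upwards [hgood] with t ht
    exact ht.adm
  set M := ∫⁻ s, ENNReal.ofReal s ∂G with hM
  set q := ∫⁻ t, ENNReal.ofReal (tw (wt t) m 0) ∂PG G with hq
  have hmt : ∀ v, Measurable fun t : Env => ENNReal.ofReal (tw (wt t) m v) := fun v =>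
    ENNReal.measurable_ofReal.comp (measurable_tw m v)
  have hqv : ∀ v : V, ∫⁻ t, ENNReal.ofReal (tw (wt t) m v) ∂PG G = q := by
    intro v
    rw [hq, ← (mp_sh (G := G) v).lintegral_comp (hmt 0)]
    refine lintegral_congr_ae ?_
    filter_upwards [hadm] with t ht
    rw [wt_shE, tw_sh ht, zero_add]
  have hbound : ∀ n : ℕ, ((2 * n + 1 : ℕ) : ℝ≥0∞) * q ≤ 16 * M := by
    intro n
    have h1 : ∫⁻ t, ∑ v ∈ Box n, ENNReal.ofReal (tw (wt t) m v) ∂PG G ≤
        ∫⁻ t, 2 * ENNReal.ofReal (bsum (wt t) ((n : ℤ) + 1)) ∂PG G := by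
      refine lintegral_mono_ae ?_
      filter_upwards [hadm, ae_inj (m := m) hadm, ae_all_same hgood] with t a1 a2 a3
      rw [← ENNReal.ofReal_sum_of_nonneg fun v _ => tw_nonneg a1 v]
      refine (ENNReal.ofReal_le_ofReal (box_bound a1 a2 a3 (Int.natCast_nonneg n))).trans ?_
      rw [ENNReal.ofReal_mul (by norm_num)]
      simp
    rw [lintegral_finsetSum _ fun v _ => hmt v, Finset.sum_congr rfl fun v _ => hqv v,
      Finset.sum_const, lintegral_const_mul' _ _ (by norm_num)] at h1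
    have h2 := h1.trans (mul_le_mul_right (lintegral_bsum_le hadm (by omega)) 2)
    have hc : (Box n).card = (2 * n + 1) * (2 * n + 1) := by
      unfold Box
      rw [Finset.card_product, Int.card_Icc]
      have : ((n : ℤ) + 1 - -(n : ℤ)).toNat = 2 * n + 1 := by omega
      rw [this]
    rw [hc, nsmul_eq_mul] at h2
    have e : ((n : ℤ) + 1).toNat = n + 1 := by omega
    rw [e] at h2
    have h3 : ((2 * n + 1 : ℕ) : ℝ≥0∞) * (((2 * n + 1 : ℕ) : ℝ≥0∞) * q) ≤
        ((2 * n + 1 : ℕ) : ℝ≥0∞) * (16 * M) := by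
      calc ((2 * n + 1 : ℕ) : ℝ≥0∞) * (((2 * n + 1 : ℕ) : ℝ≥0∞) * q)
          = (((2 * n + 1) * (2 * n + 1) : ℕ) : ℝ≥0∞) * q := by push_cast; ring
        _ ≤ 2 * (((8 * (n + 1) : ℕ) : ℝ≥0∞) * M) := h2
        _ = ((16 * (n + 1) : ℕ) : ℝ≥0∞) * M := by push_cast; ring
        _ ≤ ((16 * (2 * n + 1) : ℕ) : ℝ≥0∞) * M :=
            mul_le_mul_left (Nat.cast_le.2 (by omega)) _
        _ = ((2 * n + 1 : ℕ) : ℝ≥0∞) * (16 * M) := by push_cast; ring
    have hne : ((2 * n + 1 : ℕ) : ℝ≥0∞) ≠ 0 := by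
      rw [Ne, Nat.cast_eq_zero]; omega
    exact (ENNReal.mul_le_mul_iff_right hne (ENNReal.natCast_ne_top _)).1 h3
  have hq0 : q = 0 := by
    by_contra hne
    have hfin : (16 * M : ℝ≥0∞) ≠ ∞ := ENNReal.mul_ne_top (by norm_num) hmean
    obtain ⟨n, hn⟩ := ENNReal.exists_nat_mul_gt hne hfin
    have h1 := hbound n
    have h2 : (n : ℝ≥0∞) * q ≤ ((2 * n + 1 : ℕ) : ℝ≥0∞) * q :=
      mul_le_mul_left (Nat.cast_le.2 (by omega)) _
    exact absurd (hn.trans_le h2) (not_lt.2 h1)
  have h0 : ∀ᵐ t ∂PG G, ¬ Trunk (wt t) m 0 := by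
    rw [hq, lintegral_eq_zero_iff (hmt 0)] at hq0
    filter_upwards [hq0, hadm] with t h1 h2 h3
    have h4 : tw (wt t) m 0 ≤ 0 := ENNReal.ofReal_eq_zero.1 h1
    unfold tw at h4
    rw [if_pos h3] at h4
    have h5 := h3.toOrb.1.1 0
    rw [zero_add, orb_zero] at h5
    exact absurd h4 (not_le.2 (h2.pos _ _ h5))
  filter_upwards [hadm, ae_shift h0] with t h1 h2 v hv
  apply h2 v
  rw [wt_shE, Trunk_sh h1, zero_add]
  exact hv

end Vale.Agent.P158
end
end
end

section

section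

section

/-! From trunks to bigeodesics with a prescribed direction. -/

namespace Vale.Agent.P158

open Filter MeasureTheory
open scoped ENNReal Topology

variable {G : Measure ℝ} [IsProbabilityMeasure G] {m : ℝ}

theorem ww_wt (t : Env) {x y : V} (p : latt.Walk x y) : ww (wt t) p = walkWeight t p := by
  unfold ww walkWeight
  congr 1
  refine List.map_congr_left fun d _ => ?_
  unfold wt
  rw [dif_pos d.adj]
  rfl

theorem T_wt (t : Env) (x y : V) : T (wt t) x y = passageTime t x y := by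
  unfold T PT passageTime
  refine (Equiv.subtypeUnivEquiv (p := fun p : latt.Walk x y => ∀ z ∈ p.support,
    z ∈ (Set.univ : Set V)) (fun _ _ _ => Set.mem_univ _)).iInf_congr fun p => ?_
  exact (ww_wt t p.1).symm

/-- Biinfinite geodesics for weight functions. -/
def IsBi (w : V → V → ℝ) (v : ℤ → V) : Prop := ∀ n : ℤ, IsRay w (fun i : ℕ => v (n + i))

theorem IsBigeodesic.isBi {t : Env} (hw : Adm (wt t)) {v : ℤ → V} (h : IsBigeodesic t v) :
    IsBi (wt t) v := by
  intro n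
  refine ⟨fun i => ?_, fun k => ?_⟩
  · have := h.adj (n + i)
    push_cast
    rwa [← add_assoc]
  · rcases Nat.eq_zero_or_pos k with rfl | hk
    · rw [T_self hw]
      simp
    · rw [T_wt]
      have h1 := h.geodesic n (n + k) (by omega)
      have h2 : ∑ i ∈ Finset.range k, wt t (v (n + (i : ℕ))) (v (n + ((i + 1 : ℕ) : ℤ))) =
          ∑ j ∈ Finset.Ico n (n + k), t ⟨s(v j, v (j + 1)), h.adj j⟩ := by
        refine Finset.sum_bij (fun (i : ℕ) _ => n + (i : ℤ)) (fun i hi => ?_)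
          (fun i _ l _ h => by omega) (fun j hj => ?_) (fun i _ => ?_)
        · rw [Finset.mem_range] at hi
          rw [Finset.mem_Ico]
          omega
        · rw [Finset.mem_Ico] at hj
          refine ⟨(j - n).toNat, ?_, ?_⟩
          · rw [Finset.mem_range]; omega
          · omega
        · have e : n + ((i + 1 : ℕ) : ℤ) = n + (i : ℤ) + 1 := by push_cast; ring
          rw [e]
          unfold wt
          rw [dif_pos (h.adj _)]
      rw [h2, h1]
      simp

theorem IsBi.rev {w : V → V → ℝ} (hw : Adm w) {v : ℤ → V} (h : IsBi w v) :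
    IsBi w (fun n => v (-n)) := by
  intro n
  refine ⟨fun i => ?_, fun k => ?_⟩
  · have h1 : latt.Adj (v (-(n + (i : ℤ)) - 1 + ((0 : ℕ) : ℤ)))
        (v (-(n + (i : ℤ)) - 1 + ((0 + 1 : ℕ) : ℤ))) := (h (-(n + i) - 1)).1 0
    have e1 : -(n + (i : ℤ)) - 1 + ((0 : ℕ) : ℤ) = -(n + ((i + 1 : ℕ) : ℤ)) := by
      push_cast; ring
    have e2 : -(n + (i : ℤ)) - 1 + ((0 + 1 : ℕ) : ℤ) = -(n + (i : ℤ)) := by
      push_cast; ring
    rw [e1, e2] at h1
    exact h1.symm
  · have h1 : ∑ i ∈ Finset.range k, w (v (-(n + (k : ℤ)) + ((i : ℕ) : ℤ)))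
        (v (-(n + (k : ℤ)) + ((i + 1 : ℕ) : ℤ))) = T w (v (-(n + (k : ℤ)) + ((0 : ℕ) : ℤ)))
        (v (-(n + (k : ℤ)) + (k : ℤ))) := (h (-(n + k))).2 k
    have e0 : -(n + (k : ℤ)) + ((0 : ℕ) : ℤ) = -(n + (k : ℤ)) := by push_cast; ring
    have e1 : -(n + (k : ℤ)) + (k : ℤ) = -(n + ((0 : ℕ) : ℤ)) := by push_cast; ring
    rw [e0, e1, T_comm hw] at h1
    refine Eq.trans ?_ h1
    rw [← Finset.sum_range_reflect]
    refine Finset.sum_congr rfl fun i hi => ?_
    rw [Finset.mem_range] at hi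
    rw [hw.symm]
    have f1 : -(n + ((k - 1 - i + 1 : ℕ) : ℤ)) = -(n + (k : ℤ)) + (i : ℤ) := by omega
    have f2 : -(n + ((k - 1 - i : ℕ) : ℤ)) = -(n + (k : ℤ)) + ((i + 1 : ℕ) : ℤ) := by omega
    change w (v (-(n + ((k - 1 - i + 1 : ℕ) : ℤ)))) (v (-(n + ((k - 1 - i : ℕ) : ℤ)))) = _
    rw [f1, f2]

/-- Weight functions seen through a graph automorphism. -/
theorem ww_map_iso (φ : latt ≃g latt) (w : V → V → ℝ) {x y : V} (p : latt.Walk x y) :
    ww w (p.map φ.toHom) = ww (fun a b => w (φ a) (φ b)) p := by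
  induction p with
  | nil => rfl
  | cons h p ih =>
    rw [SimpleGraph.Walk.map_cons, ww_cons, ww_cons, ih]
    rfl

theorem T_iso_le (φ : latt ≃g latt) {w : V → V → ℝ} (hw : Adm w) (x y : V) :
    T w (φ x) (φ y) ≤ T (fun a b => w (φ a) (φ b)) x y := by
  refine le_PT (conn_univ x y) fun p _ => ?_
  rw [← ww_map_iso]
  exact T_le hw _

theorem Adm.iso (φ : latt ≃g latt) {w : V → V → ℝ} (hw : Adm w) :
    Adm (fun a b => w (φ a) (φ b)) :=
  ⟨fun _ _ => hw.symm _ _, fun _ _ h => hw.pos _ _ (φ.map_adj_iff.2 h)⟩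

theorem T_iso (φ : latt ≃g latt) {w : V → V → ℝ} (hw : Adm w) (x y : V) :
    T (fun a b => w (φ a) (φ b)) x y = T w (φ x) (φ y) := by
  refine le_antisymm ?_ (T_iso_le φ hw x y)
  have := T_iso_le φ.symm (hw.iso φ) (φ x) (φ y)
  simpa only [ge_iff_le, RelIso.symm_apply_apply, RelIso.apply_symm_apply] using this

/-- Reflection in the vertical axis. -/
def refl1 : latt ≃g latt where
  toFun x := (-x.1, x.2)
  invFun x := (-x.1, x.2)
  left_inv x := by simp
  right_inv x := by simp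
  map_rel_iff' := by
    intro x y
    change |(-x.1) - (-y.1)| + |x.2 - y.2| = 1 ↔ |x.1 - y.1| + |x.2 - y.2| = 1
    have : (-x.1) - (-y.1) = -(x.1 - y.1) := by ring
    rw [this, abs_neg]

theorem refl1_apply (x : V) : refl1 x = (-x.1, x.2) := rfl

theorem IsBi.refl {w : V → V → ℝ} (hw : Adm w) {v : ℤ → V} (h : IsBi w v) :
    IsBi (fun a b => w (refl1 a) (refl1 b)) (fun n => refl1 (v n)) := by
  have hrr : ∀ x, refl1 (refl1 x) = x := fun x => by simp [refl1_apply]
  intro n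
  refine ⟨fun i => refl1.map_adj_iff.2 ((h n).1 i), fun k => ?_⟩
  rw [T_iso refl1 hw]
  simp only [hrr]
  exact (h n).2 k

theorem tendsto_norm_of_injective {r : ℕ → V} (hr : Function.Injective r) :
    Tendsto (fun n => ‖toC (r n)‖) atTop atTop := by
  have h1 : Tendsto r atTop cofinite := by
    rw [← Nat.cofinite_eq_atTop]; exact hr.tendsto_cofinite
  have h2 : Tendsto (fun x : V => ‖toC x‖) cofinite atTop := by
    rw [tendsto_atTop]
    intro R
    rw [Filter.eventually_cofinite]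
    obtain ⟨n, hn⟩ := exists_nat_ge R
    refine Set.Finite.subset (Box n).finite_toSet fun x hx => ?_
    have hx' : ‖toC x‖ < R := not_le.1 hx
    have a1 := Complex.abs_re_le_norm (toC x)
    have a2 := Complex.abs_im_le_norm (toC x)
    have b1 : |(x.1 : ℝ)| ≤ n := (a1.trans hx'.le).trans hn
    have b2 : |(x.2 : ℝ)| ≤ n := (a2.trans hx'.le).trans hn
    have c1 : |x.1| ≤ (n : ℤ) := by exact_mod_cast b1
    have c2 : |x.2| ≤ (n : ℤ) := by exact_mod_cast b2
    rw [Finset.mem_coe, mem_Box]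
    exact ⟨abs_le.1 c1, abs_le.1 c2⟩
  exact h2.comp h1

theorem slope_of_direction {r : ℕ → V} (hr : Function.Injective r) {θ : ℂ}
    (hθ : 0 < θ.re) (h : HasDirection r θ) : Slope (θ.im / θ.re) r := by
  have hN := tendsto_norm_of_injective hr
  have hre : Tendsto (fun n => ((r n).1 : ℝ) / ‖toC (r n)‖) atTop (𝓝 θ.re) := by
    have := (Complex.continuous_re.tendsto θ).comp h
    refine this.congr fun n => ?_
    simp only [Function.comp_apply, Complex.div_ofReal_re]
    rfl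
  have him : Tendsto (fun n => ((r n).2 : ℝ) / ‖toC (r n)‖) atTop (𝓝 θ.im) := by
    have := (Complex.continuous_im.tendsto θ).comp h
    refine this.congr fun n => ?_
    simp only [Function.comp_apply, Complex.div_ofReal_im]
    rfl
  intro q
  have hdiff : Tendsto (fun n => (q : ℝ) * |((r n).2 : ℝ) / ‖toC (r n)‖ -
      θ.im / θ.re * (((r n).1 : ℝ) / ‖toC (r n)‖)|) atTop (𝓝 0) := by
    have h1 := (him.sub (hre.const_mul (θ.im / θ.re))).abs.const_mul (q : ℝ)
    have e : (q : ℝ) * |θ.im - θ.im / θ.re * θ.re| = 0 := by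
      rw [div_mul_cancel₀ _ hθ.ne']; simp
    rwa [e] at h1
  have hhalf : 0 < θ.re / 2 := half_pos hθ
  filter_upwards [hdiff.eventually (gt_mem_nhds hhalf),
    hre.eventually (lt_mem_nhds (half_lt_self hθ)), hN.eventually_gt_atTop 0,
    hN.eventually_ge_atTop ((q : ℝ) / (θ.re / 2))] with n h1 h2 h3 h4
  have h5 : ((r n).1 : ℝ) = (((r n).1 : ℝ) / ‖toC (r n)‖) * ‖toC (r n)‖ := by
    (clear * - h3; field_simp)
  have h6 : θ.re / 2 * ‖toC (r n)‖ ≤ ((r n).1 : ℝ) := by
    rw [h5]; exact mul_le_mul_of_nonneg_right h2.le h3.le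
  constructor
  · refine le_trans ?_ h6
    have h7 : |((r n).2 : ℝ) - θ.im / θ.re * ((r n).1 : ℝ)| =
        |((r n).2 : ℝ) / ‖toC (r n)‖ - θ.im / θ.re * (((r n).1 : ℝ) / ‖toC (r n)‖)| *
          ‖toC (r n)‖ := by
      rw [← abs_of_pos h3, ← abs_mul, abs_of_pos h3]
      congr 1
      field_simp
    rw [h7, ← mul_assoc]
    exact mul_le_mul_of_nonneg_right h1.le h3.le
  · refine le_trans ?_ h6
    rw [div_le_iff₀ hhalf] at h4
    linarith only [h4]

theorem ae_no_bi [NullSingletonClass G] (hG : G (Set.Iio 0) = 0)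
    (hmean : ∫⁻ s, ENNReal.ofReal s ∂G ≠ ∞) {θ : ℂ} (hθ : 0 < θ.re)
    (hm : θ.im / θ.re ∉ badSlopes G) : ∀ᵐ t ∂PG G, ∀ v : ℤ → V, IsBi (wt t) v →
      ¬ HasDirection (fun n : ℕ => v n) θ := by
  have hgood := ae_good hG hm
  filter_upwards [hgood, ae_no_trunk hmean hgood] with t h1 h2 v hv hd
  have hinj : Function.Injective (fun n : ℕ => v n) := by
    have := (hv 0).injective h1.adm
    simpa using this
  have hs0 := slope_of_direction hinj hθ hd
  have hs : ∀ n : ℤ, Slope (θ.im / θ.re) (fun i : ℕ => v (n + i)) := by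
    intro n q
    have ht : Tendsto (fun i : ℕ => (n + (i : ℤ)).toNat) atTop atTop := by
      rw [tendsto_atTop]
      intro b
      filter_upwards [eventually_ge_atTop (b + (-n).toNat)] with i hi
      (clear * - hi; omega)
    filter_upwards [ht.eventually (hs0 q), eventually_ge_atTop (-n).toNat] with i h3 h4
    have e : (((n + (i : ℤ)).toNat : ℕ) : ℤ) = n + i := by omega
    rw [e] at h3
    exact h3
  exact h2 _ (trunk_of_bi h1 hv hs 0)

theorem HasDirection.refl {r : ℕ → V} {θ : ℂ} (h : HasDirection r θ) :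
    HasDirection (fun n => refl1 (r n)) ⟨-θ.re, θ.im⟩ := by
  have hc : Continuous (fun z : ℂ => (⟨-z.re, z.im⟩ : ℂ)) := by
    have : (fun z : ℂ => (⟨-z.re, z.im⟩ : ℂ)) = fun z => -(starRingEnd ℂ z) := by
      funext z
      apply Complex.ext <;> simp
    rw [this]
    exact Complex.continuous_conj.neg
  have h1 := (hc.tendsto θ).comp h
  refine h1.congr fun n => ?_
  have e1 : toC (refl1 (r n)) = ⟨-(toC (r n)).re, (toC (r n)).im⟩ := by
    apply Complex.ext
    · simp only [toC, refl1_apply, Int.cast_neg]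
    · simp [toC, refl1_apply]
  have e2 : ‖toC (refl1 (r n))‖ = ‖toC (r n)‖ := by
    have : toC (refl1 (r n)) = -(starRingEnd ℂ (toC (r n))) := by
      rw [e1]; apply Complex.ext <;> simp
    rw [this, norm_neg, Complex.norm_conj]
  rw [e2, e1]
  simp only [Function.comp_apply]
  apply Complex.ext
  · simp only [Complex.div_ofReal_re]; ring
  · simp only [Complex.div_ofReal_im]

/-- Exceptional directions. -/
def excDir (G : Measure ℝ) [IsProbabilityMeasure G] : Set Circle :=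
  {θ | (θ : ℂ).re = 0} ∪ {θ | 0 < (θ : ℂ).re ∧ (θ : ℂ).im / (θ : ℂ).re ∈ badSlopes G} ∪
    {θ | (θ : ℂ).re < 0 ∧ (θ : ℂ).im / (-(θ : ℂ).re) ∈ badSlopes G}

theorem circle_sq (θ : Circle) : (θ : ℂ).re ^ 2 + (θ : ℂ).im ^ 2 = 1 := by
  have h := Circle.normSq_coe θ
  rw [Complex.normSq_apply] at h
  linarith

theorem circle_ext {θ θ' : Circle} (h1 : (θ : ℂ).re = (θ' : ℂ).re)
    (h2 : (θ : ℂ).im = (θ' : ℂ).im) : θ = θ' := Circle.ext (Complex.ext h1 h2)

theorem countable_excDir [NullSingletonClass G] (hG : G (Set.Iio 0) = 0) :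
    (excDir G).Countable := by
  have hb := countable_badSlopes hG
  unfold excDir
  refine Set.Countable.union (Set.Countable.union ?_ ?_) ?_
  · have hmaps : Set.MapsTo (fun θ : Circle => (θ : ℂ).im) {θ : Circle | (θ : ℂ).re = 0}
        {-1, 1} := by
      intro θ hθ
      have h0 : (θ : ℂ).re = 0 := hθ
      have h1 := circle_sq θ
      rw [h0] at h1
      have h2 : ((θ : ℂ).im - 1) * ((θ : ℂ).im + 1) = 0 := by linarith
      rcases mul_eq_zero.1 h2 with h | h
      · right; simp only [Set.mem_singleton_iff]; linarith only [h]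
      · left; simp only; linarith only [h]
    refine hmaps.countable_of_injOn ?_ (by simp)
    intro θ hθ θ' hθ' h
    have h0 : (θ : ℂ).re = 0 := hθ
    have h0' : (θ' : ℂ).re = 0 := hθ'
    exact circle_ext (h0.trans h0'.symm) h
  · have hmaps : Set.MapsTo (fun θ : Circle => (θ : ℂ).im / (θ : ℂ).re)
        {θ : Circle | 0 < (θ : ℂ).re ∧ (θ : ℂ).im / (θ : ℂ).re ∈ badSlopes G}
        (badSlopes G) := fun θ hθ => hθ.2
    refine hmaps.countable_of_injOn ?_ hb
    rintro θ ⟨h0, -⟩ θ' ⟨h0', -⟩ h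
    have h1 := circle_sq θ
    have h2 := circle_sq θ'
    simp only at h
    set a := (θ : ℂ).re
    set b := (θ : ℂ).im
    set a' := (θ' : ℂ).re
    set b' := (θ' : ℂ).im
    rw [div_eq_div_iff h0.ne' h0'.ne'] at h
    have h3 : a ^ 2 = a' ^ 2 := by
      have : (b * a') ^ 2 = (b' * a) ^ 2 := by rw [h]
      (clear * - this h2 h1; nlinarith)
    have h4 : a = a' := by nlinarith only [h3, h0, h0']
    refine circle_ext h4 ?_
    rw [← h4] at h
    exact mul_right_cancel₀ h0.ne' h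
  · have hmaps : Set.MapsTo (fun θ : Circle => (θ : ℂ).im / (-(θ : ℂ).re))
        {θ : Circle | (θ : ℂ).re < 0 ∧ (θ : ℂ).im / (-(θ : ℂ).re) ∈ badSlopes G}
        (badSlopes G) := fun θ hθ => hθ.2
    refine hmaps.countable_of_injOn ?_ hb
    rintro θ ⟨h0, -⟩ θ' ⟨h0', -⟩ h
    have h1 := circle_sq θ
    have h2 := circle_sq θ'
    simp only at h
    set a := (θ : ℂ).re
    set b := (θ : ℂ).im
    set a' := (θ' : ℂ).re
    set b' := (θ' : ℂ).im
    rw [div_eq_div_iff (neg_ne_zero.2 h0.ne) (neg_ne_zero.2 h0'.ne)] at h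
    have h3 : a ^ 2 = a' ^ 2 := by
      have : (b * a') ^ 2 = (b' * a) ^ 2 := by
        have : b * a' = b' * a := by linarith only [h]
        rw [this]
      nlinarith only [this, h2, h1]
    have h4 : a = a' := by nlinarith only [h3, h0, h0']
    refine circle_ext h4 ?_
    rw [← h4] at h
    exact mul_right_cancel₀ (neg_ne_zero.2 h0.ne) h

theorem ae_no_end [NullSingletonClass G] (hG : G (Set.Iio 0) = 0)
    (hmean : ∫⁻ s, ENNReal.ofReal s ∂G ≠ ∞) {θ : Circle} (hθ : θ ∉ excDir G) :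
    ∀ᵐ t ∂PG G, ∀ v : ℤ → V, IsBi (wt t) v → ¬ HasDirection (fun n : ℕ => v n) θ := by
  have h0 : (θ : ℂ).re ≠ 0 := fun h => hθ (Or.inl (Or.inl h))
  rcases lt_or_gt_of_ne h0 with h | h
  · have hm : (⟨-(θ : ℂ).re, (θ : ℂ).im⟩ : ℂ).im / (⟨-(θ : ℂ).re, (θ : ℂ).im⟩ : ℂ).re ∉
        badSlopes G := fun h' => hθ (Or.inr ⟨h, h'⟩)
    have h1 := (mp_iso (G := G) refl1).quasiMeasurePreserving.ae
      (ae_no_bi hG hmean (θ := ⟨-(θ : ℂ).re, (θ : ℂ).im⟩) (by simpa only [Left.neg_pos_iff] using h) hm)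
    filter_upwards [h1, ae_adm hG] with t h2 h3 v hv hd
    have hw : wt (isoE refl1 t) = fun a b => wt t (refl1 a) (refl1 b) := by
      funext a b; exact wt_isoE refl1 t a b
    refine h2 (fun n => refl1 (v n)) ?_ hd.refl
    rw [hw]
    exact hv.refl h3
  · exact ae_no_bi hG hmean h fun h' => hθ (Or.inl (Or.inr ⟨h, h'⟩))

theorem main_theorem (G : Measure ℝ) [IsProbabilityMeasure G] (hG : G (Set.Iio 0) = 0)
    (hatom : ∀ x, G {x} = 0) (hmean : Integrable (fun s : ℝ => s) G) :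
    ∃ D : Set Circle, D.Countable ∧ ∀ θ : Circle, θ ∉ D →
      ∀ (Ω : Type*) [MeasurableSpace Ω] (P : Measure Ω) [IsProbabilityMeasure P]
        (t : latt.edgeSet → Ω → ℝ), (∀ e, Measurable (t e)) → (∀ e, P.map (t e) = G) →
        ProbabilityTheory.iIndepFun t P →
        ∀ᵐ ω ∂P, ∀ v : ℤ → V, IsBigeodesic (fun e => t e ω) v →
          ¬ HasDirection (fun n : ℕ => v n) θ ∧ ¬ HasDirection (fun n : ℕ => v (-n)) θ := by
  have : NullSingletonClass G := ⟨hatom⟩
  refine ⟨excDir G, countable_excDir hG, fun θ hθ Ω _ P _ t ht hlaw hind => ?_⟩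
  have hmean' : ∫⁻ s, ENNReal.ofReal s ∂G ≠ ∞ := by
    refine ne_of_lt (lt_of_le_of_lt (lintegral_mono fun s => ?_) hmean.2)
    rw [← ofReal_norm]
    exact ENNReal.ofReal_le_ofReal (le_abs_self s)
  have hmap : P.map (fun ω e => t e ω) = PG G := by
    have h1 := hind.map_fun_eq_infinitePi_map ht
    rw [h1]
    unfold PG
    simp only [hlaw]
  have h2 : ∀ᵐ τ ∂(P.map (fun ω e => t e ω)), (Adm (wt τ) ∧ ∀ v : ℤ → V, IsBi (wt τ) v →
      ¬ HasDirection (fun n : ℕ => v n) θ) := by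
    rw [hmap]
    filter_upwards [ae_adm hG, ae_no_end hG hmean' hθ] with τ h3 h4
    exact ⟨h3, h4⟩
  have h3 := ae_of_ae_map (measurable_pi_lambda _ ht).aemeasurable h2
  filter_upwards [h3] with ω ⟨h4, h5⟩ v hv
  have hbi := hv.isBi h4
  refine ⟨h5 v hbi, ?_⟩
  have := h5 _ (hbi.rev h4)
  simpa only using this

end Vale.Agent.P158
end
end
end

section

section

end
end

section

section

/-! Robust bigeodesics: the deterministic part. -/

namespace Vale.Agent.P158.T1

open SimpleGraph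

variable {w w' : V → V → ℝ} {v : ℤ → V} {P P' : ℤ → ℝ}

/-- Position function of a biinfinite path. -/
def PosF (w : V → V → ℝ) (v : ℤ → V) (P : ℤ → ℝ) : Prop :=
  ∀ k, P (k + 1) = P k + w (v k) (v (k + 1))

theorem exists_posF (w : V → V → ℝ) (v : ℤ → V) : ∃ P, PosF w v P := by
  refine ⟨fun k => ∑ l ∈ Finset.Ico 0 k, w (v l) (v (l + 1)) -
    ∑ l ∈ Finset.Ico k 0, w (v l) (v (l + 1)), fun k => ?_⟩
  rcases le_or_gt 0 k with hk | hk
  · have e1 : Finset.Ico k 0 = ∅ := Finset.Ico_eq_empty (by omega)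
    have e2 : Finset.Ico (k + 1) 0 = ∅ := Finset.Ico_eq_empty (by omega)
    have e3 : Finset.Ico 0 (k + 1) = insert k (Finset.Ico 0 k) := by
      ext a; simp only [Finset.mem_Ico, Finset.mem_insert]; omega
    show ∑ l ∈ Finset.Ico 0 (k + 1), w (v l) (v (l + 1)) -
      ∑ l ∈ Finset.Ico (k + 1) 0, w (v l) (v (l + 1)) =
      ∑ l ∈ Finset.Ico 0 k, w (v l) (v (l + 1)) - ∑ l ∈ Finset.Ico k 0, w (v l) (v (l + 1)) + _
    rw [e1, e2, e3, Finset.sum_insert (by simp only [Finset.mem_Ico, lt_self_iff_false, and_false, not_false_eq_true])]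
    simp only [Finset.sum_empty, sub_zero]
    ring
  · have e1 : Finset.Ico 0 k = ∅ := Finset.Ico_eq_empty (by omega)
    have e2 : Finset.Ico 0 (k + 1) = ∅ := Finset.Ico_eq_empty (by omega)
    have e3 : Finset.Ico k 0 = insert k (Finset.Ico (k + 1) 0) := by
      ext a; simp only [Finset.mem_Ico, Finset.mem_insert]; omega
    show ∑ l ∈ Finset.Ico 0 (k + 1), w (v l) (v (l + 1)) -
      ∑ l ∈ Finset.Ico (k + 1) 0, w (v l) (v (l + 1)) =
      ∑ l ∈ Finset.Ico 0 k, w (v l) (v (l + 1)) - ∑ l ∈ Finset.Ico k 0, w (v l) (v (l + 1)) + _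
    rw [e1, e2, e3, Finset.sum_insert (by simp only [Finset.mem_Ico, add_le_iff_nonpos_right, Int.reduceLE, false_and, not_false_eq_true])]
    simp only [Finset.sum_empty]
    ring

theorem PosF.add (hP : PosF w v P) (i : ℤ) (n : ℕ) :
    P (i + n) = P i + ∑ l ∈ Finset.range n, w (v (i + l)) (v (i + l + 1)) := by
  induction n with
  | zero => simp
  | succ n ih =>
    rw [Finset.sum_range_succ, ← add_assoc, ← ih]
    have e : i + ((n + 1 : ℕ) : ℤ) = i + n + 1 := by push_cast; ring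
    rw [e]
    exact hP (i + n)

theorem isBi_T (hv : IsBi w v) (hP : PosF w v P) {i j : ℤ} (hij : i ≤ j) :
    T w (v i) (v j) = P j - P i := by
  obtain ⟨n, rfl⟩ := Int.le.dest hij
  have h1 : ∑ l ∈ Finset.range n, w (v (i + (l : ℤ))) (v (i + ((l + 1 : ℕ) : ℤ))) =
      T w (v (i + ((0 : ℕ) : ℤ))) (v (i + n)) := (hv i).2 n
  rw [hP.add i n]
  have e0 : v (i + ((0 : ℕ) : ℤ)) = v i := by simp
  rw [e0] at h1
  rw [← h1, add_sub_cancel_left]
  refine Finset.sum_congr rfl fun l _ => ?_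
  have e : i + ((l + 1 : ℕ) : ℤ) = i + l + 1 := by push_cast; ring
  rw [e]

theorem isBi_adj (hv : IsBi w v) (k : ℤ) : latt.Adj (v k) (v (k + 1)) := by
  have := (hv k).1 0
  simpa using this

theorem isBi_inj (hw : Adm w) (hv : IsBi w v) : Function.Injective v := by
  have key : ∀ a b : ℤ, a ≤ b → v a = v b → a = b := by
    intro a b hab h
    obtain ⟨n, rfl⟩ := Int.le.dest hab
    have h1 := (hv a).injective hw (a₁ := 0) (a₂ := n) (by simpa only [CharP.cast_eq_zero, add_zero] using h)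
    rw [← h1]; simp
  intro a b h
  rcases le_total a b with hab | hab
  · exact key a b hab h
  · exact (key b a hab h.symm).symm

theorem PosF.mono (hw : Adm w) (hv : ∀ k, latt.Adj (v k) (v (k + 1))) (hP : PosF w v P)
    {i j : ℤ} (hij : i ≤ j) : P i ≤ P j := by
  obtain ⟨n, rfl⟩ := Int.le.dest hij
  rw [hP.add i n]
  have : 0 ≤ ∑ l ∈ Finset.range n, w (v (i + l)) (v (i + l + 1)) :=
    Finset.sum_nonneg fun l _ => (hw.pos _ _ (hv _)).le
  linarith only [this]

/-- First hit of a set. -/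
theorem first_hit (Γ : V → Prop) {x y : V} (ρ : latt.Walk x y) (hy : Γ y) :
    ∃ (c : V) (ρ1 : latt.Walk x c) (ρ2 : latt.Walk c y), ρ = ρ1.append ρ2 ∧ Γ c ∧
      ∀ d ∈ ρ1.darts, ¬ Γ d.fst := by
  induction ρ with
  | nil => exact ⟨_, Walk.nil, Walk.nil, rfl, hy, by simp⟩
  | cons h ρ ih =>
    rename_i a b d
    by_cases ha : Γ a
    · exact ⟨a, Walk.nil, Walk.cons h ρ, rfl, ha, by simp⟩
    · obtain ⟨c, ρ1, ρ2, e, hc, hd⟩ := ih hy
      refine ⟨c, Walk.cons h ρ1, ρ2, by rw [e]; rfl, hc, fun d hd' => ?_⟩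
      rw [Walk.darts_cons, List.mem_cons] at hd'
      rcases hd' with rfl | hd'
      · exact ha
      · exact hd d hd'

end Vale.Agent.P158.T1
end
end

section

section

/-! Robust bigeodesics: finite energy. -/

namespace Vale.Agent.P158.T1

open SimpleGraph MeasureTheory Filter

variable {G : Measure ℝ} [IsProbabilityMeasure G]

theorem isBi_of_core {w' : V → V → ℝ} {v : ℤ → V} {P' : ℤ → ℝ} (hw' : Adm w')
    (hadj : ∀ k, latt.Adj (v k) (v (k + 1))) (hP' : PosF w' v P')
    (h : ∀ (i j : ℤ) (π : latt.Walk (v i) (v j)), P' j - P' i ≤ ww w' π) : IsBi w' v := by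
  intro n
  have ha : ∀ i : ℕ, latt.Adj (v (n + (i : ℤ))) (v (n + ((i + 1 : ℕ) : ℤ))) := fun i => by
    have := hadj (n + i)
    push_cast
    rwa [← add_assoc]
  refine ⟨ha, fun k => ?_⟩
  have e1 : ∑ i ∈ Finset.range k, w' (v (n + (i : ℤ))) (v (n + ((i + 1 : ℕ) : ℤ))) =
      P' (n + k) - P' n := by
    rw [hP'.add n k, add_sub_cancel_left]
    refine Finset.sum_congr rfl fun l _ => ?_
    have e : n + ((l + 1 : ℕ) : ℤ) = n + l + 1 := by push_cast; ring
    rw [e]
  have e2 : T w' (v (n + ((0 : ℕ) : ℤ))) (v (n + k)) ≤ ∑ i ∈ Finset.range k,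
      w' (v (n + (i : ℤ))) (v (n + ((i + 1 : ℕ) : ℤ))) := by
    have := T_le_sum (r := fun i : ℕ => v (n + (i : ℤ))) hw' ha (i := 0) (j := k) (Nat.zero_le k)
    simpa only [CharP.cast_eq_zero, add_zero, Nat.cast_add, Nat.cast_one, ge_iff_le, Nat.Ico_zero_eq_range] using     this
  refine le_antisymm ?_ e2
  change ∑ i ∈ Finset.range k, w' (v (n + (i : ℤ))) (v (n + ((i + 1 : ℕ) : ℤ))) ≤
    T w' (v (n + ((0 : ℕ) : ℤ))) (v (n + k))
  rw [e1]
  refine le_PT (conn_univ _ _) fun p _ => ?_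
  have := h (n + ((0 : ℕ) : ℤ)) (n + k) p
  simpa only [Int.cast_ofNat_Int, tsub_le_iff_right, ge_iff_le, CharP.cast_eq_zero, add_zero] using this

/-- Resampling one edge. -/
theorem ae_update {A : Env → Prop} (h : ∀ᵐ t ∂PG G, A t) (e : latt.edgeSet) :
    ∀ᵐ t ∂PG G, ∀ᵐ s ∂G, A (Function.update t e s) := by
  have h1 := (mp_update (G := G) e).quasiMeasurePreserving.ae h
  exact Measure.ae_ae_of_ae_prod h1

theorem wt_mk (s : Env) {x y : V} (hxy : latt.Adj x y) : wt s x y = s ⟨s(x, y), hxy⟩ := by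
  unfold wt; rw [dif_pos hxy]

theorem env_pos {t : Env} (hw : Adm (wt t)) (e : latt.edgeSet) : 0 < t e := by
  obtain ⟨e, he⟩ := e
  induction e using Sym2.ind with
  | _ x y =>
    have hxy : latt.Adj x y := he
    have := hw.pos x y hxy
    rwa [wt_mk t hxy] at this

end Vale.Agent.P158.T1
end
end

section

section

/-! M4: sequential `L²` comparison of laws. -/

namespace Vale.Agent.P158.T1

open MeasureTheory Function
open scoped ENNReal

variable {δ : Type*} [DecidableEq δ]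

variable {G : Measure ℝ} {B : Finset δ} {b : ℕ → ℝ≥0∞}
  {nxt : (δ → ℝ) → Finset δ → δ} {psi : (δ → ℝ) → Finset δ → ℝ → ℝ}

theorem lintegral_sqrt_le {α : Type*} [MeasurableSpace α] (P : Measure α) [IsProbabilityMeasure P]
    {h : α → ℝ≥0∞} (hh : AEMeasurable h P) :
    ∫⁻ x, h x ^ (1 / 2 : ℝ) ∂P ≤ (∫⁻ x, h x ∂P) ^ (1 / 2 : ℝ) := by
  have h1 := ENNReal.lintegral_mul_le_Lp_mul_Lq P Real.HolderConjugate.two_two
    (hh.pow_const (1 / 2 : ℝ)) (aemeasurable_const (b := (1 : ℝ≥0∞)))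
  simp only [Pi.mul_apply, mul_one, ENNReal.one_rpow, lintegral_const, measure_univ] at h1
  refine h1.trans (le_of_eq ?_)
  congr 1
  refine lintegral_congr fun x => ?_
  rw [← ENNReal.rpow_mul]
  norm_num

end Vale.Agent.P158.T1
end
end

section

section

/-! Block raising: every edge of `D` with weight `≤ α` is resampled, with probability `ε`,
from the law of a weight conditioned to be `≥ β`.  `L²` bound and coupling (thinning). -/

namespace Vale.Agent.P158.T1

open MeasureTheory Function Set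
open scoped ENNReal

/-- Parameters of the raising. -/
structure RP (G : Measure ℝ) (α β : ℝ) (ε : ℝ) : Prop where
  prob : IsProbabilityMeasure G
  lt : α < β
  lo : G (Iic α) ≠ 0
  hi : G (Ici β) ≠ 0
  nonneg : 0 ≤ ε
  le_one : ε ≤ 1
  pos : G (Iic 0) = 0

/-- Extra density of the high weights. -/
noncomputable def exd (G : Measure ℝ) (α β ε : ℝ) : ℝ≥0∞ :=
  ENNReal.ofReal ε * G (Iic α) / G (Ici β)

/-- Density of the raised law. -/
noncomputable def den (G : Measure ℝ) (α β ε : ℝ) (s : ℝ) : ℝ≥0∞ :=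
  if s ≤ α then ENNReal.ofReal (1 - ε) else if β ≤ s then 1 + exd G α β ε else 1

/-- The raised law. -/
noncomputable def rl (G : Measure ℝ) (α β ε : ℝ) : Measure ℝ := G.withDensity (den G α β ε)

/-- The law of a weight conditioned to be `≤ α`. -/
noncomputable def glo (G : Measure ℝ) (α : ℝ) : Measure ℝ := (G (Iic α))⁻¹ • G.restrict (Iic α)

/-- Probability that a high raised weight was not raised. -/
noncomputable def q1 (G : Measure ℝ) (α β ε : ℝ) : ℝ≥0∞ := (1 + exd G α β ε)⁻¹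

/-- Probability that a high raised weight was raised. -/
noncomputable def q2 (G : Measure ℝ) (α β ε : ℝ) : ℝ≥0∞ := exd G α β ε * (1 + exd G α β ε)⁻¹

variable {G : Measure ℝ} {α β ε : ℝ}

theorem measurable_den : Measurable (den G α β ε) := by
  unfold den
  exact Measurable.ite measurableSet_Iic measurable_const
    (Measurable.ite measurableSet_Ici measurable_const measurable_const)

theorem RP.exd_ne_top (h : RP G α β ε) : exd G α β ε ≠ ∞ := by
  have := h.prob
  unfold exd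
  exact ENNReal.div_ne_top (ENNReal.mul_ne_top ENNReal.ofReal_ne_top (measure_ne_top _ _)) h.hi

theorem RP.exd_mul (h : RP G α β ε) :
    exd G α β ε * G (Ici β) = ENNReal.ofReal ε * G (Iic α) := by
  have := h.prob
  unfold exd
  exact ENNReal.div_mul_cancel h.hi (measure_ne_top _ _)

theorem RP.one_add_ne (h : RP G α β ε) : (1 + exd G α β ε) ≠ 0 ∧ (1 + exd G α β ε) ≠ ∞ :=
  ⟨by simp only [ne_eq, add_eq_zero, one_ne_zero, false_and, not_false_eq_true], ENNReal.add_ne_top.2 ⟨ENNReal.one_ne_top, h.exd_ne_top⟩⟩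

theorem RP.q_add (h : RP G α β ε) : q1 G α β ε + q2 G α β ε = 1 := by
  unfold q1 q2
  nth_rewrite 1 [← one_mul (1 + exd G α β ε)⁻¹]
  rw [← add_mul, ENNReal.mul_inv_cancel h.one_add_ne.1 h.one_add_ne.2]

theorem RP.mul_q1 (h : RP G α β ε) : (1 + exd G α β ε) * q1 G α β ε = 1 := by
  unfold q1
  rw [ENNReal.mul_inv_cancel h.one_add_ne.1 h.one_add_ne.2]

theorem RP.mul_q2 (h : RP G α β ε) : (1 + exd G α β ε) * q2 G α β ε = exd G α β ε := by
  unfold q2
  rw [mul_left_comm, ENNReal.mul_inv_cancel h.one_add_ne.1 h.one_add_ne.2, mul_one]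

theorem RP.prob_glo (h : RP G α β ε) : IsProbabilityMeasure (glo G α) := by
  have := h.prob
  constructor
  unfold glo
  rw [Measure.smul_apply, Measure.restrict_apply MeasurableSet.univ, univ_inter, smul_eq_mul,
    ENNReal.inv_mul_cancel h.lo (measure_ne_top _ _)]

theorem RP.lintegral_glo (h : RP G α β ε) (f : ℝ → ℝ≥0∞) :
    G (Iic α) * ∫⁻ s, f s ∂glo G α = ∫⁻ s in Iic α, f s ∂G := by
  have := h.prob
  unfold glo
  rw [lintegral_smul_measure, smul_eq_mul, ← mul_assoc,
    ENNReal.mul_inv_cancel h.lo (measure_ne_top _ _), one_mul]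

/-- Splitting of an integral over low, middle and high weights. -/
theorem RP.split (h : RP G α β ε) (f : ℝ → ℝ≥0∞) :
    ∫⁻ s, f s ∂G = ∫⁻ s in Iic α, f s ∂G + (∫⁻ s in Ioo α β, f s ∂G + ∫⁻ s in Ici β, f s ∂G) := by
  rw [← lintegral_add_compl f measurableSet_Iic (μ := G) (A := Iic α), compl_Iic]
  congr 1
  have e : Ioi α = Ioo α β ∪ Ici β := (Ioo_union_Ici_eq_Ioi h.lt).symm
  rw [e, lintegral_union measurableSet_Ici]
  rw [Set.disjoint_left]
  intro x hx hx'
  exact absurd hx.2 (not_lt.2 hx')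

/-- One-edge identity behind the coupling. -/
theorem RP.one_edge (h : RP G α β ε) {f : ℝ → ℝ≥0∞} (hf : Measurable f) :
    ∫⁻ s, f s ∂G = ∫⁻ s, (if β ≤ s then q1 G α β ε * f s +
      q2 G α β ε * ∫⁻ u, f u ∂glo G α else f s) ∂rl G α β ε := by
  have := h.prob
  set c := ∫⁻ u, f u ∂glo G α with hc
  set F : ℝ → ℝ≥0∞ := fun s => if β ≤ s then q1 G α β ε * f s + q2 G α β ε * c else f s with hF
  have hFm : Measurable F :=
    Measurable.ite measurableSet_Ici ((hf.const_mul _).add measurable_const) hf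
  unfold rl
  rw [lintegral_withDensity_eq_lintegral_mul _ measurable_den hFm, h.split f,
    h.split (den G α β ε * F)]
  have e1 : ∫⁻ s in Iic α, (den G α β ε * F) s ∂G =
      ENNReal.ofReal (1 - ε) * ∫⁻ s in Iic α, f s ∂G := by
    rw [← lintegral_const_mul _ hf]
    refine setLIntegral_congr_fun measurableSet_Iic fun s hs => ?_
    have hs' : s ≤ α := hs
    have h1 : ¬ β ≤ s := not_le.2 (lt_of_le_of_lt hs' h.lt)
    simp only [Pi.mul_apply, den, hF, if_pos hs', if_neg h1]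
  have e2 : ∫⁻ s in Ioo α β, (den G α β ε * F) s ∂G = ∫⁻ s in Ioo α β, f s ∂G := by
    refine setLIntegral_congr_fun measurableSet_Ioo fun s hs => ?_
    have h0 : ¬ s ≤ α := not_le.2 hs.1
    have h1 : ¬ β ≤ s := not_le.2 hs.2
    simp only [Pi.mul_apply, den, hF, if_neg h0, if_neg h1, one_mul]
  have e3 : ∫⁻ s in Ici β, (den G α β ε * F) s ∂G =
      ∫⁻ s in Ici β, f s ∂G + exd G α β ε * c * G (Ici β) := by
    have e4 : ∀ s ∈ Ici β, (den G α β ε * F) s = f s + exd G α β ε * c := by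
      intro s hs
      have hs' : β ≤ s := hs
      have h0 : ¬ s ≤ α := not_le.2 (lt_of_lt_of_le h.lt hs')
      simp only [Pi.mul_apply, den, hF, if_neg h0, if_pos hs']
      rw [mul_add, ← mul_assoc, ← mul_assoc, h.mul_q1, h.mul_q2, one_mul]
    rw [setLIntegral_congr_fun measurableSet_Ici e4, lintegral_add_right _ measurable_const,
      lintegral_const, Measure.restrict_apply MeasurableSet.univ, univ_inter]
  have e5 : exd G α β ε * c * G (Ici β) = ENNReal.ofReal ε * ∫⁻ s in Iic α, f s ∂G := by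
    rw [mul_right_comm, h.exd_mul, mul_assoc, hc, h.lintegral_glo]
  rw [e1, e2, e3, e5]
  have e6 : (∫⁻ s in Iic α, f s ∂G) = ENNReal.ofReal (1 - ε) * (∫⁻ s in Iic α, f s ∂G) +
      ENNReal.ofReal ε * (∫⁻ s in Iic α, f s ∂G) := by
    rw [← add_mul, ← ENNReal.ofReal_add (by linarith only [h.le_one]) h.nonneg, sub_add_cancel,
      ENNReal.ofReal_one, one_mul]
  nth_rewrite 1 [e6]
  ring

/-- The raised law is a probability measure. -/
theorem RP.prob_rl (h : RP G α β ε) : IsProbabilityMeasure (rl G α β ε) := by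
  have := h.prob
  have := h.prob_glo
  constructor
  have h1 := h.one_edge (f := fun _ => 1) measurable_const
  simp only [mul_one, lintegral_const, measure_univ, h.q_add, ite_self, one_mul] at h1
  exact h1.symm

/-- `L²` bound for one edge. -/
theorem RP.sq_le (h : RP G α β ε) :
    ∫⁻ s, den G α β ε s ^ 2 ∂G ≤ ENNReal.ofReal (1 + ε ^ 2 * (1 + 1 / (G (Ici β)).toReal)) := by
  have := h.prob
  rw [h.split]
  have e1 : ∫⁻ s in Iic α, den G α β ε s ^ 2 ∂G = ENNReal.ofReal (1 - ε) ^ 2 * G (Iic α) := by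
    rw [← Measure.restrict_apply_univ (μ := G) (Iic α), ← lintegral_const]
    refine setLIntegral_congr_fun measurableSet_Iic fun s hs => ?_
    have hs' : s ≤ α := hs
    simp only [den, if_pos hs']
  have e2 : ∫⁻ s in Ioo α β, den G α β ε s ^ 2 ∂G = G (Ioo α β) := by
    rw [← Measure.restrict_apply_univ (μ := G) (Ioo α β), ← one_mul (G.restrict _ univ),
      ← lintegral_const]
    refine setLIntegral_congr_fun measurableSet_Ioo fun s hs => ?_
    have h0 : ¬ s ≤ α := not_le.2 hs.1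
    have h1 : ¬ β ≤ s := not_le.2 hs.2
    simp only [den, if_neg h1, if_neg h0, one_pow]
  have e3 : ∫⁻ s in Ici β, den G α β ε s ^ 2 ∂G = (1 + exd G α β ε) ^ 2 * G (Ici β) := by
    rw [← Measure.restrict_apply_univ (μ := G) (Ici β), ← lintegral_const]
    refine setLIntegral_congr_fun measurableSet_Ici fun s hs => ?_
    have hs' : β ≤ s := hs
    have h0 : ¬ s ≤ α := not_le.2 (lt_of_lt_of_le h.lt hs')
    simp only [den, if_neg h0, if_pos hs']
  rw [e1, e2, e3]
  -- pass to real numbers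
  set a := (G (Iic α)).toReal with ha
  set m := (G (Ioo α β)).toReal with hm
  set b := (G (Ici β)).toReal with hb
  have ha' : G (Iic α) = ENNReal.ofReal a := (ENNReal.ofReal_toReal (measure_ne_top _ _)).symm
  have hm' : G (Ioo α β) = ENNReal.ofReal m := (ENNReal.ofReal_toReal (measure_ne_top _ _)).symm
  have hb' : G (Ici β) = ENNReal.ofReal b := (ENNReal.ofReal_toReal (measure_ne_top _ _)).symm
  have hb0 : 0 < b := ENNReal.toReal_pos h.hi (measure_ne_top _ _)
  have ha0 : 0 ≤ a := ENNReal.toReal_nonneg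
  have hm0 : 0 ≤ m := ENNReal.toReal_nonneg
  have hex : exd G α β ε = ENNReal.ofReal (ε * a / b) := by
    unfold exd
    rw [ha', hb', ← ENNReal.ofReal_mul h.nonneg, ENNReal.ofReal_div_of_pos hb0]
  have hsum : a + (m + b) = 1 := by
    have h1 := h.split (fun _ => 1)
    simp only [lintegral_const, one_mul, measure_univ, Measure.restrict_apply MeasurableSet.univ,
      univ_inter, ha', hm', hb'] at h1
    rw [← ENNReal.ofReal_add hm0 hb0.le, ← ENNReal.ofReal_add ha0 (by (clear * - hb0; positivity))] at h1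
    have h2 := congrArg ENNReal.toReal h1
    rw [ENNReal.toReal_ofReal (by (clear * - hb0; positivity))] at h2
    simpa only [ENNReal.toReal_one] using h2.symm
  have hε := h.nonneg
  have h0 : 0 ≤ ε * a / b := by (clear * - hε hb0; positivity)
  have h1 : (0 : ℝ) ≤ 1 - ε := by (clear * - h; linarith [h.le_one])
  rw [hex, ha', hm', hb', ← ENNReal.ofReal_pow h1, ← ENNReal.ofReal_mul (by (clear * -; positivity)),
    ← ENNReal.ofReal_one, ← ENNReal.ofReal_add (by norm_num) h0,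
    ← ENNReal.ofReal_pow (by (clear * - hε hb0; positivity)), ← ENNReal.ofReal_mul (by (clear * - hε hb0; positivity)),
    ← ENNReal.ofReal_add hm0 (by (clear * - hε hb0; positivity)), ← ENNReal.ofReal_add (by (clear * -; positivity)) (by (clear * - hε hb0; positivity))]
  refine ENNReal.ofReal_le_ofReal ?_
  have ha1 : a ≤ 1 := by linarith only [hb0, hm0, hsum]
  have e4 : (1 + ε * a / b) ^ 2 * b = b + 2 * ε * a + ε ^ 2 * a ^ 2 / b := by
    field_simp
    ring
  rw [e4]
  have e5 : ε ^ 2 * a ^ 2 / b ≤ ε ^ 2 * (1 / b) := by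
    rw [mul_div_assoc]
    refine mul_le_mul_of_nonneg_left ?_ (by (clear * -; positivity))
    rw [div_le_div_iff_of_pos_right hb0]
    nlinarith only [hb0, hm0, hsum, ha0]
  nlinarith only [hsum, e5, hb0, hm0]

/-- One-variable `L²` inequality. -/
theorem RP.l2 (h : RP G α β ε) {g : ℝ → ℝ≥0∞} (hg : Measurable g) :
    ∫⁻ s, g s ∂rl G α β ε ≤
      (ENNReal.ofReal (1 + ε ^ 2 * (1 + 1 / (G (Ici β)).toReal)) *
        ∫⁻ s, g s ^ 2 ∂G) ^ (1 / 2 : ℝ) := by
  have := h.prob
  unfold rl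
  rw [lintegral_withDensity_eq_lintegral_mul _ measurable_den hg]
  have h1 := ENNReal.lintegral_mul_le_Lp_mul_Lq G Real.HolderConjugate.two_two
    (measurable_den (G := G) (α := α) (β := β) (ε := ε)).aemeasurable hg.aemeasurable
  refine h1.trans ?_
  rw [ENNReal.mul_rpow_of_nonneg _ _ (by norm_num : (0 : ℝ) ≤ 1 / 2)]
  simp only [ENNReal.rpow_two]
  exact mul_le_mul' (ENNReal.rpow_le_rpow h.sq_le (by norm_num)) le_rfl

/-! ### Product form of the `L²` bound -/

section Prod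

variable {δ : Type*} [DecidableEq δ]

theorem lmarginal_l2 {G G' : Measure ℝ} [SigmaFinite G] [SigmaFinite G'] {b : ℝ≥0∞}
    (hb : ∀ g : ℝ → ℝ≥0∞, Measurable g → ∫⁻ s, g s ∂G' ≤ (b * ∫⁻ s, g s ^ 2 ∂G) ^ (1 / 2 : ℝ))
    {f : (δ → ℝ) → ℝ≥0∞} (hf : Measurable f) (D : Finset δ) (t : δ → ℝ) :
    (∫⋯∫⁻_D, f ∂fun _ => G') t ≤
      (b ^ D.card * (∫⋯∫⁻_D, (fun t' => f t' ^ 2) ∂fun _ => G) t) ^ (1 / 2 : ℝ) := by
  induction D using Finset.induction_on generalizing t with
  | empty =>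
    rw [lmarginal_empty, lmarginal_empty, Finset.card_empty, pow_zero, one_mul,
      ← ENNReal.rpow_two, ← ENNReal.rpow_mul]
    norm_num
  | insert e D he ih =>
    rw [lmarginal_insert _ hf he, lmarginal_insert _ (hf.pow_const 2) he,
      Finset.card_insert_of_notMem he]
    have hQm : Measurable fun s : ℝ =>
        (∫⋯∫⁻_D, (fun t' => f t' ^ 2) ∂fun _ => G) (update t e s) :=
      ((hf.pow_const 2).lmarginal (fun _ => G)).comp (measurable_update t)
    calc (∫⁻ s, (∫⋯∫⁻_D, f ∂fun _ => G') (update t e s) ∂G')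
        ≤ ∫⁻ s, (b ^ D.card *
            (∫⋯∫⁻_D, (fun t' => f t' ^ 2) ∂fun _ => G) (update t e s)) ^ (1 / 2 : ℝ) ∂G' :=
          lintegral_mono fun s => ih _
      _ ≤ (b * ∫⁻ s, ((b ^ D.card *
            (∫⋯∫⁻_D, (fun t' => f t' ^ 2) ∂fun _ => G) (update t e s)) ^ (1 / 2 : ℝ)) ^ 2 ∂G) ^
              (1 / 2 : ℝ) := hb _ ((hQm.const_mul _).pow_const _)
      _ = _ := by
          have h2 : ∀ s : ℝ, ((b ^ D.card *
            (∫⋯∫⁻_D, (fun t' => f t' ^ 2) ∂fun _ => G) (update t e s)) ^ (1 / 2 : ℝ)) ^ 2 =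
              b ^ D.card * (∫⋯∫⁻_D, (fun t' => f t' ^ 2) ∂fun _ => G) (update t e s) := by
            intro s
            rw [← ENNReal.rpow_two, ← ENNReal.rpow_mul]
            norm_num
          simp only [h2]
          rw [lintegral_const_mul _ hQm, ← mul_assoc, ← pow_succ']

/-- Resample the coordinates in `D` with the law `G'`. -/
noncomputable def rsm (G' : Measure ℝ) (D : Finset δ) (P : Measure (δ → ℝ)) :
    Measure (δ → ℝ) :=
  Measure.map (fun p : (δ → ℝ) × (D → ℝ) => updateFinset p.1 D p.2)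
    (P.prod (Measure.pi fun _ => G'))

theorem lintegral_rsm {G' : Measure ℝ} [SigmaFinite G'] {D : Finset δ} {P : Measure (δ → ℝ)}
    [SFinite P] {f : (δ → ℝ) → ℝ≥0∞} (hf : Measurable f) :
    ∫⁻ t, f t ∂rsm G' D P = ∫⁻ t, (∫⋯∫⁻_D, f ∂fun _ => G') t ∂P := by
  have hm : Measurable fun a : (δ → ℝ) × (D → ℝ) => f (updateFinset a.1 D a.2) :=
    hf.comp measurable_updateFinset'
  unfold rsm
  rw [lintegral_map hf measurable_updateFinset', lintegral_prod _ hm.aemeasurable]
  rfl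

theorem prob_rsm {G' : Measure ℝ} [IsProbabilityMeasure G'] {D : Finset δ}
    {P : Measure (δ → ℝ)} [IsProbabilityMeasure P] : IsProbabilityMeasure (rsm G' D P) :=
  Measure.isProbabilityMeasure_map measurable_updateFinset'.aemeasurable

/-- `L²` comparison of the raised law with the original law. -/
theorem RP.rsm_le (h : RP G α β ε) {D : Finset δ} {P : Measure (δ → ℝ)} [IsProbabilityMeasure P]
    (hP : rsm G D P = P) {C : Set (δ → ℝ)} (hC : MeasurableSet C) :
    rsm (rl G α β ε) D P C ≤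
      (ENNReal.ofReal (1 + ε ^ 2 * (1 + 1 / (G (Ici β)).toReal)) ^ D.card * P C) ^
        (1 / 2 : ℝ) := by
  have := h.prob
  have := h.prob_rl
  have hm : Measurable (C.indicator (1 : (δ → ℝ) → ℝ≥0∞)) := measurable_one.indicator hC
  have h2 : ∀ t, (C.indicator (1 : (δ → ℝ) → ℝ≥0∞) t) ^ 2 = C.indicator 1 t := by
    intro t
    by_cases ht : t ∈ C <;> simp [ht]
  rw [← lintegral_indicator_one hC, ← lintegral_indicator_one hC (μ := P), lintegral_rsm hm]
  conv_rhs => rw [← hP, lintegral_rsm hm]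
  have hm2 : Measurable (∫⋯∫⁻_D, (C.indicator (1 : (δ → ℝ) → ℝ≥0∞)) ∂fun _ => G) :=
    hm.lmarginal (fun _ => G)
  calc (∫⁻ t, (∫⋯∫⁻_D, (C.indicator (1 : (δ → ℝ) → ℝ≥0∞)) ∂fun _ => rl G α β ε) t ∂P)
      ≤ ∫⁻ t, (ENNReal.ofReal (1 + ε ^ 2 * (1 + 1 / (G (Ici β)).toReal)) ^ D.card *
          (∫⋯∫⁻_D, (C.indicator (1 : (δ → ℝ) → ℝ≥0∞)) ∂fun _ => G) t) ^ (1 / 2 : ℝ) ∂P := by
        refine lintegral_mono fun t => ?_
        have := lmarginal_l2 (fun g hg => h.l2 hg) hm D t
        simpa only [h2] using this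
    _ ≤ (∫⁻ t, ENNReal.ofReal (1 + ε ^ 2 * (1 + 1 / (G (Ici β)).toReal)) ^ D.card *
          (∫⋯∫⁻_D, (C.indicator (1 : (δ → ℝ) → ℝ≥0∞)) ∂fun _ => G) t ∂P) ^ (1 / 2 : ℝ) :=
        lintegral_sqrt_le P (hm2.const_mul _).aemeasurable
    _ = _ := by rw [lintegral_const_mul _ hm2]

/-- `L²` comparison with an explicit constant. -/
theorem RP.rsm_le_exp (h : RP G α β ε) {D : Finset δ} {P : Measure (δ → ℝ)}
    [IsProbabilityMeasure P] (hP : rsm G D P = P) {c : ℝ} (hc : (D.card : ℝ) * ε ^ 2 ≤ c)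
    {C : Set (δ → ℝ)} (hC : MeasurableSet C) :
    rsm (rl G α β ε) D P C ≤
      (ENNReal.ofReal (Real.exp (c * (1 + 1 / (G (Ici β)).toReal))) * P C) ^ (1 / 2 : ℝ) := by
  refine (h.rsm_le hP hC).trans (ENNReal.rpow_le_rpow (mul_le_mul' ?_ le_rfl) (by (clear * -; norm_num)))
  have h0 : 0 ≤ 1 / (G (Ici β)).toReal := by (clear * -; positivity)
  rw [← ENNReal.ofReal_pow (by (clear * -; positivity))]
  refine ENNReal.ofReal_le_ofReal ?_
  calc (1 + ε ^ 2 * (1 + 1 / (G (Ici β)).toReal)) ^ D.card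
      ≤ (Real.exp (ε ^ 2 * (1 + 1 / (G (Ici β)).toReal))) ^ D.card :=
        pow_le_pow_left₀ (by positivity) (by
          rw [add_comm]; exact Real.add_one_le_exp _) _
    _ = Real.exp ((D.card : ℝ) * (ε ^ 2 * (1 + 1 / (G (Ici β)).toReal))) := by
        rw [Real.exp_nat_mul]
    _ ≤ _ := by
        refine Real.exp_le_exp.2 ?_
        rw [← mul_assoc]
        exact mul_le_mul_of_nonneg_right hc (by positivity)

/-! ### Coupling (thinning) -/

/-- Lowering one edge of a raised configuration. -/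
noncomputable def Kop (G : Measure ℝ) (α β ε : ℝ) (e : δ) (f : (δ → ℝ) → ℝ≥0∞) (t : δ → ℝ) :
    ℝ≥0∞ :=
  if β ≤ t e then q1 G α β ε * f t + q2 G α β ε * ∫⁻ u, f (update t e u) ∂glo G α else f t

/-- Lowering the edges of a list. -/
noncomputable def KL (G : Measure ℝ) (α β ε : ℝ) : List δ → ((δ → ℝ) → ℝ≥0∞) →
    ((δ → ℝ) → ℝ≥0∞)
  | [], f => f
  | e :: l, f => KL G α β ε l (Kop G α β ε e f)

theorem measurable_upd2 (e : δ) : Measurable fun p : (δ → ℝ) × ℝ => update p.1 e p.2 := by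
  refine measurable_pi_lambda _ fun i => ?_
  by_cases hi : i = e
  · subst hi
    simp only [update_self]
    exact measurable_snd
  · simp only [update_of_ne hi]
    exact (measurable_pi_apply i).comp measurable_fst

theorem RP.measurable_Kop (h : RP G α β ε) {f : (δ → ℝ) → ℝ≥0∞} (hf : Measurable f) (e : δ) :
    Measurable (Kop G α β ε e f) := by
  have := h.prob_glo
  unfold Kop
  refine Measurable.ite (measurable_pi_apply e measurableSet_Ici) ?_ hf
  have h1 : Measurable fun p : (δ → ℝ) × ℝ => f (update p.1 e p.2) :=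
    hf.comp (measurable_upd2 e)
  exact (hf.const_mul _).add ((Measurable.lintegral_prod_right' h1).const_mul _)

theorem RP.measurable_KL (h : RP G α β ε) (l : List δ) : ∀ {f : (δ → ℝ) → ℝ≥0∞},
    Measurable f → Measurable (KL G α β ε l f) := by
  induction l with
  | nil => intro f hf; exact hf
  | cons e l ih => intro f hf; exact ih (h.measurable_Kop hf e)

theorem lmarginal_congr_meas {s : Finset δ} {μ ν : δ → Measure ℝ} (hμ : ∀ i ∈ s, μ i = ν i)
    (f : (δ → ℝ) → ℝ≥0∞) : (∫⋯∫⁻_s, f ∂μ) = ∫⋯∫⁻_s, f ∂ν := by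
  funext x
  unfold lmarginal
  have : (fun i : s => μ i) = fun i : s => ν i := funext fun i => hμ i i.2
  rw [this]

theorem RP.one_edge_lm (h : RP G α β ε) {f : (δ → ℝ) → ℝ≥0∞} (hf : Measurable f)
    {D : Finset δ} {e : δ} (he : e ∈ D) {μ : δ → Measure ℝ} [∀ i, SigmaFinite (μ i)]
    (hμ : μ e = rl G α β ε) :
    (∫⋯∫⁻_D, f ∂(update μ e G)) = ∫⋯∫⁻_D, Kop G α β ε e f ∂μ := by
  have := h.prob
  have i1 : ∀ i, SigmaFinite (update μ e G i) := by
    intro i
    by_cases hi : i = e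
    · subst hi; rw [update_self]; infer_instance
    · rw [update_of_ne hi]; infer_instance
  rw [← Finset.insert_erase he]
  have he' : e ∉ D.erase e := Finset.notMem_erase _ _
  rw [lmarginal_insert' _ hf he', lmarginal_insert' _ (h.measurable_Kop hf e) he']
  rw [lmarginal_congr_meas (μ := update μ e G) (ν := μ) (s := D.erase e)
    fun i hi => update_of_ne (Finset.ne_of_mem_erase hi) _ _]
  congr 1
  funext x
  rw [update_self, hμ]
  have hfx : Measurable fun s : ℝ => f (update x e s) := hf.comp (measurable_update x)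
  rw [h.one_edge hfx]
  refine lintegral_congr fun s => ?_
  unfold Kop
  simp only [update_self, update_idem]

theorem RP.lm_KL (h : RP G α β ε) {D : Finset δ} (l : List δ) (hl : l.Nodup)
    (hlD : ∀ e ∈ l, e ∈ D) : ∀ {f : (δ → ℝ) → ℝ≥0∞}, Measurable f →
    (∫⋯∫⁻_D, f ∂fun i => if i ∈ l then G else rl G α β ε) =
      ∫⋯∫⁻_D, KL G α β ε l f ∂fun _ => rl G α β ε := by
  have := h.prob
  have := h.prob_rl
  induction l with
  | nil => intro f _; simp only [List.not_mem_nil, ↓reduceIte, KL]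
  | cons e l ih =>
    intro f hf
    have hel := (List.nodup_cons.1 hl).1
    have i1 : ∀ i, SigmaFinite ((fun i => if i ∈ l then G else rl G α β ε) i) := by
      intro i
      by_cases hi : i ∈ l
      · simp only [if_pos hi]; infer_instance
      · simp only [if_neg hi]; infer_instance
    have e1 : (fun i => if i ∈ e :: l then G else rl G α β ε) =
        update (fun i => if i ∈ l then G else rl G α β ε) e G := by
      funext i
      by_cases hi : i = e
      · subst hi; simp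
      · rw [update_of_ne hi]; simp [hi]
    rw [e1, h.one_edge_lm hf (hlD e (by simp)) (by simp [hel])]
    exact ih (List.nodup_cons.1 hl).2 (fun i hi => hlD i (by simp [hi]))
      (h.measurable_Kop hf e)

/-- Number of successes. -/
noncomputable def cnt (α : ℝ) (Q : Finset δ) (t : δ → ℝ) : ℕ := by
  classical exact (Q.filter fun e => t e ≤ α).card

/-- Configurations reachable from `t'` by lowering high edges of `D`. -/
def Rch (α β : ℝ) (D : Finset δ) (t' t : δ → ℝ) : Prop :=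
  (∀ e, e ∉ D → t e = t' e) ∧ ∀ e ∈ D, t e = t' e ∨ (β ≤ t' e ∧ 0 < t e ∧ t e ≤ α)

/-- The ratio of the exponential bound. -/
noncomputable def Th (G : Measure ℝ) (α β ε : ℝ) : ℝ≥0∞ :=
  q1 G α β ε + q2 G α β ε * ENNReal.ofReal (Real.exp (-1))

theorem RP.ae_glo (h : RP G α β ε) : ∀ᵐ u ∂glo G α, 0 < u ∧ u ≤ α := by
  have h1 : ∀ᵐ u ∂(G.restrict (Iic α)), 0 < u ∧ u ≤ α := by
    have h0 : ∀ᵐ u ∂G, 0 < u := by
      rw [ae_iff]
      simp only [not_lt]
      exact h.pos
    filter_upwards [self_mem_ae_restrict measurableSet_Iic, ae_restrict_of_ae h0] with u h1 h2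
    exact ⟨h2, h1⟩
  unfold glo
  exact Measure.ae_smul_measure h1 _

theorem cnt_update_mem {Q : Finset δ} {e : δ} (he : e ∈ Q) {t : δ → ℝ} (ht : ¬ t e ≤ α) {u : ℝ}
    (hu : u ≤ α) : cnt α Q (update t e u) = cnt α Q t + 1 := by
  classical
  unfold cnt
  have : Q.filter (fun i => update t e u i ≤ α) = insert e (Q.filter fun i => t i ≤ α) := by
    ext i
    simp only [Finset.mem_filter, Finset.mem_insert]
    by_cases hi : i = e
    · subst hi; simp [he, hu]
    · simp [hi]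
  rw [this, Finset.card_insert_of_notMem]
  simp only [Finset.mem_filter, ht, and_false, not_false_eq_true]

theorem cnt_update_notMem {Q : Finset δ} {e : δ} (he : e ∉ Q) (t : δ → ℝ) (u : ℝ) :
    cnt α Q (update t e u) = cnt α Q t := by
  classical
  unfold cnt
  congr 1
  refine Finset.filter_congr fun i hi => ?_
  have : i ≠ e := fun h => he (h ▸ hi)
  rw [update_of_ne this]

theorem RP.KL_ge (h : RP G α β ε) {D Q : Finset δ} (M : ℕ) (t' : δ → ℝ)
    (hQ : ∀ e ∈ Q, β ≤ t' e) (l : List δ) (hl : l.Nodup) (hlD : ∀ e ∈ l, e ∈ D) :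
    ∀ (U : Finset δ) (j : ℕ) (f : (δ → ℝ) → ℝ≥0∞), (∀ e ∈ l, e ∉ U) →
      (∀ t, Rch α β D t' t → (∀ e ∈ U, t e = t' e) →
        1 ≤ f t + ENNReal.ofReal (Real.exp ((M : ℝ) - cnt α Q t)) * Th G α β ε ^ j) →
      ∀ t, Rch α β D t' t → (∀ e ∈ U, t e = t' e) → (∀ e ∈ l, t e = t' e) →
        1 ≤ KL G α β ε l f t + ENNReal.ofReal (Real.exp ((M : ℝ) - cnt α Q t)) *
          Th G α β ε ^ (j + (l.toFinset ∩ Q).card) := by
  have := h.prob
  have := h.prob_glo
  induction l with
  | nil =>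
    intro U j f _ hf t h1 h2 _
    simpa only [KL, List.toFinset_nil, Finset.empty_inter, Finset.card_empty, add_zero] using hf t h1 h2
  | cons e l ih =>
    intro U j f hU hf t h1 h2 h3
    have hel := (List.nodup_cons.1 hl).1
    have heD := hlD e (by simp)
    have heU := hU e (by simp)
    set j' : ℕ := j + if e ∈ Q then 1 else 0 with hj'
    have hcard : j + ((e :: l).toFinset ∩ Q).card = j' + (l.toFinset ∩ Q).card := by
      rw [List.toFinset_cons]
      by_cases heQ : e ∈ Q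
      · rw [Finset.insert_inter_of_mem heQ, Finset.card_insert_of_notMem
          (by simp [hel]), hj', if_pos heQ]
        ring
      · rw [Finset.insert_inter_of_notMem heQ, hj', if_neg heQ, add_zero]
    rw [hcard]
    simp only [KL]
    refine ih (List.nodup_cons.1 hl).2 (fun i hi => hlD i (by simp [hi])) (insert e U) j'
      (Kop G α β ε e f) ?_ ?_ t h1 ?_ (fun i hi => h3 i (by simp [hi]))
    · intro i hi hi'
      rcases Finset.mem_insert.1 hi' with rfl | hi'
      · exact hel hi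
      · exact hU i (by simp [hi]) hi'
    · intro s hs hsU
      have hse : s e = t' e := hsU e (by simp)
      have hsU' : ∀ i ∈ U, s i = t' i := fun i hi => hsU i (by simp [hi])
      by_cases hb : β ≤ s e
      · -- the edge is high
        have hupd : ∀ u, 0 < u → u ≤ α → Rch α β D t' (update s e u) ∧
            ∀ i ∈ U, update s e u i = t' i := by
          intro u hu0 hu
          refine ⟨⟨fun i hi => ?_, fun i hi => ?_⟩, fun i hi => ?_⟩
          · have : i ≠ e := fun h' => hi (h' ▸ heD)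
            rw [update_of_ne this]; exact hs.1 i hi
          · by_cases hie : i = e
            · subst hie; rw [update_self]; exact Or.inr ⟨hse ▸ hb, hu0, hu⟩
            · rw [update_of_ne hie]; exact hs.2 i hi
          · have : i ≠ e := fun h' => heU (h' ▸ hi)
            rw [update_of_ne this]; exact hsU' i hi
        have hK : Kop G α β ε e f s = q1 G α β ε * f s +
            q2 G α β ε * ∫⁻ u, f (update s e u) ∂glo G α := by
          unfold Kop; rw [if_pos hb]
        rw [hK]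
        have hsα : ¬ s e ≤ α := not_le.2 (lt_of_lt_of_le h.lt hb)
        set x : ℝ≥0∞ := ENNReal.ofReal (Real.exp ((M : ℝ) - cnt α Q s)) with hx
        have g1 := hf s hs hsU'
        by_cases heQ : e ∈ Q
        · have g2 : 1 ≤ (∫⁻ u, f (update s e u) ∂glo G α) +
              x * ENNReal.ofReal (Real.exp (-1)) * Th G α β ε ^ j := by
            have g3 : ∫⁻ _u, (1 : ℝ≥0∞) ∂glo G α ≤ ∫⁻ u, (f (update s e u) +
                x * ENNReal.ofReal (Real.exp (-1)) * Th G α β ε ^ j) ∂glo G α := by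
              refine lintegral_mono_ae ?_
              filter_upwards [h.ae_glo] with u hu
              obtain ⟨r1, r2⟩ := hupd u hu.1 hu.2
              have := hf _ r1 r2
              rw [cnt_update_mem heQ hsα hu.2] at this
              have e1 : Real.exp ((M : ℝ) - ((cnt α Q s + 1 : ℕ) : ℝ)) =
                  Real.exp ((M : ℝ) - cnt α Q s) * Real.exp (-1) := by
                rw [← Real.exp_add]; congr 1; push_cast; ring
              rwa [e1, ENNReal.ofReal_mul (Real.exp_pos _).le] at this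
            rw [lintegral_const, measure_univ, mul_one, lintegral_add_right _ measurable_const,
              lintegral_const, measure_univ, mul_one] at g3
            exact g3
          have e2 : x * Th G α β ε ^ j' = q1 G α β ε * (x * Th G α β ε ^ j) +
              q2 G α β ε * (x * ENNReal.ofReal (Real.exp (-1)) * Th G α β ε ^ j) := by
            rw [hj', if_pos heQ, pow_succ]
            nth_rewrite 2 [Th]
            ring
          rw [e2]
          calc (1 : ℝ≥0∞) = q1 G α β ε * 1 + q2 G α β ε * 1 := by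
                rw [mul_one, mul_one, h.q_add]
            _ ≤ q1 G α β ε * (f s + x * Th G α β ε ^ j) + q2 G α β ε *
                ((∫⁻ u, f (update s e u) ∂glo G α) +
                  x * ENNReal.ofReal (Real.exp (-1)) * Th G α β ε ^ j) :=
                add_le_add (mul_le_mul' le_rfl g1) (mul_le_mul' le_rfl g2)
            _ = _ := by ring
        · have g2 : 1 ≤ (∫⁻ u, f (update s e u) ∂glo G α) + x * Th G α β ε ^ j := by
            have g3 : ∫⁻ _u, (1 : ℝ≥0∞) ∂glo G α ≤ ∫⁻ u, (f (update s e u) +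
                x * Th G α β ε ^ j) ∂glo G α := by
              refine lintegral_mono_ae ?_
              filter_upwards [h.ae_glo] with u hu
              obtain ⟨r1, r2⟩ := hupd u hu.1 hu.2
              have := hf _ r1 r2
              rwa [cnt_update_notMem heQ] at this
            rw [lintegral_const, measure_univ, mul_one, lintegral_add_right _ measurable_const,
              lintegral_const, measure_univ, mul_one] at g3
            exact g3
          have e2 : x * Th G α β ε ^ j' = q1 G α β ε * (x * Th G α β ε ^ j) +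
              q2 G α β ε * (x * Th G α β ε ^ j) := by
            rw [hj', if_neg heQ, add_zero, ← add_mul, h.q_add, one_mul]
          rw [e2]
          calc (1 : ℝ≥0∞) = q1 G α β ε * 1 + q2 G α β ε * 1 := by
                rw [mul_one, mul_one, h.q_add]
            _ ≤ q1 G α β ε * (f s + x * Th G α β ε ^ j) + q2 G α β ε *
                ((∫⁻ u, f (update s e u) ∂glo G α) + x * Th G α β ε ^ j) :=
                add_le_add (mul_le_mul' le_rfl g1) (mul_le_mul' le_rfl g2)
            _ = _ := by ring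
      · -- the edge is not high: then it is not in `Q`
        have heQ : e ∉ Q := fun h' => hb (by rw [hse]; exact hQ e h')
        have hK : Kop G α β ε e f s = f s := by unfold Kop; rw [if_neg hb]
        rw [hK, hj', if_neg heQ, add_zero]
        exact hf s hs hsU'
    · intro i hi
      rcases Finset.mem_insert.1 hi with rfl | hi
      · exact h3 _ (by simp)
      · exact h2 i hi

theorem RP.Th_eq (h : RP G α β ε) :
    Th G α β ε = ENNReal.ofReal (1 - (q2 G α β ε).toReal * (1 - Real.exp (-1))) := by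
  have hq := h.q_add
  have h1 : q1 G α β ε ≠ ∞ :=
    ne_top_of_le_ne_top ENNReal.one_ne_top (hq ▸ le_self_add)
  have h2 : q2 G α β ε ≠ ∞ :=
    ne_top_of_le_ne_top ENNReal.one_ne_top (hq ▸ le_add_self)
  have h3 : (q1 G α β ε).toReal + (q2 G α β ε).toReal = 1 := by
    rw [← ENNReal.toReal_add h1 h2, hq, ENNReal.toReal_one]
  unfold Th
  nth_rewrite 1 [← ENNReal.ofReal_toReal h1, ← ENNReal.ofReal_toReal h2]
  rw [← ENNReal.ofReal_mul ENNReal.toReal_nonneg, ← ENNReal.ofReal_add ENNReal.toReal_nonneg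
    (by (clear * -; positivity))]
  congr 1
  linear_combination h3

theorem RP.q2_toReal (h : RP G α β ε) : (q2 G α β ε).toReal =
    ε * (G (Iic α)).toReal / ((G (Ici β)).toReal + ε * (G (Iic α)).toReal) := by
  have := h.prob
  set a := (G (Iic α)).toReal with ha
  set b := (G (Ici β)).toReal with hb
  have ha' : G (Iic α) = ENNReal.ofReal a := (ENNReal.ofReal_toReal (measure_ne_top _ _)).symm
  have hb' : G (Ici β) = ENNReal.ofReal b := (ENNReal.ofReal_toReal (measure_ne_top _ _)).symm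
  have hb0 : 0 < b := ENNReal.toReal_pos h.hi (measure_ne_top _ _)
  have ha0 : 0 ≤ a := ENNReal.toReal_nonneg
  have hε := h.nonneg
  have hex : exd G α β ε = ENNReal.ofReal (ε * a / b) := by
    unfold exd
    rw [ha', hb', ← ENNReal.ofReal_mul h.nonneg, ENNReal.ofReal_div_of_pos hb0]
  unfold q2
  rw [hex, ← ENNReal.ofReal_one, ← ENNReal.ofReal_add (by norm_num) (by (clear * - hε hb0; positivity)),
    ENNReal.toReal_mul, ENNReal.toReal_inv, ENNReal.toReal_ofReal (by (clear * - hε hb0; positivity)),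
    ENNReal.toReal_ofReal (by (clear * - hε hb0; positivity))]
  (clear * - hb0 hε ha0; field_simp)

end Prod

end Vale.Agent.P158.T1
end
end

section

section

/-! Lines, energies and excesses for a family of left and right terminals. -/

namespace Vale.Agent.P158.T1

open Filter

variable {ι : Type*} {w w' : V → V → ℝ} {S : Set V} {a b : ι → V} {F F' H H' : ι → ℝ}
  {x y z : V} {δ : ℝ}

/-- Cost of reaching `x` from the terminals `a` with starting costs `F`.  The right function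
is `lf w S b H`. -/
noncomputable def lf (w : V → V → ℝ) (S : Set V) (a : ι → V) (F : ι → ℝ) (x : V) : ℝ :=
  ⨅ i, (F i + PT w S (a i) x)

/-- The energy. -/
noncomputable def en (w : V → V → ℝ) (S : Set V) (a : ι → V) (F : ι → ℝ) (b : ι → V)
    (H : ι → ℝ) : ℝ :=
  ⨅ j, (lf w S a F (b j) + H j)

/-- All restricted passage times are attained. -/
def Att (w : V → V → ℝ) (S : Set V) : Prop :=
  ∀ x ∈ S, ∀ y ∈ S, ∃ p : latt.Walk x y, (∀ z ∈ p.support, z ∈ S) ∧ ww w p = PT w S x y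

/-- A line: a walk inside `S` from a left terminal to a right terminal. -/
structure Line (S : Set V) (a b : ι → V) where
  /-- index of the left terminal -/
  i : ι
  /-- index of the right terminal -/
  j : ι
  /-- the walk -/
  p : latt.Walk (a i) (b j)
  inS : ∀ z ∈ p.support, z ∈ S

/-- Cost of a line. -/
def Line.cost (w : V → V → ℝ) (F H : ι → ℝ) (L : Line S a b) : ℝ := F L.i + ww w L.p + H L.j

/-! ### Elementary properties of `lf` -/

section Fin
variable [Finite ι]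

variable [Nonempty ι]

/-! ### Energy and excess -/

/-! ### Lines -/

end Fin

/-! ### Splitting walks -/

theorem ww_takeUntil_add_dropUntil (p : latt.Walk x y) (hz : z ∈ p.support) :
    ww w (p.takeUntil z hz) + ww w (p.dropUntil z hz) = ww w p := by
  conv_rhs => rw [← p.take_spec hz]
  rw [ww_append]

theorem ww_takeUntil_le (hw : Adm w) (p : latt.Walk x y) (hz : z ∈ p.support) :
    ww w (p.takeUntil z hz) ≤ ww w p := by
  have := ww_takeUntil_add_dropUntil (w := w) p hz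
  linarith only [this, ww_nonneg hw (p.dropUntil z hz)]

theorem ww_dropUntil_le (hw : Adm w) (p : latt.Walk x y) (hz : z ∈ p.support) :
    ww w (p.dropUntil z hz) ≤ ww w p := by
  have := ww_takeUntil_add_dropUntil (w := w) p hz
  linarith only [this, ww_nonneg hw (p.takeUntil z hz)]

theorem ww_bypass_le (hw : Adm w) (p : latt.Walk x y) : ww w p.bypass ≤ ww w p := by
  induction p with
  | nil => exact le_refl _
  | cons h p ih =>
    simp only [SimpleGraph.Walk.bypass]
    split_ifs with hs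
    · rw [ww_cons]
      linarith only [ih, ww_dropUntil_le hw p.bypass hs, hw.pos _ _ h]
    · rw [ww_cons, ww_cons]
      linarith

theorem ww_bypass_lt (hw : Adm w) (p : latt.Walk x y) (hp : ¬ p.IsPath) :
    ww w p.bypass < ww w p := by
  induction p with
  | nil => exact absurd SimpleGraph.Walk.IsPath.nil hp
  | cons h p ih =>
    simp only [SimpleGraph.Walk.bypass]
    split_ifs with hs
    · rw [ww_cons]
      linarith only [ww_dropUntil_le hw p.bypass hs, ww_bypass_le hw p, hw.pos _ _ h]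
    · rw [ww_cons, ww_cons]
      have : ¬ p.IsPath := by
        intro h'
        apply hp
        rw [SimpleGraph.Walk.cons_isPath_iff]
        refine ⟨h', ?_⟩
        rwa [SimpleGraph.Walk.IsPath.bypass_eq_self h'] at hs
      linarith [ih this]


/-! ### Lines through a vertex or an edge -/

section Fin2
variable [Finite ι] [Nonempty ι]

end Fin2

end Vale.Agent.P158.T1
end
end

section

section

/-! Used edges, attainment of passage times, finite balls. -/

namespace Vale.Agent.P158.T1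

open Filter

variable {ι : Type*} {w w' : V → V → ℝ} {S : Set V} {a b : ι → V} {F F' H H' : ι → ℝ}
  {x y z : V} {δ : ℝ}

section Fin
variable [Finite ι] [Nonempty ι]

end Fin

/-! ### Attainment -/

theorem finite_nodup_lists {α : Type*} {Z : Set α} (hZ : Z.Finite) :
    {l : List α | l.Nodup ∧ ∀ z ∈ l, z ∈ Z}.Finite := by
  classical
  have : Finite Z := hZ
  refine ((List.finite_length_le Z hZ.toFinset.card).image (List.map Subtype.val)).subset ?_
  rintro l ⟨hl, hl'⟩
  refine ⟨l.attach.map fun z => ⟨z.1, hl' z.1 z.2⟩, ?_, ?_⟩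
  · simp only [Set.mem_ofPred_eq, List.length_map, List.length_attach]
    rw [← List.toFinset_card_of_nodup hl]
    exact Finset.card_le_card fun z hz => by
      rw [Set.Finite.mem_toFinset]
      exact hl' z (by simpa using hz)
  · rw [List.map_map]
    exact l.attach_map_subtype_val

theorem att_aux (hw : Adm w) (hc : Conn S x y) {Z : Set V} (hZ : Z.Finite)
    (h : ∀ p : latt.Walk x y, p.IsPath → (∀ z ∈ p.support, z ∈ S) →
      ww w p ≤ PT w S x y + 1 → ∀ z ∈ p.support, z ∈ Z) :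
    ∃ p : latt.Walk x y, (∀ z ∈ p.support, z ∈ S) ∧ ww w p = PT w S x y := by
  classical
  let P : Set (latt.Walk x y) :=
    {p | p.IsPath ∧ (∀ z ∈ p.support, z ∈ S) ∧ ww w p ≤ PT w S x y + 1}
  have hP : P.Finite := by
    refine Set.Finite.of_finite_image (f := fun p => p.support)
      ((finite_nodup_lists hZ).subset ?_) ?_
    · rintro _ ⟨p, hp, rfl⟩
      exact ⟨hp.1.support_nodup, h p hp.1 hp.2.1 hp.2.2⟩
    · intro p _ q _ hpq
      exact SimpleGraph.Walk.ext_support hpq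
  have hne : P.Nonempty := by
    obtain ⟨p, hp, hp'⟩ := exists_walk hw hc one_pos
    exact ⟨p.bypass, p.bypass_isPath, fun z hz => hp z (p.support_bypass_subset_support hz),
      (ww_bypass_le hw p).trans hp'.le⟩
  obtain ⟨p₀, hp₀, hmin⟩ := hP.exists_minimalFor (fun p => ww w p) P hne
  refine ⟨p₀, hp₀.2.1, le_antisymm (le_PT hc fun q hq => ?_) (PT_le hw p₀ hp₀.2.1)⟩
  by_cases hq1 : ww w q ≤ PT w S x y + 1
  · have hqP : q.bypass ∈ P := ⟨q.bypass_isPath,
      fun z hz => hq z (q.support_bypass_subset_support hz), (ww_bypass_le hw q).trans hq1⟩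
    have := ww_bypass_le hw q
    by_contra hlt
    push Not at hlt
    have h1 : ww w q.bypass ≤ ww w p₀ := by linarith only [this, hlt]
    have h2 := hmin hqP h1
    simp only at h2
    linarith
  · push Not at hq1
    linarith [hp₀.2.2]

/-- Passage times are attained in finite connected domains. -/
theorem att_of_finite (hw : Adm w) (hS : S.Finite) (hc : ∀ x ∈ S, ∀ y ∈ S, Conn S x y) :
    Att w S := fun x hx y hy => att_aux hw (hc x hx y hy) hS fun _ _ hp _ => hp

/-- Balls are finite. -/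
def FB (w : V → V → ℝ) : Prop := ∀ s : ℝ, {z : V | T w 0 z ≤ s}.Finite

theorem att_of_fb (hw : Adm w) (hf : FB w) (hc : ∀ x ∈ S, ∀ y ∈ S, Conn S x y) :
    Att w S := by
  intro x hx y hy
  refine att_aux hw (hc x hx y hy) (hf (T w 0 x + (PT w S x y + 1))) ?_
  intro p _ _ hp' z hz
  have h1 := T_triangle hw 0 x z
  have h2 := T_le hw (p.takeUntil z hz)
  have h3 := ww_takeUntil_le hw p hz
  show T w 0 z ≤ _
  linarith only [hp', h1, h2, h3]

end Vale.Agent.P158.T1
end
end

section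

section

/-! Plan B: definitions and module statements (finite-volume part).

Every module is a `Prop`-valued definition `XStmt`; the module file proves `theorem x : XStmt`.
No statement here is assumed anywhere: the final theorem is obtained by composing the proofs. -/

namespace Vale.Agent.P158.T1

open Filter MeasureTheory
open scoped ENNReal

/-! ### Geometry -/

/-- Sup-norm ball. -/
def bx (z : V) (r : ℕ) : Set V := {x | |x.1 - z.1| ≤ r ∧ |x.2 - z.2| ≤ r}

theorem mem_bx {x z : V} {r : ℕ} : x ∈ bx z r ↔ |x.1 - z.1| ≤ r ∧ |x.2 - z.2| ≤ r := Iff.rfl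

theorem bx_finite (z : V) (r : ℕ) : (bx z r).Finite := by
  refine (Set.finite_Icc (z.1 - r, z.2 - r) (z.1 + r, z.2 + r)).subset ?_
  rintro x ⟨h1, h2⟩
  rw [abs_le] at h1 h2
  exact ⟨⟨by linarith only [h1], by linarith only [h2]⟩, ⟨by linarith only [h1], by linarith [h2.2]⟩⟩

theorem bx_mono {z : V} {r s : ℕ} (h : r ≤ s) : bx z r ⊆ bx z s := by
  rintro x ⟨h1, h2⟩
  have : (r : ℤ) ≤ s := by exact_mod_cast h
  exact ⟨h1.trans this, h2.trans this⟩

theorem bx_adj {x y z : V} {r : ℕ} (h : latt.Adj x y) (hx : x ∈ bx z r) : y ∈ bx z (r + 1) := by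
  have h' : |x.1 - y.1| + |x.2 - y.2| = 1 := h
  obtain ⟨h1, h2⟩ := hx
  rw [mem_bx]
  push_cast
  have e1 := abs_sub_abs_le_abs_sub (x.1 - y.1) 0
  have e2 := abs_nonneg (x.1 - y.1)
  have e3 := abs_nonneg (x.2 - y.2)
  rw [abs_le] at *
  have f1 : |x.1 - y.1| ≤ 1 := by linarith only [h', e3]
  have f2 : |x.2 - y.2| ≤ 1 := by linarith only [h', e2]
  rw [abs_le] at f1 f2 ⊢
  constructor <;> constructor <;> linarith only [h1, f1, h2, f2]

/-- Edges with at least one endpoint in `bx z r`. -/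
def tE (z : V) (r : ℕ) : Set latt.edgeSet := {e | ∃ x ∈ e.1, x ∈ bx z r}

/-- Edges with both endpoints in `bx z r`. -/
def iE (z : V) (r : ℕ) : Set latt.edgeSet := {e | ∀ x ∈ e.1, x ∈ bx z r}

/-- Edges inside the ring `bx z (r + 1) \ bx z r`. -/
def rE (z : V) (r : ℕ) : Set latt.edgeSet := {e | ∀ x ∈ e.1, x ∈ bx z (r + 1) \ bx z r}

theorem edges_finite {X : Set V} (hX : X.Finite) :
    {e : latt.edgeSet | ∀ x ∈ e.1, x ∈ X}.Finite := by
  refine Set.Finite.of_finite_image (f := fun e : latt.edgeSet => e.1) ?_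
    (Subtype.val_injective.injOn)
  refine ((hX.prod hX).image (fun q : V × V => s(q.1, q.2))).subset ?_
  rintro _ ⟨e, he, rfl⟩
  obtain ⟨⟨x, y⟩, hxy⟩ := Sym2.mk_surjective e.1
  refine ⟨(x, y), ⟨he x ?_, he y ?_⟩, hxy⟩ <;> rw [← hxy] <;> simp

theorem iE_finite (z : V) (r : ℕ) : (iE z r).Finite := edges_finite (bx_finite z r)

theorem tE_subset_iE (z : V) (r : ℕ) : tE z r ⊆ iE z (r + 1) := by
  rintro ⟨e, he⟩ ⟨x, hx, hx'⟩ y hy
  induction e using Sym2.ind with
  | _ u v =>
    have huv : latt.Adj u v := he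
    simp only [Sym2.mem_iff] at hx hy
    rcases hx with rfl | rfl <;> rcases hy with rfl | rfl
    · exact bx_mono (Nat.le_succ r) hx'
    · exact bx_adj huv hx'
    · exact bx_adj huv.symm hx'
    · exact bx_mono (Nat.le_succ r) hx'

theorem tE_finite (z : V) (r : ℕ) : (tE z r).Finite :=
  (iE_finite z (r + 1)).subset (tE_subset_iE z r)

theorem rE_finite (z : V) (r : ℕ) : (rE z r).Finite :=
  edges_finite ((bx_finite z (r + 1)).subset Set.sdiff_subset)

/-- `tE` as a finset. -/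
noncomputable def tF (z : V) (r : ℕ) : Finset latt.edgeSet := (tE_finite z r).toFinset

/-- `rE` as a finset. -/
noncomputable def rF (z : V) (r : ℕ) : Finset latt.edgeSet := (rE_finite z r).toFinset

theorem mem_tF {z : V} {r : ℕ} {e : latt.edgeSet} : e ∈ tF z r ↔ e ∈ tE z r :=
  (tE_finite z r).mem_toFinset

/-- The edge of a dart. -/
def dE (d : latt.Dart) : latt.edgeSet := ⟨d.edge, d.edge_mem⟩

/-- The set of edges of a walk. -/
def pe {x y : V} (p : latt.Walk x y) : Finset latt.edgeSet := (p.darts.map dE).toFinset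

theorem mem_pe {x y : V} {p : latt.Walk x y} {e : latt.edgeSet} :
    e ∈ pe p ↔ ∃ d ∈ p.darts, dE d = e := by
  simp only [pe, List.mem_toFinset, List.mem_map]

/-! ### Laws -/

/-- Low and high levels. -/
structure Lev (G : Measure ℝ) (α β : ℝ) : Prop where
  pos : 0 < α
  lt : α < β
  small : G (Set.Iio β) ≤ 1 / 16

open Classical in
/-- Density of the raised one-edge law: the mass `ε G (Iic α)` is moved to `[β, ∞)`. -/
noncomputable def rho (G : Measure ℝ) (α β ε : ℝ) (s : ℝ) : ℝ≥0∞ :=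
  if s ≤ α then ENNReal.ofReal (1 - ε)
  else if s < β then 1 else 1 + ENNReal.ofReal ε * G (Set.Iic α) / G (Set.Ici β)

/-- Law of the environment raised in the block `tE z s`. -/
noncomputable def PR (G : Measure ℝ) [IsProbabilityMeasure G] (α β ε : ℝ) (z : V) (s : ℕ) :
    Measure Env :=
  (PG G).withDensity (fun t => ∏ e ∈ tF z s, rho G α β ε (t e))

/-! ### Chains and events -/

/-- A chain of cost functions with small one-sided steps. -/
structure Chain (ι : Type) where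
  /-- length -/
  m : ℕ
  /-- left costs -/
  F : ℕ → ι → ℝ
  /-- right costs -/
  H : ℕ → ι → ℝ
  step : ∀ k < m, ((∀ i, |F (k + 1) i - F k i| ≤ 1 / 64) ∧ H (k + 1) = H k) ∨
    (F (k + 1) = F k ∧ ∀ i, |H (k + 1) i - H k i| ≤ 1 / 64)

variable {ι : Type}

/-- Energy at index `k`. -/
noncomputable def enk (t : Env) (S : Set V) (a b : ι → V) (c : Chain ι) (k : ℕ) : ℝ :=
  en (wt t) S a (c.F k) b (c.H k)

/-- Cost of a line at index `k`. -/
noncomputable def cost (t : Env) {S : Set V} {a b : ι → V} (c : Chain ι) (k : ℕ)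
    (L : Line S a b) : ℝ :=
  L.cost (wt t) (c.F k) (c.H k)

/-- The edge `e` is robustly visited at index `k`. -/
def RV (t : Env) (S : Set V) (a b : ι → V) (c : Chain ι) (k : ℕ) (e : latt.edgeSet) : Prop :=
  (∃ L : Line S a b, e ∈ pe L.p ∧ cost t c k L ≤ enk t S a b c k + 1 / 16) ∧
  ∀ L : Line S a b, e ∉ pe L.p → enk t S a b c k + 15 / 16 ≤ cost t c k L

open Classical in
/-- Heavy edges of a walk in the annulus between `bx z r` and `bx z s`. -/
noncomputable def hv (β : ℝ) (t : Env) (z : V) (r s : ℕ) {x y : V} (p : latt.Walk x y) :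
    Finset latt.edgeSet :=
  (pe p).filter fun e => e ∉ tE z r ∧ e ∈ tE z s ∧ β ≤ t e

/-- Good annulus: every crossing has many heavy edges in the annulus. -/
def AG (β : ℝ) (t : Env) (z : V) (r s : ℕ) : Prop :=
  ∀ (x y : V) (p : latt.Walk x y), x ∈ bx z r → y ∉ bx z s → s ≤ r + 8 * (hv β t z r s p).card

/-- Good window. -/
structure GW (Λ D M : ℝ) (t : Env) (z : V) (r R : ℕ) : Prop where
  far : ∀ (x y : V) (p : latt.Walk x y), x ∈ bx z (r + 1) → y ∉ bx z R → Λ ≤ ww (wt t) p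
  near : ∑ e ∈ tF z (r + 1), t e ≤ D
  tot : ∑ e ∈ tF z R, t e ≤ M

/-! ### Gadget -/

/-- Gadget parameters: three gates and two tuned values (in units `1/64`). -/
structure GP where
  /-- first gate -/
  g1 : latt.edgeSet
  /-- second gate -/
  g2 : latt.edgeSet
  /-- exit gate -/
  g3 : latt.edgeSet
  /-- tuned value at the first gate -/
  s1 : ℕ
  /-- tuned value at the second gate -/
  s2 : ℕ

/-- Validity of gadget parameters for the window. -/
structure GP.Ok (σ : GP) (z : V) (R Ns : ℕ) : Prop where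
  m1 : σ.g1 ∈ tE z R ∧ σ.g1 ∉ iE z R
  m2 : σ.g2 ∈ tE z R ∧ σ.g2 ∉ iE z R
  m3 : σ.g3 ∈ tE z R ∧ σ.g3 ∉ iE z R
  h12 : σ.g1 ≠ σ.g2
  h13 : σ.g1 ≠ σ.g3
  h23 : σ.g2 ≠ σ.g3
  s1 : σ.s1 ≤ Ns
  s2 : σ.s2 ≤ Ns

/-! ### Module statements, probabilistic -/

section Prob
variable (G : Measure ℝ) [IsProbabilityMeasure G]

/-- (a) The raised measures are probabilities with a uniform L² comparison (arbitrary sets). -/
def L2Stmt : Prop :=
  ∀ α β : ℝ, Lev G α β → ∀ c : ℝ, 0 < c → ∃ A : ℝ≥0∞, A ≠ ∞ ∧ ∀ (z : V) (r : ℕ), 1 ≤ r →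
    c ≤ r → IsProbabilityMeasure (PR G α β (c / r) z (2 * r)) ∧
    ∀ C : Set Env, PR G α β (c / r) z (2 * r) C ≤ A * (PG G C) ^ (1 / 2 : ℝ)

/-- Peierls bound for annuli. -/
def PeierlsStmt : Prop :=
  ∀ β : ℝ, G (Set.Iio β) ≤ 1 / 16 → ∃ C θ : ℝ, 0 < C ∧ 0 < θ ∧ θ < 1 ∧
    ∀ (z : V) (r s : ℕ), r ≤ s →
      PG G {t | ¬ AG β t z r s} ≤ ENNReal.ofReal (C * (r + 1) * θ ^ (s - r))

/-- Windows are good with high probability: order of choice `r, D, Λ, R, M`. -/
def GWStmt : Prop :=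
  ∀ (r : ℕ) (η : ℝ), 0 < η → ∃ D : ℝ, 0 < D ∧ ∀ Λ : ℝ, ∃ R₀ : ℕ, ∀ R ≥ R₀, ∃ M : ℝ, 0 < M ∧
    ∀ z : V, PG G {t | ¬ GW Λ D M t z r R} ≤ ENNReal.ofReal η

/-- Ring sums under the raised laws. -/
def RingStmt : Prop :=
  ∀ α β : ℝ, Lev G α β → ∃ C₁ : ℝ, 0 < C₁ ∧ ∀ c : ℝ, 0 < c → ∃ r₀ : ℕ, ∀ r ≥ r₀, ∀ z : V,
    PR G α β (c / r) z (2 * r) {t | C₁ * r < ∑ e ∈ rF z r, t e} ≤ 1 / 8

end Prob

/-! ### Module statements, deterministic -/

end Vale.Agent.P158.T1
end
end

section

section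

/-! Measurability of the events of Plan B. -/

namespace Vale.Agent.P158.T1

open Filter MeasureTheory
open scoped ENNReal

variable {ι : Type} {S : Set V} {a b : ι → V}

theorem measurable_hvcard (β : ℝ) (z : V) (r s : ℕ) {x y : V} (p : latt.Walk x y) :
    Measurable fun t : Env => (hv β t z r s p).card := by
  classical
  unfold hv
  simp only [Finset.card_filter]
  refine Finset.measurable_sum _ fun e _ => ?_
  by_cases h : e ∉ tE z r ∧ e ∈ tE z s
  · have : (fun t : Env => if e ∉ tE z r ∧ e ∈ tE z s ∧ β ≤ t e then 1 else 0) =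
        fun t : Env => if β ≤ t e then 1 else 0 := by
      funext t
      simp only [h.1, not_false_eq_true, h.2, true_and]
    rw [this]
    exact Measurable.ite (measurableSet_le measurable_const (measurable_pi_apply e))
      measurable_const measurable_const
  · have : (fun t : Env => if e ∉ tE z r ∧ e ∈ tE z s ∧ β ≤ t e then 1 else 0) =
        fun t : Env => 0 := by
      funext t
      rw [if_neg]
      exact fun h' => h ⟨h'.1, h'.2.1⟩
    rw [this]
    exact measurable_const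

theorem measurable_AG (β : ℝ) (z : V) (r s : ℕ) : Measurable fun t : Env => AG β t z r s := by
  unfold AG
  refine Measurable.forall fun x => Measurable.forall fun y => Measurable.forall fun p =>
    (mconst _).imp ((mconst _).imp ?_)
  have h := measurable_hvcard β z r s p
  exact measurableSet_setOfPred.1 (h (DiscreteMeasurableSpace.forall_measurableSet
    {m : ℕ | s ≤ r + 8 * m}))

end Vale.Agent.P158.T1
end
end

section

section

/-! Geometry of block centres, frozen environments, transfer of local events. -/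

namespace Vale.Agent.P158.T1

open Filter MeasureTheory
open scoped ENNReal

/-! ### Boxes -/

theorem bx_sub {x z : V} {r s : ℕ} (h1 : |x.1 - z.1| + r ≤ s) (h2 : |x.2 - z.2| + r ≤ s) :
    bx x r ⊆ bx z s := by
  rintro y ⟨h3, h4⟩
  rw [mem_bx]
  constructor
  · calc |y.1 - z.1| ≤ |y.1 - x.1| + |x.1 - z.1| := abs_sub_le _ _ _
      _ ≤ s := by linarith only [h1, h3]
  · calc |y.2 - z.2| ≤ |y.2 - x.2| + |x.2 - z.2| := abs_sub_le _ _ _
      _ ≤ s := by linarith only [h2, h4]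

theorem center_mem (z : V) (r : ℕ) : z ∈ bx z r := by
  simp only [mem_bx, sub_self, abs_zero, Nat.cast_nonneg, and_self]

theorem tE_mono {z : V} {r s : ℕ} (h : r ≤ s) : tE z r ⊆ tE z s := by
  rintro e ⟨x, hx, hx'⟩
  exact ⟨x, hx, bx_mono h hx'⟩

/-! ### Frozen environments -/

theorem wt_eq (t : Env) {x y : V} (h : latt.Adj x y) : wt t x y = t ⟨s(x, y), h⟩ := by
  unfold wt; rw [dif_pos h]

theorem adm_of_pos {t : Env} (h : ∀ e, 0 < t e) : Adm (wt t) := by
  refine ⟨wt_symm t, fun x y hxy => ?_⟩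
  rw [wt_eq t hxy]
  exact h _

theorem pos_of_adm {t : Env} (h : Adm (wt t)) (e : latt.edgeSet) : 0 < t e := by
  obtain ⟨e, he⟩ := e
  induction e using Sym2.ind with
  | _ u v =>
    have := h.pos u v he
    rwa [wt_eq t he] at this

theorem ae_pos (G : Measure ℝ) [IsProbabilityMeasure G] [NullSingletonClass G]
    (hG : G (Set.Iio 0) = 0) : ∀ᵐ t ∂PG G, ∀ e, 0 < t e := by
  filter_upwards [ae_adm (G := G) hG] with t ht
  exact pos_of_adm ht

theorem wt_mono {t t' : Env} (h : ∀ e, t e ≤ t' e) (x y : V) (hxy : latt.Adj x y) :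
    wt t x y ≤ wt t' x y := by
  rw [wt_eq t hxy, wt_eq t' hxy]; exact h _

/-- The weight of a walk only depends on its edges. -/
theorem ww_congr {t t' : Env} {x y : V} (p : latt.Walk x y) (h : ∀ e ∈ pe p, t e = t' e) :
    ww (wt t) p = ww (wt t') p := by
  unfold ww
  congr 1
  refine List.map_congr_left fun d hd => ?_
  have h1 := h (dE d) (mem_pe.2 ⟨d, hd, rfl⟩)
  rw [wt_eq t d.adj, wt_eq t' d.adj]
  exact h1

/-! ### Transfer of local events -/

/-- The first exit of a walk from a box. -/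
theorem exists_exit {z : V} {R : ℕ} {x y : V} (p : latt.Walk x y) (hx : x ∈ bx z R)
    (hy : y ∉ bx z R) : ∃ (y' : V) (p₁ : latt.Walk x y') (p₂ : latt.Walk y' y),
      p = p₁.append p₂ ∧ y' ∉ bx z R ∧ ∀ e ∈ pe p₁, e ∈ tE z R := by
  induction p with
  | nil => exact absurd hx hy
  | cons h p ih =>
    rename_i u v w
    by_cases hv : v ∈ bx z R
    · obtain ⟨y', p₁, p₂, hp, hy', he⟩ := ih hv hy
      refine ⟨y', SimpleGraph.Walk.cons h p₁, p₂, ?_, hy', ?_⟩
      · rw [SimpleGraph.Walk.cons_append, ← hp]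
      · intro e hm
        rw [mem_pe] at hm
        obtain ⟨d, hd, rfl⟩ := hm
        rw [SimpleGraph.Walk.darts_cons, List.mem_cons] at hd
        rcases hd with rfl | hd
        · exact ⟨u, by simp [dE, SimpleGraph.Dart.edge], hx⟩
        · exact he _ (mem_pe.2 ⟨d, hd, rfl⟩)
    · refine ⟨v, SimpleGraph.Walk.cons h SimpleGraph.Walk.nil, p, rfl, hv, ?_⟩
      intro e hm
      rw [mem_pe] at hm
      obtain ⟨d, hd, rfl⟩ := hm
      simp only [SimpleGraph.Walk.darts_cons, SimpleGraph.Walk.darts_nil,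
        List.mem_singleton] at hd
      subst hd
      exact ⟨u, by simp only [dE, SimpleGraph.Dart.edge, Sym2.mem_iff, true_or], hx⟩

/-! ### Setup -/

variable {ι : Type} {S : Set V} {a b : ι → V} {n : ℕ} {t₀ : Env} {C₀ : ℝ}

/-- Energies outside a box only depend on the weights outside. -/
theorem PT_congr {t t' : Env} {S : Set V} {x y : V} (h : ∀ e : latt.edgeSet,
    (∀ z ∈ e.1, z ∈ S) → t e = t' e) : PT (wt t) S x y = PT (wt t') S x y := by
  unfold PT
  congr 1
  funext p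
  refine ww_congr p.1 fun e he => h e fun z hz => p.2 z ?_
  rw [mem_pe] at he
  obtain ⟨d, hd, rfl⟩ := he
  have hz' : z = d.fst ∨ z = d.snd := by
    have : z ∈ s(d.fst, d.snd) := hz
    simpa using this
  rcases hz' with rfl | rfl
  · exact p.1.dart_fst_mem_support_of_mem_darts hd
  · exact p.1.dart_snd_mem_support_of_mem_darts hd

/-- An edge inside `S \ bx z R` does not touch `bx z R`. -/
theorem not_mem_tE_of_sdiff {S : Set V} {z : V} {R : ℕ} {e : latt.edgeSet}
    (h : ∀ x ∈ e.1, x ∈ S \ bx z R) : e ∉ tE z R := by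
  rintro ⟨x, hx, hx'⟩
  exact (h x hx).2 hx'

end Vale.Agent.P158.T1
end
end

section

section

/-! Mixed differences of two functions with the four point inequality on a cycle:
every component of the set where they differ carries the mass of its maximal difference. -/

namespace Vale.Agent.P158.C

open Finset

set_option linter.unusedSectionVars false

variable {m : ℕ} [NeZero m]

/-- Mixed difference of `F` at the cell with lower corner `(x,y)`. -/
def cell (F : ZMod m → ZMod m → ℝ) (x y : ZMod m) : ℝ :=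
  F x y + F (x + 1) (y + 1) - F (x + 1) y - F x (y + 1)

/-- The four point inequality for neighbouring pairs. -/
structure Kal (F : ZMod m → ZMod m → ℝ) : Prop where
  diag : ∀ x, F x x = 0
  cell : ∀ x y, x ≠ y → 0 ≤ cell F x y

/-- Row sums telescope. -/
theorem row_sum (F : ZMod m → ZMod m → ℝ) (x y : ZMod m) (r : ℕ) :
    ∑ i ∈ range r, cell F (x + i) y
      = (F x y - F x (y + 1)) - (F (x + r) y - F (x + r) (y + 1)) := by
  induction r with
  | zero => simp
  | succ r ih =>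
    rw [sum_range_succ, ih]
    simp only [cell, Nat.cast_succ, ← add_assoc]
    ring

theorem zmod_cast_inj {i j : ℕ} (hi : i < m) (hj : j < m) (h : (i : ZMod m) = j) : i = j := by
  rw [ZMod.natCast_eq_natCast_iff'] at h
  rwa [Nat.mod_eq_of_lt hi, Nat.mod_eq_of_lt hj] at h

/-- First exit along `+1` steps from `a` for a set that does not contain `b`. -/
theorem exists_exit (P : ZMod m → Prop) (a b : ZMod m) (hb : ¬ P b) :
    ∃ r : ℕ, r < m ∧ ¬ P (a + r) ∧ ∀ i < r, P (a + i) := by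
  classical
  have h : ∃ r : ℕ, ¬ P (a + r) := ⟨(b - a).val, by
    rw [ZMod.natCast_val, ZMod.cast_id', id, add_sub_cancel]; exact hb⟩
  refine ⟨Nat.find h, ?_, Nat.find_spec h, fun i hi => not_not.1 (Nat.find_min h hi)⟩
  refine lt_of_le_of_lt (Nat.find_min' h (m := (b - a).val) ?_) (ZMod.val_lt _)
  rw [ZMod.natCast_val, ZMod.cast_id', id, add_sub_cancel]; exact hb

/-- COMPONENT LEMMA. -/
theorem mass_ge {W T : ZMod m → ZMod m → ℝ} (hW : Kal W) (hT : Kal T)
    (hle : ∀ x y, T x y ≤ W x y) (K : Finset (ZMod m × ZMod m))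
    (hK : ∀ x y, (x, y) ∈ K → T x y < W x y)
    (hx : ∀ x y, (x, y) ∈ K → T (x + 1) y < W (x + 1) y → (x + 1, y) ∈ K)
    (hy : ∀ x y, (x, y) ∈ K → T x (y + 1) < W x (y + 1) → (x, y + 1) ∈ K)
    {x₀ y₀ : ZMod m} (h₀ : (x₀, y₀) ∈ K) :
    W x₀ y₀ - T x₀ y₀ ≤ ∑ p ∈ K, cell W p.1 p.2 := by
  classical
  have hne : ∀ x y, (x, y) ∈ K → x ≠ y := by
    rintro x y h rfl
    have := hK _ _ h
    rw [hW.diag, hT.diag] at this
    exact lt_irrefl _ this
  have hno : ∀ x, (x, x) ∉ K := fun x h => hne x x h rfl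
  -- rows
  obtain ⟨s, hs, hsn, hsi⟩ := exists_exit (fun y => (x₀, y) ∈ K) y₀ x₀ (hno x₀)
  choose r hr hrn hri using fun j : ℕ =>
    exists_exit (fun x => (x, y₀ + j) ∈ K) x₀ (y₀ + j) (hno _)
  have hspos : 0 < s := by
    rcases Nat.eq_zero_or_pos s with h | h
    · subst h
      exact absurd (by simpa using h₀) hsn
    · exact h
  have hrpos : ∀ j < s, 0 < r j := fun j hj => by
    rcases Nat.eq_zero_or_pos (r j) with h | h
    · have h1 := hrn j
      rw [h] at h1
      exact absurd (by simpa only [Nat.cast_zero, add_zero] using hsi j hj) h1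
    · exact h
  have hend : ∀ j < s, W (x₀ + r j) (y₀ + j) = T (x₀ + r j) (y₀ + j) := fun j hj => by
    by_contra hcon
    have hlt : T (x₀ + r j) (y₀ + j) < W (x₀ + r j) (y₀ + j) :=
      lt_of_le_of_ne (hle _ _) (Ne.symm hcon)
    obtain ⟨i, hi⟩ : ∃ i, r j = i + 1 := ⟨r j - 1, (Nat.succ_pred_eq_of_pos (hrpos j hj)).symm⟩
    refine hrn j ?_
    rw [hi] at hlt ⊢
    rw [Nat.cast_succ, ← add_assoc] at hlt ⊢
    exact hx _ _ (hri j i (by omega)) hlt
  have hrow : ∀ j < s, (W x₀ (y₀ + j) - T x₀ (y₀ + j)) -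
      (W x₀ (y₀ + (j + 1 : ℕ)) - T x₀ (y₀ + (j + 1 : ℕ)))
      ≤ ∑ i ∈ range (r j), cell W (x₀ + i) (y₀ + j) := fun j hj => by
    have h1 := row_sum W x₀ (y₀ + j) (r j)
    have h2 := row_sum T x₀ (y₀ + j) (r j)
    have h3 : 0 ≤ ∑ i ∈ range (r j), cell T (x₀ + i) (y₀ + j) :=
      sum_nonneg fun i hi => hT.cell _ _ (hne _ _ (hri j i (mem_range.1 hi)))
    have h4 := hend j hj
    have h5 := hle (x₀ + r j) (y₀ + j + 1)
    rw [Nat.cast_succ, ← add_assoc]
    linarith only [h1, h2, h3, h4, h5]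
  have hcol : ∑ j ∈ range s, ((W x₀ (y₀ + j) - T x₀ (y₀ + j)) -
      (W x₀ (y₀ + (j + 1 : ℕ)) - T x₀ (y₀ + (j + 1 : ℕ)))) = W x₀ y₀ - T x₀ y₀ := by
    rw [sum_range_sub' (fun j : ℕ => W x₀ (y₀ + j) - T x₀ (y₀ + j))]
    have : W x₀ (y₀ + s) = T x₀ (y₀ + s) := by
      by_contra hcon
      have hlt : T x₀ (y₀ + s) < W x₀ (y₀ + s) := lt_of_le_of_ne (hle _ _) (Ne.symm hcon)
      obtain ⟨i, hi⟩ : ∃ i, s = i + 1 := ⟨s - 1, (Nat.succ_pred_eq_of_pos hspos).symm⟩
      refine hsn ?_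
      rw [hi] at hlt ⊢
      rw [Nat.cast_succ, ← add_assoc] at hlt ⊢
      exact hy _ _ (hsi i (by omega)) hlt
    simp [this]
  rw [← hcol]
  refine (sum_le_sum fun j hj => hrow j (mem_range.1 hj)).trans ?_
  rw [sum_sigma']
  have hinj : ∀ a ∈ (range s).sigma (fun j => range (r j)),
      ∀ b ∈ (range s).sigma (fun j => range (r j)),
      ((x₀ + (a.2 : ZMod m), y₀ + (a.1 : ZMod m)) : ZMod m × ZMod m)
        = (x₀ + (b.2 : ZMod m), y₀ + (b.1 : ZMod m)) → a = b := by
    rintro ⟨a1, a2⟩ ha ⟨b1, b2⟩ hb hab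
    simp only [mem_sigma, mem_range] at ha hb
    simp only [Prod.mk.injEq, add_right_inj] at hab
    have e1 := zmod_cast_inj (ha.1.trans hs) (hb.1.trans hs) hab.2
    subst e1
    have e2 := zmod_cast_inj (ha.2.trans (hr _)) (hb.2.trans (hr _)) hab.1
    subst e2
    rfl
  have himg := sum_image (f := fun p : ZMod m × ZMod m => cell W p.1 p.2) hinj
  simp only at himg
  rw [← himg]
  refine sum_le_sum_of_subset_of_nonneg ?_ fun p hp _ => hW.cell _ _ (hne _ _ hp)
  intro p hp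
  obtain ⟨a, ha, rfl⟩ := mem_image.1 hp
  simp only [mem_sigma, mem_range] at ha
  exact hri a.1 a.2 ha.2

/-- All cells together telescope to zero. -/
theorem sum_cell (F : ZMod m → ZMod m → ℝ) : ∑ p : ZMod m × ZMod m, cell F p.1 p.2 = 0 := by
  have e1 : ∑ p : ZMod m × ZMod m, F (p.1 + 1) (p.2 + 1) = ∑ p : ZMod m × ZMod m, F p.1 p.2 :=
    Equiv.sum_comp (Equiv.addRight ((1, 1) : ZMod m × ZMod m)) (fun p => F p.1 p.2)
  have e2 : ∑ p : ZMod m × ZMod m, F (p.1 + 1) p.2 = ∑ p : ZMod m × ZMod m, F p.1 p.2 := by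
    have := Equiv.sum_comp (Equiv.addRight ((1, 0) : ZMod m × ZMod m)) (fun p => F p.1 p.2)
    simpa only [Equiv.coe_addRight, Prod.fst_add, Prod.snd_add, add_zero] using this
  have e3 : ∑ p : ZMod m × ZMod m, F p.1 (p.2 + 1) = ∑ p : ZMod m × ZMod m, F p.1 p.2 := by
    have := Equiv.sum_comp (Equiv.addRight ((0, 1) : ZMod m × ZMod m)) (fun p => F p.1 p.2)
    simpa only [Equiv.coe_addRight, Prod.fst_add, add_zero, Prod.snd_add] using this
  simp only [cell, sum_sub_distrib, sum_add_distrib, e1, e2, e3]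
  ring

/-- A cell touches `E` if one of its corners is in `E`. -/
def Touch (E : ZMod m → ZMod m → Prop) (p : ZMod m × ZMod m) : Prop :=
  E p.1 p.2 ∨ E (p.1 + 1) p.2 ∨ E p.1 (p.2 + 1) ∨ E (p.1 + 1) (p.2 + 1)

open Classical in
/-- TOTAL MASS. -/
theorem mass_le {W T : ZMod m → ZMod m → ℝ} (hW : Kal W) (hT : Kal T)
    (hle : ∀ x y, T x y ≤ W x y) :
    ∑ p ∈ univ.filter (fun p : ZMod m × ZMod m => T p.1 p.2 < W p.1 p.2), cell W p.1 p.2
      ≤ ∑ p ∈ univ.filter (fun p : ZMod m × ZMod m =>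
          p.1 ≠ p.2 ∧ Touch (fun x y => T x y < W x y) p), cell T p.1 p.2
        + ∑ x : ZMod m, ((W x (x + 1) - T x (x + 1)) + (W (x + 1) x - T (x + 1) x)) := by
  set E : ZMod m → ZMod m → Prop := fun x y => T x y < W x y with hE
  set f : ZMod m → ZMod m → ℝ := fun x y => W x y - T x y with hf
  have hcell : ∀ x y, cell W x y = cell T x y + cell f x y := fun x y => by
    simp only [cell, hf]; ring
  have hf0 : ∀ x y, ¬ E x y → f x y = 0 := fun x y h => by
    have h1 := hle x y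
    have h2 : W x y ≤ T x y := not_lt.1 h
    simp only [hf]; linarith only [h1, h]
  have hfn : ∀ x y, 0 ≤ f x y := fun x y => sub_nonneg.2 (hle x y)
  have hnt : ∀ p : ZMod m × ZMod m, ¬ Touch E p → cell f p.1 p.2 = 0 := fun p hp => by
    simp only [Touch, not_or] at hp
    simp only [cell, hf0 _ _ hp.1, hf0 _ _ hp.2.1, hf0 _ _ hp.2.2.1, hf0 _ _ hp.2.2.2]
    ring
  have hsub : univ.filter (fun p : ZMod m × ZMod m => T p.1 p.2 < W p.1 p.2)
      ⊆ univ.filter (fun p : ZMod m × ZMod m => p.1 ≠ p.2 ∧ Touch E p) := by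
    intro p hp
    have hp' := (mem_filter.1 hp).2
    refine mem_filter.2 ⟨mem_univ _, ?_, Or.inl hp'⟩
    intro h
    rw [h, hW.diag, hT.diag] at hp'
    exact lt_irrefl _ hp'
  refine (sum_le_sum_of_subset_of_nonneg hsub fun p hp _ =>
    hW.cell _ _ (mem_filter.1 hp).2.1).trans ?_
  simp_rw [hcell]
  rw [sum_add_distrib]
  refine add_le_add le_rfl ?_
  -- sum of cell f over off-diagonal touched cells
  have h1 : ∑ p ∈ univ.filter (fun p : ZMod m × ZMod m => p.1 ≠ p.2 ∧ Touch E p), cell f p.1 p.2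
      = ∑ p ∈ univ.filter (fun p : ZMod m × ZMod m => p.1 ≠ p.2), cell f p.1 p.2 := by
    symm
    rw [← filter_filter]
    refine (sum_filter_of_ne (s := univ.filter (fun p : ZMod m × ZMod m => p.1 ≠ p.2)) ?_).symm
    intro p _ hp
    by_contra hcon
    exact hp (hnt p hcon)
  have h2 := sum_cell f
  rw [← sum_filter_add_sum_filter_not univ (fun p : ZMod m × ZMod m => p.1 ≠ p.2)] at h2
  have h3 : ∑ p ∈ univ.filter (fun p : ZMod m × ZMod m => ¬ p.1 ≠ p.2), cell f p.1 p.2
      = ∑ x : ZMod m, cell f x x := by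
    symm
    refine sum_bij (fun x _ => (x, x)) ?_ ?_ ?_ ?_
    · intro x _; simp
    · intro a _ b _ h; exact (Prod.mk.injEq _ _ _ _ ▸ h).1
    · rintro ⟨a, b⟩ h
      simp only [not_not, mem_filter, mem_univ, true_and] at h
      subst h
      exact ⟨a, mem_univ _, rfl⟩
    · intro x _; rfl
  have h4 : ∑ x : ZMod m, cell f x x
      = - ∑ x : ZMod m, ((W x (x + 1) - T x (x + 1)) + (W (x + 1) x - T (x + 1) x)) := by
    rw [← sum_neg_distrib]
    refine sum_congr rfl fun x _ => ?_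
    simp only [cell, hf, hW.diag, hT.diag]
    ring
  rw [h1]
  (clear hle E hE hcell hf0 hfn hnt hsub h1; linarith)

/-- One step inside `E`. -/
def St (E : Set (ZMod m × ZMod m)) (a b : ZMod m × ZMod m) : Prop :=
  a ∈ E ∧ b ∈ E ∧ (b = (a.1 + 1, a.2) ∨ a = (b.1 + 1, b.2) ∨ b = (a.1, a.2 + 1) ∨
    a = (b.1, b.2 + 1))

theorem St.symm {E : Set (ZMod m × ZMod m)} {a b : ZMod m × ZMod m} (h : St E a b) :
    St E b a := by
  obtain ⟨h1, h2, h3⟩ := h
  exact ⟨h2, h1, by (clear * - h3; tauto)⟩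

theorem St.mono {E E' : Set (ZMod m × ZMod m)} (h : E ⊆ E') {a b : ZMod m × ZMod m}
    (hs : St E a b) : St E' a b := ⟨h hs.1, h hs.2.1, hs.2.2⟩

/-- Connected inside `E`. -/
def Cn (E : Set (ZMod m × ZMod m)) (a b : ZMod m × ZMod m) : Prop :=
  a ∈ E ∧ Relation.ReflTransGen (St E) a b

theorem Cn.mem_right {E : Set (ZMod m × ZMod m)} {a b : ZMod m × ZMod m} (h : Cn E a b) :
    b ∈ E := by
  obtain ⟨ha, h⟩ := h
  induction h with
  | refl => exact ha
  | tail _ h2 _ => exact h2.2.1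

theorem Cn.refl {E : Set (ZMod m × ZMod m)} {a : ZMod m × ZMod m} (h : a ∈ E) : Cn E a a :=
  ⟨h, Relation.ReflTransGen.refl⟩

theorem Cn.symm {E : Set (ZMod m × ZMod m)} {a b : ZMod m × ZMod m} (h : Cn E a b) :
    Cn E b a := by
  refine ⟨h.mem_right, ?_⟩
  have : Std.Symm (St E) := ⟨fun _ _ => St.symm⟩
  exact (Relation.ReflTransGen.stdSymm (r := St E)).symm _ _ h.2

theorem Cn.trans {E : Set (ZMod m × ZMod m)} {a b c : ZMod m × ZMod m} (h : Cn E a b)
    (h' : Cn E b c) : Cn E a c := ⟨h.1, h.2.trans h'.2⟩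

theorem Cn.mono {E E' : Set (ZMod m × ZMod m)} (hE : E ⊆ E') {a b : ZMod m × ZMod m}
    (h : Cn E a b) : Cn E' a b := by
  refine ⟨hE h.1, ?_⟩
  exact Relation.ReflTransGen.mono (r := St E) (p := St E') (fun _ _ => St.mono hE) _ _ h.2

open Classical in
/-- The component of `a` in `E`. -/
noncomputable def comp (E : Set (ZMod m × ZMod m)) (a : ZMod m × ZMod m) :
    Finset (ZMod m × ZMod m) := univ.filter fun b => Cn E a b

theorem mem_comp {E : Set (ZMod m × ZMod m)} {a b : ZMod m × ZMod m} :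
    b ∈ comp E a ↔ Cn E a b := by
  classical
  simp [comp]

/-- The set where `T < W`. -/
def Ex (T W : ZMod m → ZMod m → ℝ) : Set (ZMod m × ZMod m) := {p | T p.1 p.2 < W p.1 p.2}

open Classical in
/-- Union of the components of `{T < W}` on which `W - T` reaches `g`. -/
noncomputable def heavy (T W : ZMod m → ZMod m → ℝ) (g : ℝ) : Finset (ZMod m × ZMod m) :=
  univ.filter fun a => ∃ b, Cn (Ex T W) a b ∧ g ≤ W b.1 b.2 - T b.1 b.2

theorem mem_heavy {T W : ZMod m → ZMod m → ℝ} {g : ℝ} {a : ZMod m × ZMod m} :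
    a ∈ heavy T W g ↔ ∃ b, Cn (Ex T W) a b ∧ g ≤ W b.1 b.2 - T b.1 b.2 := by
  classical
  simp only [heavy, Prod.exists, mem_filter, mem_univ, true_and]

/-- Mass of a set of cells. -/
noncomputable def mu (W : ZMod m → ZMod m → ℝ) (S : Finset (ZMod m × ZMod m)) : ℝ :=
  ∑ p ∈ S, cell W p.1 p.2

theorem mass_comp {W T : ZMod m → ZMod m → ℝ} (hW : Kal W) (hT : Kal T)
    (hle : ∀ x y, T x y ≤ W x y) {a b : ZMod m × ZMod m} (h : Cn (Ex T W) a b) :
    W b.1 b.2 - T b.1 b.2 ≤ mu W (comp (Ex T W) a) := by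
  refine mass_ge hW hT hle _ ?_ ?_ ?_ (x₀ := b.1) (y₀ := b.2) (mem_comp.2 h)
  · intro x y hxy
    exact (mem_comp.1 hxy).mem_right
  · intro x y hxy hlt
    have h1 := mem_comp.1 hxy
    refine mem_comp.2 ⟨h1.1, h1.2.tail ⟨h1.mem_right, hlt, Or.inl rfl⟩⟩
  · intro x y hxy hlt
    have h1 := mem_comp.1 hxy
    refine mem_comp.2 ⟨h1.1, h1.2.tail ⟨h1.mem_right, hlt, Or.inr (Or.inr (Or.inl rfl))⟩⟩

theorem Ex_ne {W T : ZMod m → ZMod m → ℝ} (hW : Kal W) (hT : Kal T) {p : ZMod m × ZMod m}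
    (hp : p ∈ Ex T W) : p.1 ≠ p.2 := by
  intro h
  have hp' : T p.1 p.2 < W p.1 p.2 := hp
  rw [h, hW.diag, hT.diag] at hp'
  exact lt_irrefl _ hp'

theorem cell_nonneg_Ex {W T : ZMod m → ZMod m → ℝ} (hW : Kal W) (hT : Kal T)
    {p : ZMod m × ZMod m} (hp : p ∈ Ex T W) : 0 ≤ cell W p.1 p.2 :=
  hW.cell _ _ (Ex_ne hW hT hp)

theorem mu_nonneg {W T : ZMod m → ZMod m → ℝ} (hW : Kal W) (hT : Kal T)
    {S : Finset (ZMod m × ZMod m)} (hS : ∀ p ∈ S, p ∈ Ex T W) : 0 ≤ mu W S :=
  sum_nonneg fun p hp => cell_nonneg_Ex hW hT (hS p hp)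

theorem heavy_sub {T W : ZMod m → ZMod m → ℝ} {g : ℝ} {p : ZMod m × ZMod m}
    (hp : p ∈ heavy T W g) : p ∈ Ex T W := by
  obtain ⟨b, hb, _⟩ := mem_heavy.1 hp
  exact hb.1

open Classical in
/-- HEAVY POTENTIAL: one step. -/
theorem heavy_step {W T T' : ZMod m → ZMod m → ℝ} (hW : Kal W) (hT : Kal T) (hT' : Kal T')
    (hTW : ∀ x y, T x y ≤ W x y) (hTT : ∀ x y, T' x y ≤ T x y) {g h : ℝ} (hg : 0 < g)
    (hh : 0 ≤ h) (I : Finset (ZMod m × ZMod m))
    (hI : ∀ p ∈ I, h ≤ W p.1 p.2 - T p.1 p.2 ∧ p ∈ Ex T W)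
    (hd : ∀ p ∈ I, ∀ q ∈ I, Cn (Ex T W) p q → p = q) :
    mu W (heavy T W g) + h * (((I.filter fun p => g ≤ W p.1 p.2 - T' p.1 p.2).card : ℝ)
      - mu W (heavy T W g) / g) ≤ mu W (heavy T' W g) := by
  have hT'W : ∀ x y, T' x y ≤ W x y := fun x y => (hTT x y).trans (hTW x y)
  have hEE : Ex T W ⊆ Ex T' W := fun p hp => lt_of_le_of_lt (hTT _ _) hp
  set Ig := I.filter fun p => g ≤ W p.1 p.2 - T' p.1 p.2 with hIg
  set Il := Ig.filter fun p => p ∉ heavy T W g with hIl
  set Ih := Ig.filter fun p => p ∈ heavy T W g with hIh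
  have hcard : (Ig.card : ℝ) = Ih.card + Il.card := by
    rw [← Nat.cast_add, hIh, hIl]
    congr 1
    exact (card_filter_add_card_filter_not (s := Ig) (fun p => p ∈ heavy T W g)).symm
  have hIgI : ∀ p ∈ Ig, p ∈ I := fun p hp => (mem_filter.1 hp).1
  have hdis : ∀ p ∈ Ig, ∀ q ∈ Ig, p ≠ q →
      Disjoint (comp (Ex T W) p) (comp (Ex T W) q) := by
    intro p hp q hq hpq
    rw [disjoint_left]
    intro a ha hb
    exact hpq (hd p (hIgI p hp) q (hIgI q hq) ((mem_comp.1 ha).trans (mem_comp.1 hb).symm))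
  -- heavy ones
  have hheavy : (Ih.card : ℝ) * g ≤ mu W (heavy T W g) := by
    have h1 : ∑ p ∈ Ih, mu W (comp (Ex T W) p) ≤ mu W (heavy T W g) := by
      unfold mu
      rw [← sum_biUnion]
      · refine sum_le_sum_of_subset_of_nonneg ?_ fun p hp _ =>
          cell_nonneg_Ex hW hT (heavy_sub hp)
        intro a ha
        obtain ⟨p, hp, hap⟩ := mem_biUnion.1 ha
        obtain ⟨b, hb, hgb⟩ := mem_heavy.1 (mem_filter.1 hp).2
        exact mem_heavy.2 ⟨b, (mem_comp.1 hap).symm.trans hb, hgb⟩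
      · intro p hp q hq hpq
        exact hdis p (mem_filter.1 hp).1 q (mem_filter.1 hq).1 hpq
    refine le_trans ?_ h1
    rw [← nsmul_eq_mul]
    refine card_nsmul_le_sum _ _ _ fun p hp => ?_
    obtain ⟨b, hb, hgb⟩ := mem_heavy.1 (mem_filter.1 hp).2
    exact hgb.trans (mass_comp hW hT hTW hb)
  -- light ones
  have hlight : mu W (heavy T W g) + (Il.card : ℝ) * h ≤ mu W (heavy T' W g) := by
    have h1 : mu W (heavy T W g) + ∑ p ∈ Il, mu W (comp (Ex T W) p)
        ≤ mu W (heavy T' W g) := by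
      unfold mu
      rw [← sum_biUnion, ← sum_union]
      · refine sum_le_sum_of_subset_of_nonneg ?_ fun p hp _ =>
          cell_nonneg_Ex hW hT' (heavy_sub hp)
        intro a ha
        rcases mem_union.1 ha with ha | ha
        · obtain ⟨b, hb, hgb⟩ := mem_heavy.1 ha
          exact mem_heavy.2 ⟨b, hb.mono hEE, hgb.trans (by linarith only [hTT b.1 b.2])⟩
        · obtain ⟨p, hp, hap⟩ := mem_biUnion.1 ha
          exact mem_heavy.2 ⟨p, (mem_comp.1 hap).symm.mono hEE,
            (mem_filter.1 (mem_filter.1 hp).1).2⟩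
      · rw [disjoint_left]
        intro a ha hb
        obtain ⟨p, hp, hap⟩ := mem_biUnion.1 hb
        obtain ⟨b, hab, hgb⟩ := mem_heavy.1 ha
        exact (mem_filter.1 hp).2 (mem_heavy.2 ⟨b, (mem_comp.1 hap).trans hab, hgb⟩)
      · intro p hp q hq hpq
        exact hdis p (mem_filter.1 hp).1 q (mem_filter.1 hq).1 hpq
    refine le_trans (add_le_add le_rfl ?_) h1
    rw [← nsmul_eq_mul]
    refine card_nsmul_le_sum _ _ _ fun p hp => ?_
    have hpI := hI p (hIgI p (mem_filter.1 hp).1)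
    exact hpI.1.trans (mass_comp hW hT hTW (Cn.refl hpI.2))
  have h3 : (Ih.card : ℝ) ≤ mu W (heavy T W g) / g := by
    rwa [le_div_iff₀ hg]
  have h4 : h * ((Ig.card : ℝ) - mu W (heavy T W g) / g) ≤ (Il.card : ℝ) * h := by
    rw [mul_comm h]
    refine mul_le_mul_of_nonneg_right ?_ hh
    rw [hcard]; linarith
  linarith

end Vale.Agent.P158.C
end
end

section

section

/-! Cyclic enumeration of the boundary of a box. -/

namespace Vale.Agent.P158.C

open Vale.Agent.P158.T1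

/-- The boundary of the box of radius `n` about the origin, as a function of the arc length
`m ∈ [0, 8 n)`, counter-clockwise from the lower right corner. -/
def bdr (n m : ℤ) : V :=
  if m < 2 * n then (n, m - n)
  else if m < 4 * n then (3 * n - m, n)
  else if m < 6 * n then (-n, 5 * n - m)
  else (m - 7 * n, -n)

/-- Cyclic counter-clockwise enumeration of the boundary of `bx z n`, of period `8 n`. -/
def bd (z : V) (n : ℕ) (k : ℤ) : V := z + bdr n (k % (8 * n))

/-- The boundary of the box. -/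
def bB (z : V) (n : ℕ) : Set V := {x | x ∈ bx z n ∧ (|x.1 - z.1| = n ∨ |x.2 - z.2| = n)}

theorem bd_add_period (z : V) (n : ℕ) (k : ℤ) : bd z n (k + 8 * n) = bd z n k := by
  unfold bd
  rw [Int.add_emod_right]

theorem bd_add_mul_period (z : V) (n : ℕ) (k c : ℤ) : bd z n (k + 8 * n * c) = bd z n k := by
  unfold bd
  rw [Int.add_mul_emod_self_left]

theorem bd_emod (z : V) (n : ℕ) (k : ℤ) : bd z n (k % (8 * n)) = bd z n k := by
  unfold bd
  rw [Int.emod_emod_of_dvd _ dvd_rfl]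

theorem bd_translate (z u : V) (n : ℕ) (k : ℤ) : bd (z + u) n k = bd z n k + u := by
  unfold bd
  rw [add_right_comm]

theorem bdr_mem {n : ℕ} {m : ℤ} (h0 : 0 ≤ m) (h1 : m ≤ 8 * n) :
    |(bdr n m).1| ≤ n ∧ |(bdr n m).2| ≤ n ∧ (|(bdr n m).1| = n ∨ |(bdr n m).2| = n) := by
  unfold bdr
  have hn : (0 : ℤ) ≤ n := by positivity
  split_ifs with a b c
  · refine ⟨by simp, ?_, Or.inl (by simp)⟩
    simp only [abs_le]; constructor <;> linarith only [a, h0]
  · refine ⟨?_, by simp, Or.inr (by simp)⟩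
    simp only [abs_le]; constructor <;> linarith
  · refine ⟨by simp, ?_, Or.inl (by simp)⟩
    simp only [abs_le]; constructor <;> linarith
  · refine ⟨?_, by simp, Or.inr (by simp)⟩
    simp only [abs_le]; constructor <;> linarith

theorem emod_bound {n : ℕ} (hn : 0 < n) (k : ℤ) : 0 ≤ k % (8 * (n : ℤ)) ∧
    k % (8 * (n : ℤ)) < 8 * n := by
  have : (0 : ℤ) < 8 * n := by positivity
  exact ⟨Int.emod_nonneg _ this.ne', Int.emod_lt_of_pos _ this⟩

theorem bd_mem_bB {z : V} {n : ℕ} (hn : 0 < n) (k : ℤ) : bd z n k ∈ bB z n := by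
  obtain ⟨h1, h2⟩ := emod_bound hn k
  obtain ⟨h3, h4, h5⟩ := bdr_mem h1 h2.le
  unfold bd
  simpa only [bB, mem_bx, Set.mem_ofPred_eq, Prod.fst_add, add_sub_cancel_left, Prod.snd_add] using     ⟨⟨h3, h4⟩, h5⟩

theorem bd_mem_bx {z : V} {n : ℕ} (hn : 0 < n) (k : ℤ) : bd z n k ∈ bx z n :=
  (bd_mem_bB hn k).1

theorem bdr_succ {n m : ℤ} (hn : 0 < n) (h0 : 0 ≤ m) (h1 : m < 8 * n) :
    latt.Adj (bdr n m) (bdr n (m + 1)) := by
  show |(bdr n m).1 - (bdr n (m + 1)).1| + |(bdr n m).2 - (bdr n (m + 1)).2| = 1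
  unfold bdr
  split_ifs <;> first
    | omega
    | (simp only [sub_self, abs_zero, zero_add, add_zero]
       rw [abs_eq (by norm_num)]
       omega)
    | (rw [show m = 2 * n - 1 by (clear hn h0 h1; omega)]
       ring_nf
       norm_num)
    | (rw [show m = 4 * n - 1 by omega]
       ring_nf
       norm_num)
    | (rw [show m = 6 * n - 1 by omega]
       ring_nf
       norm_num)

theorem bdr_period {n : ℤ} (hn : 0 < n) : bdr n (8 * n) = bdr n 0 := by
  unfold bdr
  rw [if_neg (by omega), if_neg (by omega), if_neg (by (clear * - hn; omega)), if_pos (by omega)]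
  ext <;> simp <;> ring

theorem adj_add_left (z x y : V) : latt.Adj (z + x) (z + y) ↔ latt.Adj x y := by
  show |z.1 + x.1 - (z.1 + y.1)| + |z.2 + x.2 - (z.2 + y.2)| = 1 ↔ _
  rw [add_sub_add_left_eq_sub, add_sub_add_left_eq_sub]
  rfl

/-- Consecutive boundary vertices are adjacent. -/
theorem bd_adj {z : V} {n : ℕ} (hn : 0 < n) (k : ℤ) : latt.Adj (bd z n k) (bd z n (k + 1)) := by
  have hn' : (0 : ℤ) < n := by exact_mod_cast hn
  obtain ⟨h1, h2⟩ := emod_bound hn k
  have h3 := bdr_succ hn' h1 h2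
  unfold bd
  rw [adj_add_left]
  have h4 : bdr n ((k + 1) % (8 * n)) = bdr n (k % (8 * n) + 1) := by
    rw [Int.add_emod]
    rcases eq_or_lt_of_le (Int.add_one_le_iff.2 h2) with h | h
    · rw [h, bdr_period hn']
      have h5 : (1 : ℤ) % (8 * n) = 1 := Int.emod_eq_of_lt (by norm_num) (by linarith)
      rw [h5, h, Int.emod_self]
    · have h5 : (1 : ℤ) % (8 * n) = 1 := Int.emod_eq_of_lt (by norm_num) (by linarith only [hn])
      rw [h5, Int.emod_eq_of_lt (by linarith only [h1]) h]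
  rw [h4]
  exact h3

theorem bdr_inj {n i j : ℤ} (hn : 0 < n) (hi0 : 0 ≤ i) (hi : i < 8 * n) (hj0 : 0 ≤ j)
    (hj : j < 8 * n) (h : bdr n i = bdr n j) : i = j := by
  unfold bdr at h
  rw [Prod.ext_iff] at h
  split_ifs at h <;> simp only at h <;> omega

/-- Injectivity on a period. -/
theorem bd_inj {z : V} {n : ℕ} (hn : 0 < n) {i j : ℤ} :
    bd z n i = bd z n j ↔ i % (8 * n) = j % (8 * n) := by
  have hn' : (0 : ℤ) < n := by exact_mod_cast hn
  obtain ⟨h1, h2⟩ := emod_bound hn i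
  obtain ⟨h3, h4⟩ := emod_bound hn j
  constructor
  · intro h
    exact bdr_inj hn' h1 h2 h3 h4 (add_left_cancel h)
  · intro h
    unfold bd
    rw [h]

theorem bd_injOn {z : V} {n : ℕ} (hn : 0 < n) (a : ℤ) :
    Set.InjOn (bd z n) (Set.Ico a (a + 8 * n)) := by
  intro i hi j hj h
  rw [bd_inj hn, Int.emod_eq_emod_iff_emod_sub_eq_zero] at h
  obtain ⟨c, hc⟩ := Int.dvd_of_emod_eq_zero h
  have hn' : (0 : ℤ) < n := by exact_mod_cast hn
  have h1 := hi.1
  have h2 := hi.2
  have h3 := hj.1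
  have h4 := hj.2
  have h5 : c = 0 := by
    by_contra hc0
    rcases lt_or_gt_of_ne hc0 with h6 | h6
    · have : 8 * (n : ℤ) * c ≤ 8 * n * (-1) := by
        apply mul_le_mul_of_nonneg_left (by omega) (by positivity)
      linarith only [hc, h1, h4, this]
    · have : 8 * (n : ℤ) * 1 ≤ 8 * n * c := by
        apply mul_le_mul_of_nonneg_left (by omega) (by positivity)
      linarith only [hc, h2, h3, this]
  rw [h5] at hc
  linarith only [hc]

theorem bdr_surj {n : ℤ} (hn : 0 < n) {x : V} (h1 : |x.1| ≤ n) (h2 : |x.2| ≤ n)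
    (h3 : |x.1| = n ∨ |x.2| = n) : ∃ m, 0 ≤ m ∧ m < 8 * n ∧ bdr n m = x := by
  obtain ⟨a, b⟩ := x
  simp only at h1 h2 h3
  rw [abs_le] at h1 h2
  rw [abs_eq hn.le, abs_eq hn.le] at h3
  unfold bdr
  by_cases ha : a = n ∧ b ≠ n
  · refine ⟨b + n, by omega, by omega, ?_⟩
    rw [if_pos (by omega)]
    simp [ha.1]
  · by_cases hb : b = n ∧ a ≠ -n
    · refine ⟨3 * n - a, by omega, by omega, ?_⟩
      rw [if_neg (by omega), if_pos (by (clear * - h1 hb; omega))]
      simp [hb.1]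
    · by_cases hc : a = -n ∧ b ≠ -n
      · refine ⟨5 * n - b, by omega, by omega, ?_⟩
        rw [if_neg (by omega), if_neg (by omega), if_pos (by omega)]
        simp [hc.1]
      · refine ⟨a + 7 * n, by omega, by (clear * - hn h1 h2 ha hb hc; omega), ?_⟩
        rw [if_neg (by omega), if_neg (by omega), if_neg (by omega)]
        ext <;> simp
        omega

/-- Every boundary vertex is enumerated. -/
theorem bd_surj {z : V} {n : ℕ} (hn : 0 < n) {x : V} (hx : x ∈ bB z n) (a : ℤ) :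
    ∃ k, a ≤ k ∧ k < a + 8 * n ∧ bd z n k = x := by
  have hn' : (0 : ℤ) < n := by exact_mod_cast hn
  obtain ⟨⟨h1, h2⟩, h3⟩ := hx
  obtain ⟨m, h4, h5, h6⟩ := bdr_surj (x := x - z) hn' h1 h2 h3
  refine ⟨a + (m - a) % (8 * n), ?_, ?_, ?_⟩
  · linarith only [(emod_bound hn (m - a)).1]
  · linarith only [(emod_bound hn (m - a)).2]
  · unfold bd
    rw [Int.add_emod, Int.emod_emod_of_dvd _ dvd_rfl, ← Int.add_emod, add_sub_cancel,
      Int.emod_eq_of_lt h4 h5, h6]
    abel

theorem exists_bd_iff {z : V} {n : ℕ} (hn : 0 < n) {x : V} :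
    (∃ k, bd z n k = x) ↔ x ∈ bB z n := by
  constructor
  · rintro ⟨k, rfl⟩
    exact bd_mem_bB hn k
  · intro h
    obtain ⟨k, -, -, hk⟩ := bd_surj hn h 0
    exact ⟨k, hk⟩

/-- A vertex of the box with a neighbour outside is on the boundary. -/
theorem mem_bB_of_adj {z x y : V} {n : ℕ} (hx : x ∈ bx z n) (hy : y ∉ bx z n)
    (h : latt.Adj x y) : x ∈ bB z n := by
  refine ⟨hx, ?_⟩
  by_contra hc
  push Not at hc
  obtain ⟨h1, h2⟩ := hx
  have h3 : |x.1 - y.1| + |x.2 - y.2| = 1 := h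
  have h5 : |x.1 - z.1| + 1 ≤ n := Int.add_one_le_iff.2 (lt_of_le_of_ne h1 hc.1)
  have h6 : |x.2 - z.2| + 1 ≤ n := Int.add_one_le_iff.2 (lt_of_le_of_ne h2 hc.2)
  have e1 := abs_nonneg (x.1 - y.1)
  have e2 := abs_nonneg (x.2 - y.2)
  refine hy ⟨?_, ?_⟩
  · calc |y.1 - z.1| ≤ |y.1 - x.1| + |x.1 - z.1| := abs_sub_le _ _ _
      _ ≤ n := by rw [abs_sub_comm y.1 x.1]; linarith only [h3, h5, e2]
  · calc |y.2 - z.2| ≤ |y.2 - x.2| + |x.2 - z.2| := abs_sub_le _ _ _
      _ ≤ n := by rw [abs_sub_comm y.2 x.2]; linarith only [h3, h6, e1]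

end Vale.Agent.P158.C
end
end

section

section

/-! Branch points. -/

namespace Vale.Agent.P158.C

open Filter T1

/-- `p` is a branch point: there are two different neighbours `q`, `q'` of `p` such that, outside
of every finite set, there are `x`, `x'`, `y` for which `x → q → p → y` and `x' → q' → p → y` are
geodesic. -/
def Br (w : V → V → ℝ) (p : V) : Prop :=
  ∃ q q' : V, latt.Adj q p ∧ latt.Adj q' p ∧ q ≠ q' ∧ ∀ F : Set V, F.Finite →
    ∃ x x' y : V, x ∉ F ∧ x' ∉ F ∧ y ∉ F ∧ T w x y = T w x q + w q p + T w p y ∧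
      T w x' y = T w x' q' + w q' p + T w p y

/-- Far points of a bigeodesic leave every finite set. -/
theorem exists_out {w : V → V → ℝ} (hw : Adm w) {v : ℤ → V} (hv : IsBi w v) {F : Set V}
    (hF : F.Finite) : ∃ N : ℤ, ∀ n : ℤ, (n ≤ -N ∨ N ≤ n) → v n ∉ F := by
  have hinj := isBi_inj hw hv
  have h1 : (v ⁻¹' F).Finite := hF.preimage hinj.injOn
  obtain ⟨N, hN⟩ : ∃ N : ℤ, ∀ n ∈ v ⁻¹' F, |n| < N := by
    obtain ⟨N, hN⟩ := (h1.image fun n => |n|).bddAbove
    exact ⟨N + 1, fun n hn => by have := hN ⟨n, hn, rfl⟩; simp only at this; omega⟩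
  refine ⟨N, fun n hn hnF => ?_⟩
  have := hN n hnF
  rw [abs_lt] at this
  omega

/-- Two bigeodesics which share a ray but come from different neighbours form a branch point. -/
theorem br_of_isBi {w : V → V → ℝ} (hw : Adm w) {v v' : ℤ → V} (hv : IsBi w v)
    (hv' : IsBi w v') (h : ∀ i : ℤ, 0 ≤ i → v i = v' i) (hne : v (-1) ≠ v' (-1)) :
    Br w (v 0) := by
  have h0 : v 0 = v' 0 := h 0 le_rfl
  have a1 : latt.Adj (v (-1)) (v 0) := by simpa using isBi_adj hv (-1)
  have a2 : latt.Adj (v' (-1)) (v 0) := by rw [h0]; simpa using isBi_adj hv' (-1)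
  refine ⟨v (-1), v' (-1), a1, a2, hne, fun F hF => ?_⟩
  obtain ⟨N, hN⟩ := exists_out hw hv hF
  obtain ⟨N', hN'⟩ := exists_out hw hv' hF
  obtain ⟨M, hM1, hM2, hM3⟩ : ∃ M : ℤ, N ≤ M ∧ N' ≤ M ∧ 1 ≤ M :=
    ⟨max N (max N' 1), by omega, by omega, by omega⟩
  have key : ∀ u : ℤ → V, IsBi w u →
      T w (u (-M)) (u M) = T w (u (-M)) (u (-1)) + w (u (-1)) (u 0) + T w (u 0) (u M) := by
    intro u hu
    obtain ⟨P, hP⟩ := exists_posF w u
    rw [isBi_T hu hP (by omega), isBi_T hu hP (by omega), isBi_T hu hP (by omega)]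
    have := hP (-1)
    simp only [neg_add_cancel] at this
    linarith only [this]
  refine ⟨v (-M), v' (-M), v M, hN _ (Or.inl (by omega)), hN' _ (Or.inl (by omega)),
    hN _ (Or.inr (by omega)), key v hv, ?_⟩
  rw [h M (by omega), h0]
  exact key v' hv'

end Vale.Agent.P158.C
end
end

section

section

/-! No branching: from merge counts in boxes to the absence of branch points. -/

namespace Vale.Agent.P158.C

open SimpleGraph MeasureTheory Filter Vale.Agent.P158.T1
open scoped ENNReal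

variable {G : Measure ℝ} [IsProbabilityMeasure G] {w : V → V → ℝ}

/-- Boundary of the box. -/
def bdy (N : ℕ) : Set V := {x | x ∈ bx 0 N ∧ (|x.1| = N ∨ |x.2| = N)}

/-- `p` is entered through two different edges by geodesics of the box with target `y`. -/
def MrgB (w : V → V → ℝ) (N : ℕ) (y p : V) : Prop :=
  ∃ x x' q q' : V, x ∈ bdy N ∧ x' ∈ bdy N ∧ latt.Adj q p ∧ latt.Adj q' p ∧ q ≠ q' ∧
    q ∈ bx 0 N ∧ q' ∈ bx 0 N ∧ p ∈ bx 0 N ∧
    PT w (bx 0 N) x q + w q p + PT w (bx 0 N) p y = PT w (bx 0 N) x y ∧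
    PT w (bx 0 N) x' q' + w q' p + PT w (bx 0 N) p y = PT w (bx 0 N) x' y

theorem br_sh (hw : Adm w) (u p : V) : Br (sh u w) p ↔ Br w (p + u) := by
  constructor
  · rintro ⟨q, q', h1, h2, h3, h4⟩
    refine ⟨q + u, q' + u, adj_add h1 u, adj_add h2 u, fun h => h3 (add_right_cancel h),
      fun F hF => ?_⟩
    obtain ⟨x, x', y, hx, hx', hy, e1, e2⟩ := h4 ((fun z => z + u) ⁻¹' F)
      (hF.preimage (add_left_injective u).injOn)
    rw [T_sh hw, T_sh hw, T_sh hw] at e1 e2
    exact ⟨x + u, x' + u, y + u, hx, hx', hy, e1, e2⟩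
  · rintro ⟨q, q', h1, h2, h3, h4⟩
    refine ⟨q - u, q' - u, ?_, ?_, fun h => h3 (sub_left_injective h), fun F hF => ?_⟩
    · rw [← adj_add_iff u]; simpa using h1
    · rw [← adj_add_iff u]; simpa using h2
    · obtain ⟨x, x', y, hx, hx', hy, e1, e2⟩ := h4 ((fun z => z - u) ⁻¹' F)
        (hF.preimage (sub_left_injective).injOn)
      refine ⟨x - u, x' - u, y - u, hx, hx', hy, ?_, ?_⟩
      · rw [T_sh hw, T_sh hw, T_sh hw]
        simpa [sh] using e1
      · rw [T_sh hw, T_sh hw, T_sh hw]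
        simpa [sh] using e2

theorem mem_bx_zero {x : V} {N : ℕ} : x ∈ bx 0 N ↔ |x.1| ≤ N ∧ |x.2| ≤ N := by
  rw [mem_bx]; simp only [Prod.fst_zero, sub_zero, Prod.snd_zero]

theorem mem_bdy_of_adj {u v : V} {N : ℕ} (h : latt.Adj u v) (hu : u ∈ bx 0 N)
    (hv : v ∉ bx 0 N) : u ∈ bdy N := by
  refine ⟨hu, ?_⟩
  have h3 : |u.1 - v.1| + |u.2 - v.2| = 1 := h
  by_contra hcon
  apply hv
  rw [mem_bx_zero] at hu ⊢
  push Not at hcon
  have a1 := lt_of_le_of_ne hu.1 hcon.1
  have a2 := lt_of_le_of_ne hu.2 hcon.2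
  have b1 := abs_nonneg (u.1 - v.1)
  have b2 := abs_nonneg (u.2 - v.2)
  rw [abs_lt] at a1 a2
  have c1 := abs_le.1 (by omega : |u.1 - v.1| ≤ 1)
  have c2 := abs_le.1 (by omega : |u.2 - v.2| ≤ 1)
  constructor <;> rw [abs_le] <;> constructor <;> omega

/-- First exit of a walk from the box, through the inner boundary. -/
theorem exit_inner {N : ℕ} {x y : V} (p : latt.Walk x y) (hx : x ∈ bx 0 N) (hy : y ∉ bx 0 N) :
    ∃ (z : V) (p₁ : latt.Walk x z) (p₂ : latt.Walk z y), p = p₁.append p₂ ∧ z ∈ bdy N ∧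
      ∀ u ∈ p₁.support, u ∈ bx 0 N := by
  induction p with
  | nil => exact absurd hx hy
  | cons h p ih =>
    rename_i u v w
    by_cases hv : v ∈ bx 0 N
    · obtain ⟨z, p₁, p₂, hp, hz, hs⟩ := ih hv hy
      refine ⟨z, Walk.cons h p₁, p₂, by rw [hp]; rfl, hz, fun a ha => ?_⟩
      rw [Walk.support_cons, List.mem_cons] at ha
      rcases ha with rfl | ha
      · exact hx
      · exact hs a ha
    · refine ⟨u, Walk.nil, Walk.cons h p, rfl, mem_bdy_of_adj h hx hv, fun a ha => ?_⟩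
      rw [Walk.support_nil, List.mem_singleton] at ha
      rw [ha]; exact hx

/-- The first part of a geodesic from inside the box to the outside. -/
theorem geo_exit (hw : Adm w) (hA : Att w Set.univ) {N : ℕ} {p y : V} (hp : p ∈ bx 0 N)
    (hy : y ∉ bx 0 N) : ∃ z ∈ bdy N, Conn (bx 0 N) p z ∧ PT w (bx 0 N) p z = T w p z ∧
      T w p y = T w p z + T w z y := by
  obtain ⟨π, -, hπ⟩ := hA p (Set.mem_univ _) y (Set.mem_univ _)
  obtain ⟨z, p₁, p₂, e, hz, hs⟩ := exit_inner π hp hy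
  have hc : Conn (bx 0 N) p z := ⟨p₁, hs⟩
  have a1 := T_le hw p₁
  have a2 := T_le hw p₂
  have a3 := T_triangle hw p z y
  have a4 := T_le_PT hw hc
  have a5 := PT_le hw p₁ hs
  have a6 : ww w p₁ + ww w p₂ = T w p y := by
    rw [← ww_append, ← e]; exact hπ
  exact ⟨z, hz, hc, by linarith, by linarith only [a1, a2, a6, a3]⟩

/-- A branch vertex in the middle of the box is a merge vertex of the box. -/
theorem mrg_of_br (hw : Adm w) (hA : Att w Set.univ) {p : V} (h : Br w p) {N : ℕ}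
    (hp : p ∈ bx 0 N) (hp' : p ∉ bdy N) : ∃ y ∈ bdy N, MrgB w N y p := by
  obtain ⟨q, q', hq, hq', hne, hF⟩ := h
  obtain ⟨x, x', y, hx, hx', hy, e1, e2⟩ := hF (bx 0 N) (bx_finite 0 N)
  have hin : ∀ r : V, latt.Adj r p → r ∈ bx 0 N := by
    intro r hr
    by_contra hcon
    exact hp' (mem_bdy_of_adj hr.symm hp hcon)
  obtain ⟨z, hz, hc, g1, g2⟩ := geo_exit hw hA hp hy
  have side : ∀ r s : V, latt.Adj r p → s ∉ bx 0 N →
      T w s y = T w s r + w r p + T w p y → ∃ s' ∈ bdy N,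
        PT w (bx 0 N) s' r + w r p + PT w (bx 0 N) p z = PT w (bx 0 N) s' z := by
    intro r s hr hs e
    have hrN := hin r hr
    obtain ⟨s', hs', c', k1, k2⟩ := geo_exit hw hA hrN hs
    refine ⟨s', hs', ?_⟩
    have cc : Conn (bx 0 N) s' r := c'.symm'
    have cp : Conn (bx 0 N) r p := Conn.of_adj hr hrN hp
    have t1 := PT_triangle hw cc (cp.trans' hc)
    have t2 := PT_triangle hw cp hc
    have t3 := PT_adj_le hw hr hrN hp
    have t4 := T_le_PT hw (cc.trans' (cp.trans' hc))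
    have t5 := T_triangle hw s s' y
    have t6 := T_triangle hw s' z y
    rw [PT_comm hw, T_comm hw] at k1
    rw [T_comm hw r s, T_comm hw r s', T_comm hw s' s] at k2
    linarith only [t1, t2, t3, g1, g2, e, k1, k2, t4, t5, t6]
  obtain ⟨s, hs, f1⟩ := side q x hq hx e1
  obtain ⟨s', hs', f2⟩ := side q' x' hq' hx' e2
  exact ⟨z, hz, s, s', q, q', hs, hs', hq, hq', hne, hin q hq, hin q' hq', hp, f1, f2⟩

theorem fb_sh (hw : Adm w) (hf : FB w) (u : V) : FB (sh u w) := by
  intro s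
  refine ((hf (T w 0 u + s)).preimage (f := fun z => z + u) (add_left_injective u).injOn).subset ?_
  intro z hz
  have hz' : T (sh u w) 0 z ≤ s := hz
  rw [T_sh hw, zero_add] at hz'
  have := T_triangle hw 0 u (z + u)
  show T w 0 (z + u) ≤ _
  linarith

theorem measurableSet_mrg (N : ℕ) (y p : V) : MeasurableSet {t : Env | MrgB (wt t) N y p} := by
  have : {t : Env | MrgB (wt t) N y p} = ⋃ x : V, ⋃ x' : V, ⋃ q : V, ⋃ q' : V,
      {t : Env | (x ∈ bdy N ∧ x' ∈ bdy N ∧ latt.Adj q p ∧ latt.Adj q' p ∧ q ≠ q' ∧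
    q ∈ bx 0 N ∧ q' ∈ bx 0 N ∧ p ∈ bx 0 N) ∧
    (PT (wt t) (bx 0 N) x q + wt t q p + PT (wt t) (bx 0 N) p y = PT (wt t) (bx 0 N) x y ∧
    PT (wt t) (bx 0 N) x' q' + wt t q' p + PT (wt t) (bx 0 N) p y =
      PT (wt t) (bx 0 N) x' y)} := by
    ext t
    simp only [Set.mem_iUnion, Set.mem_ofPred_eq, MrgB]
    constructor
    · rintro ⟨x, x', q, q', h1, h2, h3, h4, h5, h6, h7, h8, h9, h10⟩
      exact ⟨x, x', q, q', ⟨h1, h2, h3, h4, h5, h6, h7, h8⟩, h9, h10⟩
    · rintro ⟨x, x', q, q', ⟨h1, h2, h3, h4, h5, h6, h7, h8⟩, h9, h10⟩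
      exact ⟨x, x', q, q', h1, h2, h3, h4, h5, h6, h7, h8, h9, h10⟩
  rw [this]
  refine MeasurableSet.iUnion fun x => MeasurableSet.iUnion fun x' => MeasurableSet.iUnion
    fun q => MeasurableSet.iUnion fun q' => ?_
  refine (MeasurableSet.const _).inter ((measurableSet_eq_fun ?_ ?_).inter
    (measurableSet_eq_fun ?_ ?_))
  · exact ((measurable_PT _ _ _).add (measurable_wt _ _)).add (measurable_PT _ _ _)
  · exact measurable_PT _ _ _
  · exact ((measurable_PT _ _ _).add (measurable_wt _ _)).add (measurable_PT _ _ _)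
  · exact measurable_PT _ _ _

/-- The box as a finset. -/
noncomputable def bxF (z : V) (r : ℕ) : Finset V := (bx_finite z r).toFinset

theorem mem_bxF {z x : V} {r : ℕ} : x ∈ bxF z r ↔ x ∈ bx z r := (bx_finite z r).mem_toFinset

theorem bdy_finite (N : ℕ) : (bdy N).Finite := (bx_finite 0 N).subset fun _ h => h.1

theorem card_bxF_ge (m : ℕ) : (2 * m + 1) ^ 2 ≤ (bxF 0 m).card := by
  have h : (Finset.Icc (-(m : ℤ)) m) ×ˢ (Finset.Icc (-(m : ℤ)) m) ⊆ bxF 0 m := by
    rintro ⟨a, b⟩ h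
    rw [Finset.mem_product, Finset.mem_Icc, Finset.mem_Icc] at h
    rw [mem_bxF, mem_bx_zero]
    exact ⟨abs_le.2 h.1, abs_le.2 h.2⟩
  have h2 := Finset.card_le_card h
  rw [Finset.card_product, Int.card_Icc] at h2
  have e : ((m : ℤ) + 1 - -(m : ℤ)).toNat = 2 * m + 1 := by (clear * -; omega)
  rw [e] at h2
  rw [sq]
  exact h2

theorem card_bdy_le (N : ℕ) : (bdy_finite N).toFinset.card ≤ 4 * (2 * N + 1) := by
  classical
  have h : (bdy_finite N).toFinset ⊆
      ((Finset.Icc (-(N : ℤ)) N).image fun b => ((N : ℤ), b)) ∪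
      ((Finset.Icc (-(N : ℤ)) N).image fun b => (-(N : ℤ), b)) ∪
      (((Finset.Icc (-(N : ℤ)) N).image fun b => (b, (N : ℤ))) ∪
      ((Finset.Icc (-(N : ℤ)) N).image fun b => (b, -(N : ℤ)))) := by
    rintro ⟨a, b⟩ h
    rw [Set.Finite.mem_toFinset] at h
    obtain ⟨h1, h2⟩ := h
    rw [mem_bx_zero] at h1
    simp only at h1 h2
    have ha := abs_le.1 h1.1
    have hb := abs_le.1 h1.2
    simp only [Finset.mem_union, Finset.mem_image, Finset.mem_Icc, Prod.mk.injEq]
    rcases h2 with h2 | h2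
    · rcases abs_choice a with h3 | h3
      · left; left; exact ⟨b, hb, by omega, rfl⟩
      · left; right; exact ⟨b, hb, by omega, rfl⟩
    · rcases abs_choice b with h3 | h3
      · right; left; exact ⟨a, ha, rfl, by omega⟩
      · right; right; exact ⟨a, ha, rfl, by omega⟩
  refine (Finset.card_le_card h).trans ?_
  have hc : (Finset.Icc (-(N : ℤ)) N).card = 2 * N + 1 := by
    rw [Int.card_Icc]; omega
  refine (Finset.card_union_le _ _).trans ?_
  have u1 := (Finset.card_union_le ((Finset.Icc (-(N : ℤ)) N).image fun b => ((N : ℤ), b))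
    ((Finset.Icc (-(N : ℤ)) N).image fun b => (-(N : ℤ), b)))
  have u2 := (Finset.card_union_le ((Finset.Icc (-(N : ℤ)) N).image fun b => (b, (N : ℤ)))
    ((Finset.Icc (-(N : ℤ)) N).image fun b => (b, -(N : ℤ))))
  have v1 := Finset.card_image_le (s := Finset.Icc (-(N : ℤ)) N) (f := fun b => ((N : ℤ), b))
  have v2 := Finset.card_image_le (s := Finset.Icc (-(N : ℤ)) N) (f := fun b => (-(N : ℤ), b))
  have v3 := Finset.card_image_le (s := Finset.Icc (-(N : ℤ)) N) (f := fun b => (b, (N : ℤ)))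
  have v4 := Finset.card_image_le (s := Finset.Icc (-(N : ℤ)) N) (f := fun b => (b, -(N : ℤ)))
  omega

/-- Merge counts `o(N)` per target imply that there are no branch vertices. -/
theorem nb_of_merge [NullSingletonClass G] (hG : G (Set.Iio 0) = 0)
    (hFB : ∀ᵐ t ∂PG G, FB (wt t))
    (hM : ∀ ε : ℝ, 0 < ε → ∃ N₀ : ℕ, ∀ N ≥ N₀, ∀ y ∈ bdy N,
      ∑ p ∈ bxF 0 (N / 2), PG G {t | MrgB (wt t) N y p} ≤ ENNReal.ofReal (ε * N)) :
    ∀ᵐ t ∂PG G, ∀ p, ¬ Br (wt t) p := by
  classical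
  have hzero : PG G {t | (Adm (wt t) ∧ FB (wt t)) ∧ Br (wt t) 0} = 0 := by
    refine le_antisymm (ENNReal.le_of_forall_pos_le_add fun ε hε _ => ?_) (zero_le)
    rw [zero_add]
    obtain ⟨N₀, hN₀⟩ := hM (ε / 12) (by positivity)
    set N := max N₀ 2 with hN
    have hN2 : 2 ≤ N := le_max_right _ _
    have hN1 := hN₀ N (le_max_left _ _)
    have step1 : ∀ p ∈ bxF 0 (N / 2), PG G {t | (Adm (wt t) ∧ FB (wt t)) ∧ Br (wt t) 0} ≤
        ∑ y ∈ (bdy_finite N).toFinset, PG G {t | MrgB (wt t) N y p} := by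
      intro p hp
      rw [mem_bxF] at hp
      have hp1 : p ∈ bx 0 N := bx_mono (Nat.div_le_self _ _) hp
      have hp2 : p ∉ bdy N := by
        rintro ⟨-, h⟩
        rw [mem_bx_zero] at hp
        have : (N / 2 : ℕ) < N := by omega
        rcases h with h | h
        · have := hp.1; omega
        · have := hp.2; omega
      have hmeas : MeasurableSet (⋃ y ∈ (bdy_finite N).toFinset, {t : Env | MrgB (wt t) N y p}) :=
        Finset.measurableSet_biUnion _ fun y _ => measurableSet_mrg N y p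
      calc PG G {t | (Adm (wt t) ∧ FB (wt t)) ∧ Br (wt t) 0}
          ≤ PG G (shE (-p) ⁻¹' (⋃ y ∈ (bdy_finite N).toFinset,
              {t : Env | MrgB (wt t) N y p})) := by
            refine measure_mono ?_
            rintro t ⟨⟨hadm, hfb⟩, hbr⟩
            have hadm' : Adm (wt (shE (-p) t)) := by rw [wt_shE]; exact hadm.sh _
            have hatt : Att (wt (shE (-p) t)) Set.univ := by
              rw [wt_shE]
              exact att_of_fb (hadm.sh _) (fb_sh hadm hfb _) fun _ _ _ _ => conn_univ _ _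
            have hbr' : Br (wt (shE (-p) t)) p := by
              rw [wt_shE, br_sh hadm]
              simpa using hbr
            obtain ⟨y, hy, hmy⟩ := mrg_of_br hadm' hatt hbr' hp1 hp2
            simp only [Set.mem_preimage, Set.mem_iUnion]
            exact ⟨y, (Set.Finite.mem_toFinset _).2 hy, hmy⟩
        _ = PG G (⋃ y ∈ (bdy_finite N).toFinset, {t : Env | MrgB (wt t) N y p}) :=
            (mp_sh (G := G) (-p)).measure_preimage hmeas.nullMeasurableSet
        _ ≤ _ := measure_biUnion_finset_le _ _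
    have step2 : ((bxF 0 (N / 2)).card : ℝ≥0∞) * PG G {t | (Adm (wt t) ∧ FB (wt t)) ∧ Br (wt t) 0} ≤
        ((bdy_finite N).toFinset.card : ℝ≥0∞) * ENNReal.ofReal (ε / 12 * N) := by
      calc ((bxF 0 (N / 2)).card : ℝ≥0∞) * PG G {t | (Adm (wt t) ∧ FB (wt t)) ∧ Br (wt t) 0}
          = ∑ p ∈ bxF 0 (N / 2), PG G {t | (Adm (wt t) ∧ FB (wt t)) ∧ Br (wt t) 0} := by
            rw [Finset.sum_const, nsmul_eq_mul]
        _ ≤ ∑ p ∈ bxF 0 (N / 2), ∑ y ∈ (bdy_finite N).toFinset,
              PG G {t | MrgB (wt t) N y p} := Finset.sum_le_sum step1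
        _ = ∑ y ∈ (bdy_finite N).toFinset, ∑ p ∈ bxF 0 (N / 2),
              PG G {t | MrgB (wt t) N y p} := Finset.sum_comm
        _ ≤ ∑ y ∈ (bdy_finite N).toFinset, ENNReal.ofReal (ε / 12 * N) :=
            Finset.sum_le_sum fun y hy => hN1 y ((Set.Finite.mem_toFinset _).1 hy)
        _ = _ := by rw [Finset.sum_const, nsmul_eq_mul]
    have hc1 : (N : ℝ) ^ 2 ≤ ((bxF 0 (N / 2)).card : ℝ) := by
      have h1 := card_bxF_ge (N / 2)
      have h2 : N ≤ 2 * (N / 2) + 1 := by (clear * -; omega)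
      have h3 : N ^ 2 ≤ (bxF 0 (N / 2)).card := (Nat.pow_le_pow_left h2 2).trans h1
      exact_mod_cast h3
    have hc2 : ((bdy_finite N).toFinset.card : ℝ) ≤ 12 * N := by
      have h1 := card_bdy_le N
      have h2 : (bdy_finite N).toFinset.card ≤ 12 * N := by omega
      exact_mod_cast h2
    have hNpos : (0 : ℝ) < (N : ℝ) ^ 2 := by
      have : (0 : ℝ) < N := by exact_mod_cast (by omega : 0 < N)
      positivity
    have hfin : PG G {t | (Adm (wt t) ∧ FB (wt t)) ∧ Br (wt t) 0} ≠ ∞ := measure_ne_top _ _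
    obtain ⟨c, hc⟩ : ∃ c : NNReal, PG G {t | (Adm (wt t) ∧ FB (wt t)) ∧ Br (wt t) 0} = c :=
      ⟨_, (ENNReal.coe_toNNReal hfin).symm⟩
    rw [hc] at step2 ⊢
    have step3 : ((bxF 0 (N / 2)).card : ℝ) * c ≤
        ((bdy_finite N).toFinset.card : ℝ) * (ε / 12 * N) := by
      have := ENNReal.toReal_mono (ENNReal.mul_ne_top (by simp) ENNReal.ofReal_ne_top) step2
      rw [ENNReal.toReal_mul, ENNReal.toReal_mul, ENNReal.toReal_ofReal (by (clear * - hε; positivity))] at this
      simpa only [ge_iff_le, ENNReal.toReal_natCast, ENNReal.coe_toReal] using this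
    have : (c : ℝ) ≤ ε := by
      by_contra hcon
      push Not at hcon
      have h1 : (N : ℝ) ^ 2 * c ≤ 12 * N * (ε / 12 * N) := by
        calc (N : ℝ) ^ 2 * c ≤ ((bxF 0 (N / 2)).card : ℝ) * c :=
              mul_le_mul_of_nonneg_right hc1 c.2
          _ ≤ _ := step3
          _ ≤ _ := mul_le_mul_of_nonneg_right hc2 (by (clear * - hε; positivity))
      have h2 : (N : ℝ) ^ 2 * ε < (N : ℝ) ^ 2 * c := mul_lt_mul_of_pos_left hcon hNpos
      have h3 : 12 * (N : ℝ) * (ε / 12 * N) = (N : ℝ) ^ 2 * ε := by ring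
      linarith only [h1, h2]
    exact_mod_cast this
  have h0 : ∀ᵐ t ∂PG G, Adm (wt t) ∧ ¬ Br (wt t) 0 := by
    filter_upwards [ae_adm hG, hFB, measure_eq_zero_iff_ae_notMem.1 hzero] with t h1 h1' h2
    exact ⟨h1, fun h => h2 ⟨⟨h1, h1'⟩, h⟩⟩
  filter_upwards [ae_shift h0, ae_adm hG] with t ht hadm p hp
  refine (ht p).2 ?_
  rw [wt_shE, br_sh hadm]
  simpa using hp

end Vale.Agent.P158.C
end
end

section

section

/-! Plan C': definitions and module statements.

Every module is a `Prop`-valued definition `XStmt`; the module file proves it.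
No statement here is assumed anywhere: the final theorem is obtained by composing the proofs. -/

namespace Vale.Agent.P158.C

open Filter MeasureTheory Vale.Agent.P158.T1
open scoped ENNReal

/-! ### Deterministic notions -/

/-- Different paths with the same ends have different weights. -/
def Uq (w : V → V → ℝ) : Prop :=
  ∀ (x y : V) (p q : latt.Walk x y), p.IsPath → q.IsPath → ww w p = ww w q → p = q

/-- Slack `h` at the edge from `v 0` to `v 1`. -/
def SL (h : ℝ) (w : V → V → ℝ) (v : ℤ → V) : Prop :=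
  ∀ i j : ℤ, i ≤ 0 → 1 ≤ j → ∀ π : latt.Walk (v i) (v j), s(v 0, v 1) ∉ π.edges →
    T w (v i) (v j) + h ≤ ww w π

/-- Bigeodesics with slack meet all bigeodesics. -/
def S3 (w : V → V → ℝ) : Prop :=
  ∀ (h : ℝ) (v v' : ℤ → V), 0 < h → IsBi w v → SL h w v → IsBi w v' → ∃ i j, v i = v' j

/-- The vertex `v` is on a geodesic inside `S` from `x` to `y`. -/
def On (w : V → V → ℝ) (S : Set V) (x y v : V) : Prop :=
  v ∈ S ∧ PT w S x v + PT w S v y = PT w S x y

/-- Passage times inside `S` between boundary vertices of `bx z N`. -/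
noncomputable def bT (w : V → V → ℝ) (z : V) (N : ℕ) (S : Set V) (x y : ZMod (8 * N)) : ℝ :=
  PT w S (bd z N (x.val : ℤ)) (bd z N (y.val : ℤ))

/-- Passage times of the box. -/
noncomputable def TN (w : V → V → ℝ) (z : V) (N : ℕ) : ZMod (8 * N) → ZMod (8 * N) → ℝ :=
  bT w z N (bx z N)

/-- Passage times of the box without the window `bx 0 s`. -/
noncomputable def WN (w : V → V → ℝ) (z : V) (N s : ℕ) : ZMod (8 * N) → ZMod (8 * N) → ℝ :=
  bT w z N (bx z N \ bx 0 s)

/-- Sum of the weights along the boundary cycle of the box. -/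
noncomputable def rs (w : V → V → ℝ) (z : V) (N : ℕ) : ℝ :=
  ∑ k ∈ Finset.range (8 * N), w (bd z N (k : ℤ)) (bd z N ((k : ℤ) + 1))

/-- The pair `p` is a line: excess at least `h` when the window `bx 0 s` is avoided, and a
geodesic through `bx 0 r`. -/
def Lin (h : ℝ) (w : V → V → ℝ) (z : V) (N r s : ℕ) (p : ZMod (8 * N) × ZMod (8 * N)) : Prop :=
  h ≤ WN w z N s p.1 p.2 - TN w z N p.1 p.2 ∧
    ∃ v ∈ bx 0 r, On w (bx z N) (bd z N (p.1.val : ℤ)) (bd z N (p.2.val : ℤ)) v

/-- There are `n` lines in different components of `{TN < WN}`. -/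
def Many (h : ℝ) (n : ℕ) (w : V → V → ℝ) (z : V) (N r s : ℕ) : Prop :=
  ∃ I : Finset (ZMod (8 * N) × ZMod (8 * N)), n ≤ I.card ∧ (∀ p ∈ I, Lin h w z N r s p) ∧
    ∀ p ∈ I, ∀ q ∈ I, Cn (Ex (TN w z N) (WN w z N s)) p q → p = q

/-- Long paths through `bx 0 (r + 1)` are more expensive than its boundary cycle. -/
def LenE (C₁ : ℝ) (r : ℕ) (t : Env) : Prop :=
  ∀ (x y : V) (p : latt.Walk x y), p.IsPath → x ∈ bx 0 (r + 1) → C₁ * r ≤ p.length →
    rs (wt t) 0 (r + 1) < ww (wt t) p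

open Classical in
/-- Good box; the condition does not depend on the edges touching `bx 0 s`. -/
def Good (C' C₁ : ℝ) (z : V) (N s : ℕ) (t : Env) : Prop :=
  rs (wt t) z N ≤ C' * N ∧
  ∀ (x y : V) (p : latt.Walk x y), p.IsPath → (∀ v ∈ p.support, v ∈ bx z N) →
    C₁ * N ≤ p.length → C' * N < ∑ e ∈ (pe p).filter (fun e => e ∉ tF 0 s), t e

open Classical in
/-- The pairs of boundary vertices of `bx z N` whose geodesics need the window `bx u s`. -/
noncomputable def Ef (w : V → V → ℝ) (z : V) (N : ℕ) [NeZero N] (u : V) (s : ℕ) :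
    Finset (ZMod (8 * N) × ZMod (8 * N)) :=
  Finset.univ.filter fun p => p ∈ Ex (TN w z N) (bT w z N (bx z N \ bx u s))

/-! ### Deterministic statements -/

/-- (1a) CROSSING LEMMA for the cyclic boundary of a box. -/
def CrossStmt : Prop :=
  ∀ (z : V) (N : ℕ), 0 < N → ∀ a b c d : ℤ, a < b → b < c → c < d → d < a + 8 * N →
    ∀ (p : latt.Walk (bd z N a) (bd z N c)) (q : latt.Walk (bd z N b) (bd z N d)),
      (∀ v ∈ p.support, v ∈ bx z N) → (∀ v ∈ q.support, v ∈ bx z N) →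
      ∃ v, v ∈ p.support ∧ v ∈ q.support

/-- (1b) The boundary ring is connected. -/
def RingConnStmt : Prop :=
  ∀ (z : V) (N : ℕ), 0 < N → ∀ x ∈ bB z N, ∀ y ∈ bB z N, Conn (bB z N) x y

/-- (1c) Four point inequality for the boundary passage times of a box with holes. -/
def KalStmt : Prop :=
  ∀ (w : V → V → ℝ) (z : V) (N : ℕ) (S : Set V), 0 < N → Adm w → S ⊆ bx z N → bB z N ⊆ S →
    Kal (bT w z N S)

/-- (8) BUDGET of one box, summed over the position of the window. -/
def UpDetStmt : Prop :=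
  ∃ A : ℝ, 0 < A ∧ ∀ (w : V → V → ℝ) (N s : ℕ) (R L : ℝ) [NeZero N], Adm w → 1 ≤ s →
    8 * s ≤ N → 1 ≤ L → rs w 0 N ≤ R →
    (∀ (x y : V) (p : latt.Walk x y), p.IsPath → (∀ v ∈ p.support, v ∈ bx 0 N) →
      L ≤ p.length → R < ww w p) →
    ∑ u ∈ bxF 0 (N / 4), mu (bT w 0 N (bx 0 N \ bx u s)) (Ef w 0 N u s) ≤ A * s * R * L

/-- (10) GAIN: lowering `M` edges of a set of heavy edges of a line. -/
def GainDetStmt : Prop :=
  ∀ (α β h : ℝ) (M : ℕ) (t' : Env) (z : V) (N r : ℕ) (p : ZMod (8 * N) × ZMod (8 * N)),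
    0 < α → α < β → (∀ e, 0 < t' e) → 1 ≤ r → 8 * r + 8 ≤ N → z ∈ bx 0 (N / 4) →
    AG β t' 0 r (2 * r) → Lin h (wt t') z N r (2 * r) p →
    ∃ Q ⊆ tF 0 (2 * r), r ≤ 8 * Q.card ∧ (∀ e ∈ Q, β ≤ t' e) ∧
      ∀ t : Env, Rch α β (tF 0 (2 * r)) t' t → M ≤ cnt α Q t →
        h + M * (β - α) ≤ WN (wt t) z N (2 * r) p.1 p.2 - TN (wt t) z N p.1 p.2

/-- (11) Measurability of the mass of the heavy components. -/
def MeasHeavyStmt : Prop :=
  ∀ (z : V) (N s : ℕ) [NeZero N] (g : ℝ),
    Measurable fun t : Env => mu (WN (wt t) z N s) (heavy (TN (wt t) z N) (WN (wt t) z N s) g)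

/-! ### Probabilistic statements -/

section Prob

variable (G : Measure ℝ) [IsProbabilityMeasure G]

/-- (2) Almost sure uniqueness. -/
def UqStmt : Prop := ∀ᵐ t ∂PG G, Uq (wt t)

/-- (3a) Finite balls. -/
def FBStmt : Prop := ∀ᵐ t ∂PG G, FB (wt t)

/-- (3b) Long paths through a box are expensive, with probability tending to one. -/
def LenStmt : Prop :=
  ∃ C₁ : ℝ, 0 < C₁ ∧ ∀ δ : ℝ, 0 < δ → ∃ r₀ : ℕ, ∀ r ≥ r₀,
    PG G {t | ¬ LenE C₁ r t} ≤ ENNReal.ofReal δ

/-- (3c) Boxes are good with probability at least `7/8`. -/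
def GoodStmt : Prop :=
  ∃ C' C₁ : ℝ, 0 < C' ∧ 0 < C₁ ∧ ∀ s : ℕ, ∃ N₀ : ℕ, ∀ N ≥ N₀, ∀ z ∈ bx 0 (N / 4),
    MeasurableSet {t | Good C' C₁ z N s t} ∧
    PG G {t | ¬ Good C' C₁ z N s t} ≤ 1 / 8

/-- (3d) Annuli have heavy crossings, with probability tending to one. -/
def AGStmt (β : ℝ) : Prop :=
  ∀ δ : ℝ, 0 < δ → ∃ r₀ : ℕ, ∀ r ≥ r₀, MeasurableSet {t : Env | AG β t 0 r (2 * r)} ∧
    PG G {t | ¬ AG β t 0 r (2 * r)} ≤ ENNReal.ofReal δ

/-- (4) Merges are rare in the bulk, uniformly in the target: the hypothesis of `nb_of_merge`. -/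
def MrgStmt : Prop :=
  ∀ ε : ℝ, 0 < ε → ∃ N₀ : ℕ, ∀ N ≥ N₀, ∀ y ∈ bdy N,
    ∑ p ∈ bxF 0 (N / 2), PG G {t | MrgB (wt t) N y p} ≤ ENNReal.ofReal (ε * N)

/-- (5) Bigeodesics with slack meet all bigeodesics. -/
def S3Stmt : Prop := ∀ᵐ t ∂PG G, S3 (wt t)

/-- (7b) Many lines: if bigeodesics with slack `h` exist, then with probability close to one
there are at least `c r` lines through `bx 0 r` in different components. -/
def ManyStmt : Prop :=
  ∀ h : ℝ, 0 < h →
    (∀ᵐ t ∂PG G, ¬ ∃ v : ℤ → V, IsBi (wt t) v ∧ v 0 = 0 ∧ SL h (wt t) v) ∨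
    ∃ c : ℝ, 0 < c ∧ ∀ δ : ℝ, 0 < δ → ∃ r₀ : ℕ, ∀ r ≥ r₀, ∃ N₀ : ℕ, ∀ N ≥ N₀,
      ∀ z ∈ bx 0 (N / 4), MeasurableSet {t | Many h ⌈c * r⌉₊ (wt t) z N r (2 * r)} ∧
        PG G {t | ¬ Many h ⌈c * r⌉₊ (wt t) z N r (2 * r)} ≤ ENNReal.ofReal δ

/-- (8') BUDGET: for one deterministic position of the window the expected mass is at most
`C₄ s`. -/
def UpStmt : Prop :=
  ∀ C' C₁ : ℝ, 0 < C' → 0 < C₁ → ∃ C₄ : ℝ, 0 < C₄ ∧ ∀ s : ℕ, 1 ≤ s → ∃ N₀ : ℕ, ∀ N ≥ N₀,
    ∀ _ : NeZero N, ∃ z ∈ bx 0 (N / 4),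
      ∫⁻ t in {t | Good C' C₁ z N s t}, ENNReal.ofReal (mu (WN (wt t) z N s) (Ef (wt t) z N 0 s))
        ∂PG G ≤ ENNReal.ofReal (C₄ * s)

/-- (9) LEVELS: laws `P 0 = PG G, …, P k`, each obtained by raising edges touching
`bx 0 (2 * r)`, with an `L²`-type comparison, invariance off the window, and the one step
inequality for a potential `Φ`. -/
def LevStmt (α β : ℝ) : Prop :=
  ∀ k M : ℕ, ∃ c : ℝ, 0 < c ∧ ∃ A : ℝ≥0∞, A ≠ ∞ ∧ ∀ r : ℕ, 1 ≤ r → c ≤ r →
    ∃ P : ℕ → Measure Env, P 0 = PG G ∧ (∀ i ≤ k, IsProbabilityMeasure (P i)) ∧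
    (∀ i ≤ k, ∀ C : Set Env, MeasurableSet C →
      P i C ≤ A * (PG G C) ^ ((1 / 2 : ℝ) ^ k)) ∧
    (∀ i ≤ k, ∀ C : Set Env, MeasurableSet C →
      (∀ t t' : Env, (∀ e, e ∉ tF 0 (2 * r) → t e = t' e) → t ∈ C → t' ∈ C) →
      P i C = PG G C) ∧
    ∀ i < k, ∀ Φ : Env → ℝ≥0∞, Measurable Φ → ∀ 𝓜 : Set Env, MeasurableSet 𝓜 →
      ∀ (n : ℕ) (h κ : ℝ≥0∞), h ≠ ∞ → κ ≠ ∞ →
      (∀ t' t : Env, Rch α β (tF 0 (2 * r)) t' t → Φ t' ≤ Φ t) →
      (∀ t' ∈ 𝓜, ∃ Q : Fin n → Finset latt.edgeSet,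
        (∀ j, Q j ⊆ tF 0 (2 * r) ∧ r ≤ 8 * (Q j).card ∧ ∀ e ∈ Q j, β ≤ t' e) ∧
        ∀ t : Env, Rch α β (tF 0 (2 * r)) t' t →
          Φ t' + h * ({j | M ≤ cnt α (Q j) t} : Set (Fin n)).ncard ≤ Φ t + κ * Φ t') →
      ∫⁻ t, Φ t ∂P (i + 1) + h * (n / 2) * P (i + 1) 𝓜 ≤
        ∫⁻ t, Φ t ∂P i + κ * ∫⁻ t, Φ t ∂P (i + 1)

/-- Existence of slack: if bigeodesics with slack do not exist, there are no bigeodesics. -/
def SlackStmt : Prop :=
  ∃ h : ℝ, 0 < h ∧
    ((∀ᵐ t ∂PG G, ¬ ∃ v : ℤ → V, IsBi (wt t) v ∧ v 0 = 0 ∧ SL h (wt t) v) →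
      ∀ᵐ t ∂PG G, ∀ v : ℤ → V, ¬ IsBi (wt t) v)

end Prob

end Vale.Agent.P158.C
end
end

section

section

/-! Peierls estimates: long self-avoiding walks have many heavy edges. -/

namespace Vale.Agent.P158.T1.Pe

open Filter MeasureTheory
open scoped ENNReal

/-! ### Counting -/

/-- The four directions. -/
def stp : Fin 4 → V := ![(1, 0), (-1, 0), (0, 1), (0, -1)]

theorem adj_stp (x : V) (i : Fin 4) : latt.Adj x (x + stp i) := by
  fin_cases i <;> simp [latt, stp]

theorem exists_stp {x y : V} (h : latt.Adj x y) : ∃ i, y = x + stp i := by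
  have h' : |x.1 - y.1| + |x.2 - y.2| = 1 := h
  have h1 := abs_nonneg (x.1 - y.1)
  have h2 := abs_nonneg (x.2 - y.2)
  rcases (by (clear * - h' h1 h2; omega) : (|x.1 - y.1| = 1 ∧ |x.2 - y.2| = 0) ∨ (|x.1 - y.1| = 0 ∧ |x.2 - y.2| = 1))
    with ⟨e1, e2⟩ | ⟨e1, e2⟩
  · rw [abs_eq_zero, sub_eq_zero] at e2
    rcases (abs_eq (by norm_num)).1 e1 with e | e
    · exact ⟨1, by ext <;> simp [stp] <;> omega⟩
    · exact ⟨0, by ext <;> simp [stp] <;> omega⟩
  · rw [abs_eq_zero, sub_eq_zero] at e1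
    rcases (abs_eq (by norm_num)).1 e2 with e | e
    · exact ⟨3, by ext <;> simp [stp] <;> omega⟩
    · exact ⟨2, by ext <;> simp [stp] <;> omega⟩

/-- Box as a finset. -/
noncomputable def bxF (z : V) (r : ℕ) : Finset V := Finset.Icc (z.1 - r, z.2 - r) (z.1 + r, z.2 + r)

theorem mem_bxF {z x : V} {r : ℕ} : x ∈ bxF z r ↔ x ∈ bx z r := by
  unfold bxF
  rw [Finset.mem_Icc, Prod.le_def, Prod.le_def, mem_bx, abs_le, abs_le]
  constructor
  · rintro ⟨⟨h1, h2⟩, h3, h4⟩
    simp only at h1 h2 h3 h4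
    exact ⟨⟨by linarith only [h1], by linarith⟩, by linarith, by linarith⟩
  · rintro ⟨⟨h1, h3⟩, h2, h4⟩
    exact ⟨⟨by simp only; linarith, by simp only; linarith⟩, by simp only; linarith,
      by simp only; linarith only [h4]⟩

theorem card_bxF (z : V) (r : ℕ) : (bxF z r).card = (2 * r + 1) ^ 2 := by
  unfold bxF
  rw [← Finset.Icc_product_Icc, Finset.card_product, Int.card_Icc, Int.card_Icc, pow_two]
  congr 1 <;> omega

/-- The edge from `x` in direction `i`. -/
def sedge (q : V × Fin 4) : latt.edgeSet := ⟨s(q.1, q.1 + stp q.2), adj_stp q.1 q.2⟩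

theorem card_edges_le (X : Finset V) (E : Finset latt.edgeSet)
    (h : ∀ e ∈ E, ∃ x ∈ e.1, x ∈ X) : E.card ≤ 4 * X.card := by
  classical
  have hsub : E ⊆ (X ×ˢ (Finset.univ : Finset (Fin 4))).image sedge := by
    intro e he
    obtain ⟨x, hx, hxX⟩ := h e he
    rw [Finset.mem_image]
    obtain ⟨y, hy⟩ := Sym2.mem_iff_exists.1 hx
    have hadj : latt.Adj x y := by
      have := e.2
      rw [hy] at this
      exact this
    obtain ⟨i, hi⟩ := exists_stp hadj
    refine ⟨(x, i), by simp [hxX], ?_⟩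
    apply Subtype.ext
    show s(x, x + stp i) = e.1
    rw [hy, hi]
  calc E.card ≤ _ := Finset.card_le_card hsub
    _ ≤ (X ×ˢ (Finset.univ : Finset (Fin 4))).card := Finset.card_image_le
    _ = 4 * X.card := by rw [Finset.card_product]; simp only [Finset.card_univ, Fintype.card_fin, mul_comm]

theorem card_tF_le (z : V) (r : ℕ) : (tF z r).card ≤ 4 * (2 * r + 1) ^ 2 := by
  rw [← card_bxF z r]
  exact card_edges_le _ _ fun e he => by
    obtain ⟨x, hx, hx'⟩ := mem_tF.1 he
    exact ⟨x, hx, mem_bxF.2 hx'⟩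

theorem card_ring (z : V) (r : ℕ) : (bxF z (r + 1) \ bxF z r).card = 8 * (r + 1) := by
  have hsub : bxF z r ⊆ bxF z (r + 1) := fun x hx =>
    mem_bxF.2 (bx_mono (Nat.le_add_right r 1) (mem_bxF.1 hx))
  rw [Finset.card_sdiff_of_subset hsub, card_bxF, card_bxF]
  have : (2 * (r + 1) + 1) ^ 2 = (2 * r + 1) ^ 2 + 8 * (r + 1) := by ring
  omega

open Classical in
/-- Walks of length `n` from `x`. -/
noncomputable def WL : (n : ℕ) → (x : V) → Finset (Σ y, latt.Walk x y)
  | 0, x => {⟨x, SimpleGraph.Walk.nil⟩}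
  | n + 1, x => (Finset.univ : Finset (Fin 4)).biUnion fun i =>
      (WL n (x + stp i)).image fun q => ⟨q.1, SimpleGraph.Walk.cons (adj_stp x i) q.2⟩

theorem card_WL (n : ℕ) (x : V) : (WL n x).card ≤ 4 ^ n := by
  classical
  induction n generalizing x with
  | zero => simp only [WL, Finset.card_singleton, pow_zero, Std.le_refl]
  | succ n ih =>
    unfold WL
    refine Finset.card_biUnion_le.trans ?_
    calc ∑ i : Fin 4, ((WL n (x + stp i)).image _).card ≤ ∑ _i : Fin 4, 4 ^ n :=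
          Finset.sum_le_sum fun i _ => Finset.card_image_le.trans (ih _)
      _ = 4 ^ (n + 1) := by simp [pow_succ, mul_comm]

theorem mem_WL {x y : V} (p : latt.Walk x y) : (⟨y, p⟩ : Σ y, latt.Walk x y) ∈ WL p.length x := by
  classical
  induction p with
  | nil => simp [WL]
  | cons h p ih =>
    obtain ⟨i, hi⟩ := exists_stp h
    subst hi
    rw [SimpleGraph.Walk.length_cons]
    unfold WL
    rw [Finset.mem_biUnion]
    refine ⟨i, Finset.mem_univ _, ?_⟩
    rw [Finset.mem_image]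
    exact ⟨_, ih, rfl⟩

/-! ### Edges of walks -/

theorem ww_eq_sum {t : Env} {x y : V} {p : latt.Walk x y} (hp : p.IsPath) :
    ww (wt t) p = ∑ e ∈ pe p, t e := by
  classical
  induction p with
  | nil => simp [pe, ww_nil]
  | cons h p ih =>
    rename_i u v w
    rw [SimpleGraph.Walk.cons_isPath_iff] at hp
    have hpe : pe (SimpleGraph.Walk.cons h p) =
        insert (⟨s(u, v), h⟩ : latt.edgeSet) (pe p) := by
      ext e
      simp only [mem_pe, SimpleGraph.Walk.darts_cons, List.mem_cons, Finset.mem_insert]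
      constructor
      · rintro ⟨d, rfl | hd, rfl⟩
        · left; rfl
        · right; exact ⟨d, hd, rfl⟩
      · rintro (rfl | ⟨d, hd, rfl⟩)
        · exact ⟨_, Or.inl rfl, rfl⟩
        · exact ⟨d, Or.inr hd, rfl⟩
    have hnot : (⟨s(u, v), h⟩ : latt.edgeSet) ∉ pe p := by
      intro hm
      rw [mem_pe] at hm
      obtain ⟨d, hd, he⟩ := hm
      have he' : d.edge = s(u, v) := congrArg Subtype.val he
      have : s(u, v) ∈ p.edges := by
        rw [← he']
        exact List.mem_map_of_mem hd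
      exact hp.2 (SimpleGraph.Walk.fst_mem_support_of_mem_edges p this)
    rw [ww_cons, ih hp.1, hpe, Finset.sum_insert hnot, wt_eq t h]

theorem card_pe {x y : V} {p : latt.Walk x y} (hp : p.IsPath) : (pe p).card = p.length := by
  have h := ww_eq_sum (t := fun _ => 1) hp
  have h2 : ww (wt fun _ => 1) p = p.length := by
    clear h hp
    induction p with
    | nil => simp [ww_nil]
    | cons h p ih =>
      rw [ww_cons, ih, wt_eq _ h]
      push_cast [SimpleGraph.Walk.length_cons]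
      ring
  rw [h2] at h
  simp at h
  exact_mod_cast h.symm

theorem pe_bypass_subset {x y : V} (p : latt.Walk x y) : pe p.bypass ⊆ pe p := by
  intro e he
  rw [mem_pe] at he ⊢
  obtain ⟨d, hd, rfl⟩ := he
  exact ⟨d, p.darts_bypass_subset_darts hd, rfl⟩

theorem pe_append {x y z : V} (p : latt.Walk x y) (q : latt.Walk y z) :
    pe (p.append q) = pe p ∪ pe q := by
  ext e
  simp only [mem_pe, SimpleGraph.Walk.darts_append, List.mem_append, Finset.mem_union]
  constructor
  · rintro ⟨d, hd | hd, rfl⟩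
    · exact Or.inl ⟨d, hd, rfl⟩
    · exact Or.inr ⟨d, hd, rfl⟩
  · rintro (⟨d, hd, rfl⟩ | ⟨d, hd, rfl⟩)
    · exact ⟨d, Or.inl hd, rfl⟩
    · exact ⟨d, Or.inr hd, rfl⟩

/-- The weight of a walk is at least the sum over its edges. -/
theorem sum_pe_le_ww {t : Env} (ht : ∀ e, 0 < t e) {x y : V} (p : latt.Walk x y)
    {s : Finset latt.edgeSet} (hs : s ⊆ pe p) : ∑ e ∈ s, t e ≤ ww (wt t) p := by
  classical
  refine (Finset.sum_le_sum_of_subset_of_nonneg hs fun e _ _ => (ht e).le).trans ?_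
  clear hs
  induction p with
  | nil => simp [pe, ww_nil]
  | cons h p ih =>
    rename_i u v w
    have hpe : pe (SimpleGraph.Walk.cons h p) =
        insert (⟨s(u, v), h⟩ : latt.edgeSet) (pe p) := by
      ext e
      simp only [mem_pe, SimpleGraph.Walk.darts_cons, List.mem_cons, Finset.mem_insert]
      constructor
      · rintro ⟨d, rfl | hd, rfl⟩
        · left; rfl
        · right; exact ⟨d, hd, rfl⟩
      · rintro (rfl | ⟨d, hd, rfl⟩)
        · exact ⟨_, Or.inl rfl, rfl⟩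
        · exact ⟨d, Or.inr hd, rfl⟩
    rw [hpe, ww_cons, wt_eq t h]
    by_cases hm : (⟨s(u, v), h⟩ : latt.edgeSet) ∈ pe p
    · rw [Finset.insert_eq_of_mem hm]
      linarith only [ih, ht ⟨s(u, v), h⟩]
    · rw [Finset.sum_insert hm]
      linarith only [ih]

/-- Heavy edges bound the weight from below. -/
theorem heavy_le_ww {β : ℝ} {t : Env} (ht : ∀ e, 0 < t e) {x y : V} (p : latt.Walk x y)
    {s : Finset latt.edgeSet} (hs : s ⊆ pe p) (hβ : ∀ e ∈ s, β ≤ t e) :
    β * s.card ≤ ww (wt t) p := by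
  refine le_trans ?_ (sum_pe_le_ww ht p hs)
  calc β * s.card = ∑ _e ∈ s, β := by rw [Finset.sum_const, nsmul_eq_mul, mul_comm]
    _ ≤ _ := Finset.sum_le_sum hβ

end Vale.Agent.P158.T1.Pe
end
end

section

section

/-! Plan B modules (a) and (b): `L²` comparison of the raised laws, thinning. -/

namespace Vale.Agent.P158.T1

open MeasureTheory Function Set
open scoped ENNReal

variable {G : Measure ℝ}

theorem lint_lm_PG [IsProbabilityMeasure G] (D : Finset latt.edgeSet) {f : Env → ℝ≥0∞}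
    (hf : Measurable f) : ∫⁻ t, (∫⋯∫⁻_D, f ∂fun _ => G) t ∂PG G = ∫⁻ t, f t ∂PG G := by
  induction D using Finset.induction_on with
  | empty => simp [lmarginal_empty]
  | insert e D he ih =>
    have hm : Measurable (∫⋯∫⁻_D, f ∂fun _ => G) := hf.lmarginal (fun _ => G)
    have h1 : ∀ t, (∫⋯∫⁻_insert e D, f ∂fun _ => G) t =
        ∫⁻ s, (∫⋯∫⁻_D, f ∂fun _ => G) (update t e s) ∂G := fun t => lmarginal_insert _ hf he t
    simp only [h1]
    rw [← ih]
    have hm2 : Measurable fun p : Env × ℝ => (∫⋯∫⁻_D, f ∂fun _ => G) (update p.1 e p.2) :=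
      hm.comp (measurable_upd2 e)
    rw [← lintegral_prod (fun p : Env × ℝ => (∫⋯∫⁻_D, f ∂fun _ => G) (update p.1 e p.2))
      hm2.aemeasurable]
    exact (mp_update e).lintegral_comp hm

theorem rsm_PG [IsProbabilityMeasure G] (D : Finset latt.edgeSet) :
    rsm G D (PG G) = PG G := by
  refine Measure.ext_of_lintegral _ fun f hf => ?_
  rw [lintegral_rsm hf]
  exact lint_lm_PG D hf

/-! ### Number of edges -/

theorem card_tF_le (z : V) (r : ℕ) : (tF z r).card ≤ (4 * r + 5) ^ 2 := by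
  classical
  set B : ℕ := 2 * (r + 1) with hB
  have key : ∀ e : latt.edgeSet, ∃ u : V, ∀ x y : V, e.1 = s(x, y) → u = x + y := by
    rintro ⟨e, he⟩
    induction e using Sym2.ind with
    | _ x y =>
      refine ⟨x + y, fun x' y' h => ?_⟩
      rw [Sym2.eq_iff] at h
      rcases h with ⟨rfl, rfl⟩ | ⟨rfl, rfl⟩
      · rfl
      · exact add_comm _ _
  choose u hu using key
  have hinj : ∀ e e' : latt.edgeSet, u e = u e' → e = e' := by
    rintro ⟨e, he⟩ ⟨e', he'⟩ h
    induction e using Sym2.ind with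
    | _ x y =>
      induction e' using Sym2.ind with
      | _ x' y' =>
        rw [hu _ x y rfl, hu _ x' y' rfl] at h
        have h1 := congrArg Prod.fst h
        have h2 := congrArg Prod.snd h
        simp only [Prod.fst_add, Prod.snd_add] at h1 h2
        have a1 := adj_cases (a := x) (b := y) he
        have a2 := adj_cases (a := x') (b := y') he'
        refine Subtype.ext ?_
        rw [Sym2.eq_iff]
        obtain ⟨x1, x2⟩ := x
        obtain ⟨y1, y2⟩ := y
        obtain ⟨x1', x2'⟩ := x'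
        obtain ⟨y1', y2'⟩ := y'
        simp only [Prod.mk.injEq] at *
        omega
  have hsub : (tF z r).image u ⊆ Finset.Icc (2 * z.1 - B, 2 * z.2 - B)
      (2 * z.1 + B, 2 * z.2 + B) := by
    intro v hv
    obtain ⟨e, he, rfl⟩ := Finset.mem_image.1 hv
    have h1 := tE_subset_iE z r (mem_tF.1 he)
    obtain ⟨e, hee⟩ := e
    induction e using Sym2.ind with
    | _ x y =>
      have hx := h1 x (by simp)
      have hy := h1 y (by simp)
      rw [hu _ x y rfl]
      rw [mem_bx] at hx hy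
      simp only [abs_le] at hx hy
      push_cast at hx hy
      rw [Finset.mem_Icc]
      obtain ⟨x1, x2⟩ := x
      obtain ⟨y1, y2⟩ := y
      simp only [Prod.mk_add_mk, Prod.mk_le_mk, hB] at *
      push_cast
      omega
  calc (tF z r).card = ((tF z r).image u).card :=
        (Finset.card_image_of_injective _ fun e e' h => hinj e e' h).symm
    _ ≤ _ := Finset.card_le_card hsub
    _ = (2 * B + 1) ^ 2 := by
        rw [← Finset.Icc_product_Icc, Finset.card_product, Int.card_Icc, Int.card_Icc, pow_two]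
        congr 1 <;> omega
    _ = _ := by rw [hB]; ring

end Vale.Agent.P158.T1
end
end

section

section

/-! Plan B module (b''): lowering many heavy edges makes a nearly visited block visited. -/

namespace Vale.Agent.P158.T1

open Filter MeasureTheory

theorem pe_cons {x y z : V} (h : latt.Adj x y) (p : latt.Walk y z) :
    pe (SimpleGraph.Walk.cons h p) = insert (dE ⟨(x, y), h⟩) (pe p) := by
  ext e
  simp only [Finset.mem_insert, mem_pe, SimpleGraph.Walk.darts_cons, List.mem_cons]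
  constructor
  · rintro ⟨d, rfl | hd, rfl⟩
    · exact Or.inl rfl
    · exact Or.inr ⟨d, hd, rfl⟩
  · rintro (rfl | ⟨d, hd, rfl⟩)
    · exact ⟨_, Or.inl rfl, rfl⟩
    · exact ⟨d, Or.inr hd, rfl⟩

theorem wt_dE (t : Env) {x y : V} (h : latt.Adj x y) : wt t x y = t (dE ⟨(x, y), h⟩) :=
  wt_eq t h

/-- The weight of a walk decreases at least by the decrease on a set of its edges. -/
theorem ww_gain {t t' : Env} (hle : ∀ e, t e ≤ t' e) {g : ℝ} {x y : V}
    (p : latt.Walk x y) :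
    ∀ R : Finset latt.edgeSet, R ⊆ pe p → (∀ e ∈ R, t e + g ≤ t' e) →
      ww (wt t) p + R.card * g ≤ ww (wt t') p := by
  classical
  induction p with
  | nil =>
    intro R hR _
    have : R = ∅ := by
      rw [Finset.eq_empty_iff_forall_notMem]
      intro e he
      have := hR he
      rw [mem_pe] at this
      simp only [SimpleGraph.Walk.darts_nil, List.not_mem_nil, false_and, exists_false] at this
    subst this
    simp [ww_nil]
  | cons h p ih =>
    intro R hR hRg
    rename_i u v w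
    rw [ww_cons, ww_cons, wt_dE t h, wt_dE t' h]
    set e := dE ⟨(u, v), h⟩ with he
    have h1 := ih (R.erase e) ?_ fun e he => hRg e (Finset.mem_of_mem_erase he)
    · by_cases heR : e ∈ R
      · have h2 := hRg e heR
        have h3 : (R.card : ℝ) = (R.erase e).card + 1 := by
          have := Finset.card_erase_add_one heR
          exact_mod_cast this.symm
        rw [h3]
        linarith only [h1, h2]
      · rw [Finset.erase_eq_of_notMem heR] at h1
        linarith only [h1, hle e]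
    · intro e' he'
      have h2 := hR (Finset.mem_of_mem_erase he')
      rw [pe_cons, Finset.mem_insert] at h2
      rcases h2 with h2 | h2
      · exact absurd h2 (Finset.ne_of_mem_erase he')
      · exact h2

end Vale.Agent.P158.T1
end
end

section

section

/-! Geodesic walks inside a set: subwalks, uniqueness, positions. -/

namespace Vale.Agent.P158.CL

open SimpleGraph Filter Vale.Agent.P158.T1

variable {w : V → V → ℝ} {S : Set V} {x y z c : V}

/-- Geodesic walk inside `S`. -/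
def Geo (w : V → V → ℝ) (S : Set V) {x y : V} (p : latt.Walk x y) : Prop :=
  (∀ z ∈ p.support, z ∈ S) ∧ ww w p = PT w S x y

/-- Two different paths with the same ends have different weights. -/
def TF (w : V → V → ℝ) : Prop :=
  ∀ (x y : V) (p q : latt.Walk x y), p.IsPath → q.IsPath → ww w p = ww w q → p = q

theorem ww_take_add_drop (p : latt.Walk x y) (n : ℕ) :
    ww w (p.take n) + ww w (p.drop n) = ww w p := by
  rw [← ww_append, Walk.append_take_drop_eq]

theorem support_drop_subset (p : latt.Walk x y) (n : ℕ) {z : V}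
    (hz : z ∈ (p.drop n).support) : z ∈ p.support := by
  rw [← Walk.append_take_drop_eq p n, Walk.mem_support_append_iff]
  exact Or.inr hz

theorem support_take_subset (p : latt.Walk x y) (n : ℕ) {z : V}
    (hz : z ∈ (p.take n).support) : z ∈ p.support := by
  rw [← Walk.append_take_drop_eq p n, Walk.mem_support_append_iff]
  exact Or.inl hz

theorem Geo.isPath (hw : Adm w) {p : latt.Walk x y} (hp : Geo w S p) : p.IsPath := by
  by_contra h
  have h1 := ww_bypass_lt hw p h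
  have h2 : PT w S x y ≤ ww w p.bypass :=
    PT_le hw _ fun z hz => hp.1 z (p.support_bypass_subset_support hz)
  rw [hp.2] at h1
  exact absurd h1 (not_lt.2 h2)

theorem Geo.unique (hw : Adm w) (ht : TF w) {p q : latt.Walk x y} (hp : Geo w S p)
    (hq : Geo w S q) : p = q :=
  ht x y p q (hp.isPath hw) (hq.isPath hw) (hp.2.trans hq.2.symm)

theorem Geo.reverse (hw : Adm w) {p : latt.Walk x y} (hp : Geo w S p) : Geo w S p.reverse :=
  ⟨fun z hz => hp.1 z (by simpa using hz), by rw [ww_reverse hw, hp.2, PT_comm hw]⟩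

theorem Geo.take_drop (hw : Adm w) {p : latt.Walk x y} (hp : Geo w S p) (n : ℕ) :
    Geo w S (p.take n) ∧ Geo w S (p.drop n) := by
  have h1 : ∀ z ∈ (p.take n).support, z ∈ S := fun z hz => hp.1 z (support_take_subset p n hz)
  have h2 : ∀ z ∈ (p.drop n).support, z ∈ S := fun z hz => hp.1 z (support_drop_subset p n hz)
  have h3 := ww_take_add_drop (w := w) p n
  have h4 := PT_le hw _ h1
  have h5 := PT_le hw _ h2
  have h6 := PT_triangle hw (⟨_, h1⟩ : Conn S x (p.getVert n)) (⟨_, h2⟩ : Conn S _ y)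
  have h7 := hp.2
  exact ⟨⟨h1, by linarith only [h4, h3, h5, h6, h7]⟩, ⟨h2, by linarith⟩⟩

theorem Geo.drop (hw : Adm w) {p : latt.Walk x y} (hp : Geo w S p) (n : ℕ) :
    Geo w S (p.drop n) := (hp.take_drop hw n).2

theorem Geo.take (hw : Adm w) {p : latt.Walk x y} (hp : Geo w S p) (n : ℕ) :
    Geo w S (p.take n) := (hp.take_drop hw n).1

theorem geo_copy {x' y' : V} {p : latt.Walk x y} (hx : x = x') (hy : y = y')
    (hp : Geo w S p) : Geo w S (p.copy hx hy) := by
  subst hx hy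
  simpa using hp

/-- Two geodesics that meet and have the same end coincide after the meeting point. -/
theorem Geo.tail_eq (hw : Adm w) (ht : TF w) {x' : V} {p : latt.Walk x y}
    {q : latt.Walk x' y} (hp : Geo w S p) (hq : Geo w S q) {m n : ℕ}
    (h : p.getVert m = q.getVert n) (j : ℕ) : p.getVert (m + j) = q.getVert (n + j) := by
  have h1 := geo_copy h rfl (hp.drop hw m)
  have h2 := congrArg (fun r : latt.Walk _ _ => r.getVert j) (h1.unique hw ht (hq.drop hw n))
  simpa using h2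

/-- Sums of weights along positions. -/
theorem ww_eq_sum (p : latt.Walk x y) :
    ww w p = ∑ k ∈ Finset.range p.length, w (p.getVert k) (p.getVert (k + 1)) := by
  induction p with
  | nil => simp [ww_nil]
  | cons h p ih =>
    rw [ww_cons, ih, Walk.length_cons, Finset.sum_range_succ', add_comm]
    congr 1
    simp

theorem Geo.sum_eq (hw : Adm w) {p : latt.Walk x y} (hp : Geo w S p) {i n : ℕ}
    (hj : i + n ≤ p.length) :
    ∑ k ∈ Finset.range n, w (p.getVert (i + k)) (p.getVert (i + (k + 1))) =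
      PT w S (p.getVert i) (p.getVert (i + n)) := by
  have h1 := (hp.drop hw i).take hw n
  have h2 := h1.2
  rw [ww_eq_sum, Walk.take_length, Walk.drop_length, min_eq_left (by omega)] at h2
  have h3 : PT w S (p.getVert i) (p.getVert (i + n)) =
      PT w S (p.getVert i) ((p.drop i).getVert n) := by rw [Walk.drop_getVert]
  rw [h3, ← h2]
  refine Finset.sum_congr rfl fun k hk => ?_
  rw [Finset.mem_range] at hk
  rw [Walk.take_getVert, Walk.take_getVert, Walk.drop_getVert, Walk.drop_getVert,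
    min_eq_right (by omega), min_eq_right (by omega)]

theorem getVert_bx (p : latt.Walk x y) {r : ℕ} {i : ℕ} (h : p.getVert i ∈ bx z r) (n : ℕ) :
    p.getVert (i + n) ∈ bx z (r + n) := by
  induction n with
  | zero => simpa using h
  | succ n ih =>
    rcases lt_or_ge (i + n) p.length with h1 | h1
    · exact bx_adj (p.adj_getVert_succ h1) ih
    · have e1 := p.getVert_of_length_le h1
      have e2 := p.getVert_of_length_le (i := i + (n + 1)) (by omega)
      rw [e2, ← e1]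
      exact bx_mono (by omega) ih

theorem getVert_bx' (p : latt.Walk x y) {r : ℕ} {i : ℕ} (n : ℕ) (h : p.getVert (i + n) ∈ bx z r) :
    p.getVert i ∈ bx z (r + n) := by
  induction n generalizing r with
  | zero => simpa using h
  | succ n ih =>
    have h2 : p.getVert (i + n) ∈ bx z (r + 1) := by
      rcases lt_or_ge (i + n) p.length with h1 | h1
      · exact bx_adj (p.adj_getVert_succ h1).symm h
      · have e1 := p.getVert_of_length_le h1
        have e2 := p.getVert_of_length_le (i := i + (n + 1)) (by omega)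
        rw [e1, ← e2]
        exact bx_mono (by omega) h
    have := ih h2
    rwa [add_assoc, add_comm 1 n] at this

/-- Few steps between a box and the outside of a larger box. -/
theorem length_ge (p : latt.Walk x y) {r N : ℕ} {i : ℕ} (h : p.getVert i ∈ bx z r)
    (hi : i ≤ p.length) (hx : x ∉ bx z N) (hy : y ∉ bx z N) :
    N ≤ r + i ∧ N ≤ r + (p.length - i) := by
  constructor
  · by_contra hc
    have h1 := getVert_bx' (z := z) p (i := 0) (r := r) i (by simpa using h)
    rw [p.getVert_zero] at h1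
    exact hx (bx_mono (by omega) h1)
  · by_contra hc
    have h1 := getVert_bx p h (p.length - i)
    rw [Nat.add_sub_cancel' hi, p.getVert_length] at h1
    exact hy (bx_mono (by omega) h1)

end Vale.Agent.P158.CL
end
end

section

section

/-! The boundary ring is connected; the four point inequality from the crossing lemma. -/

namespace Vale.Agent.P158.C.Ring

open Vale.Agent.P158.T1

variable {w : V → V → ℝ} {N : ℕ} {S : Set V} {z : V}

theorem conn_bd (hN : 0 < N) (hS : bB z N ⊆ S) (k : ℤ) (r : ℕ) :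
    Conn S (bd z N k) (bd z N (k + r)) := by
  induction r with
  | zero => simpa using Conn.refl' (S := S) (hS (bd_mem_bB hN k))
  | succ r ih =>
    refine ih.trans' ?_
    push_cast
    rw [← add_assoc]
    exact Conn.of_adj (bd_adj hN _) (hS (bd_mem_bB hN _)) (hS (bd_mem_bB hN _))

theorem conn_bd' (hN : 0 < N) (hS : bB z N ⊆ S) (i j : ℤ) : Conn S (bd z N i) (bd z N j) := by
  rcases le_total i j with h | h
  · have := conn_bd hN hS i (j - i).toNat
    rwa [Int.toNat_of_nonneg (by omega), add_sub_cancel] at this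
  · have := conn_bd hN hS j (i - j).toNat
    rw [Int.toNat_of_nonneg (by omega), add_sub_cancel] at this
    exact this.symm'

/-- The boundary ring is connected. -/
theorem ringConn : RingConnStmt := by
  intro z N hN x hx y hy
  obtain ⟨i, -, -, rfl⟩ := bd_surj hN hx 0
  obtain ⟨j, -, -, rfl⟩ := bd_surj hN hy 0
  exact conn_bd' hN (le_refl _) i j

/-- Uncrossing. -/
theorem uncross (hw : Adm w) {a b c d : V} (hab : Conn S a b) (hcd : Conn S c d)
    (h : ∀ (p : latt.Walk a b) (q : latt.Walk c d), (∀ z ∈ p.support, z ∈ S) →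
      (∀ z ∈ q.support, z ∈ S) → ∃ z, z ∈ p.support ∧ z ∈ q.support) :
    PT w S c b + PT w S a d ≤ PT w S a b + PT w S c d := by
  refine le_of_forall_pos_le_add fun ε hε => ?_
  obtain ⟨p, hp, hpw⟩ := exists_walk hw hab (half_pos hε)
  obtain ⟨q, hq, hqw⟩ := exists_walk hw hcd (half_pos hε)
  obtain ⟨z, hzp, hzq⟩ := h p q hp hq
  have e1 := ww_takeUntil_add_dropUntil (w := w) p hzp
  have e2 := ww_takeUntil_add_dropUntil (w := w) q hzq
  have h1 := PT_le (S := S) hw ((q.takeUntil z hzq).append (p.dropUntil z hzp)) fun u hu => by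
    rw [SimpleGraph.Walk.mem_support_append_iff] at hu
    rcases hu with hu | hu
    · exact hq u (q.support_takeUntil_subset_support hzq hu)
    · exact hp u (p.support_dropUntil_subset_support hzp hu)
  have h2 := PT_le (S := S) hw ((p.takeUntil z hzp).append (q.dropUntil z hzq)) fun u hu => by
    rw [SimpleGraph.Walk.mem_support_append_iff] at hu
    rcases hu with hu | hu
    · exact hp u (p.support_takeUntil_subset_support hzp hu)
    · exact hq u (q.support_dropUntil_subset_support hzq hu)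
  rw [ww_append] at h1 h2
  linarith only [hpw, hqw, e1, e2, h1, h2]

/-- Four point inequality for boundary points in cyclic order. -/
theorem four_point (hX : CrossStmt) (hN : 0 < N) (hw : Adm w) (hS : bB z N ⊆ S)
    (hS' : S ⊆ bx z N) {i j k l : ℤ} (h1 : i ≤ j) (h2 : j ≤ k) (h3 : k ≤ l)
    (h4 : l ≤ i + 8 * N) :
    PT w S (bd z N j) (bd z N k) + PT w S (bd z N i) (bd z N l) ≤
      PT w S (bd z N i) (bd z N k) + PT w S (bd z N j) (bd z N l) := by
  have hc : ∀ a b : ℤ, Conn S (bd z N a) (bd z N b) := conn_bd' hN hS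
  rcases eq_or_lt_of_le h1 with rfl | h1
  · exact le_refl _ |>.trans_eq (by ring)
  rcases eq_or_lt_of_le h2 with rfl | h2
  · rw [PT_self hw, zero_add]
    exact PT_triangle hw (hc _ _) (hc _ _)
  rcases eq_or_lt_of_le h3 with rfl | h3
  · exact le_refl _ |>.trans_eq (by ring)
  rcases eq_or_lt_of_le h4 with rfl | h4
  · rw [bd_add_period, PT_self hw, add_zero, PT_comm hw (x := bd z N j) (y := bd z N i), add_comm]
    rw [PT_comm hw (x := bd z N i) (y := bd z N j)]
    exact PT_triangle hw (hc _ _) (hc _ _)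
  have := uncross hw (hc i k) (hc j l) fun p q hp hq =>
    hX z N hN i j k l h1 h2 h3 h4 p q (fun v hv => hS' (hp v hv)) (fun v hv => hS' (hq v hv))
  linarith only [this]

theorem bd_val (hN : 0 < N) (k : ℤ) :
    bd z N ((((k : ℤ) : ZMod (8 * N)).val : ℕ) : ℤ) = bd z N k := by
  have : NeZero N := ⟨hN.ne'⟩
  have : NeZero (8 * N) := ⟨mul_ne_zero (by norm_num) hN.ne'⟩
  rw [ZMod.val_intCast]
  have : ((8 * N : ℕ) : ℤ) = 8 * (N : ℤ) := by push_cast; ring
  rw [this]
  exact bd_emod z N k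

/-- The four point inequality. -/
theorem kal (hX : CrossStmt) : KalStmt := by
  intro w z N S hN hw hS' hS
  have : NeZero (8 * N) := ⟨mul_ne_zero (by norm_num) hN.ne'⟩
  refine ⟨fun x => PT_self hw, fun x y hxy => ?_⟩
  have hN' : (0 : ℤ) < N := by exact_mod_cast hN
  set i : ℤ := (x.val : ℤ) with hi
  set d : ℤ := ((y - x).val : ℤ) with hd
  have hd0 : 0 < d := by
    rw [hd]
    have : (y - x).val ≠ 0 := by
      rw [Ne, ZMod.val_eq_zero, sub_eq_zero]
      exact fun h => hxy h.symm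
    omega
  have hd1 : d < 8 * N := by
    have := ZMod.val_lt (y - x)
    rw [hd]
    exact_mod_cast this
  have hx1 : bd z N (((x + 1).val : ℕ) : ℤ) = bd z N (i + 1) := by
    rw [← bd_val hN (i + 1)]
    congr 3
    rw [hi]
    push_cast
    rw [ZMod.natCast_zmod_val]
  have hyc : y = ((i + d : ℤ) : ZMod (8 * N)) := by
    rw [hi, hd]
    push_cast
    rw [ZMod.natCast_zmod_val, ZMod.natCast_zmod_val]
    ring
  have hy : bd z N ((y.val : ℕ) : ℤ) = bd z N (i + d) := by
    rw [← bd_val hN (i + d), ← hyc]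
  have hy1 : bd z N (((y + 1).val : ℕ) : ℤ) = bd z N (i + d + 1) := by
    rw [← bd_val hN (i + d + 1)]
    congr 3
    rw [hyc]
    push_cast
    rfl
  have := four_point hX hN hw hS hS' (i := i) (j := i + 1) (k := i + d) (l := i + d + 1)
    (by omega) (by omega) (by omega) (by omega)
  unfold cell bT
  rw [hx1, hy, hy1]
  linarith only [this]

end Vale.Agent.P158.C.Ring
end
end

section

section

end
end

section

section

/-! Busemann functions of bigeodesics, and case (i) of (S3). -/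

namespace Vale.Agent.P158.C.S3f

open Filter T1 SimpleGraph

variable {w : V → V → ℝ} {v v' : ℤ → V} {P P' : ℤ → ℝ} {x y : V}

/-- Edge slack `h` at the edge from `v 0` to `v 1`. -/
def SlkH (h : ℝ) (w : V → V → ℝ) (v : ℤ → V) : Prop :=
  ∀ i j : ℤ, i ≤ 0 → 1 ≤ j → ∀ π : latt.Walk (v i) (v j),
    s(v 0, v 1) ∉ π.edges → T w (v i) (v j) + h ≤ ww w π

/-- Geodesic walks are unique. -/
def Uniq (w : V → V → ℝ) : Prop :=
  ∀ (x y : V) (p q : latt.Walk x y), ww w p = T w x y → ww w q = T w x y → p = q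

/-- Reversed path. -/
def rv (v : ℤ → V) (n : ℤ) : V := v (-n)

/-- Position function of the reversed path. -/
def rvP (P : ℤ → ℝ) (n : ℤ) : ℝ := -P (-n)

theorem rv_rv (v : ℤ → V) : rv (rv v) = v := by funext n; simp [rv]

theorem rvP_rvP (P : ℤ → ℝ) : rvP (rvP P) = P := by funext n; simp [rvP]

theorem isBi_rv (hw : Adm w) (hv : IsBi w v) : IsBi w (rv v) := hv.rev hw

theorem posF_rv (hw : Adm w) (hP : PosF w v P) : PosF w (rv v) (rvP P) := by
  intro k
  have := hP (-(k + 1))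
  have e : -(k + 1) + 1 = -k := by ring
  rw [e] at this
  unfold S3f.rv rvP
  rw [hw.symm (v (-k)), this]
  ring

/-- The (right) Busemann function of a bigeodesic. -/
noncomputable def bR (w : V → V → ℝ) (v : ℤ → V) (P : ℤ → ℝ) (x : V) : ℝ :=
  bus w (fun n : ℕ => v n) x - P 0

theorem ray0_of_isBi (hv : IsBi w v) : IsRay w (fun n : ℕ => v n) := by
  have := hv 0
  simpa using this

theorem tendsto_bR (hw : Adm w) (hv : IsBi w v) (hP : PosF w v P) (x : V) :
    Tendsto (fun n : ℕ => T w x (v n) - P n) atTop (nhds (bR w v P x)) := by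
  have h := (tendsto_bus hw (ray0_of_isBi hv) x).sub_const (P 0)
  refine h.congr fun n => ?_
  have := isBi_T hv hP (i := 0) (j := (n : ℤ)) (by omega)
  simp only [Nat.cast_zero]
  rw [this]
  ring

theorem bR_antitone (hw : Adm w) (hv : IsBi w v) (hP : PosF w v P) (x : V) {i j : ℤ}
    (hij : i ≤ j) : T w x (v j) - P j ≤ T w x (v i) - P i := by
  have h1 := T_triangle hw x (v i) (v j)
  rw [isBi_T hv hP hij] at h1
  linarith only [h1]

theorem bR_le (hw : Adm w) (hv : IsBi w v) (hP : PosF w v P) (x : V) (i : ℤ) :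
    bR w v P x ≤ T w x (v i) - P i := by
  refine le_of_tendsto (tendsto_bR hw hv hP x) ?_
  filter_upwards [eventually_ge_atTop i.toNat] with n hn
  exact bR_antitone hw hv hP x (by omega)

theorem bR_lip (hw : Adm w) (hv : IsBi w v) (hP : PosF w v P) (x y : V) :
    bR w v P x ≤ bR w v P y + T w x y := by
  refine le_of_tendsto_of_tendsto' (tendsto_bR hw hv hP x)
    ((tendsto_bR hw hv hP y).add_const _) fun n => ?_
  have := T_triangle hw x y (v n)
  linarith only [this]

/-- The excess is nonnegative. -/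
theorem exc_nonneg' (hw : Adm w) (hv : IsBi w v) (hP : PosF w v P) (x : V) :
    0 ≤ bR w v P x + bR w (rv v) (rvP P) x := by
  have h1 := tendsto_bR hw hv hP x
  have h2 := tendsto_bR hw (isBi_rv hw hv) (posF_rv hw hP) x
  refine ge_of_tendsto' (h1.add h2) fun n => ?_
  have h3 := T_triangle hw (v (-n)) x (v n)
  rw [isBi_T hv hP (by omega : -(n : ℤ) ≤ n), T_comm hw (v (-n)) x] at h3
  simp only [S3f.rv, rvP, sub_neg_eq_add]
  linarith

/-- A segment of a bigeodesic as a walk. -/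
theorem exists_seg (hv : ∀ k, latt.Adj (v k) (v (k + 1))) (hP : PosF w v P) {i j : ℤ}
    (hij : i ≤ j) : ∃ p : latt.Walk (v i) (v j), ww w p = P j - P i ∧
      ∀ z ∈ p.support, ∃ k, i ≤ k ∧ k ≤ j ∧ z = v k := by
  obtain ⟨n, rfl⟩ := Int.le.dest hij
  clear hij
  induction n with
  | zero =>
    refine ⟨(Walk.nil : latt.Walk (v i) (v i)).copy rfl (by simp), ?_, ?_⟩
    · simp [ww]
    · intro z hz
      simp at hz
      exact ⟨i, le_rfl, by simp, hz⟩
  | succ n ih =>
    obtain ⟨p, hp, hp'⟩ := ih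
    have h := hv (i + n)
    refine ⟨(p.append (Walk.cons h Walk.nil)).copy rfl (by push_cast; rw [add_assoc]), ?_, ?_⟩
    · have e : ww w ((p.append (Walk.cons h Walk.nil)).copy rfl
          (by push_cast; rw [add_assoc] : v (i + n + 1) = v (i + ((n + 1 : ℕ) : ℤ)))) =
          ww w (p.append (Walk.cons h Walk.nil)) := by
        unfold ww; rw [Walk.darts_copy]
      rw [e, ww_append, hp, ww_cons, ww_nil]
      have := hP (i + n)
      have e2 : i + ((n + 1 : ℕ) : ℤ) = i + n + 1 := by push_cast; ring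
      rw [e2, this]
      ring
    · intro z hz
      rw [Walk.support_copy, Walk.mem_support_append_iff] at hz
      rcases hz with hz | hz
      · obtain ⟨k, h1, h2, h3⟩ := hp' z hz
        exact ⟨k, h1, by push_cast; omega, h3⟩
      · simp at hz
        rcases hz with rfl | rfl
        · exact ⟨i + n, by omega, by push_cast; omega, rfl⟩
        · exact ⟨i + n + 1, by omega, by push_cast; omega, rfl⟩

theorem att_univ (hw : Adm w) (hf : FB w) (x y : V) :
    ∃ p : latt.Walk x y, ww w p = T w x y := by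
  obtain ⟨p, -, hp⟩ := att_of_fb (S := Set.univ) hw hf (fun a _ b _ => conn_univ a b)
    x (Set.mem_univ _) y (Set.mem_univ _)
  exact ⟨p, hp⟩

/-- Points between two points of a bigeodesic are on it. -/
theorem mem_of_between (hw : Adm w) (hf : FB w) (hU : Uniq w) (hv : IsBi w v)
    (hP : PosF w v P) {i j : ℤ} (hij : i ≤ j) {a : V}
    (h : T w (v i) a + T w a (v j) ≤ T w (v i) (v j)) : ∃ k, a = v k := by
  obtain ⟨p, hp⟩ := att_univ hw hf (v i) a
  obtain ⟨q, hq⟩ := att_univ hw hf a (v j)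
  obtain ⟨r, hr, hr'⟩ := exists_seg (isBi_adj hv) hP hij
  have h1 := T_triangle hw (v i) a (v j)
  have h2 : ww w (p.append q) = T w (v i) (v j) := by
    rw [ww_append]; linarith only [hp, hq, h1, h]
  have h3 : ww w r = T w (v i) (v j) := by rw [hr, isBi_T hv hP hij]
  have h4 := hU _ _ _ _ h2 h3
  have h5 : a ∈ (p.append q).support := by simp
  rw [h4] at h5
  obtain ⟨k, -, -, hk⟩ := hr' a h5
  exact ⟨k, hk⟩

/-- Positions tend to infinity. -/
theorem exists_far (hw : Adm w) (hf : FB w) (hv : IsBi w v) (R : ℝ) :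
    ∃ N : ℤ, ∀ n : ℤ, (n ≤ -N ∨ N ≤ n) → R < T w (v 0) (v n) := by
  obtain ⟨N, hN⟩ := exists_out hw hv (hf (T w 0 (v 0) + R))
  refine ⟨N, fun n hn => ?_⟩
  have h1 := hN n hn
  have h2 := T_triangle hw 0 (v 0) (v n)
  by_contra hcon
  exact h1 (show T w 0 (v n) ≤ _ by linarith only [h2, hcon])

/-- The order inequality. -/
def Ord (w : V → V → ℝ) (v v' : ℤ → V) (P P' : ℤ → ℝ) : Prop :=
  ∀ i j k l : ℤ, i ≤ j → k ≤ l →
    (P j - P i) + (P' l - P' k) ≤ T w (v' k) (v j) + T w (v i) (v' l)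

theorem ord_rv (hw : Adm w) (h : Ord w v v' P P') :
    Ord w (rv v) (rv v') (rvP P) (rvP P') := by
  intro i j k l hij hkl
  have := h (-j) (-i) (-l) (-k) (by omega) (by omega)
  unfold S3f.rv rvP
  rw [T_comm hw (v' (-k)), T_comm hw (v (-i))]
  linarith only [this]

/-- The discrepancy on the right. -/
noncomputable def dR (w : V → V → ℝ) (v v' : ℤ → V) (P P' : ℤ → ℝ) (i j : ℤ) : ℝ :=
  bR w v P (v' j) + bR w v' P' (v i) + P i + P' j

theorem slk_alt {η : ℝ} (hη : 0 < η) (hw : Adm w) (hf : FB w) (hv : IsBi w v)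
    (hP : PosF w v P) (hS : SlkH η w v)
    (h : bR w v P x + bR w (rv v) (rvP P) x ≤ 0) :
    bR w v P x = T w x (v 0) - P 0 ∨ bR w (rv v) (rvP P) x = T w x (v 0) + P 0 := by
  by_contra hcon
  push Not at hcon
  have b1 := bR_le hw hv hP x 0
  have b2 := bR_le hw (isBi_rv hw hv) (posF_rv hw hP) x 0
  simp only [S3f.rv, rvP, neg_zero, sub_neg_eq_add] at b2
  have c1 := lt_of_le_of_ne b1 hcon.1
  have c2 := lt_of_le_of_ne b2 hcon.2
  have t1 := tendsto_bR hw hv hP x
  have t2 := tendsto_bR hw (isBi_rv hw hv) (posF_rv hw hP) x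
  have e1 := t1.eventually (gt_mem_nhds c1)
  have e2 := t2.eventually (gt_mem_nhds c2)
  have e3 := (t1.add t2).eventually (gt_mem_nhds (lt_of_le_of_lt h hη))
  obtain ⟨n, h1, h2, h3, h4⟩ := (e1.and (e2.and (e3.and (eventually_ge_atTop 1)))).exists
  simp only [S3f.rv, rvP, sub_neg_eq_add] at h2 h3
  obtain ⟨p, hp⟩ := att_univ hw hf (v (-n)) x
  obtain ⟨q, hq⟩ := att_univ hw hf x (v n)
  have hT := isBi_T hv hP (by omega : -(n : ℤ) ≤ n)
  have h5 : s(v 0, v 1) ∈ (p.append q).edges := by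
    by_contra h6
    have := hS (-n) n (by omega) (by exact_mod_cast h4) (p.append q) h6
    rw [ww_append, hp, hq, hT, T_comm hw (v (-n)) x] at this
    linarith only [h3, this]
  have h6 : v 0 ∈ (p.append q).support :=
    (p.append q).fst_mem_support_of_mem_edges h5
  rw [Walk.mem_support_append_iff] at h6
  rcases h6 with h6 | h6
  · have a1 := ww_takeUntil_add_dropUntil (w := w) p h6
    have a2 := T_le hw (p.takeUntil _ h6)
    have a3 := T_le hw (p.dropUntil _ h6)
    rw [isBi_T hv hP (by omega : -(n : ℤ) ≤ 0)] at a2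
    rw [T_comm hw (v 0) x] at a3
    rw [T_comm hw (v (-n)) x] at hp
    linarith only [h2, hp, a1, a2, a3]
  · have a1 := ww_takeUntil_add_dropUntil (w := w) q h6
    have a2 := T_le hw (q.takeUntil _ h6)
    have a3 := T_le hw (q.dropUntil _ h6)
    rw [isBi_T hv hP (by omega : (0 : ℤ) ≤ n)] at a3
    linarith only [h1, hq, a1, a2, a3]

/-- Case (i) of (S3). -/
theorem S3_i {η : ℝ} (hη : 0 < η) (hw : Adm w) (hf : FB w) (hU : Uniq w) (hv : IsBi w v)
    (hv' : IsBi w v') (hP : PosF w v P) (hP' : PosF w v' P') (hS : SlkH η w v) (hO : Ord w v v' P P')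
    (hdis : ∀ i j, v i ≠ v' j) (h1 : ∀ i j, dR w v v' P P' i j ≤ 0)
    (h2 : ∀ i j, dR w (rv v) (rv v') (rvP P) (rvP P') i j ≤ 0) : False := by
  have hvr := isBi_rv hw hv
  have hPr := posF_rv hw hP
  have hvr' := isBi_rv hw hv'
  have hPr' := posF_rv hw hP'
  -- zero excess
  have hW : ∀ j, bR w v P (v' j) + bR w (rv v) (rvP P) (v' j) ≤ 0 := by
    intro j
    have a1 := h1 0 j
    have a2 := h2 0 (-j)
    have a3 := exc_nonneg' hw hv' hP' (v 0)
    unfold dR at a1 a2
    simp only [S3f.rv, rvP, neg_neg, neg_zero] at a2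
    linarith
  have hW' := fun j => exc_nonneg' hw hv hP (v' j)
  -- lower bounds from the order inequality
  have hR : ∀ k : ℤ, k ≤ 0 → P' 0 - P' k - T w (v 0) (v' 0) - P 0 ≤ bR w v P (v' k) := by
    intro k hk
    refine ge_of_tendsto (tendsto_bR hw hv hP (v' k)) ?_
    filter_upwards [eventually_ge_atTop 0] with n hn
    have := hO 0 n k 0 (by omega) hk
    linarith only [this]
  have hL : ∀ l : ℤ, 0 ≤ l → P' l - P' 0 - T w (v 0) (v' 0) + P 0 ≤
      bR w (rv v) (rvP P) (v' l) := by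
    intro l hl
    refine ge_of_tendsto (tendsto_bR hw hvr hPr (v' l)) ?_
    filter_upwards [eventually_ge_atTop 0] with n hn
    have := hO (-n) 0 0 l (by omega) hl
    simp only [S3f.rv, rvP, sub_neg_eq_add]
    rw [T_comm hw (v' l), T_comm hw (v 0)]
    linarith only [this]
  obtain ⟨N, hN⟩ := exists_far hw hf hv' (T w (v 0) (v' 0))
  obtain ⟨M, hM1, hM2⟩ : ∃ M : ℤ, N ≤ M ∧ 0 ≤ M := ⟨max N 0, by omega, by omega⟩
  have f1 := hN (-M) (Or.inl (by omega))
  have f2 := hN M (Or.inr hM1)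
  rw [T_comm hw (v' 0), isBi_T hv' hP' (by omega : -M ≤ 0)] at f1
  rw [isBi_T hv' hP' (by omega : 0 ≤ M)] at f2
  have g1 := hR (-M) (by omega)
  have g2 := hL M hM2
  have n1 := T_nonneg hw (v' (-M)) (v 0)
  have n2 := T_nonneg hw (v' M) (v 0)
  -- the alternatives
  have k1 : bR w v P (v' (-M)) = T w (v' (-M)) (v 0) - P 0 := by
    rcases slk_alt hη hw hf hv hP hS (hW (-M)) with h | h
    · exact h
    · have a1 := hW (-M)
      linarith
  have k2 : bR w (rv v) (rvP P) (v' M) = T w (v' M) (v 0) + P 0 := by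
    rcases slk_alt hη hw hf hv hP hS (hW M) with h | h
    · have a1 := hW M
      (clear * - f2 g2 n2 h a1; linarith)
    · exact h
  have l1 := bR_lip hw hvr hPr (v' M) (v' (-M))
  have l2 := hW (-M)
  have l3 : T w (v' (-M)) (v 0) + T w (v 0) (v' M) ≤ T w (v' (-M)) (v' M) := by
    rw [T_comm hw (v 0), T_comm hw (v' (-M)) (v' M)]
    linarith only [k1, k2, l1, l2]
  obtain ⟨k, hk⟩ := mem_of_between hw hf hU hv' hP' (by omega : -M ≤ M) l3
  exact hdis 0 k hk

end Vale.Agent.P158.C.S3f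
end
end

section

section

/-! The order inequality for disjoint bigeodesics. -/

namespace Vale.Agent.P158.C.S3f

open Filter T1 SimpleGraph

variable {w : V → V → ℝ} {v v' : ℤ → V} {P P' : ℤ → ℝ} {x y : V}

/-- Every walk from `a` to `c` inside `S` meets every walk from `b` to `d` inside `S`. -/
def Crs (S : Set V) (a c b d : V) : Prop :=
  ∀ (p : latt.Walk a c) (q : latt.Walk b d), (∀ z ∈ p.support, z ∈ S) →
    (∀ z ∈ q.support, z ∈ S) → ∃ z, z ∈ p.support ∧ z ∈ q.support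

/-- Among four boundary points of a box, one of the three pairings is crossing. -/
def Cross3 (bd : ℕ → Set V) : Prop :=
  ∀ N, ∀ a ∈ bd N, ∀ b ∈ bd N, ∀ c ∈ bd N, ∀ d ∈ bd N, a ≠ b → a ≠ c → a ≠ d → b ≠ c → b ≠ d →
    c ≠ d → Crs (bx 0 N) a c b d ∨ Crs (bx 0 N) a b c d ∨ Crs (bx 0 N) a d b c

/-- `bd N` contains the boundary of the box. -/
def IsBd (bd : ℕ → Set V) : Prop :=
  ∀ N, ∀ x ∈ bx 0 N, ∀ y, latt.Adj x y → y ∉ bx 0 N → x ∈ bd N

theorem exists_exit (hw : Adm w) (hv : IsBi w v) {bd : ℕ → Set V} (hbd : IsBd bd) {K N : ℕ}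
    (h : ∀ m : ℕ, m ≤ K → v m ∈ bx 0 N) :
    ∃ b : ℕ, K ≤ b ∧ v b ∈ bd N ∧ ∀ m : ℕ, m ≤ b → v m ∈ bx 0 N := by
  classical
  have hex : ∃ n : ℕ, v n ∉ bx 0 N := by
    obtain ⟨M, hM⟩ := exists_out hw hv (bx_finite 0 N)
    exact ⟨M.toNat, hM _ (Or.inr (by omega))⟩
  have h0 : Nat.find hex ≠ 0 := fun h0 => Nat.find_spec hex (by rw [h0]; exact h 0 (Nat.zero_le _))
  obtain ⟨b, hb⟩ := Nat.exists_eq_succ_of_ne_zero h0
  have hin : ∀ m : ℕ, m ≤ b → v m ∈ bx 0 N := fun m hm => by
    have := Nat.find_min hex (m := m) (by omega)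
    exact not_not.1 this
  refine ⟨b, ?_, ?_, hin⟩
  · by_contra hcon
    have := Nat.find_spec hex
    rw [hb] at this
    exact this (h _ (by omega))
  · refine hbd N _ (hin b le_rfl) (v (b + 1)) (isBi_adj hv b) ?_
    have := Nat.find_spec hex
    rw [hb] at this
    simpa using this

/-- A crossing configuration at scale `K`. -/
def Plus (v v' : ℤ → V) (K : ℕ) : Prop :=
  ∃ (N : ℕ) (a b a' b' : ℕ), K ≤ N ∧ K ≤ a ∧ K ≤ b ∧ K ≤ a' ∧ K ≤ b' ∧
    (∀ m : ℤ, -(a : ℤ) ≤ m → m ≤ b → v m ∈ bx 0 N) ∧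
    (∀ m : ℤ, -(a' : ℤ) ≤ m → m ≤ b' → v' m ∈ bx 0 N) ∧
    Crs (bx 0 N) (v (-(a : ℤ))) (v' b') (v' (-(a' : ℤ))) (v b)

theorem ord_of_plus (hw : Adm w) (hf : FB w) (hv : IsBi w v) (hv' : IsBi w v')
    (hP : PosF w v P) (hP' : PosF w v' P') (h : ∀ K, Plus v v' K) : Ord w v v' P P' := by
  intro i j k l hij hkl
  obtain ⟨p, hp⟩ := att_univ hw hf (v' k) (v j)
  obtain ⟨q, hq⟩ := att_univ hw hf (v i) (v' l)
  obtain ⟨K, hK⟩ : ∃ K : ℕ, ∀ z, (z ∈ p.support ∨ z ∈ q.support) → z ∈ bx 0 K := by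
    have hfin : {z | z ∈ p.support ∨ z ∈ q.support}.Finite :=
      (p.support.finite_toSet).union q.support.finite_toSet
    obtain ⟨K, hK⟩ := (hfin.image fun z : V => |z.1| + |z.2|).bddAbove
    refine ⟨K.toNat, fun z hz => ?_⟩
    have h1 := hK ⟨z, hz, rfl⟩
    simp only at h1
    have a1 := abs_nonneg z.1
    have a2 := abs_nonneg z.2
    rw [mem_bx]
    simp only [Prod.fst_zero, sub_zero, Prod.snd_zero]
    constructor <;> omega
  obtain ⟨N, a, b, a', b', hN, ha, hb, ha', hb', hin, hin', hX⟩ :=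
    h (K + i.natAbs + j.natAbs + k.natAbs + l.natAbs)
  have hKN : bx (0 : V) K ⊆ bx 0 N := bx_mono (by omega)
  obtain ⟨s1, e1, m1⟩ := exists_seg (isBi_adj hv) hP (show -(a : ℤ) ≤ i by omega)
  obtain ⟨s2, e2, m2⟩ := exists_seg (isBi_adj hv') hP' (show l ≤ (b' : ℤ) by (clear * - hij hb'; omega))
  obtain ⟨s3, e3, m3⟩ := exists_seg (isBi_adj hv') hP' (show -(a' : ℤ) ≤ k by (clear * - hij hkl ha'; omega))
  obtain ⟨s4, e4, m4⟩ := exists_seg (isBi_adj hv) hP (show j ≤ (b : ℤ) by (clear * - hkl hb; omega))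
  obtain ⟨z, hz1, hz2⟩ := hX ((s1.append q).append s2) ((s3.append p).append s4) (by
      intro z hz
      rw [Walk.mem_support_append_iff, Walk.mem_support_append_iff] at hz
      rcases hz with (hz | hz) | hz
      · obtain ⟨m, h1, h2, rfl⟩ := m1 z hz
        exact hin m h1 (by (clear * - hij hkl hb h2; omega))
      · exact hKN (hK z (Or.inr hz))
      · obtain ⟨m, h1, h2, rfl⟩ := m2 z hz
        exact hin' m (by (clear * - hij hkl ha' h1; omega)) h2) (by
      intro z hz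
      rw [Walk.mem_support_append_iff, Walk.mem_support_append_iff] at hz
      rcases hz with (hz | hz) | hz
      · obtain ⟨m, h1, h2, rfl⟩ := m3 z hz
        exact hin' m h1 (by omega)
      · exact hKN (hK z (Or.inl hz))
      · obtain ⟨m, h1, h2, rfl⟩ := m4 z hz
        exact hin m (by omega) h2)
  have c1 := ww_takeUntil_add_dropUntil (w := w) _ hz1
  have c2 := ww_takeUntil_add_dropUntil (w := w) _ hz2
  have c3 := T_le hw ((((s1.append q).append s2).takeUntil z hz1).append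
    (((s3.append p).append s4).dropUntil z hz2))
  have c4 := T_le hw ((((s3.append p).append s4).takeUntil z hz2).append
    (((s1.append q).append s2).dropUntil z hz1))
  rw [ww_append] at c3 c4
  rw [isBi_T hv hP (by omega : -(a : ℤ) ≤ b)] at c3
  rw [isBi_T hv' hP' (by omega : -(a' : ℤ) ≤ b')] at c4
  rw [ww_append, ww_append, e1, e2, hq] at c1
  rw [ww_append, ww_append, e3, e4, hp] at c2
  linarith only [c1, c2, c3, c4]

theorem Plus.mono {K K' : ℕ} (h : K ≤ K') (h' : Plus v v' K') : Plus v v' K := by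
  obtain ⟨N, a, b, a', b', h1, h2, h3, h4, h5, h6⟩ := h'
  exact ⟨N, a, b, a', b', h.trans h1, h.trans h2, h.trans h3, h.trans h4, h.trans h5, h6⟩

theorem mem_box (v : ℤ → V) (K : ℕ) : ∃ N₀ : ℕ, ∀ N, N₀ ≤ N → ∀ m : ℤ, -(K : ℤ) ≤ m → m ≤ K →
    v m ∈ bx 0 N := by
  have hfin : (v '' (Set.Icc (-(K : ℤ)) K)).Finite := (Set.finite_Icc _ _).image _
  obtain ⟨M, hM⟩ := (hfin.image fun z : V => |z.1| + |z.2|).bddAbove
  refine ⟨M.toNat, fun N hN m h1 h2 => ?_⟩
  have h3 := hM ⟨v m, ⟨m, ⟨h1, h2⟩, rfl⟩, rfl⟩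
  simp only at h3
  have a1 := abs_nonneg (v m).1
  have a2 := abs_nonneg (v m).2
  rw [mem_bx]
  simp only [Prod.fst_zero, sub_zero, Prod.snd_zero]
  constructor <;> omega

theorem plus_or (hw : Adm w) (hv : IsBi w v) (hv' : IsBi w v') (hP : PosF w v P)
    (hP' : PosF w v' P') (hdis : ∀ i j, v i ≠ v' j)
    {bd : ℕ → Set V} (hbd : IsBd bd) (hX : Cross3 bd) (K : ℕ) :
    Plus v v' K ∨ Plus v (rv v') K := by
  obtain ⟨N₁, h1⟩ := mem_box v (K + 1)
  obtain ⟨N₂, h2⟩ := mem_box v' (K + 1)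
  obtain ⟨N, hN1, hN2, hNK⟩ : ∃ N, N₁ ≤ N ∧ N₂ ≤ N ∧ K ≤ N := ⟨max N₁ (max N₂ K), by omega,
    by omega, by omega⟩
  obtain ⟨b, kb, hb, ib⟩ := exists_exit hw hv hbd (K := K + 1) (N := N)
    fun m hm => h1 N hN1 m (by omega) (by exact_mod_cast hm)
  obtain ⟨b', kb', hb', ib'⟩ := exists_exit hw hv' hbd (K := K + 1) (N := N)
    fun m hm => h2 N hN2 m (by omega) (by exact_mod_cast hm)
  obtain ⟨a, ka, ha, ia⟩ := exists_exit hw (isBi_rv hw hv) hbd (K := K + 1) (N := N)
    fun m hm => h1 N hN1 (-m) (by push_cast; omega) (by omega)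
  obtain ⟨a', ka', ha', ia'⟩ := exists_exit hw (isBi_rv hw hv') hbd (K := K + 1) (N := N)
    fun m hm => h2 N hN2 (-m) (by push_cast; omega) (by omega)
  have hin : ∀ m : ℤ, -(a : ℤ) ≤ m → m ≤ b → v m ∈ bx 0 N := by
    intro m m1 m2
    rcases le_total 0 m with hm | hm
    · have := ib m.toNat (by omega)
      rwa [Int.toNat_of_nonneg hm] at this
    · have := ia (-m).toNat (by omega)
      rw [Int.toNat_of_nonneg (by omega)] at this
      simpa [S3f.rv] using this
  have hin' : ∀ m : ℤ, -(a' : ℤ) ≤ m → m ≤ b' → v' m ∈ bx 0 N := by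
    intro m m1 m2
    rcases le_total 0 m with hm | hm
    · have := ib' m.toNat (by omega)
      rwa [Int.toNat_of_nonneg hm] at this
    · have := ia' (-m).toNat (by omega)
      rw [Int.toNat_of_nonneg (by omega)] at this
      simpa [S3f.rv] using this
  have i1 := isBi_inj hw hv
  have i2 := isBi_inj hw hv'
  have n1 : v (-(a : ℤ)) ≠ v b := fun h => by have := i1 h; omega
  have n2 : v' (-(a' : ℤ)) ≠ v' b' := fun h => by have := i2 h; omega
  have ha2 : v (-(a : ℤ)) ∈ bd N := ha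
  have ha2' : v' (-(a' : ℤ)) ∈ bd N := ha'
  rcases hX N _ ha2 _ ha2' _ hb _ hb' (hdis _ _) n1 (hdis _ _) (hdis _ _).symm n2 (hdis _ _)
    with h | h | h
  · exfalso
    obtain ⟨s, -, m⟩ := exists_seg (isBi_adj hv) hP (show -(a : ℤ) ≤ b by omega)
    obtain ⟨s', -, m'⟩ := exists_seg (isBi_adj hv') hP' (show -(a' : ℤ) ≤ b' by omega)
    obtain ⟨z, z1, z2⟩ := h s s' (fun z hz => by
        obtain ⟨k, k1, k2, rfl⟩ := m z hz; exact hin k k1 k2) (fun z hz => by
        obtain ⟨k, k1, k2, rfl⟩ := m' z hz; exact hin' k k1 k2)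
    obtain ⟨k, -, -, e⟩ := m z z1
    obtain ⟨k', -, -, e'⟩ := m' z z2
    exact hdis k k' (e ▸ e')
  · right
    refine ⟨N, a, b, b', a', hNK, by omega, by omega, by omega, by omega, hin, ?_, ?_⟩
    · intro m m1 m2
      exact hin' (-m) (by omega) (by omega)
    · intro p q hp hq
      have e1 : rv v' ((a' : ℕ) : ℤ) = v' (-(a' : ℤ)) := rfl
      have e2 : rv v' (-((b' : ℕ) : ℤ)) = v' b' := by simp [S3f.rv]
      obtain ⟨z, z1, z2⟩ := h (p.copy rfl e1) ((q.reverse).copy rfl e2) (by simpa only [Walk.support_copy, Prod.forall] using hp)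
        (by simpa only [Walk.support_copy, Walk.support_reverse, List.mem_reverse, Prod.forall] using hq)
      exact ⟨z, by simpa only [Walk.support_copy] using z1, by simpa only [Walk.support_copy, Walk.support_reverse, List.mem_reverse] using z2⟩
  · left
    exact ⟨N, a, b, a', b', hNK, by omega, by omega, by omega, by omega, hin, hin', h⟩

/-- Two disjoint bigeodesics satisfy the order inequality for one of the two orientations. -/
theorem ord_or (hw : Adm w) (hf : FB w) (hv : IsBi w v) (hv' : IsBi w v') (hP : PosF w v P)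
    (hP' : PosF w v' P') (hdis : ∀ i j, v i ≠ v' j)
    {bd : ℕ → Set V} (hbd : IsBd bd) (hX : Cross3 bd) :
    Ord w v v' P P' ∨ Ord w v (rv v') P (rvP P') := by
  by_cases h : ∀ K, Plus v v' K
  · exact Or.inl (ord_of_plus hw hf hv hv' hP hP' h)
  · right
    push Not at h
    obtain ⟨K₀, hK₀⟩ := h
    refine ord_of_plus hw hf hv (isBi_rv hw hv') hP (posF_rv hw hP') fun K => ?_
    refine Plus.mono (le_max_right K₀ K) ?_
    rcases plus_or hw hv hv' hP hP' hdis hbd hX (max K₀ K) with h | h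
    · exact absurd (Plus.mono (le_max_left K₀ K) h) hK₀
    · exact h

end Vale.Agent.P158.C.S3f
end
end

section

section

/-! Gates: a lower bound for passage times after a change of weights touching a window `Q`,
where all edges between `Q` and its outside are expensive except finitely many gates. -/

namespace Vale.Agent.P158.C

open Filter

variable {κ : Type*} {w w' : V → V → ℝ} {S Q : Set V} {z u : κ → V} {k : κ → ℝ} {M : ℝ}
  {x y : V}

end Vale.Agent.P158.C
end
end

section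

section

/-! Case (ii) of (S3): the local modification creates a branch point. -/

namespace Vale.Agent.P158.C.S3f

open Filter T1 SimpleGraph

variable {w w' : V → V → ℝ} {v v' : ℤ → V} {P P' : ℤ → ℝ} {x y : V}

end Vale.Agent.P158.C.S3f
end
end

section

section

/-! (S3): a slack bigeodesic meets every other bigeodesic. -/

namespace Vale.Agent.P158.C.S3f

open Filter T1 SimpleGraph MeasureTheory

variable {w w' : V → V → ℝ} {v v' : ℤ → V} {P P' : ℤ → ℝ} {x y : V}

variable {G : Measure ℝ} [IsProbabilityMeasure G]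

end Vale.Agent.P158.C.S3f
end
end

section

section

/-! Limits of geodesics in growing sets along an ultrafilter. -/

namespace Vale.Agent.P158.CL

open SimpleGraph Filter Vale.Agent.P158.T1

variable {w : V → V → ℝ} {𝒰 : Ultrafilter ℕ} {S : ℕ → Set V} {C : Set V} {x y : ℕ → V}
  {p : ∀ n, latt.Walk (x n) (y n)} {m : ℕ → ℕ}

theorem ultra_const {α : Type*} (𝒰 : Ultrafilter ℕ) {f : ℕ → α} {F : Set α} (hF : F.Finite)
    (h : ∀ᶠ n in (𝒰 : Filter ℕ), f n ∈ F) : ∃ z ∈ F, ∀ᶠ n in (𝒰 : Filter ℕ), f n = z := by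
  have h1 : (⋃ z ∈ F, {n | f n = z}) ∈ 𝒰 := by
    refine Filter.mem_of_superset h fun n hn => ?_
    simp only [Set.mem_iUnion]
    exact ⟨f n, hn, rfl⟩
  obtain ⟨z, hz, h2⟩ := (Ultrafilter.finite_biUnion_mem_iff hF).1 h1
  exact ⟨z, hz, h2⟩

/-- A sequence of geodesics in growing sets, marked at a vertex of a finite set. -/
structure App (w : V → V → ℝ) (𝒰 : Ultrafilter ℕ) (S : ℕ → Set V) (C : Set V) (x y : ℕ → V)
    (p : ∀ n, latt.Walk (x n) (y n)) (m : ℕ → ℕ) : Prop where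
  geo : ∀ n, Geo w (S n) (p n)
  le : ∀ n, m n ≤ (p n).length
  mem : ∀ n, (p n).getVert (m n) ∈ C
  far : ∀ N : ℕ, ∀ᶠ n in (𝒰 : Filter ℕ), N ≤ m n ∧ m n + N ≤ (p n).length
  big : ∀ z, ∀ᶠ n in (𝒰 : Filter ℕ), z ∈ S n

/-- Position relative to the mark. -/
def pos (p : ∀ n, latt.Walk (x n) (y n)) (m : ℕ → ℕ) (n : ℕ) (i : ℤ) : V :=
  (p n).getVert ((m n : ℤ) + i).toNat

theorem App.walk (h : App w 𝒰 S C x y p m) {a b : V} (π : latt.Walk a b) :
    ∀ᶠ n in (𝒰 : Filter ℕ), ∀ z ∈ π.support, z ∈ S n := by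
  have : ∀ᶠ n in (𝒰 : Filter ℕ), ∀ z ∈ π.support.toFinset, z ∈ S n :=
    (Finset.eventually_all _).2 fun z _ => h.big z
  filter_upwards [this] with n hn z hz
  exact hn z (List.mem_toFinset.2 hz)

theorem App.exists_pos (h : App w 𝒰 S C x y p m) (hC : C.Finite) (i : ℤ) :
    ∃ z, ∀ᶠ n in (𝒰 : Filter ℕ), pos p m n i = z := by
  have hF : (⋃ c ∈ C, bx c i.natAbs).Finite := hC.biUnion fun c _ => bx_finite c _
  obtain ⟨z, -, hz⟩ := ultra_const 𝒰 (f := fun n => pos p m n i) hF (by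
    filter_upwards [h.far i.natAbs] with n hn
    simp only [Set.mem_iUnion]
    refine ⟨(p n).getVert (m n), h.mem n, ?_⟩
    have h0 : (p n).getVert (m n) ∈ bx ((p n).getVert (m n)) 0 := by
      simp only [bx, CharP.cast_eq_zero, abs_nonpos_iff, Set.mem_ofPred_eq, sub_self, and_self]
    unfold pos
    rcases le_total 0 i with hi | hi
    · have e : ((m n : ℤ) + i).toNat = m n + i.natAbs := by omega
      rw [e]
      have := getVert_bx (z := (p n).getVert (m n)) (p n) h0 i.natAbs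
      simpa only [zero_add] using this
    · have e : m n = ((m n : ℤ) + i).toNat + i.natAbs := by omega
      have h1 : (p n).getVert (((m n : ℤ) + i).toNat + i.natAbs) ∈
          bx ((p n).getVert (m n)) 0 := by rw [← e]; exact h0
      have := getVert_bx' (p n) i.natAbs h1
      simpa only [zero_add] using this)
  exact ⟨z, hz⟩

theorem App.isBi (hw : Adm w) (h : App w 𝒰 S C x y p m) {g : ℤ → V}
    (hg : ∀ i, ∀ᶠ n in (𝒰 : Filter ℕ), pos p m n i = g i) : IsBi w g := by
  intro a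
  have hadj : ∀ i : ℕ, latt.Adj (g (a + (i : ℤ))) (g (a + ((i + 1 : ℕ) : ℤ))) := by
    intro i
    obtain ⟨n, h1, h2, h3⟩ := ((hg (a + (i : ℤ))).and ((hg (a + ((i + 1 : ℕ) : ℤ))).and
      (h.far (a.natAbs + i + 1)))).exists
    rw [← h1, ← h2]
    unfold pos
    have e : ((m n : ℤ) + (a + ((i + 1 : ℕ) : ℤ))).toNat =
      ((m n : ℤ) + (a + (i : ℤ))).toNat + 1 := by (clear * - h3; omega)
    rw [e]
    exact (p n).adj_getVert_succ (by (clear * - h3 e; omega))
  refine ⟨hadj, fun k => ?_⟩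
  have e2 : T w (g (a + ((0 : ℕ) : ℤ))) (g (a + k)) ≤ ∑ i ∈ Finset.range k,
      w (g (a + (i : ℤ))) (g (a + ((i + 1 : ℕ) : ℤ))) := by
    have := T_le_sum (r := fun i : ℕ => g (a + (i : ℤ))) hw hadj (i := 0) (j := k)
      (Nat.zero_le k)
    simpa only [CharP.cast_eq_zero, add_zero, Nat.cast_add, Nat.cast_one, ge_iff_le, Nat.Ico_zero_eq_range] using     this
  refine le_antisymm ?_ e2
  refine le_PT (conn_univ _ _) fun π _ => ?_
  have h1 : ∀ᶠ n in (𝒰 : Filter ℕ), ∀ i ∈ Finset.range (k + 1),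
      pos p m n (a + (i : ℤ)) = g (a + (i : ℤ)) :=
    (Finset.eventually_all _).2 fun i _ => hg _
  obtain ⟨n, h2, h3, h4⟩ := (h1.and ((h.walk π).and (h.far (a.natAbs + k)))).exists
  have hpos : ∀ i : ℕ, i ≤ k → (p n).getVert (((m n : ℤ) + a).toNat + i) = g (a + (i : ℤ)) := by
    intro i hi
    rw [← h2 i (Finset.mem_range.2 (by omega))]
    unfold pos
    congr 1
    (clear * - h4 hi; omega)
  have h5 := (h.geo n).sum_eq hw (i := ((m n : ℤ) + a).toNat) (n := k) (by omega)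
  have h6 : ∑ i ∈ Finset.range k, w (g (a + (i : ℤ))) (g (a + ((i + 1 : ℕ) : ℤ))) =
      PT w (S n) (g (a + ((0 : ℕ) : ℤ))) (g (a + (k : ℤ))) := by
    rw [← hpos 0 (by omega), ← hpos k le_rfl, add_zero, ← h5]
    refine Finset.sum_congr rfl fun i hi => ?_
    rw [Finset.mem_range] at hi
    rw [hpos i (by omega), hpos (i + 1) (by omega)]
  rw [h6]
  exact PT_le hw π h3

theorem App.exists_limit (hw : Adm w) (h : App w 𝒰 S C x y p m) (hC : C.Finite) :
    ∃ g : ℤ → V, IsBi w g ∧ ∀ i, ∀ᶠ n in (𝒰 : Filter ℕ), pos p m n i = g i := by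
  choose g hg using h.exists_pos hC
  exact ⟨g, h.isBi hw hg, hg⟩

theorem pos_mem (p : ∀ n, latt.Walk (x n) (y n)) (m : ℕ → ℕ) (n : ℕ) (i : ℤ) :
    pos p m n i ∈ (p n).support := (p n).getVert_mem_support _

/-- The number of steps of a geodesic inside a finite set. -/
theorem Geo.steps_le (hw : Adm w) {S : Set V} {x y : V} {p : latt.Walk x y} (hp : Geo w S p)
    {i n : ℕ} (hn : i + n ≤ p.length) {F : Set V} (hF : F.Finite)
    (h : ∀ k, k ≤ n → p.getVert (i + k) ∈ F) : n < hF.toFinset.card := by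
  classical
  have hinj : Set.InjOn (fun k => p.getVert (i + k)) (Finset.range (n + 1) : Finset ℕ) := by
    intro a ha b hb hab
    rw [Finset.coe_range, Set.mem_Iio] at ha hb
    have := (hp.isPath hw).getVert_injOn (by simp only [Set.mem_ofPred_eq]; (clear * - hn ha; omega))
      (by simp only [Set.mem_ofPred_eq]; omega) hab
    omega
  have hsub : (Finset.range (n + 1)).image (fun k => p.getVert (i + k)) ⊆ hF.toFinset := by
    intro u hu
    rw [Finset.mem_image] at hu
    obtain ⟨k, hk, rfl⟩ := hu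
    rw [Finset.mem_range] at hk
    rw [Set.Finite.mem_toFinset]
    exact h _ (by omega)
  have := Finset.card_le_card hsub
  rw [Finset.card_image_of_injOn hinj, Finset.card_range] at this
  omega

theorem Geo.T_le_left (hw : Adm w) {S : Set V} {x y : V} {p : latt.Walk x y} (hp : Geo w S p)
    {i n k : ℕ} (hn : i + n ≤ p.length) (hk : k ≤ n) :
    T w (p.getVert i) (p.getVert (i + k)) ≤ PT w S (p.getVert i) (p.getVert (i + n)) := by
  have hc : Conn S (p.getVert i) (p.getVert (i + k)) := by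
    have h1 := (hp.drop hw i).take hw k
    have h2 : Conn S (p.getVert i) ((p.drop i).getVert k) := ⟨_, h1.1⟩
    rwa [Walk.drop_getVert] at h2
  refine (T_le_PT hw hc).trans ?_
  rw [← hp.sum_eq hw (i := i) (n := k) (by omega), ← hp.sum_eq hw hn]
  refine Finset.sum_le_sum_of_subset_of_nonneg ?_ fun l hl _ => ?_
  · intro l hl
    rw [Finset.mem_range] at hl ⊢
    omega
  · rw [Finset.mem_range] at hl
    exact (hw.pos _ _ (p.adj_getVert_succ (i := i + l) (by omega))).le

theorem fb_ball (hw : Adm w) (hf : FB w) (c : V) (K : ℝ) : {u : V | T w c u ≤ K}.Finite := by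
  refine (hf (T w 0 c + K)).subset fun u hu => ?_
  have h1 : T w c u ≤ K := hu
  have := T_triangle hw 0 c u
  show T w 0 u ≤ _
  linarith only [h1, this]

/-- A vertex on most of the approximating geodesics is on the limit. -/
theorem App.mem_range (hw : Adm w) (hf : FB w) (h : App w 𝒰 S C x y p m) {g : ℤ → V}
    (hg : ∀ i, ∀ᶠ n in (𝒰 : Filter ℕ), pos p m n i = g i) (z : V) :
    z ∈ Set.range g ↔ ∀ᶠ n in (𝒰 : Filter ℕ), z ∈ (p n).support := by
  classical
  constructor
  · rintro ⟨i, rfl⟩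
    filter_upwards [hg i] with n hn
    rw [← hn]
    exact pos_mem p m n i
  · intro hz
    obtain ⟨π, -⟩ := conn_univ (g 0) z
    have hF := fb_ball hw hf (g 0) (ww w π)
    have hF' := fb_ball hw hf z (ww w π)
    set M := max hF.toFinset.card hF'.toFinset.card with hM
    have key : ∀ᶠ n in (𝒰 : Filter ℕ), ∃ i ∈ Set.Icc (-(M : ℤ)) M, pos p m n i = z := by
      filter_upwards [hz, hg 0, h.walk π, h.far 0] with n h1 h2 h3 h4
      have h2' : (p n).getVert (m n) = g 0 := by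
        rw [← h2]; unfold pos; simp
      obtain ⟨a, ha, ha'⟩ := Walk.mem_support_iff_exists_getVert.1 h1
      have hPT : PT w (S n) (g 0) z ≤ ww w π := PT_le hw π h3
      rcases le_total (m n) a with hma | hma
      · obtain ⟨l, rfl⟩ := Nat.exists_eq_add_of_le hma
        have := (h.geo n).steps_le hw (i := m n) (n := l) ha' hF (by
          intro k hk
          have h5 := (h.geo n).T_le_left hw (i := m n) (n := l) (k := k) ha' hk
          rw [h2', ha] at h5
          exact h5.trans hPT)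
        refine ⟨l, by rw [Set.mem_Icc]; omega, ?_⟩
        rw [← ha]
        unfold pos
        congr 1
      · obtain ⟨l, hl⟩ := Nat.exists_eq_add_of_le hma
        have hle : a + l ≤ (p n).length := by rw [← hl]; exact h.le n
        have := (h.geo n).steps_le hw (i := a) (n := l) hle hF' (by
          intro k hk
          have h5 := (h.geo n).T_le_left hw (i := a) (n := l) (k := k) hle hk
          rw [← hl, h2', ha, PT_comm hw] at h5
          exact h5.trans hPT)
        refine ⟨-(l : ℤ), by rw [Set.mem_Icc]; omega, ?_⟩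
        rw [← ha]
        unfold pos
        congr 1
        omega
    obtain ⟨i, -, hi⟩ := ultra_const 𝒰 (f := fun n => if h' : ∃ i ∈ Set.Icc (-(M : ℤ)) M,
      pos p m n i = z then h'.choose else 0) (Set.finite_Icc (-(M : ℤ)) M) (by
        filter_upwards [key] with n hn
        rw [dif_pos hn]
        exact hn.choose_spec.1)
    obtain ⟨n, h1, h2, h3⟩ := (hi.and (key.and (hg i))).exists
    rw [dif_pos h2] at h1
    refine ⟨i, ?_⟩
    rw [← h3, ← h1]
    exact h2.choose_spec.2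

end Vale.Agent.P158.CL
end
end

section

section

/-! Mean ergodic theorem (lower bound for the density of translates of an event). -/

namespace Vale.Agent.P158.T1

open Filter MeasureTheory ProbabilityTheory
open scoped ENNReal symmDiff

namespace Erg

/-- Shift of an edge. -/
def se (x : V) : latt.edgeSet ≃ latt.edgeSet := (shIso x).mapEdgeSet

theorem shE_apply (x : V) (t : Env) (e : latt.edgeSet) : shE x t e = t (se x e) := rfl

theorem mem_se {x v : V} {e : latt.edgeSet} (h : v ∈ (se x e).1) : v - x ∈ e.1 := by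
  obtain ⟨e, he⟩ := e
  change v ∈ Sym2.map _ e at h
  rw [Sym2.mem_map] at h
  obtain ⟨a, ha, rfl⟩ := h
  change a + x - x ∈ e
  rwa [add_sub_cancel_right]

theorem exists_mem (e : latt.edgeSet) : ∃ v, v ∈ e.1 := by
  obtain ⟨e, he⟩ := e
  induction e using Sym2.ind with
  | _ u v => exact ⟨u, by simp⟩

/-- The endpoints of finitely many edges are in a box. -/
theorem exists_box (s : Finset latt.edgeSet) : ∃ R : ℕ, ∀ e ∈ s, ∀ v ∈ e.1, v ∈ bx 0 R := by
  classical
  induction s using Finset.induction_on with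
  | empty => exact ⟨0, by simp only [Finset.notMem_empty, Prod.forall, IsEmpty.forall_iff, implies_true]⟩
  | insert e s he ih =>
    obtain ⟨R, hR⟩ := ih
    obtain ⟨R', hR'⟩ : ∃ R' : ℕ, ∀ v ∈ e.1, v ∈ bx 0 R' := by
      obtain ⟨e, he'⟩ := e
      induction e using Sym2.ind with
      | _ u v =>
        refine ⟨|u.1|.toNat + |u.2|.toNat + |v.1|.toNat + |v.2|.toNat, fun z hz => ?_⟩
        simp only [Sym2.mem_iff] at hz
        rw [mem_bx]
        have h1 := Int.toNat_of_nonneg (abs_nonneg u.1)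
        have h2 := Int.toNat_of_nonneg (abs_nonneg u.2)
        have h3 := Int.toNat_of_nonneg (abs_nonneg v.1)
        have h4 := Int.toNat_of_nonneg (abs_nonneg v.2)
        push_cast
        rw [h1, h2, h3, h4]
        have a1 := abs_nonneg u.1
        have a2 := abs_nonneg u.2
        have a3 := abs_nonneg v.1
        have a4 := abs_nonneg v.2
        rcases hz with rfl | rfl <;>
          constructor <;> simp only [Prod.fst_zero, Prod.snd_zero, sub_zero] <;> linarith only [h1, h2, h3, h4]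
    refine ⟨max R R', fun e' h v hv => ?_⟩
    rcases Finset.mem_insert.1 h with rfl | h
    · exact bx_mono (le_max_right _ _) (hR' v hv)
    · exact bx_mono (le_max_left _ _) (hR e' h v hv)

/-- Overlap of the supports forces the shifts to be close. -/
theorem close_of_overlap {s : Finset latt.edgeSet} {R : ℕ} (hR : ∀ e ∈ s, ∀ v ∈ e.1, v ∈ bx 0 R)
    {x y : V} (h : ¬ Disjoint (s.map (se x).toEmbedding) (s.map (se y).toEmbedding)) :
    y ∈ bx x (2 * R) := by
  rw [Finset.not_disjoint_iff] at h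
  obtain ⟨e, h1, h2⟩ := h
  rw [Finset.mem_map] at h1 h2
  obtain ⟨a, ha, rfl⟩ := h1
  obtain ⟨b, hb, hab⟩ := h2
  obtain ⟨v, hv⟩ := exists_mem (se x a)
  have e1 := hR a ha _ (mem_se hv)
  have e2 : v ∈ (se y b).1 := by
    have : se y b = se x a := hab
    rw [this]; exact hv
  have e3 := hR b hb _ (mem_se e2)
  rw [mem_bx] at e1 e3 ⊢
  simp only [Prod.fst_sub, Prod.snd_sub, Prod.fst_zero, Prod.snd_zero, sub_zero] at e1 e3
  push_cast
  have f1 := abs_le.1 e1.1
  have f2 := abs_le.1 e1.2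
  have f3 := abs_le.1 e3.1
  have f4 := abs_le.1 e3.2
  rw [abs_le, abs_le]
  constructor <;> constructor <;> linarith only [f1, f3, f2, f4]

variable {G : Measure ℝ} [IsProbabilityMeasure G]

/-- Events depending on disjoint sets of edges are independent. -/
theorem indep_cyl {s : Finset latt.edgeSet} {S : Set (∀ _ : s, ℝ)} (hS : MeasurableSet S)
    {x y : V} (h : Disjoint (s.map (se x).toEmbedding) (s.map (se y).toEmbedding)) :
    IndepFun (fun t : Env => (cylinder s S).indicator (1 : Env → ℝ) (shE x t))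
      (fun t : Env => (cylinder s S).indicator (1 : Env → ℝ) (shE y t)) (PG G) := by
  have hi : iIndepFun (fun (e : latt.edgeSet) (t : Env) => t e) (PG G) :=
    iIndepFun_infinitePi (X := fun _ s => s) (by fun_prop)
  have key := hi.indepFun_finset _ _ h (fun e => by fun_prop)
  have hg : ∀ z : V, ∃ g : (∀ _ : (s.map (se z).toEmbedding : Finset latt.edgeSet), ℝ) → ℝ,
      Measurable g ∧ (fun t : Env => (cylinder s S).indicator (1 : Env → ℝ) (shE z t)) =
        g ∘ fun (t : Env) (i : (s.map (se z).toEmbedding : Finset latt.edgeSet)) => t i := by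
    intro z
    let f : (∀ _ : (s.map (se z).toEmbedding : Finset latt.edgeSet), ℝ) → (∀ _ : s, ℝ) :=
      fun h i => h ⟨se z i, Finset.mem_map.2 ⟨i, i.2, rfl⟩⟩
    have hf : Measurable f := measurable_pi_lambda _ fun i => measurable_pi_apply _
    refine ⟨(f ⁻¹' S).indicator 1, measurable_one.indicator (hf hS), ?_⟩
    funext t
    simp only [Function.comp]
    by_cases ht : shE z t ∈ cylinder s S
    · rw [Set.indicator_of_mem ht, Set.indicator_of_mem]
      · rfl
      · rw [mem_cylinder] at ht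
        exact ht
    · rw [Set.indicator_of_notMem ht, Set.indicator_of_notMem]
      rw [mem_cylinder] at ht
      exact ht
  obtain ⟨g1, m1, h1⟩ := hg x
  obtain ⟨g2, m2, h2⟩ := hg y
  rw [h1, h2]
  exact key.comp m1 m2

/-- The box as a finset. -/
noncomputable def bF (z : V) (r : ℕ) : Finset V :=
  Finset.Icc (z.1 - r) (z.1 + r) ×ˢ Finset.Icc (z.2 - r) (z.2 + r)

theorem mem_bF {z x : V} {r : ℕ} : x ∈ bF z r ↔ x ∈ bx z r := by
  rw [bF, Finset.mem_product, Finset.mem_Icc, Finset.mem_Icc, mem_bx, abs_le, abs_le]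
  constructor
  · rintro ⟨⟨h1, h2⟩, h3, h4⟩
    exact ⟨⟨by linarith only [h1], by linarith only [h2]⟩, by linarith only [h3], by linarith⟩
  · rintro ⟨⟨h1, h2⟩, h3, h4⟩
    exact ⟨⟨by linarith only [h1], by linarith only [h2]⟩, by linarith, by linarith⟩

theorem card_bF (z : V) (r : ℕ) : (bF z r).card = (2 * r + 1) ^ 2 := by
  rw [bF, Finset.card_product, Int.card_Icc, Int.card_Icc]
  have h1 : (z.1 + r + 1 - (z.1 - r)).toNat = 2 * r + 1 := by
    have : z.1 + r + 1 - (z.1 - r) = ((2 * r + 1 : ℕ) : ℤ) := by push_cast; ring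
    rw [this, Int.toNat_natCast]
  have h2 : (z.2 + r + 1 - (z.2 - r)).toNat = 2 * r + 1 := by
    have : z.2 + r + 1 - (z.2 - r) = ((2 * r + 1 : ℕ) : ℤ) := by push_cast; ring
    rw [this, Int.toNat_natCast]
  rw [h1, h2]; ring

theorem measurable_ind {B : Set Env} (hB : MeasurableSet B) (x : V) :
    Measurable fun t : Env => B.indicator (1 : Env → ℝ) (shE x t) :=
  (measurable_one.indicator hB).comp (mp_sh (G := Measure.dirac (0 : ℝ)) x).measurable

theorem ind_le (B : Set Env) (t : Env) :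
    0 ≤ B.indicator (1 : Env → ℝ) t ∧ B.indicator (1 : Env → ℝ) t ≤ 1 := by
  by_cases h : t ∈ B <;> simp [h]

theorem integrable_ind {B : Set Env} (hB : MeasurableSet B) (x : V) :
    Integrable (fun t : Env => B.indicator (1 : Env → ℝ) (shE x t)) (PG G) := by
  refine Integrable.of_bound (measurable_ind hB x).aestronglyMeasurable 1
    (Eventually.of_forall fun t => ?_)
  rw [Real.norm_eq_abs, abs_of_nonneg (ind_le B _).1]
  exact (ind_le B _).2

theorem integral_ind {B : Set Env} (hB : MeasurableSet B) (x : V) :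
    ∫ t, B.indicator (1 : Env → ℝ) (shE x t) ∂PG G = (PG G).real B := by
  have h := integral_map (μ := PG G) (φ := shE x) (mp_sh (G := G) x).measurable.aemeasurable
    (f := B.indicator (1 : Env → ℝ)) (measurable_one.indicator hB).aestronglyMeasurable
  rw [(mp_sh (G := G) x).map_eq] at h
  rw [← h, integral_indicator_one hB]

/-- Covariance of two translates. -/
theorem cov_le {s : Finset latt.edgeSet} {S : Set (∀ _ : s, ℝ)} (hS : MeasurableSet S) {R : ℕ}
    (hR : ∀ e ∈ s, ∀ v ∈ e.1, v ∈ bx 0 R) {B : Set Env} (hBd : B = cylinder s S) (x y : V) :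
    ∫ t, (B.indicator (1 : Env → ℝ) (shE x t) - (PG G).real B) *
      (B.indicator (1 : Env → ℝ) (shE y t) - (PG G).real B) ∂PG G ≤
      if y ∈ bF x (2 * R) then 1 else 0 := by
  have hB : MeasurableSet B := hBd ▸ hS.cylinder
  set b := (PG G).real B with hb
  have hb1 : 0 ≤ b ∧ b ≤ 1 := ⟨measureReal_nonneg, measureReal_le_one⟩
  have hab : ∀ (z : V) (t : Env), |B.indicator (1 : Env → ℝ) (shE z t) - b| ≤ 1 := by
    intro z t
    have := ind_le B (shE z t)
    rw [abs_le]
    constructor <;> linarith only [hb1, this]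
  by_cases hy : y ∈ bF x (2 * R)
  · rw [if_pos hy]
    have h1 := norm_integral_le_of_norm_le_const (μ := PG G)
      (f := fun t => (B.indicator (1 : Env → ℝ) (shE x t) - b) *
        (B.indicator (1 : Env → ℝ) (shE y t) - b)) (C := 1) (Eventually.of_forall fun t => by
        rw [Real.norm_eq_abs, abs_mul]
        exact mul_le_one₀ (hab x t) (abs_nonneg _) (hab y t))
    rw [probReal_univ, mul_one] at h1
    exact (le_abs_self _).trans h1
  · rw [if_neg hy]
    have hd : Disjoint (s.map (se x).toEmbedding) (s.map (se y).toEmbedding) := by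
      by_contra h
      exact hy (mem_bF.2 (close_of_overlap hR h))
    have hi := indep_cyl (G := G) hS hd
    rw [← hBd] at hi
    have hi' : IndepFun (fun t : Env => B.indicator (1 : Env → ℝ) (shE x t) - b)
        (fun t : Env => B.indicator (1 : Env → ℝ) (shE y t) - b) (PG G) :=
      hi.comp (φ := fun u => u - b) (ψ := fun u => u - b) (measurable_id.sub_const b)
        (measurable_id.sub_const b)
    have := hi'.integral_fun_mul_eq_mul_integral
      ((measurable_ind hB x).sub_const b).aestronglyMeasurable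
      ((measurable_ind hB y).sub_const b).aestronglyMeasurable
    rw [this, integral_sub (integrable_ind hB x) (integrable_const b), integral_ind hB]
    simp only [hb, integral_const, probReal_univ, smul_eq_mul, one_mul, sub_self, zero_mul, Std.le_refl]

theorem integrable_prod {B : Set Env} (hB : MeasurableSet B) (x y : V) :
    Integrable (fun t => (B.indicator (1 : Env → ℝ) (shE x t) - (PG G).real B) *
      (B.indicator (1 : Env → ℝ) (shE y t) - (PG G).real B)) (PG G) := by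
  refine Integrable.of_bound (((measurable_ind hB x).sub_const _).mul
    ((measurable_ind hB y).sub_const _)).aestronglyMeasurable 1
    (Eventually.of_forall fun t => ?_)
  have hb1 : 0 ≤ (PG G).real B ∧ (PG G).real B ≤ 1 := ⟨measureReal_nonneg, measureReal_le_one⟩
  have hab : ∀ (z : V) (t : Env),
      |B.indicator (1 : Env → ℝ) (shE z t) - (PG G).real B| ≤ 1 := by
    intro z t
    have := ind_le B (shE z t)
    rw [abs_le]
    constructor <;> linarith [this.1, this.2, hb1.1, hb1.2]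
  rw [Real.norm_eq_abs, abs_mul]
  exact mul_le_one₀ (hab x t) (abs_nonneg _) (hab y t)

/-- Second moment of the count. -/
theorem second_moment {s : Finset latt.edgeSet} {S : Set (∀ _ : s, ℝ)} (hS : MeasurableSet S)
    {R : ℕ} (hR : ∀ e ∈ s, ∀ v ∈ e.1, v ∈ bx 0 R) {B : Set Env} (hBd : B = cylinder s S)
    (z : V) (r : ℕ) :
    ∫ t, (∑ x ∈ bF z r, (B.indicator (1 : Env → ℝ) (shE x t) - (PG G).real B)) ^ 2 ∂PG G ≤
      (2 * r + 1) ^ 2 * (4 * R + 1) ^ 2 := by
  have hB : MeasurableSet B := hBd ▸ hS.cylinder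
  have e1 : ∀ t, (∑ x ∈ bF z r, (B.indicator (1 : Env → ℝ) (shE x t) - (PG G).real B)) ^ 2 =
      ∑ x ∈ bF z r, ∑ y ∈ bF z r, (B.indicator (1 : Env → ℝ) (shE x t) - (PG G).real B) *
        (B.indicator (1 : Env → ℝ) (shE y t) - (PG G).real B) := by
    intro t
    rw [sq, Finset.sum_mul_sum]
  have hint := integrable_prod (G := G) hB
  simp only [e1]
  rw [integral_finsetSum _ fun x _ => integrable_finsetSum _ fun y _ => hint x y]
  have e2 : ∀ x ∈ bF z r, ∫ t, ∑ y ∈ bF z r, (B.indicator (1 : Env → ℝ) (shE x t) -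
      (PG G).real B) * (B.indicator (1 : Env → ℝ) (shE y t) - (PG G).real B) ∂PG G ≤
      ((4 * R + 1) ^ 2 : ℝ) := by
    intro x _
    rw [integral_finsetSum _ fun y _ => hint x y]
    refine (Finset.sum_le_sum fun y _ => cov_le hS hR hBd x y).trans ?_
    rw [← Finset.sum_filter, Finset.sum_const, nsmul_eq_mul, mul_one]
    have : ((bF z r).filter fun y => y ∈ bF x (2 * R)).card ≤ (4 * R + 1) ^ 2 := by
      refine (Finset.card_le_card (t := bF x (2 * R)) fun y hy => (Finset.mem_filter.1 hy).2).trans ?_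
      rw [card_bF]
      apply le_of_eq
      ring
    exact_mod_cast this
  refine (Finset.sum_le_sum e2).trans ?_
  rw [Finset.sum_const, card_bF, nsmul_eq_mul]
  push_cast
  exact le_refl _

/-- Chebyshev. -/
theorem cheb {s : Finset latt.edgeSet} {S : Set (∀ _ : s, ℝ)} (hS : MeasurableSet S)
    {R : ℕ} (hR : ∀ e ∈ s, ∀ v ∈ e.1, v ∈ bx 0 R) {B : Set Env} (hBd : B = cylinder s S)
    (z : V) (r : ℕ) {δ : ℝ} (hδ : 0 < δ) :
    (PG G).real {t | ∑ x ∈ bF z r, B.indicator (1 : Env → ℝ) (shE x t) <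
      ((PG G).real B - δ) * (2 * r + 1) ^ 2} ≤ (4 * R + 1) ^ 2 / (δ ^ 2 * (2 * r + 1) ^ 2) := by
  have hB : MeasurableSet B := hBd ▸ hS.cylinder
  set n : ℝ := (2 * r + 1) ^ 2 with hn
  have hn0 : 0 < n := by (clear * -; positivity)
  have hm := mul_meas_ge_le_integral_of_nonneg (μ := PG G)
    (f := fun t => (∑ x ∈ bF z r, (B.indicator (1 : Env → ℝ) (shE x t) - (PG G).real B)) ^ 2)
    (Eventually.of_forall fun t => sq_nonneg _) ?_ ((δ * n) ^ 2)
  · have h2 := hm.trans (second_moment hS hR hBd z r)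
    have h3 : (PG G).real {t | ∑ x ∈ bF z r, B.indicator (1 : Env → ℝ) (shE x t) <
        ((PG G).real B - δ) * n} ≤ (PG G).real {t | (δ * n) ^ 2 ≤
        (∑ x ∈ bF z r, (B.indicator (1 : Env → ℝ) (shE x t) - (PG G).real B)) ^ 2} := by
      refine measureReal_mono fun t ht => ?_
      simp only [Set.mem_ofPred_eq] at ht ⊢
      rw [Finset.sum_sub_distrib, Finset.sum_const, card_bF, nsmul_eq_mul]
      push_cast
      rw [← hn]
      have h4 : δ * n ≤ -(∑ x ∈ bF z r, B.indicator (1 : Env → ℝ) (shE x t) -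
          n * (PG G).real B) := by (clear s S hS R hR hBd hδ hB hn hn0 hm h2; nlinarith)
      rw [← neg_sq (∑ x ∈ bF z r, B.indicator (1 : Env → ℝ) (shE x t) - n * (PG G).real B)]
      exact pow_le_pow_left₀ (by (clear * - hδ; positivity)) h4 2
    rw [le_div_iff₀ (by (clear * - hδ; positivity))]
    have h5 : 0 ≤ (PG G).real {t | (δ * n) ^ 2 ≤
        (∑ x ∈ bF z r, (B.indicator (1 : Env → ℝ) (shE x t) - (PG G).real B)) ^ 2} :=
      measureReal_nonneg
    have h6 : (δ * n) ^ 2 * (PG G).real {t | (δ * n) ^ 2 ≤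
        (∑ x ∈ bF z r, (B.indicator (1 : Env → ℝ) (shE x t) - (PG G).real B)) ^ 2} ≤
        n * (4 * R + 1) ^ 2 := h2
    have h7 : (PG G).real {t | (δ * n) ^ 2 ≤
        (∑ x ∈ bF z r, (B.indicator (1 : Env → ℝ) (shE x t) - (PG G).real B)) ^ 2} *
        (δ ^ 2 * n) ≤ (4 * R + 1) ^ 2 := by
      by_contra hc
      push Not at hc
      have := mul_lt_mul_of_pos_left hc hn0
      (clear hδ hB hn h3 h5 h6; nlinarith)
    exact (mul_le_mul_of_nonneg_right h3 (by positivity)).trans h7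
  · have e1 : ∀ t, (∑ x ∈ bF z r, (B.indicator (1 : Env → ℝ) (shE x t) - (PG G).real B)) ^ 2 =
        ∑ x ∈ bF z r, ∑ y ∈ bF z r, (B.indicator (1 : Env → ℝ) (shE x t) - (PG G).real B) *
          (B.indicator (1 : Env → ℝ) (shE y t) - (PG G).real B) := by
      intro t
      rw [sq, Finset.sum_mul_sum]
    simp only [e1]
    exact integrable_finsetSum _ fun x _ => integrable_finsetSum _ fun y _ =>
      integrable_prod hB x y

/-- Markov's inequality for the count. -/
theorem markov {D : Set Env} (hD : MeasurableSet D) (z : V) (r : ℕ) {δ : ℝ} (hδ : 0 < δ) :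
    (PG G).real {t | δ * (2 * r + 1) ^ 2 ≤ ∑ x ∈ bF z r, D.indicator (1 : Env → ℝ) (shE x t)} ≤
      (PG G).real D / δ := by
  have hm := mul_meas_ge_le_integral_of_nonneg (μ := PG G)
    (f := fun t => ∑ x ∈ bF z r, D.indicator (1 : Env → ℝ) (shE x t))
    (Eventually.of_forall fun t => Finset.sum_nonneg fun x _ => (ind_le D _).1)
    (integrable_finsetSum _ fun x _ => integrable_ind hD x) (δ * (2 * r + 1) ^ 2)
  rw [integral_finsetSum _ fun x _ => integrable_ind hD x] at hm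
  simp only [integral_ind hD, Finset.sum_const, card_bF, nsmul_eq_mul] at hm
  push_cast at hm
  rw [le_div_iff₀ hδ]
  have hn : (0 : ℝ) < (2 * r + 1) ^ 2 := by (clear * -; positivity)
  by_contra hc
  push Not at hc
  have := mul_lt_mul_of_pos_left hc hn
  (clear hD hδ; nlinarith)

/-- The mean ergodic theorem, lower bound. -/
theorem erg_lower {A : Set Env} (hA : MeasurableSet A) {η : ℝ} (hη : 0 < η) :
    ∃ r₀ : ℕ, ∀ r ≥ r₀, ∀ z : V,
      (PG G).real {t | ∑ x ∈ bF z r, A.indicator (1 : Env → ℝ) (shE x t) <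
        ((PG G).real A - η) * (2 * r + 1) ^ 2} ≤ η := by
  set δ := min (η ^ 2 / 4) (η / 4) with hδ
  have hδ0 : 0 < δ := lt_min (by (clear * - hη; positivity)) (by positivity)
  obtain ⟨B, hBm, hBA⟩ := exists_measure_symmDiff_lt_of_generateFrom_isSetRing (μ := PG G)
    (isSetRing_measurableCylinders (ι := latt.edgeSet) (α := fun _ => ℝ))
    ⟨{Set.univ}, Set.countable_singleton _, by
      rintro _ rfl
      exact univ_mem_measurableCylinders _, by simp⟩
    generateFrom_measurableCylinders.symm hA (ENNReal.ofReal_pos.2 hδ0)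
  obtain ⟨s, S, hS, hBd⟩ := (mem_measurableCylinders B).1 hBm
  obtain ⟨R, hR⟩ := exists_box s
  have hB : MeasurableSet B := hBd ▸ hS.cylinder
  have hD : MeasurableSet (B ∆ A) := hB.symmDiff hA
  have hDr : (PG G).real (B ∆ A) ≤ δ := by
    rw [measureReal_def]
    exact ENNReal.toReal_le_of_le_ofReal hδ0.le hBA.le
  have hBr : (PG G).real A ≤ (PG G).real B + δ := by
    have : (PG G).real A ≤ (PG G).real (B ∪ B ∆ A) := by
      refine measureReal_mono fun t ht => ?_
      by_cases h : t ∈ B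
      · exact Or.inl h
      · exact Or.inr (Or.inr ⟨ht, h⟩)
    refine this.trans ((measureReal_union_le _ _).trans ?_)
    (clear hA hδ hBm s S hS hBd R hR hB hD this; linarith)
  obtain ⟨r₀, hr₀⟩ := exists_nat_gt ((4 * R + 1) ^ 2 / ((η / 4) ^ 2 * (η / 2)))
  refine ⟨r₀, fun r hr z => ?_⟩
  have h1 := cheb (G := G) hS hR hBd z r (show 0 < η / 4 by positivity)
  have h2 := markov (G := G) hD z r (show 0 < η / 2 by positivity)
  have h3 : (PG G).real (B ∆ A) / (η / 2) ≤ η / 2 := by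
    rw [div_le_iff₀ (by positivity)]
    calc (PG G).real (B ∆ A) ≤ η ^ 2 / 4 := hDr.trans (min_le_left _ _)
      _ = η / 2 * (η / 2) := by ring
  have h4 : ((4 * R + 1) ^ 2 / ((η / 4) ^ 2 * (2 * r + 1) ^ 2) : ℝ) ≤ η / 2 := by
    rw [div_le_iff₀ (by (clear * - hη; positivity))]
    rw [div_lt_iff₀ (by positivity)] at hr₀
    have h5 : (r₀ : ℝ) ≤ (2 * r + 1) ^ 2 := by
      have : (r₀ : ℝ) ≤ r := by exact_mod_cast hr
      nlinarith only [this]
    nlinarith only [hr₀, mul_le_mul_of_nonneg_left h5 (show (0 : ℝ) ≤ (η / 4) ^ 2 * (η / 2) by positivity)]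
  have hsub : {t | ∑ x ∈ bF z r, A.indicator (1 : Env → ℝ) (shE x t) <
      ((PG G).real A - η) * (2 * r + 1) ^ 2} ⊆
      {t | ∑ x ∈ bF z r, B.indicator (1 : Env → ℝ) (shE x t) <
        ((PG G).real B - η / 4) * (2 * r + 1) ^ 2} ∪
      {t | η / 2 * (2 * r + 1) ^ 2 ≤ ∑ x ∈ bF z r, (B ∆ A).indicator (1 : Env → ℝ) (shE x t)} := by
    intro t ht
    by_contra hc
    simp only [Set.mem_union, Set.mem_ofPred_eq, not_or, not_lt, not_le] at hc ht
    obtain ⟨h6, h7⟩ := hc
    have h8 : ∑ x ∈ bF z r, B.indicator (1 : Env → ℝ) (shE x t) ≤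
        ∑ x ∈ bF z r, A.indicator (1 : Env → ℝ) (shE x t) +
        ∑ x ∈ bF z r, (B ∆ A).indicator (1 : Env → ℝ) (shE x t) := by
      rw [← Finset.sum_add_distrib]
      refine Finset.sum_le_sum fun x _ => ?_
      by_cases hb : shE x t ∈ B
      · by_cases ha : shE x t ∈ A
        · rw [Set.indicator_of_mem hb, Set.indicator_of_mem ha]
          linarith only [(ind_le (B ∆ A) (shE x t)).1]
        · rw [Set.indicator_of_mem hb, Set.indicator_of_mem (show shE x t ∈ B ∆ A from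
            Or.inl ⟨hb, ha⟩)]
          linarith only [(ind_le A (shE x t)).1]
      · rw [Set.indicator_of_notMem hb]
        linarith only [(ind_le A (shE x t)).1, (ind_le (B ∆ A) (shE x t)).1]
    have h9 : δ ≤ η / 4 := min_le_right _ _
    have hn : (0 : ℝ) < (2 * r + 1) ^ 2 := by (clear * -; positivity)
    (clear hA hδ hBm s S hS hBd R hR hB hD r₀ hr₀ hr h1 h2 h3 h4; nlinarith [mul_le_mul_of_nonneg_right (show (PG G).real A ≤ (PG G).real B + η / 4 by       linarith) hn.le])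
  exact (measureReal_mono hsub).trans ((measureReal_union_le _ _).trans (by (clear hδ hBm hBr hsub; linarith)))

end Erg

end Vale.Agent.P158.T1
end
end

section

section

/-! Finite energy for general atomless laws: if bigeodesics exist then bigeodesics whose edge at
`0` has a positive slack exist. -/

namespace Vale.Agent.P158.C

open SimpleGraph MeasureTheory Filter Vale.Agent.P158.T1

variable {G : Measure ℝ} [IsProbabilityMeasure G]

/-- The edge of `v` at `0` cannot be avoided at a cost smaller than `h`. -/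
def SlkR (h : ℝ) (w : V → V → ℝ) (v : ℤ → V) : Prop :=
  ∀ i j : ℤ, i ≤ 0 → 1 ≤ j → ∀ π : latt.Walk (v i) (v j),
    s(v 0, v 1) ∉ π.edges → T w (v i) (v j) + h ≤ ww w π

theorem SlkR.mono {h h' : ℝ} (hh : h' ≤ h) {w : V → V → ℝ} {v : ℤ → V} (H : SlkR h w v) :
    SlkR h' w v := fun i j hi hj π hπ => by
  have := H i j hi hj π hπ
  linarith only [hh, this]

theorem ww_off {w w' : V → V → ℝ} {e : Sym2 V}
    (hout : ∀ x y, latt.Adj x y → s(x, y) ≠ e → w' x y = w x y) {x y : V} (p : latt.Walk x y)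
    (hp : e ∉ p.edges) : ww w' p = ww w p := by
  induction p with
  | nil => rfl
  | cons h p ih =>
    rw [ww_cons, ww_cons]
    rw [Walk.edges_cons, List.mem_cons, not_or] at hp
    rw [ih hp.2, hout _ _ h (fun h' => hp.1 h'.symm)]

theorem ww_trail_ge {w w' : V → V → ℝ} {e : Sym2 V} {δ : ℝ} (hδ : 0 ≤ δ)
    (hout : ∀ x y, latt.Adj x y → s(x, y) ≠ e → w' x y = w x y)
    (hin : ∀ x y, latt.Adj x y → s(x, y) = e → w' x y = w x y - δ) {x y : V} (p : latt.Walk x y)
    (hp : p.IsTrail) : ww w p - δ ≤ ww w' p := by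
  induction p with
  | nil => simpa only [ww_nil, zero_sub, Left.neg_nonpos_iff] using hδ
  | @cons x y z h p ih =>
    rw [ww_cons, ww_cons]
    rw [Walk.isTrail_cons] at hp
    by_cases he : s(x, y) = e
    · rw [hin _ _ h he, ww_off hout p (he ▸ hp.2)]
      linarith only []
    · rw [hout _ _ h he]
      linarith [ih hp.1]

theorem slk_of_lower {w w' : V → V → ℝ} (hw : Adm w) (hw' : Adm w') {v : ℤ → V}
    (hv : IsBi w v) {δ : ℝ} (hδ : 0 ≤ δ)
    (hout : ∀ x y, latt.Adj x y → s(x, y) ≠ s(v 0, v 1) → w' x y = w x y)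
    (hin : ∀ x y, latt.Adj x y → s(x, y) = s(v 0, v 1) → w' x y = w x y - δ) :
    IsBi w' v ∧ SlkR δ w' v := by
  obtain ⟨P, hP⟩ := exists_posF w v
  obtain ⟨P', hP'⟩ := exists_posF w' v
  have hinj := isBi_inj hw hv
  have hadj := isBi_adj hv
  have h01 : latt.Adj (v 0) (v 1) := by simpa using hadj 0
  have hne : ∀ k : ℤ, k ≠ 0 → s(v k, v (k + 1)) ≠ s(v 0, v 1) := by
    intro k hk h
    rw [Sym2.eq_iff] at h
    rcases h with ⟨h1, _⟩ | ⟨h1, h2⟩
    · exact hk (hinj h1)
    · have a := hinj h1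
      have b := hinj h2
      omega
  have hw0 : w' (v 0) (v 1) = w (v 0) (v 1) - δ := hin _ _ h01 rfl
  have hpos := hw'.pos _ _ h01
  -- position functions
  have hlow : ∀ n : ℕ, P' 0 - P' (-(n : ℤ)) = P 0 - P (-(n : ℤ)) := by
    intro n
    induction n with
    | zero => simp
    | succ n ih =>
      have a1 := hP (-((n : ℤ) + 1))
      have a2 := hP' (-((n : ℤ) + 1))
      have e : -((n : ℤ) + 1) + 1 = -(n : ℤ) := by ring
      have a3 := hout _ _ (hadj (-((n : ℤ) + 1))) (hne _ (by omega))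
      rw [e] at a1 a2 a3
      have e2 : -(((n + 1 : ℕ)) : ℤ) = -((n : ℤ) + 1) := by push_cast; ring
      rw [e2]
      linarith only [ih, a1, a2, a3]
  have hlow' : ∀ k : ℤ, k ≤ 0 → P' 0 - P' k = P 0 - P k := by
    intro k hk
    obtain ⟨n, hn⟩ := Int.eq_ofNat_of_zero_le (by omega : 0 ≤ -k)
    have : k = -(n : ℤ) := by omega
    rw [this]
    exact hlow n
  have hup : ∀ n : ℕ, P' (1 + (n : ℤ)) - P' 1 = P (1 + (n : ℤ)) - P 1 := by
    intro n
    induction n with
    | zero => simp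
    | succ n ih =>
      have a1 := hP (1 + (n : ℤ))
      have a2 := hP' (1 + (n : ℤ))
      have a3 := hout _ _ (hadj (1 + (n : ℤ))) (hne _ (by omega))
      have e2 : 1 + (((n + 1 : ℕ)) : ℤ) = 1 + (n : ℤ) + 1 := by push_cast; ring
      rw [e2]
      linarith only [ih, a1, a2, a3]
  have hup' : ∀ k : ℤ, 1 ≤ k → P' k - P' 1 = P k - P 1 := by
    intro k hk
    obtain ⟨n, hn⟩ := Int.eq_ofNat_of_zero_le (by omega : 0 ≤ k - 1)
    have : k = 1 + (n : ℤ) := by omega
    rw [this]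
    exact hup n
  have h10 : P' 1 - P' 0 = P 1 - P 0 - δ := by
    have a1 := hP 0
    have a2 := hP' 0
    simp only [zero_add] at a1 a2
    linarith only [hw0, a1, a2]
  have hPm : ∀ {i j : ℤ}, i ≤ j → P i ≤ P j := fun h => PosF.mono hw hadj hP h
  have hPm' : ∀ {i j : ℤ}, i ≤ j → P' i ≤ P' j := fun h => PosF.mono hw' hadj hP' h
  -- the main lower bound, separated case
  have hsep : ∀ i j : ℤ, i ≤ 0 → 1 ≤ j → ∀ π : latt.Walk (v i) (v j), P' j - P' i ≤ ww w' π := by
    intro i j hi hj π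
    have a1 := ww_bypass_le hw' π
    have a2 := ww_trail_ge hδ hout hin π.bypass (π.bypass_isPath).isTrail
    have a3 := T_le hw π.bypass
    rw [isBi_T hv hP (by omega : i ≤ j)] at a3
    have a4 := hlow' i hi
    have a5 := hup' j hj
    linarith only [h10, a1, a2, a3, a4, a5]
  have hcore : ∀ (i j : ℤ) (π : latt.Walk (v i) (v j)), P' j - P' i ≤ ww w' π := by
    intro i j π
    rcases le_total j i with hji | hij
    · have := hPm' hji
      have := ww_nonneg hw' π
      linarith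
    by_cases hs : i ≤ 0 ∧ 1 ≤ j
    · exact hsep i j hs.1 hs.2 π
    by_cases he : s(v 0, v 1) ∈ π.edges
    · have m0 := π.fst_mem_support_of_mem_edges he
      have m1 := π.snd_mem_support_of_mem_edges he
      rcases le_or_gt j 0 with hj | hj
      · have hsplit := congrArg (ww w') (π.take_spec m1)
        rw [ww_append] at hsplit
        have b1 := hsep i 1 (by omega) le_rfl (π.takeUntil _ m1)
        have b2 := ww_nonneg hw' (π.dropUntil _ m1)
        have b3 : P' j ≤ P' 1 := hPm' (by omega)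
        linarith only [hsplit, b1, b2, b3]
      · have hi : 1 ≤ i := by
          by_contra h
          exact hs ⟨by omega, by omega⟩
        have hsplit := congrArg (ww w') (π.take_spec m0)
        rw [ww_append] at hsplit
        have b1 := hsep 0 j le_rfl (by omega) (π.dropUntil _ m0)
        have b2 := ww_nonneg hw' (π.takeUntil _ m0)
        have b3 : P' 0 ≤ P' i := hPm' (by omega)
        linarith only [hsplit, b1, b2, b3]
    · rw [ww_off hout π he]
      have a3 := T_le hw π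
      rw [isBi_T hv hP hij] at a3
      rcases le_or_gt j 0 with hj | hj
      · have a4 := hlow' i (by omega)
        have a5 := hlow' j hj
        linarith only [a3, a4, a5]
      · have hi : 1 ≤ i := by
          by_contra h
          exact hs ⟨by omega, by omega⟩
        have a4 := hup' i hi
        have a5 := hup' j (by omega)
        linarith
  have hbi : IsBi w' v := isBi_of_core hw' hadj hP' hcore
  refine ⟨hbi, fun i j hi hj π hπ => ?_⟩
  rw [isBi_T hbi hP' (by omega : i ≤ j), ww_off hout π hπ]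
  have a3 := T_le hw π
  rw [isBi_T hv hP (by omega : i ≤ j)] at a3
  have a4 := hlow' i hi
  have a5 := hup' j hj
  linarith only [h10, a3, a4, a5]

omit [IsProbabilityMeasure G] in
theorem null_low [NullSingletonClass G] : ∀ᵐ s ∂G, 0 < G (Set.Iio s) := by
  have hS : G {s | G (Set.Iio s) = 0} = 0 := by
    have hcov : {s | G (Set.Iio s) = 0} ⊆
        (⋃ q ∈ {q : ℚ | G (Set.Iio (q : ℝ)) = 0}, Set.Iio (q : ℝ)) ∪
          {s | G (Set.Iio s) = 0 ∧ ∀ q : ℚ, G (Set.Iio (q : ℝ)) = 0 → (q : ℝ) ≤ s} := by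
      intro s hs
      by_cases h : ∀ q : ℚ, G (Set.Iio (q : ℝ)) = 0 → (q : ℝ) ≤ s
      · exact Or.inr ⟨hs, h⟩
      · push Not at h
        obtain ⟨q, hq1, hq2⟩ := h
        exact Or.inl (Set.mem_iUnion₂.2 ⟨q, hq1, hq2⟩)
    refine measure_mono_null hcov (measure_union_null ?_ ?_)
    · exact (measure_biUnion_null_iff (Set.to_countable _)).2 fun q hq => hq
    · refine Set.Subsingleton.measure_zero ?_ G
      rintro a ⟨ha1, ha2⟩ b ⟨hb1, hb2⟩
      by_contra hne
      rcases lt_or_gt_of_ne hne with h | h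
      · obtain ⟨q, hq1, hq2⟩ := exists_rat_btwn h
        have h0 : G (Set.Iio (q : ℝ)) = 0 := measure_mono_null (Set.Iio_subset_Iio hq2.le) hb1
        exact absurd (ha2 q h0) (not_le.2 hq1)
      · obtain ⟨q, hq1, hq2⟩ := exists_rat_btwn h
        have h0 : G (Set.Iio (q : ℝ)) = 0 := measure_mono_null (Set.Iio_subset_Iio hq2.le) ha1
        exact absurd (hb2 q h0) (not_le.2 hq1)
  rw [ae_iff]
  simpa only [pos_iff_ne_zero, ne_eq, Decidable.not_not] using hS

omit [IsProbabilityMeasure G] in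
theorem exists_low {s : ℝ} (hs : 0 < G (Set.Iio s)) :
    ∃ n : ℕ, 0 < G (Set.Iio (s - 1 / ((n : ℝ) + 1))) := by
  by_contra h
  push Not at h
  have hcov : Set.Iio s ⊆ ⋃ n : ℕ, Set.Iio (s - 1 / ((n : ℝ) + 1)) := by
    intro a ha
    obtain ⟨n, hn⟩ := exists_nat_one_div_lt (sub_pos.2 (Set.mem_Iio.1 ha))
    refine Set.mem_iUnion.2 ⟨n, ?_⟩
    rw [Set.mem_Iio]
    linarith only [hn]
  have : G (Set.Iio s) = 0 := measure_mono_null hcov
    (measure_iUnion_null fun n => le_antisymm (h n) bot_le)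
  exact hs.ne' this

/-- **Finite energy, general atomless law.** -/
theorem robust_gen [NullSingletonClass G] (hG : G (Set.Iio 0) = 0) (Q : (ℤ → V) → Prop)
    (h : ∀ η : ℝ, 0 < η → ∀ᵐ t ∂PG G, ∀ v, IsBi (wt t) v → v 0 = 0 → Q v →
      ¬ SlkR η (wt t) v) :
    ∀ᵐ t ∂PG G, ∀ v, IsBi (wt t) v → v 0 = 0 → ¬ Q v := by
  have h1 : ∀ᵐ t ∂PG G, ∀ n : ℕ, Adm (wt t) ∧ ∀ v, IsBi (wt t) v → v 0 = 0 → Q v →
      ¬ SlkR (1 / ((n : ℝ) + 1)) (wt t) v := by
    rw [ae_all_iff]
    intro n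
    exact (ae_adm hG).and (h _ (by (clear * -; positivity)))
  have h2 : ∀ᵐ t ∂PG G, ∀ e : latt.edgeSet, ∀ᵐ s ∂G, ∀ n : ℕ,
      Adm (wt (Function.update t e s)) ∧
      ∀ v, IsBi (wt (Function.update t e s)) v → v 0 = 0 → Q v →
        ¬ SlkR (1 / ((n : ℝ) + 1)) (wt (Function.update t e s)) v := by
    rw [ae_all_iff]
    exact fun e => ae_update h1 e
  have h3 : ∀ᵐ t ∂PG G, ∀ e : latt.edgeSet, 0 < G (Set.Iio (t e)) := by
    rw [ae_all_iff]
    intro e
    exact (measurePreserving_eval_infinitePi (fun _ : latt.edgeSet => G) e).quasiMeasurePreserving.ae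
      null_low
  filter_upwards [ae_adm hG, h2, h3] with t hw h2 h3 v hv hv0 hQ
  have h01 : latt.Adj (v 0) (v 1) := by simpa using isBi_adj hv 0
  set e : latt.edgeSet := ⟨s(v 0, v 1), h01⟩ with he
  obtain ⟨n, hn⟩ := exists_low (h3 e)
  have h4 : ∃ s ∈ Set.Iio (t e - 1 / ((n : ℝ) + 1)), ∀ n : ℕ,
      Adm (wt (Function.update t e s)) ∧
      ∀ v, IsBi (wt (Function.update t e s)) v → v 0 = 0 → Q v →
        ¬ SlkR (1 / ((n : ℝ) + 1)) (wt (Function.update t e s)) v := by
    by_contra hc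
    push Not at hc
    have : G (Set.Iio (t e - 1 / ((n : ℝ) + 1))) = 0 := by
      refine measure_mono_null ?_ (ae_iff.1 (h2 e))
      intro s hs hcon
      obtain ⟨m, hm⟩ := hc s hs
      obtain ⟨v', hv'⟩ := hm (hcon m).1
      exact (hcon m).2 v' hv'.1 hv'.2.1 hv'.2.2.1 hv'.2.2.2
    exact hn.ne' this
  obtain ⟨s, hs, hs2⟩ := h4
  rw [Set.mem_Iio] at hs
  have hn0 : (0 : ℝ) < 1 / ((n : ℝ) + 1) := by positivity
  have key := slk_of_lower hw (hs2 0).1 hv (δ := t e - s) (by linarith only [hs, hn0]) ?_ ?_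
  · exact (hs2 n).2 v key.1 hv0 hQ (key.2.mono (by linarith only [hs]))
  · intro x y hxy hne
    rw [wt_mk _ hxy, wt_mk _ hxy, Function.update_of_ne]
    intro h'
    exact hne (congrArg Subtype.val h')
  · intro x y hxy hE
    have : (⟨s(x, y), hxy⟩ : latt.edgeSet) = e := Subtype.ext hE
    rw [wt_mk _ hxy, wt_mk _ hxy, this, Function.update_self]
    ring

end Vale.Agent.P158.C
end
end

section

section

/-! Tree lemma: definitions and statements.  `S` is a finite connected domain, `A` the set of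
sources, `y` the target, all outside the box `bx 0 m`; the weights of the edges touching
`bx 0 m` are random, the other ones are frozen. -/

namespace Vale.Agent.P158.T1

open Filter MeasureTheory
open scoped ENNReal

/-- The directed edge `p → x` lies on a geodesic from `s` to `y` inside `S`. -/
def UE (w : V → V → ℝ) (S : Set V) (s y p x : V) : Prop :=
  latt.Adj p x ∧ p ∈ S ∧ x ∈ S ∧ PT w S s p + w p x + PT w S x y = PT w S s y

/-- `p` lies on a geodesic from some source in `A` to `y`, and the geodesic leaves `p`. -/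
def TV (w : V → V → ℝ) (S A : Set V) (y p : V) : Prop := ∃ s ∈ A, ∃ x, UE w S s y p x

/-- `x` is a merge vertex: it is entered by two geodesics from `A` to `y` through different
edges. -/
def MV (w : V → V → ℝ) (S A : Set V) (y x : V) : Prop :=
  ∃ s ∈ A, ∃ s' ∈ A, ∃ p p', p ≠ p' ∧ UE w S s y p x ∧ UE w S s' y p' x

/-- The deterministic setting of the tree lemma. -/
structure TSet (m : ℕ) (S A : Set V) (y : V) : Prop where
  fin : S.Finite
  box : bx 0 m ⊆ S
  conn : ∀ x ∈ S, ∀ y ∈ S, Conn S x y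
  hA : A ⊆ S \ bx 0 m
  hy : y ∈ S \ bx 0 m

section
variable (G : Measure ℝ) [IsProbabilityMeasure G]

/-- Tree lemma, merges, without freezing. -/
def TreeFStmt : Prop :=
  ∀ η : ℝ, 0 < η → ∃ m₀ : ℕ, ∀ m ≥ m₀, ∀ (S A : Set V) (y : V), TSet m S A y →
    ∀ k : ℕ, 3 * k ≤ 2 * m →
      ∑ x ∈ Pe.bxF 0 k, PG G {t | MV (wt t) S A y x} ≤ ENNReal.ofReal (η * m)

end

end Vale.Agent.P158.T1
end
end

section

section

/-! General atomless laws: definitions and statements for the merge bound `MrgStmt`.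

Scheme.  `WinStmt` (window lemma, by lowering weights only), `EdgeStmt` (one-edge inequality) and
`LenStmt` give `MrgStmt`:
* if `Dbl` fails at the block `bx z K`, then all heads `v ∈ bx z K` of robust tree edges lie on
  every geodesic `s' → y` through `bx z K`; hence (`LenE`) there are at most `C₁ K` of them;
* summing over disjoint blocks: `E #(robust tree edges in bx 0 m) ≤ C₁ m² / K + C K² (∑_z P(Dbl))`
  and `∑_z P(Dbl at z) ≤ ε (m/K)² + C E #(merge vertices) ≤ ε (m/K)² + C' m`;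
* `EdgeStmt`: `E #(tree edges in bx 0 m) ≤ δ m² + c⁻¹ E #(robust ones)`;
* count lemma: `#(merge vertices in bx 0 ρ) ≤ #(tree vertices in the ring ρ + 1)` for every
  `m / 2 ≤ ρ < m`; average over `ρ`: `E #(merge vertices in bx 0 (m/2)) ≤ 2 E #(tree) / m`. -/

namespace Vale.Agent.P158.C

open MeasureTheory Vale.Agent.P158.T1
open scoped ENNReal NNReal

/-- The directed edge `p → v` is robustly used by the geodesic `s → y` inside `S`. -/
def RobE (w : V → V → ℝ) (S : Set V) (s y p v : V) (h : ℝ) : Prop :=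
  UE w S s y p v ∧ ∀ q : latt.Walk s y, (∀ z ∈ q.support, z ∈ S) → s(p, v) ∉ q.edges →
    PT w S s y + h ≤ ww w q

/-- Two strands in the block `bx z K`: the head `v` of a robust tree edge, and a vertex `v'` on a
geodesic `s' → y` such that `v` is on no geodesic `s' → y`. -/
def Dbl (w : V → V → ℝ) (S A : Set V) (y : V) (h : ℝ) (z : V) (K : ℕ) : Prop :=
  ∃ s ∈ A, ∃ s' ∈ A, ∃ p v v' : V, RobE w S s y p v h ∧ v ∈ bx z K ∧ v' ∈ bx z K ∧
    On w S s' y v' ∧ ¬ On w S s' y v

section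
variable (G : Measure ℝ) [IsProbabilityMeasure G]

/-- (L3) Window lemma: two strands in a block can be made to merge in a larger window with a
probability bounded from below. -/
def WinStmt : Prop :=
  ∀ (K : ℕ) (h ε : ℝ), 0 < h → 0 < ε → ∃ (r : ℕ) (C : ℝ≥0), K ≤ r ∧
    ∀ (m : ℕ) (S A : Set V) (y : V), TSet m S A y → ∀ z : V, bx z (r + 1) ⊆ bx 0 m →
      PG G {t | Dbl (wt t) S A y h z K} ≤
        ENNReal.ofReal ε + C * PG G {t | ∃ x ∈ bx z r, MV (wt t) S A y x}

/-- (L4) One-edge inequality. -/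
def EdgeStmt : Prop :=
  ∀ δ : ℝ, 0 < δ → ∃ (h : ℝ) (C : ℝ≥0), 0 < h ∧
    ∀ (S A : Set V) (y : V), S.Finite → (∀ a ∈ S, ∀ b ∈ S, Conn S a b) → A ⊆ S → y ∈ S →
      ∀ p v : V, PG G {t | ∃ s ∈ A, UE (wt t) S s y p v} ≤
        ENNReal.ofReal δ + C * PG G {t | ∃ s ∈ A, RobE (wt t) S s y p v h}

end

end Vale.Agent.P158.C
end
end

section

section

/-! One-edge inequality (`EdgeStmt`) for every atomless law. -/

namespace Vale.Agent.P158.C.LowEdge

open SimpleGraph MeasureTheory Filter Vale.Agent.P158.T1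
open scoped ENNReal NNReal Topology

variable {G : Measure ℝ} [IsProbabilityMeasure G]

/-- The distribution function of an atomless law is continuous. -/
theorem continuous_cdf [NullSingletonClass G] : Continuous (ProbabilityTheory.cdf G) := by
  rw [continuous_iff_continuousAt]
  intro x
  rw [(ProbabilityTheory.monotone_cdf G).continuousAt_iff_leftLim_eq_rightLim,
    StieltjesFunction.rightLim_eq]
  have h1 : (ProbabilityTheory.cdf G).measure {x} = 0 := by
    rw [ProbabilityTheory.measure_cdf]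
    exact measure_singleton x
  rw [StieltjesFunction.measure_singleton, ENNReal.ofReal_eq_zero] at h1
  exact le_antisymm ((ProbabilityTheory.monotone_cdf G).leftLim_le le_rfl) (by linarith)

/-- Quantiles of an atomless law. -/
theorem exists_quantile [NullSingletonClass G] {δ : ℝ} (h0 : 0 < δ) (h1 : δ < 1) :
    ∃ q h : ℝ, 0 < h ∧ G (Set.Iic q) = ENNReal.ofReal δ ∧
      ENNReal.ofReal (δ / 2) ≤ G (Set.Iic (q - h)) := by
  obtain ⟨a, ha⟩ := ((ProbabilityTheory.tendsto_cdf_atBot G).eventually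
    (gt_mem_nhds h0)).exists
  obtain ⟨b, hb⟩ := ((ProbabilityTheory.tendsto_cdf_atTop G).eventually
    (lt_mem_nhds h1)).exists
  obtain ⟨q, hq⟩ := mem_range_of_exists_le_of_exists_ge (continuous_cdf (G := G))
    ⟨a, ha.le⟩ ⟨b, hb.le⟩
  have hcq := (continuous_cdf (G := G)).continuousAt (x := q)
  have hev : ∀ᶠ x in 𝓝 q, δ / 2 < ProbabilityTheory.cdf G x := by
    refine hcq.eventually (lt_mem_nhds ?_)
    rw [hq]; linarith only [h0]
  obtain ⟨ε, hε, hball⟩ := Metric.eventually_nhds_iff.1 hev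
  refine ⟨q, ε / 2, by (clear * - hε; positivity), ?_, ?_⟩
  · rw [← ProbabilityTheory.ofReal_cdf, hq]
  · rw [← ProbabilityTheory.ofReal_cdf]
    refine ENNReal.ofReal_le_ofReal (hball ?_).le
    rw [Real.dist_eq]
    have : q - ε / 2 - q = -(ε / 2) := by ring
    rw [this, abs_neg, abs_of_pos (by (clear * - hε; positivity))]
    linarith only [hε]

theorem adm_upd {t : Env} (hw : Adm (wt t)) (e : latt.edgeSet) {s : ℝ} (hs : 0 < s) :
    Adm (wt (Function.update t e s)) := by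
  refine ⟨wt_symm _, fun x y hxy => ?_⟩
  rw [wt_mk _ hxy]
  by_cases h : (⟨s(x, y), hxy⟩ : latt.edgeSet) = e
  · rw [h, Function.update_self]; exact hs
  · rw [Function.update_of_ne h]; exact env_pos hw _

/-- Lowering an edge of a geodesic makes the geodesic robust at this edge. -/
theorem rob_of_lower {w w' : V → V → ℝ} (hw : Adm w) (hw' : Adm w') {S : Set V}
    (hc : ∀ a ∈ S, ∀ b ∈ S, Conn S a b) {s y p v : V} (hs : s ∈ S) (hy : y ∈ S) {d : ℝ}
    (hd : 0 ≤ d)
    (hout : ∀ a b, latt.Adj a b → s(a, b) ≠ s(p, v) → w' a b = w a b)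
    (hin : ∀ a b, latt.Adj a b → s(a, b) = s(p, v) → w' a b = w a b - d)
    (h : UE w S s y p v) : RobE w' S s y p v d := by
  obtain ⟨hadj, hp, hv, he⟩ := h
  have hle : ∀ a b, latt.Adj a b → w' a b ≤ w a b := by
    intro a b hab
    by_cases hE : s(a, b) = s(p, v)
    · rw [hin a b hab hE]; linarith only [hd]
    · exact (hout a b hab hE).le
  have h1 : PT w S s y - d ≤ PT w' S s y := le_PT (hc s hs y hy) fun q hq => by
    have a1 := PT_le hw q.bypass (fun z hz => hq z (q.support_bypass_subset_support hz))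
    have a2 := ww_trail_ge hd hout hin q.bypass q.bypass_isPath.isTrail
    have a3 := ww_bypass_le hw' q
    linarith
  have h2 : PT w' S s p ≤ PT w S s p := PT_mono_weight hw' hle (hc s hs p hp)
  have h3 : PT w' S v y ≤ PT w S v y := PT_mono_weight hw' hle (hc v hv y hy)
  have h4 := hin p v hadj rfl
  have h5 : PT w' S s y ≤ PT w' S s p + w' p v + PT w' S v y := by
    have b1 := PT_triangle hw' (hc s hs p hp) (hc p hp y hy)
    have b2 := PT_triangle hw' (hc p hp v hv) (hc v hv y hy)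
    have b3 := PT_adj_le hw' hadj hp hv
    linarith
  refine ⟨⟨hadj, hp, hv, by linarith only [h5, he, h1, h2, h3, h4]⟩, fun q hq hne => ?_⟩
  rw [ww_off hout q hne]
  have b4 := PT_le hw q hq
  linarith

theorem rob_mono {w : V → V → ℝ} {S : Set V} {s y p v : V} {h h' : ℝ} (hh : h' ≤ h)
    (H : RobE w S s y p v h) : RobE w S s y p v h' :=
  ⟨H.1, fun q hq hne => by linarith [H.2 q hq hne]⟩

theorem measurable_UE (S : Set V) (s y p v : V) : Measurable fun t : Env => UE (wt t) S s y p v := by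
  unfold UE
  refine Measurable.and measurable_const (Measurable.and measurable_const
    (Measurable.and measurable_const ?_))
  exact measurableSet_setOfPred.1 (measurableSet_eq_fun
    (((measurable_PT _ _ _).add (measurable_wt _ _)).add (measurable_PT _ _ _))
    (measurable_PT _ _ _))

theorem measurable_RobE (S : Set V) (s y p v : V) (h : ℝ) :
    Measurable fun t : Env => RobE (wt t) S s y p v h := by
  unfold RobE
  refine (measurable_UE S s y p v).and ?_
  refine Measurable.forall fun q => ?_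
  refine Measurable.forall fun _ => Measurable.forall fun _ => ?_
  exact measurableSet_setOfPred.1
    (measurableSet_le ((measurable_PT _ _ _).add_const h) (measurable_ww q))

theorem edge [NullSingletonClass G] (hG : G (Set.Iio 0) = 0) : EdgeStmt G := by
  classical
  intro δ hδ
  rcases le_or_gt 1 δ with h1 | h1
  · refine ⟨1, 0, one_pos, fun S A y _ _ _ _ p v => ?_⟩
    refine prob_le_one.trans (le_add_right ?_)
    rw [← ENNReal.ofReal_one]
    exact ENNReal.ofReal_le_ofReal h1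
  obtain ⟨q, h, hh, hq, hqh⟩ := exists_quantile (G := G) hδ h1
  have hG0 : G (Set.Iic 0) = 0 := by
    rw [← Set.Iio_union_right, measure_union_null_iff]
    exact ⟨hG, measure_singleton _⟩
  have hC : (0 : ℝ) < 2 / δ := by positivity
  refine ⟨h, (2 / δ).toNNReal, hh, fun S A y hS hconn hA hy p v => ?_⟩
  have hAf : A.Finite := hS.subset hA
  by_cases hadj : latt.Adj p v
  swap
  · have : {t : Env | ∃ s ∈ A, UE (wt t) S s y p v} = ∅ := by
      ext t
      simp only [Set.mem_ofPred_eq, Set.mem_empty_iff_false, iff_false]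
      rintro ⟨s, _, hU⟩
      exact hadj hU.1
    rw [this, measure_empty]
    exact zero_le
  set e : latt.edgeSet := ⟨s(p, v), hadj⟩ with he
  set E₁ : Set Env := {t | ∃ s ∈ A, UE (wt t) S s y p v} with hE₁
  set E₂ : Set Env := {t | ∃ s ∈ A, RobE (wt t) S s y p v h} with hE₂
  have hm₁ : MeasurableSet E₁ := by
    rw [hE₁]
    have : {t : Env | ∃ s ∈ A, UE (wt t) S s y p v} =
        ⋃ s ∈ A, {t : Env | UE (wt t) S s y p v} := by ext t; simp only [Prod.exists, Set.mem_ofPred_eq, Set.mem_iUnion, exists_prop]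
    rw [this]
    exact MeasurableSet.biUnion hAf.countable fun s _ =>
      measurableSet_setOfPred.2 (measurable_UE S s y p v)
  have hm₂ : MeasurableSet E₂ := by
    rw [hE₂]
    have : {t : Env | ∃ s ∈ A, RobE (wt t) S s y p v h} =
        ⋃ s ∈ A, {t : Env | RobE (wt t) S s y p v h} := by ext t; simp only [Prod.exists, Set.mem_ofPred_eq, Set.mem_iUnion, exists_prop]
    rw [this]
    exact MeasurableSet.biUnion hAf.countable fun s _ =>
      measurableSet_setOfPred.2 (measurable_RobE S s y p v h)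
  have hmp := mp_update (G := G) e
  have hI : ∀ E : Set Env, MeasurableSet E →
      PG G E = ∫⁻ t, G {s | Function.update t e s ∈ E} ∂PG G := by
    intro E hE
    rw [← hmp.measure_preimage hE.nullMeasurableSet, Measure.prod_apply (hmp.measurable hE)]
    rfl
  rw [hI E₁ hm₁, hI E₂ hm₂]
  have hmeas₂ : Measurable fun t : Env => G {s | Function.update t e s ∈ E₂} :=
    measurable_measure_prodMk_left (ν := G) (hmp.measurable hm₂)
  rw [← lintegral_const_mul _ hmeas₂]
  have hconst : ENNReal.ofReal δ = ∫⁻ _ : Env, ENNReal.ofReal δ ∂PG G := by simp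
  rw [hconst, ← lintegral_add_left measurable_const]
  refine lintegral_mono_ae ?_
  filter_upwards [ae_adm hG] with t hw
  have hpos : ∀ e', 0 < t e' := fun e' => env_pos hw e'
  by_cases hc : ∃ τ, q < τ ∧ Function.update t e τ ∈ E₁
  · obtain ⟨τ, hqτ, s, hs, hU⟩ := hc
    have hsub : Set.Iic (q - h) ⊆ {s | Function.update t e s ∈ E₂} ∪ Set.Iic 0 := by
      intro τ' hτ'
      rw [Set.mem_Iic] at hτ'
      by_cases h0 : τ' ≤ 0
      · exact Or.inr h0
      push Not at h0
      refine Or.inl ⟨s, hs, ?_⟩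
      have hτpos : 0 < τ := by linarith only [hh, hqτ, hτ', h0]
      have hw1 : Adm (wt (Function.update t e τ)) := adm_upd hw e hτpos
      have hw2 : Adm (wt (Function.update t e τ')) := adm_upd hw e h0
      refine rob_mono (h := τ - τ') (by linarith only [hqτ, hτ']) (rob_of_lower hw1 hw2 hconn (hA hs) hy
        (by linarith only [hh, hqτ, hτ']) ?_ ?_ hU)
      · intro a b hab hne
        rw [wt_mk _ hab, wt_mk _ hab, Function.update_of_ne, Function.update_of_ne]
        · exact fun h' => hne (congrArg Subtype.val h')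
        · exact fun h' => hne (congrArg Subtype.val h')
      · intro a b hab hE
        have : (⟨s(a, b), hab⟩ : latt.edgeSet) = e := Subtype.ext hE
        rw [wt_mk _ hab, wt_mk _ hab, this, Function.update_self, Function.update_self]
        ring
    have hge : ENNReal.ofReal (δ / 2) ≤ G {s | Function.update t e s ∈ E₂} := by
      calc ENNReal.ofReal (δ / 2) ≤ G (Set.Iic (q - h)) := hqh
        _ ≤ G ({s | Function.update t e s ∈ E₂} ∪ Set.Iic 0) := measure_mono hsub
        _ ≤ G {s | Function.update t e s ∈ E₂} + G (Set.Iic 0) := measure_union_le _ _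
        _ = _ := by rw [hG0, add_zero]
    calc G {s | Function.update t e s ∈ E₁} ≤ 1 := prob_le_one
      _ = ((2 / δ).toNNReal : ℝ≥0∞) * ENNReal.ofReal (δ / 2) := by
        rw [← ENNReal.ofReal, ← ENNReal.ofReal_mul hC.le]
        have : 2 / δ * (δ / 2) = 1 := by field_simp
        rw [this, ENNReal.ofReal_one]
      _ ≤ ((2 / δ).toNNReal : ℝ≥0∞) * G {s | Function.update t e s ∈ E₂} := by (clear * - hge; gcongr)
      _ ≤ _ := le_add_left le_rfl
  · push Not at hc
    have hsub : {s | Function.update t e s ∈ E₁} ⊆ Set.Iic q := by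
      intro τ hτ
      by_contra hcon
      exact hc τ (not_le.1 hcon) hτ
    calc G {s | Function.update t e s ∈ E₁} ≤ G (Set.Iic q) := measure_mono hsub
      _ = ENNReal.ofReal δ := hq
      _ ≤ _ := le_add_right le_rfl

end Vale.Agent.P158.C.LowEdge
end
end

section

section

/-! Plan C' without any moment assumption: the truncated environment `Tr M t`.

An edge is light if its weight is at most `M`.  Around (almost surely) every edge `e` there is a
finite set `K` of vertices, connected through light edges, that separates `e` from infinity.  A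
bigeodesic never uses `e` if `t e > M * K.card`, so large weights can be truncated at the (random,
but integrable) level `M * K.card` without changing the bigeodesics. -/

namespace Vale.Agent.P158.C

open Filter MeasureTheory Vale.Agent.P158.T1
open scoped ENNReal

/-- `K` is connected through edges of weight at most `M` with both ends in `K`. -/
def LC (M : ℝ) (t : Env) (K : Set V) : Prop :=
  ∀ x ∈ K, ∀ y ∈ K, ∃ p : latt.Walk x y, p.IsPath ∧ (∀ z ∈ p.support, z ∈ K) ∧
    ∀ e : latt.edgeSet, (e : Sym2 V) ∈ p.edges → t e ≤ M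

/-- `K` separates `x` from infinity. -/
def Sep (K : Set V) (x : V) : Prop :=
  ∃ n : ℕ, ∀ y, y ∉ bx x n → ∀ p : latt.Walk x y, ∃ z ∈ p.support, z ∈ K

/-- There is a light connected set of at most `n` vertices that separates the edge `e` from
infinity. -/
def Circ (M : ℝ) (t : Env) (e : latt.edgeSet) (n : ℕ) : Prop :=
  ∃ K : Finset V, 1 ≤ n ∧ K.card ≤ n ∧ LC M t K ∧ ∀ x ∈ (e : Sym2 V), Sep K x

/-- The smallest size of a light separating set. -/
noncomputable def cs (M : ℝ) (t : Env) (e : latt.edgeSet) : ℕ := sInf {n | Circ M t e n}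

/-- Truncation level of an edge. -/
noncomputable def tl (M : ℝ) (t : Env) (e : latt.edgeSet) : ℝ := M * max 1 (cs M t e : ℝ)

/-- The truncated environment. -/
noncomputable def Tr (M : ℝ) (t : Env) : Env := fun e =>
  if t e ≤ tl M t e + 1 then t e else tl M t e + t e / (1 + t e)

/-! ### Deterministic statements -/

/-- (T1) Light edges keep their weight, heavy edges stay above `M`, weights do not increase and
stay positive. -/
def TrBasicStmt : Prop :=
  ∀ (M : ℝ) (t : Env), 0 < M → (∀ e, 0 < t e) → ∀ e,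
    (t e ≤ M → Tr M t e = t e) ∧ (M < t e → M < Tr M t e) ∧ Tr M t e ≤ t e ∧ 0 < Tr M t e ∧
      Tr M t e ≤ tl M t e + 1

/-- (T2) Locality: the truncated weight of `e` depends on the weight of `e` and on the set of
light edges. -/
def TrLocStmt : Prop :=
  ∀ (M : ℝ) (t t' : Env), (∀ e, t e ≤ M ↔ t' e ≤ M) → ∀ e, t e = t' e → Tr M t e = Tr M t' e

/-- (T3) Translations. -/
def TrShStmt : Prop := ∀ (M : ℝ) (u : V) (t : Env), Tr M (shE u t) = shE u (Tr M t)

/-- (T4) Measurability. -/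
def TrMeasStmt : Prop := ∀ M : ℝ, Measurable (Tr M)

/-- (T5) Bigeodesics are the same. -/
def TrBiStmt : Prop :=
  ∀ (M : ℝ) (t : Env), 0 < M → (∀ e, 0 < t e) → (∀ e, ∃ n, Circ M t e n) →
    ∀ v : ℤ → V, IsBi (wt (Tr M t)) v ↔ IsBi (wt t) v

/-- (T6) Slack is the same, up to the cut off `M`. -/
def TrSLStmt : Prop :=
  ∀ (M : ℝ) (t : Env), 0 < M → (∀ e, 0 < t e) → (∀ e, ∃ n, Circ M t e n) →
    ∀ v : ℤ → V, IsBi (wt t) v → ∀ h : ℝ, (SL h (wt (Tr M t)) v → SL h (wt t) v) ∧
      (h ≤ M → SL h (wt t) v → SL h (wt (Tr M t)) v)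

/-- (T7) Crossing lemma for rectangles. -/
def RectCrossStmt : Prop :=
  ∀ a b c d : ℤ, a < b → c < d → ∀ (y₁ y₂ x₁ x₂ : ℤ), c ≤ y₁ → y₁ ≤ d → c ≤ y₂ → y₂ ≤ d →
    a ≤ x₁ → x₁ ≤ b → a ≤ x₂ → x₂ ≤ b →
    ∀ (p : latt.Walk ((a, y₁) : V) (b, y₂)) (q : latt.Walk ((x₁, c) : V) (x₂, d)),
      (∀ v ∈ p.support, (a ≤ v.1 ∧ v.1 ≤ b) ∧ c ≤ v.2 ∧ v.2 ≤ d) →
      (∀ v ∈ q.support, (a ≤ v.1 ∧ v.1 ≤ b) ∧ c ≤ v.2 ∧ v.2 ≤ d) →
      ∃ v, v ∈ p.support ∧ v ∈ q.support

/-- Light crossing of the rectangle `[a, b] × [c, d]` from left to right. -/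
def HC (M : ℝ) (t : Env) (a b c d : ℤ) : Prop :=
  ∃ (y₁ y₂ : ℤ) (p : latt.Walk ((a, y₁) : V) (b, y₂)),
    (∀ v ∈ p.support, (a ≤ v.1 ∧ v.1 ≤ b) ∧ c ≤ v.2 ∧ v.2 ≤ d) ∧
    ∀ e : latt.edgeSet, (e : Sym2 V) ∈ p.edges → t e ≤ M

/-- Light crossing of the rectangle `[a, b] × [c, d]` from bottom to top. -/
def VC (M : ℝ) (t : Env) (a b c d : ℤ) : Prop :=
  ∃ (x₁ x₂ : ℤ) (p : latt.Walk ((x₁, c) : V) (x₂, d)),
    (∀ v ∈ p.support, (a ≤ v.1 ∧ v.1 ≤ b) ∧ c ≤ v.2 ∧ v.2 ≤ d) ∧
    ∀ e : latt.edgeSet, (e : Sym2 V) ∈ p.edges → t e ≤ M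

section
variable (G : Measure ℝ) [IsProbabilityMeasure G]

/-- (T8) Renormalisation: long rectangles are crossed by light edges except with a probability
that is exponentially small in the size. -/
def RenormStmt : Prop :=
  ∀ δ : ℝ≥0∞, 0 < δ → ∃ M₀ : ℝ, 0 < M₀ ∧ ∀ M ≥ M₀, ∀ k : ℕ, ∀ a c : ℤ,
    PG G {t | ¬ HC M t a (a + 3 * 4 ^ (k + 1)) c (c + 4 ^ (k + 1))} ≤ δ ^ (2 ^ k) ∧
    PG G {t | ¬ VC M t a (a + 4 ^ (k + 1)) c (c + 3 * 4 ^ (k + 1))} ≤ δ ^ (2 ^ k)

/-- (T9) Light circuits: almost sure existence and integrability of the truncation level. -/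
def CircStmt : Prop :=
  ∃ M₀ : ℝ, 0 < M₀ ∧ ∀ M ≥ M₀, (∀ᵐ t ∂PG G, ∀ e, ∃ n, Circ M t e n) ∧
    ∃ E : ℝ≥0∞, E ≠ ∞ ∧ ∀ e, ∫⁻ t, ENNReal.ofReal (tl M t e) ∂PG G ≤ E

/-- (T10) Uniqueness of geodesics for the truncated environment. -/
def TrUqStmt : Prop := ∀ M : ℝ, 0 < M → ∀ᵐ t ∂PG G, Uq (wt (Tr M t))

/-- (T11) Ergodic averages of an integrable field: the sum over some ring is at most
linear, with probability tending to one. -/
def RingAvStmt : Prop :=
  ∀ F : Env → Env, Measurable F → (∀ u t, F (shE u t) = shE u (F t)) →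
    (∀ t, (∀ e, 0 < t e) → ∀ e, 0 < F t e) →
    (∃ E : ℝ≥0∞, E ≠ ∞ ∧ ∀ e, ∫⁻ t, ENNReal.ofReal (F t e) ∂PG G ≤ E) →
    ∃ C : ℝ, 0 < C ∧ ∀ δ : ℝ, 0 < δ → ∃ r₀ : ℕ, ∀ r ≥ r₀,
      PG G {t | ¬ ∃ k : ℕ, r ≤ k ∧ k ≤ 2 * r ∧ rs (wt (F t)) 0 k ≤ C * r} ≤ ENNReal.ofReal δ

end

end Vale.Agent.P158.C
end
end

section

section

/-! (T9) Light circuits around every edge; integrability of the truncation level. -/

namespace Vale.Agent.P158.C.Crc

open Filter MeasureTheory Vale.Agent.P158.T1 Vale.Agent.P158.C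
open scoped ENNReal

/-! ### Walks -/

/-- The suffix of a walk after its last vertex in `P`. -/
theorem exists_suffix (P : V → Prop) : ∀ {u v : V} (p : latt.Walk u v),
    (∃ x ∈ p.support, P x) → ¬ P v →
    ∃ (z' z₁ : V) (q : latt.Walk z₁ v), P z' ∧ latt.Adj z' z₁ ∧ z' ∈ p.support ∧
      ∀ x ∈ q.support, ¬ P x ∧ x ∈ p.support := by
  intro u v p
  induction p with
  | nil =>
    rintro ⟨x, hx, hP⟩ hv
    simp only [SimpleGraph.Walk.support_nil, List.mem_singleton] at hx
    subst hx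
    exact absurd hP hv
  | @cons u w v h p ih =>
    rintro ⟨x, hx, hP⟩ hv
    by_cases hp : ∃ y ∈ p.support, P y
    · obtain ⟨z', z₁, q, h1, h2, h3, h4⟩ := ih hp hv
      refine ⟨z', z₁, q, h1, h2, ?_, fun y hy => ⟨(h4 y hy).1, ?_⟩⟩
      · rw [SimpleGraph.Walk.support_cons]; exact List.mem_cons_of_mem _ h3
      · rw [SimpleGraph.Walk.support_cons]; exact List.mem_cons_of_mem _ (h4 y hy).2
    · push Not at hp
      rw [SimpleGraph.Walk.support_cons, List.mem_cons] at hx
      rcases hx with rfl | hx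
      · refine ⟨x, w, p, hP, h, by simp, fun y hy => ⟨hp y hy, ?_⟩⟩
        rw [SimpleGraph.Walk.support_cons]; exact List.mem_cons_of_mem _ hy
      · exact absurd hP (hp x hx)

/-- The prefix of a walk up to its first vertex outside `S`. -/
theorem exists_prefix (S : V → Prop) {u v : V} (p : latt.Walk u v) (hu : S u) (hv : ¬ S v) :
    ∃ (z' : V) (q : latt.Walk u z'), ¬ S z' ∧ (∃ z₁, S z₁ ∧ latt.Adj z₁ z') ∧
      ∀ x ∈ q.support, (S x ∨ x = z') ∧ x ∈ p.support := by
  obtain ⟨z', z₁, q, h1, h2, h3, h4⟩ := exists_suffix (fun x => ¬ S x) p.reverse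
    ⟨v, by simp, hv⟩ (not_not.2 hu)
  have hz₁ : S z₁ := not_not.1 (h4 z₁ (by simp)).1
  refine ⟨z', q.reverse.concat h2.symm, h1, ⟨z₁, hz₁, h2.symm⟩, ?_⟩
  intro x hx
  rw [SimpleGraph.Walk.support_concat, List.mem_append,
    SimpleGraph.Walk.support_reverse, List.mem_reverse, List.mem_singleton] at hx
  rcases hx with hx | rfl
  · obtain ⟨g1, g2⟩ := h4 x hx
    rw [SimpleGraph.Walk.support_reverse, List.mem_reverse] at g2
    exact ⟨Or.inl (not_not.1 g1), g2⟩
  · rw [SimpleGraph.Walk.support_reverse, List.mem_reverse] at h3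
    exact ⟨Or.inr rfl, h3⟩

theorem adj_coords {x y : V} (h : latt.Adj x y) :
    (x.1 - 1 ≤ y.1 ∧ y.1 ≤ x.1 + 1) ∧ x.2 - 1 ≤ y.2 ∧ y.2 ≤ x.2 + 1 := by
  have h' : |x.1 - y.1| + |x.2 - y.2| = 1 := h
  have e1 := abs_nonneg (x.1 - y.1)
  have e2 := abs_nonneg (x.2 - y.2)
  have f1 : |x.1 - y.1| ≤ 1 := by linarith only [h', e2]
  have f2 : |x.2 - y.2| ≤ 1 := by linarith
  rw [abs_le] at f1 f2
  exact ⟨⟨by linarith [f1.2], by linarith [f1.1]⟩, by linarith [f2.2], by linarith [f2.1]⟩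

/-- the first exit from an open square, along a walk inside the closed square -/
theorem first_exit {a b c d : ℤ} {x y : V} (p : latt.Walk x y)
    (hx : (a < x.1 ∧ x.1 < b) ∧ c < x.2 ∧ x.2 < d)
    (hy : ¬ ((a < y.1 ∧ y.1 < b) ∧ c < y.2 ∧ y.2 < d)) :
    ∃ (z : V) (q : latt.Walk x z), (z.1 = a ∨ z.1 = b ∨ z.2 = c ∨ z.2 = d) ∧
      ∀ v ∈ q.support, ((a ≤ v.1 ∧ v.1 ≤ b) ∧ c ≤ v.2 ∧ v.2 ≤ d) ∧ v ∈ p.support := by
  obtain ⟨z, q, h1, ⟨z₁, h2, h3⟩, h4⟩ := exists_prefix
    (fun v : V => (a < v.1 ∧ v.1 < b) ∧ c < v.2 ∧ v.2 < d) p hx hy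
  obtain ⟨⟨a1, a2⟩, a3, a4⟩ := adj_coords h3
  obtain ⟨⟨b1, b2⟩, b3, b4⟩ := h2
  have hz : (a ≤ z.1 ∧ z.1 ≤ b) ∧ c ≤ z.2 ∧ z.2 ≤ d := by omega
  refine ⟨z, q, ?_, ?_⟩
  · by_contra hcon
    push Not at hcon
    obtain ⟨c1, c2, c3, c4⟩ := hcon
    apply h1
    omega
  · intro v hv
    obtain ⟨h5, h6⟩ := h4 v hv
    refine ⟨?_, h6⟩
    rcases h5 with h5 | rfl
    · obtain ⟨⟨e1, e2⟩, e3, e4⟩ := h5
      exact ⟨⟨e1.le, e2.le⟩, e3.le, e4.le⟩
    · exact hz

/-- A square annulus with light crossings of its four sides. -/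
structure Ann (M : ℝ) (t : Env) (a c L : ℤ) : Prop where
  bot : HC M t a (a + 3 * L) c (c + L)
  top : HC M t a (a + 3 * L) (c + 2 * L) (c + 2 * L + L)
  lef : VC M t a (a + L) c (c + 3 * L)
  rig : VC M t (a + 2 * L) (a + 2 * L + L) c (c + 3 * L)

/-- Any walk from the inner square to the outside of the outer square meets the crossings. -/
theorem meet (hX : RectCrossStmt) {a c L : ℤ} (hL : 0 < L)
    {y₁ y₂ : ℤ} {p₁ : latt.Walk ((a, y₁) : V) (a + 3 * L, y₂)}
    (hp₁ : ∀ v ∈ p₁.support, (a ≤ v.1 ∧ v.1 ≤ a + 3 * L) ∧ c ≤ v.2 ∧ v.2 ≤ c + L)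
    {y₃ y₄ : ℤ} {p₂ : latt.Walk ((a, y₃) : V) (a + 3 * L, y₄)}
    (hp₂ : ∀ v ∈ p₂.support, (a ≤ v.1 ∧ v.1 ≤ a + 3 * L) ∧ c + 2 * L ≤ v.2 ∧ v.2 ≤ c + 2 * L + L)
    {x₁ x₂ : ℤ} {q₁ : latt.Walk ((x₁, c) : V) (x₂, c + 3 * L)}
    (hq₁ : ∀ v ∈ q₁.support, (a ≤ v.1 ∧ v.1 ≤ a + L) ∧ c ≤ v.2 ∧ v.2 ≤ c + 3 * L)
    {x₃ x₄ : ℤ} {q₂ : latt.Walk ((x₃, c) : V) (x₄, c + 3 * L)}
    (hq₂ : ∀ v ∈ q₂.support, (a + 2 * L ≤ v.1 ∧ v.1 ≤ a + 2 * L + L) ∧ c ≤ v.2 ∧ v.2 ≤ c + 3 * L)
    {x y : V} (p : latt.Walk x y)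
    (hx : (a + L < x.1 ∧ x.1 < a + 2 * L) ∧ c + L < x.2 ∧ x.2 < c + 2 * L)
    (hy : ¬ ((a < y.1 ∧ y.1 < a + 3 * L) ∧ c < y.2 ∧ y.2 < c + 3 * L)) :
    ∃ z ∈ p.support, z ∈ p₁.support ∨ z ∈ p₂.support ∨ z ∈ q₁.support ∨ z ∈ q₂.support := by
  obtain ⟨z, q, hz, hq⟩ := first_exit p (a := a) (b := a + 3 * L) (c := c) (d := c + 3 * L)
    (by omega) hy
  have hzq := (hq z (by simp)).1
  rcases hz with hz | hz | hz | hz
  · -- left
    obtain ⟨w', w, r, g1, g2, g3, g4⟩ := exists_suffix (fun v : V => a + L < v.1) q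
      ⟨x, by simp, hx.1.1⟩ (by omega)
    have hw := (g4 w (by simp)).1
    have ha := adj_coords g2
    have hw1 : w.1 = a + L := by omega
    have hwq := (hq w (g4 w (by simp)).2).1
    obtain ⟨z1, z2⟩ := z
    obtain ⟨w1, w2⟩ := w
    simp only at hz hw1
    subst hz hw1
    obtain ⟨v, hv1, hv2⟩ := hX z1 (z1 + L) c (c + 3 * L) (by omega) (by omega) z2 w2 x₁ x₂
      hzq.2.1 hzq.2.2 hwq.2.1 hwq.2.2 (hq₁ _ (SimpleGraph.Walk.start_mem_support q₁)).1.1 (hq₁ _ (SimpleGraph.Walk.start_mem_support q₁)).1.2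
      (hq₁ _ (SimpleGraph.Walk.end_mem_support q₁)).1.1
      (hq₁ _ (SimpleGraph.Walk.end_mem_support q₁)).1.2 r.reverse q₁ (by
        intro v hv
        rw [SimpleGraph.Walk.support_reverse, List.mem_reverse] at hv
        obtain ⟨k1, k2⟩ := g4 v hv
        have k3 := (hq v k2).1
        (clear * - g1 ha k1 k3; omega)) hq₁
    rw [SimpleGraph.Walk.support_reverse, List.mem_reverse] at hv1
    exact ⟨v, (hq v (g4 v hv1).2).2, Or.inr (Or.inr (Or.inl hv2))⟩
  · -- right
    obtain ⟨w', w, r, g1, g2, g3, g4⟩ := exists_suffix (fun v : V => v.1 < a + 2 * L) q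
      ⟨x, by simp, hx.1.2⟩ (by (clear * - hzq hz; omega))
    have hw := (g4 w (by simp)).1
    have ha := adj_coords g2
    have hw1 : w.1 = a + 2 * L := by omega
    have hwq := (hq w (g4 w (by simp)).2).1
    obtain ⟨z1, z2⟩ := z
    obtain ⟨w1, w2⟩ := w
    simp only at hz hw1
    have hz' : z1 = a + 2 * L + L := by (clear * - hz; omega)
    subst hz' hw1
    obtain ⟨v, hv1, hv2⟩ := hX (a + 2 * L) (a + 2 * L + L) c (c + 3 * L) (by omega) (by omega)
      w2 z2 x₃ x₄
      hwq.2.1 hwq.2.2 hzq.2.1 hzq.2.2 (hq₂ _ (SimpleGraph.Walk.start_mem_support q₂)).1.1 (hq₂ _ (SimpleGraph.Walk.start_mem_support q₂)).1.2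
      (hq₂ _ (SimpleGraph.Walk.end_mem_support q₂)).1.1
      (hq₂ _ (SimpleGraph.Walk.end_mem_support q₂)).1.2 r q₂ (by
        intro v hv
        obtain ⟨k1, k2⟩ := g4 v hv
        have k3 := (hq v k2).1
        omega) hq₂
    exact ⟨v, (hq v (g4 v hv1).2).2, Or.inr (Or.inr (Or.inr hv2))⟩
  · -- bottom
    obtain ⟨w', w, r, g1, g2, g3, g4⟩ := exists_suffix (fun v : V => c + L < v.2) q
      ⟨x, by simp, hx.2.1⟩ (by omega)
    have hw := (g4 w (by simp)).1
    have ha := adj_coords g2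
    have hw1 : w.2 = c + L := by omega
    have hwq := (hq w (g4 w (by simp)).2).1
    obtain ⟨z1, z2⟩ := z
    obtain ⟨w1, w2⟩ := w
    simp only at hz hw1
    subst hz hw1
    obtain ⟨v, hv1, hv2⟩ := hX a (a + 3 * L) z2 (z2 + L) (by omega) (by omega) y₁ y₂ z1 w1
      (hp₁ _ (SimpleGraph.Walk.start_mem_support p₁)).2.1 (hp₁ _ (SimpleGraph.Walk.start_mem_support p₁)).2.2
      (hp₁ _ (SimpleGraph.Walk.end_mem_support p₁)).2.1
      (hp₁ _ (SimpleGraph.Walk.end_mem_support p₁)).2.2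
      hzq.1.1 hzq.1.2 hwq.1.1 hwq.1.2 p₁ r.reverse hp₁ (by
        intro v hv
        rw [SimpleGraph.Walk.support_reverse, List.mem_reverse] at hv
        obtain ⟨k1, k2⟩ := g4 v hv
        have k3 := (hq v k2).1
        omega)
    rw [SimpleGraph.Walk.support_reverse, List.mem_reverse] at hv2
    exact ⟨v, (hq v (g4 v hv2).2).2, Or.inl hv1⟩
  · -- top
    obtain ⟨w', w, r, g1, g2, g3, g4⟩ := exists_suffix (fun v : V => v.2 < c + 2 * L) q
      ⟨x, by simp, hx.2.2⟩ (by omega)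
    have hw := (g4 w (by simp)).1
    have ha := adj_coords g2
    have hw1 : w.2 = c + 2 * L := by omega
    have hwq := (hq w (g4 w (by simp)).2).1
    obtain ⟨z1, z2⟩ := z
    obtain ⟨w1, w2⟩ := w
    simp only at hz hw1
    have hz' : z2 = c + 2 * L + L := by omega
    subst hz' hw1
    obtain ⟨v, hv1, hv2⟩ := hX a (a + 3 * L) (c + 2 * L) (c + 2 * L + L) (by omega) (by omega)
      y₃ y₄ w1 z1
      (hp₂ _ (SimpleGraph.Walk.start_mem_support p₂)).2.1 (hp₂ _ (SimpleGraph.Walk.start_mem_support p₂)).2.2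
      (hp₂ _ (SimpleGraph.Walk.end_mem_support p₂)).2.1
      (hp₂ _ (SimpleGraph.Walk.end_mem_support p₂)).2.2
      hwq.1.1 hwq.1.2 hzq.1.1 hzq.1.2 p₂ r hp₂ (by
        intro v hv
        obtain ⟨k1, k2⟩ := g4 v hv
        have k3 := (hq v k2).1
        (clear * - g1 ha k1 k3; omega))
    exact ⟨v, (hq v (g4 v hv2).2).2, Or.inr (Or.inl hv1)⟩

end Vale.Agent.P158.C.Crc
end
end

section

section

/-! (T9) Light circuits: connected separating sets from the four crossings; probability bound. -/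

namespace Vale.Agent.P158.C.Crc

open Filter MeasureTheory Vale.Agent.P158.T1 Vale.Agent.P158.C
open scoped ENNReal

/-- `y` can be reached from `x` through light edges inside `K`. -/
def J (M : ℝ) (t : Env) (K : Set V) (x y : V) : Prop :=
  ∃ p : latt.Walk x y, (∀ z ∈ p.support, z ∈ K) ∧
    ∀ e : latt.edgeSet, (e : Sym2 V) ∈ p.edges → t e ≤ M

theorem J.symm {M : ℝ} {t : Env} {K : Set V} {x y : V} (h : J M t K x y) : J M t K y x := by
  obtain ⟨p, h1, h2⟩ := h
  refine ⟨p.reverse, fun z hz => h1 z ?_, fun e he => h2 e ?_⟩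
  · rwa [SimpleGraph.Walk.support_reverse, List.mem_reverse] at hz
  · rwa [SimpleGraph.Walk.edges_reverse, List.mem_reverse] at he

theorem J.trans {M : ℝ} {t : Env} {K : Set V} {x y z : V} (h : J M t K x y) (h' : J M t K y z) :
    J M t K x z := by
  obtain ⟨p, h1, h2⟩ := h
  obtain ⟨q, h3, h4⟩ := h'
  refine ⟨p.append q, fun v hv => ?_, fun e he => ?_⟩
  · rw [SimpleGraph.Walk.mem_support_append_iff] at hv
    exact hv.elim (h1 v) (h3 v)
  · rw [SimpleGraph.Walk.edges_append, List.mem_append] at he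
    exact he.elim (h2 e) (h4 e)

theorem J.of_walk {M : ℝ} {t : Env} {K : Set V} {u v : V} (p : latt.Walk u v)
    (hK : ∀ z ∈ p.support, z ∈ K) (hl : ∀ e : latt.edgeSet, (e : Sym2 V) ∈ p.edges → t e ≤ M)
    {x y : V} (hx : x ∈ p.support) (hy : y ∈ p.support) : J M t K x y := by
  classical
  have key : ∀ z ∈ p.support, J M t K u z := fun z hz =>
    ⟨p.takeUntil z hz, fun w hw => hK w (p.support_takeUntil_subset_support hz hw),
      fun e he => hl e (p.edges_takeUntil_subset_edges hz he)⟩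
  exact (key x hx).symm.trans (key y hy)

theorem lc_of_J {M : ℝ} {t : Env} {K : Set V} (h : ∀ x ∈ K, ∀ y ∈ K, J M t K x y) :
    LC M t K := by
  classical
  intro x hx y hy
  obtain ⟨p, h1, h2⟩ := h x hx y hy
  exact ⟨p.bypass, p.bypass_isPath, fun z hz => h1 z (p.support_bypass_subset_support hz),
    fun e he => h2 e (p.edges_bypass_subset_edges he)⟩

theorem circ_of_ann (hX : RectCrossStmt) {M : ℝ} {t : Env} {a c L : ℤ} (hL : 0 < L)
    (h : Ann M t a c L) (e : latt.edgeSet)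
    (he : ∀ x ∈ (e : Sym2 V), (a + L < x.1 ∧ x.1 < a + 2 * L) ∧ c + L < x.2 ∧ x.2 < c + 2 * L) :
    Circ M t e ((3 * L + 1).toNat ^ 2) := by
  classical
  obtain ⟨⟨y₁, y₂, p₁, hp₁, lp₁⟩, ⟨y₃, y₄, p₂, hp₂, lp₂⟩, ⟨x₁, x₂, q₁, hq₁, lq₁⟩,
    ⟨x₃, x₄, q₂, hq₂, lq₂⟩⟩ := h
  obtain ⟨K, hKdef⟩ : ∃ K : Finset V, K = (p₁.support ++ p₂.support ++ q₁.support
      ++ q₂.support).toFinset := ⟨_, rfl⟩
  have hK : ∀ z, z ∈ K ↔ z ∈ p₁.support ∨ z ∈ p₂.support ∨ z ∈ q₁.support ∨ z ∈ q₂.support := by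
    intro z
    rw [hKdef]
    simp only [List.mem_toFinset, List.mem_append, or_assoc]
  have hout : ∀ z ∈ K, (a ≤ z.1 ∧ z.1 ≤ a + 3 * L) ∧ c ≤ z.2 ∧ z.2 ≤ c + 3 * L := by
    intro z hz
    rcases (hK z).1 hz with hz | hz | hz | hz
    · have := hp₁ z hz; omega
    · have := hp₂ z hz; omega
    · have := hq₁ z hz; omega
    · have := hq₂ z hz; omega
  refine ⟨K, ?_, ?_, ?_, ?_⟩
  · apply Nat.one_le_pow; omega
  · have hsub : K ⊆ Finset.Icc ((a, c) : V) (a + 3 * L, c + 3 * L) := by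
      intro z hz
      rw [Finset.mem_Icc, Prod.le_def, Prod.le_def]
      have := hout z hz
      exact ⟨⟨this.1.1, this.2.1⟩, this.1.2, this.2.2⟩
    refine (Finset.card_le_card hsub).trans (le_of_eq ?_)
    rw [Finset.card_Icc_prod, Int.card_Icc, Int.card_Icc, sq]
    congr 2 <;> ring
  · apply lc_of_J
    have cr1 : ∀ {y y' x x' : ℤ} (p : latt.Walk ((a, y) : V) (a + 3 * L, y'))
        (q : latt.Walk ((x, c) : V) (x', c + 3 * L)),
        (∀ v ∈ p.support, (a ≤ v.1 ∧ v.1 ≤ a + 3 * L) ∧ c ≤ v.2 ∧ v.2 ≤ c + 3 * L) →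
        (∀ v ∈ q.support, (a ≤ v.1 ∧ v.1 ≤ a + 3 * L) ∧ c ≤ v.2 ∧ v.2 ≤ c + 3 * L) →
        ∃ v, v ∈ p.support ∧ v ∈ q.support := by
      intro y y' x x' p q hp hq
      have e1 := hp _ (SimpleGraph.Walk.start_mem_support p)
      have e2 := hp _ (SimpleGraph.Walk.end_mem_support p)
      have e3 := hq _ (SimpleGraph.Walk.start_mem_support q)
      have e4 := hq _ (SimpleGraph.Walk.end_mem_support q)
      exact hX a (a + 3 * L) c (c + 3 * L) (by omega) (by omega) y y' x x'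
        e1.2.1 e1.2.2 e2.2.1 e2.2.2 e3.1.1 e3.1.2 e4.1.1 e4.1.2 p q hp hq
    have hp₁' : ∀ z ∈ p₁.support, z ∈ K := fun z hz => (hK z).2 (Or.inl hz)
    have hp₂' : ∀ z ∈ p₂.support, z ∈ K := fun z hz => (hK z).2 (Or.inr (Or.inl hz))
    have hq₁' : ∀ z ∈ q₁.support, z ∈ K := fun z hz => (hK z).2 (Or.inr (Or.inr (Or.inl hz)))
    have hq₂' : ∀ z ∈ q₂.support, z ∈ K := fun z hz => (hK z).2 (Or.inr (Or.inr (Or.inr hz)))
    obtain ⟨b₁, hb₁, hb₁'⟩ := cr1 p₁ q₁ (fun v hv => hout v (hp₁' v hv))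
      (fun v hv => hout v (hq₁' v hv))
    obtain ⟨b₂, hb₂, hb₂'⟩ := cr1 p₁ q₂ (fun v hv => hout v (hp₁' v hv))
      (fun v hv => hout v (hq₂' v hv))
    obtain ⟨b₃, hb₃, hb₃'⟩ := cr1 p₂ q₁ (fun v hv => hout v (hp₂' v hv))
      (fun v hv => hout v (hq₁' v hv))
    have key : ∀ z ∈ K, J M t (K : Set V) b₁ z := by
      intro z hz
      rcases (hK z).1 hz with hz | hz | hz | hz
      · exact J.of_walk p₁ hp₁' lp₁ hb₁ hz
      · exact (J.of_walk q₁ hq₁' lq₁ hb₁' hb₃').trans (J.of_walk p₂ hp₂' lp₂ hb₃ hz)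
      · exact J.of_walk q₁ hq₁' lq₁ hb₁' hz
      · exact (J.of_walk p₁ hp₁' lp₁ hb₁ hb₂).trans (J.of_walk q₂ hq₂' lq₂ hb₂' hz)
    exact fun x hx y hy => (key x hx).symm.trans (key y hy)
  · intro x hx
    have hx' := he x hx
    refine ⟨(3 * L).toNat, fun y hy p => ?_⟩
    obtain ⟨z, hz, hz'⟩ := meet hX hL hp₁ hp₂ hq₁ hq₂ p hx' (by
      intro hcon
      apply hy
      rw [mem_bx, abs_le, abs_le]
      (clear * - hL hx' hcon; omega))
    exact ⟨z, hz, (hK z).2 hz'⟩

end Vale.Agent.P158.C.Crc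
end
end

section

section

/-! (T7) The crossing lemma for rectangles. -/

namespace Vale.Agent.P158.C.RectCross

open SimpleGraph

/-- Horizontal segments. -/
theorem exists_hwalk (x y : ℤ) (n : ℕ) : ∃ p : latt.Walk ((x, y) : V) (x + n, y),
    ∀ v ∈ p.support, v.2 = y ∧ x ≤ v.1 ∧ v.1 ≤ x + n := by
  induction n with
  | zero =>
    refine ⟨Walk.nil.copy rfl (by simp), fun v hv => ?_⟩
    have : v = (x, y) := by simpa using hv
    subst this
    simp
  | succ n ih =>
    obtain ⟨p, hp⟩ := ih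
    have hadj : latt.Adj ((x + n, y) : V) (x + ((n + 1 : ℕ) : ℤ), y) := by
      have := adj_right (x + n) y
      have e : x + ((n + 1 : ℕ) : ℤ) = x + n + 1 := by push_cast; ring
      rwa [e]
    refine ⟨p.append (Walk.cons hadj Walk.nil), fun v hv => ?_⟩
    rw [Walk.mem_support_append_iff] at hv
    rcases hv with hv | hv
    · have := hp v hv
      push_cast
      omega
    · have hv' : v = (x + n, y) ∨ v = (x + ((n + 1 : ℕ) : ℤ), y) := by simpa only [Nat.cast_add, Nat.cast_one, Int.natCast_add, Int.cast_ofNat_Int, Walk.support_cons,     Walk.support_nil, List.mem_cons, List.not_mem_nil, or_false] using hv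
      rcases hv' with rfl | rfl
      · simp only [le_add_iff_nonneg_right, Nat.cast_nonneg, Nat.cast_add, Nat.cast_one, add_le_add_iff_left, zero_le_one, and_self]
      · refine ⟨rfl, ?_, ?_⟩ <;> push_cast <;> omega

/-- Vertical segments. -/
theorem exists_vwalk (x y : ℤ) (n : ℕ) : ∃ p : latt.Walk ((x, y) : V) (x, y + n),
    ∀ v ∈ p.support, v.1 = x ∧ y ≤ v.2 ∧ v.2 ≤ y + n := by
  induction n with
  | zero =>
    refine ⟨Walk.nil.copy rfl (by simp), fun v hv => ?_⟩
    have : v = (x, y) := by simpa using hv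
    subst this
    simp
  | succ n ih =>
    obtain ⟨p, hp⟩ := ih
    have hadj : latt.Adj ((x, y + n) : V) (x, y + ((n + 1 : ℕ) : ℤ)) := by
      have := adj_up x (y + n)
      have e : y + ((n + 1 : ℕ) : ℤ) = y + n + 1 := by push_cast; ring
      rwa [e]
    refine ⟨p.append (Walk.cons hadj Walk.nil), fun v hv => ?_⟩
    rw [Walk.mem_support_append_iff] at hv
    rcases hv with hv | hv
    · have := hp v hv
      push_cast
      omega
    · have hv' : v = (x, y + n) ∨ v = (x, y + ((n + 1 : ℕ) : ℤ)) := by simpa only [Nat.cast_add, Nat.cast_one, Int.natCast_add, Int.cast_ofNat_Int, Walk.support_cons,     Walk.support_nil, List.mem_cons, List.not_mem_nil, or_false] using hv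
      rcases hv' with rfl | rfl
      · simp only [le_add_iff_nonneg_right, Nat.cast_nonneg, Nat.cast_add, Nat.cast_one, add_le_add_iff_left, zero_le_one, and_self]
      · refine ⟨rfl, ?_, ?_⟩ <;> push_cast <;> omega

theorem exists_hwalk' {x x' : ℤ} (y : ℤ) (h : x ≤ x') : ∃ p : latt.Walk ((x, y) : V) (x', y),
    ∀ v ∈ p.support, v.2 = y ∧ x ≤ v.1 ∧ v.1 ≤ x' := by
  obtain ⟨n, rfl⟩ : ∃ n : ℕ, x' = x + n := ⟨(x' - x).toNat, by omega⟩
  exact exists_hwalk x y n

theorem exists_vwalk' (x : ℤ) {y y' : ℤ} (h : y ≤ y') : ∃ p : latt.Walk ((x, y) : V) (x, y'),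
    ∀ v ∈ p.support, v.1 = x ∧ y ≤ v.2 ∧ v.2 ≤ y' := by
  obtain ⟨n, rfl⟩ : ∃ n : ℕ, y' = y + n := ⟨(y' - y).toNat, by omega⟩
  exact exists_vwalk x y n

/-- (T7). -/
theorem rectCross : RectCrossStmt := by
  intro a b c d hab hcd y₁ y₂ x₁ x₂ h1 h2 h3 h4 h5 h6 h7 h8 p q hp hq
  obtain ⟨l1, hl1⟩ := exists_hwalk' (x := a - 1) (x' := b + 1) (c - 2) (by omega)
  obtain ⟨l2, hl2⟩ := exists_vwalk' (a - 1) (y := c - 2) (y' := y₁) (by omega)
  obtain ⟨l3, hl3⟩ := exists_hwalk' (x := a - 1) (x' := a) y₁ (by omega)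
  obtain ⟨r1, hr1⟩ := exists_hwalk' (x := b) (x' := b + 1) y₂ (by omega)
  obtain ⟨m1, hm1⟩ := exists_hwalk' (x := x₁) (x' := b + 1) (c - 1) (by omega)
  obtain ⟨m2, hm2⟩ := exists_vwalk' x₁ (y := c - 1) (y' := c) (by omega)
  obtain ⟨k1, hk1⟩ := exists_vwalk' x₂ (y := d) (y' := d + 1) (by omega)
  obtain ⟨k2, hk2⟩ := exists_hwalk' (x := x₂) (x' := b + 1) (d + 1) (by omega)
  obtain ⟨z, hz1, hz2⟩ := crossing (N := b + 1) (a₁ := c - 2) (a₂ := c - 1) (a₃ := y₂)
    (a₄ := d + 1) (by omega) (by omega) (by omega)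
    ((((l1.reverse.append l2).append l3).append p).append r1)
    (((m1.reverse.append m2).append q).append (k1.append k2))
    (by
      intro v hv
      simp only [Walk.mem_support_append_iff, Walk.support_reverse, List.mem_reverse] at hv
      show v.1 ≤ b + 1
      rcases hv with (((hv | hv) | hv) | hv) | hv
      · have := hl1 v hv; omega
      · have := hl2 v hv; omega
      · have := hl3 v hv; omega
      · have := hp v hv; omega
      · have := hr1 v hv; omega)
    (by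
      intro v hv
      simp only [Walk.mem_support_append_iff, Walk.support_reverse, List.mem_reverse] at hv
      show v.1 ≤ b + 1
      rcases hv with ((hv | hv) | hv) | hv | hv
      · have := hm1 v hv; omega
      · have := hm2 v hv; omega
      · have := hq v hv; omega
      · have := hk1 v hv; omega
      · have := hk2 v hv; omega)
  simp only [Walk.mem_support_append_iff, Walk.support_reverse, List.mem_reverse] at hz1 hz2
  -- which parts can meet
  have key : z ∈ p.support ∨ ((a - 1 = z.1 ∧ z.2 ≤ y₁) ∨ z.2 = c - 2 ∨ (z.1 = a ∧ z.2 = y₁) ∨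
      (z.1 = b ∧ z.2 = y₂) ∨ (z.1 = b + 1 ∧ z.2 = y₂)) := by
    rcases hz1 with (((hv | hv) | hv) | hv) | hv
    · have := hl1 z hv; omega
    · have := hl2 z hv; omega
    · have := hl3 z hv; omega
    · exact Or.inl hv
    · have := hr1 z hv; omega
  have key' : z ∈ q.support ∨ ((z.2 = c - 1 ∧ x₁ ≤ z.1) ∨ (z.1 = x₁ ∧ z.2 = c) ∨
      (z.1 = x₂ ∧ z.2 = d) ∨ (z.2 = d + 1 ∧ x₂ ≤ z.1)) := by
    rcases hz2 with ((hv | hv) | hv) | hv | hv
    · have := hm1 z hv; omega
    · have := hm2 z hv; omega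
    · exact Or.inl hv
    · have := hk1 z hv; omega
    · have := hk2 z hv; omega
  have hps : ∀ u w' : ℤ, u = a → w' = y₁ → ((u, w') : V) ∈ p.support := by
    rintro u w' rfl rfl; exact p.start_mem_support
  have hpe : ∀ u w' : ℤ, u = b → w' = y₂ → ((u, w') : V) ∈ p.support := by
    rintro u w' rfl rfl; exact p.end_mem_support
  have hqs : ∀ u w' : ℤ, u = x₁ → w' = c → ((u, w') : V) ∈ q.support := by
    rintro u w' rfl rfl; exact q.start_mem_support
  have hqe : ∀ u w' : ℤ, u = x₂ → w' = d → ((u, w') : V) ∈ q.support := by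
    rintro u w' rfl rfl; exact q.end_mem_support
  have hpm : z ∈ p.support ∨ ((a - 1 = z.1 ∧ z.2 ≤ y₁) ∨ z.2 = c - 2 ∨
      (z.1 = b + 1 ∧ z.2 = y₂)) := by
    rcases key with h | h | h | h | h | h
    · exact Or.inl h
    · exact Or.inr (Or.inl h)
    · exact Or.inr (Or.inr (Or.inl h))
    · exact Or.inl (hps z.1 z.2 h.1 h.2)
    · exact Or.inl (hpe z.1 z.2 h.1 h.2)
    · exact Or.inr (Or.inr (Or.inr h))
  have hqm : z ∈ q.support ∨ ((z.2 = c - 1 ∧ x₁ ≤ z.1) ∨ (z.2 = d + 1 ∧ x₂ ≤ z.1)) := by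
    rcases key' with h | h | h | h | h
    · exact Or.inl h
    · exact Or.inr (Or.inl h)
    · exact Or.inl (hqs z.1 z.2 h.1 h.2)
    · exact Or.inl (hqe z.1 z.2 h.1 h.2)
    · exact Or.inr (Or.inr h)
  refine ⟨z, ?_, ?_⟩
  · rcases hpm with h | h
    · exact h
    · exfalso
      rcases hqm with h' | h'
      · have := hq z h'; omega
      · omega
  · rcases hqm with h | h
    · exact h
    · exfalso
      rcases hpm with h' | h'
      · have := hp z h'; omega
      · omega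

end Vale.Agent.P158.C.RectCross
end
end

section

section

end
end

section

section

/-! Assembly of Plan C': the recursion over the levels. -/

namespace Vale.Agent.P158.C.Main

open Filter MeasureTheory Vale.Agent.P158.T1 Vale.Agent.P158.C
open scoped ENNReal

/-! ### Geometry -/

theorem bB_not_mem {z x : V} {N s : ℕ} (hz : z ∈ bx 0 (N / 4)) (hs : 2 * s + 2 ≤ N)
    (hx : x ∈ bB z N) : x ∉ bx 0 s := by
  intro hx0
  rw [mem_bx_zero] at hz hx0
  obtain ⟨-, h⟩ := hx
  obtain ⟨h1, h2⟩ := hz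
  obtain ⟨h3, h4⟩ := hx0
  rw [abs_le] at h1 h2 h3 h4
  rcases h with h | h
  · rcases abs_choice (x.1 - z.1) with h5 | h5 <;> omega
  · rcases abs_choice (x.2 - z.2) with h5 | h5 <;> omega

theorem bB_sub_diff {z : V} {N s : ℕ} (hz : z ∈ bx 0 (N / 4)) (hs : 2 * s + 2 ≤ N) :
    bB z N ⊆ bx z N \ bx 0 s := fun _ hx => ⟨hx.1, bB_not_mem hz hs hx⟩

theorem rs_congr {t t' : Env} {z : V} {N s : ℕ} (hN : 0 < N) (hz : z ∈ bx 0 (N / 4))
    (hs : 2 * s + 2 ≤ N) (h : ∀ e, e ∉ tF 0 s → t e = t' e) : rs (wt t) z N = rs (wt t') z N := by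
  unfold rs
  refine Finset.sum_congr rfl fun k _ => ?_
  rw [wt_eq t (bd_adj hN _), wt_eq t' (bd_adj hN _)]
  apply h
  rw [mem_tF]
  rintro ⟨x, hx, hx'⟩
  have hx2 : x ∈ s(bd z N (k : ℤ), bd z N ((k : ℤ) + 1)) := hx
  rw [Sym2.mem_iff] at hx2
  rcases hx2 with rfl | rfl
  · exact bB_not_mem hz hs (bd_mem_bB hN _) hx'
  · exact bB_not_mem hz hs (bd_mem_bB hN _) hx'

theorem good_congr {C' C₁ : ℝ} {t t' : Env} {z : V} {N s : ℕ} (hN : 0 < N)
    (hz : z ∈ bx 0 (N / 4)) (hs : 2 * s + 2 ≤ N) (h : ∀ e, e ∉ tF 0 s → t e = t' e)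
    (hg : Good C' C₁ z N s t) : Good C' C₁ z N s t' := by
  refine ⟨by rw [← rs_congr hN hz hs h]; exact hg.1, fun x y p hp hp1 hp2 => ?_⟩
  refine (hg.2 x y p hp hp1 hp2).trans_eq (Finset.sum_congr rfl fun e he => ?_)
  exact h e (Finset.mem_filter.1 he).2

theorem WN_congr {t t' : Env} {z : V} {N s : ℕ} (h : ∀ e, e ∉ tF 0 s → t e = t' e) :
    WN (wt t) z N s = WN (wt t') z N s := by
  funext x y
  unfold WN bT
  refine PT_congr fun e he => h e ?_
  rw [mem_tF]
  rintro ⟨v, hv, hv'⟩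
  exact (he v hv).2 hv'

/-! ### The potential -/

open Classical in
/-- The potential: mass of the heavy components in good boxes. -/
noncomputable def Phi (C' C₁ g : ℝ) (z : V) (N s : ℕ) [NeZero N] (t : Env) : ℝ≥0∞ :=
  if (∀ e, 0 < t e) ∧ Good C' C₁ z N s t then
    ENNReal.ofReal (mu (WN (wt t) z N s) (heavy (TN (wt t) z N) (WN (wt t) z N s) g)) else 0

theorem measurableSet_pos : MeasurableSet {t : Env | ∀ e, 0 < t e} := by
  have : {t : Env | ∀ e, 0 < t e} = ⋂ e, {t : Env | 0 < t e} := by ext t; simp only [Subtype.forall, Set.mem_ofPred_eq, Set.iInter_coe_set, Set.mem_iInter]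
  rw [this]
  exact MeasurableSet.iInter fun e => measurableSet_lt measurable_const (measurable_pi_apply e)

theorem measurable_Phi (hMH : MeasHeavyStmt) {C' C₁ : ℝ} (g : ℝ) {z : V} {N s : ℕ} [NeZero N]
    (hG : MeasurableSet {t | Good C' C₁ z N s t}) : Measurable (Phi C' C₁ g z N s) := by
  unfold Phi
  exact Measurable.ite (measurableSet_pos.inter hG) (hMH z N s g).ennreal_ofReal measurable_const

/-- Facts on the passage times of a good configuration. -/
structure Cfg (w : V → V → ℝ) (z : V) (N s : ℕ) : Prop where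
  kT : Kal (TN w z N)
  kW : Kal (WN w z N s)
  le : ∀ x y, TN w z N x y ≤ WN w z N s x y

theorem cfg (hKal : KalStmt) (hRC : RingConnStmt) {w : V → V → ℝ} (hw : Adm w) {z : V} {N s : ℕ}
    (hN : 0 < N) (hz : z ∈ bx 0 (N / 4)) (hs : 2 * s + 2 ≤ N) : Cfg w z N s := by
  refine ⟨hKal w z N _ hN hw Set.Subset.rfl fun x hx => hx.1,
    hKal w z N _ hN hw Set.sdiff_subset (bB_sub_diff hz hs), fun x y => ?_⟩
  exact PT_mono hw Set.sdiff_subset
    ((hRC z N hN _ (bd_mem_bB hN _) _ (bd_mem_bB hN _)).mono (bB_sub_diff hz hs))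

theorem TN_anti (hRC : RingConnStmt) {w w' : V → V → ℝ} (hw : Adm w)
    (h : ∀ x y, latt.Adj x y → w x y ≤ w' x y) {z : V} {N : ℕ} (hN : 0 < N)
    (x y : ZMod (8 * N)) : TN w z N x y ≤ TN w' z N x y :=
  PT_mono_weight hw h
    ((hRC z N hN _ (bd_mem_bB hN _) _ (bd_mem_bB hN _)).mono fun _ hx => hx.1)

theorem rch_pos {α β : ℝ} (hα : 0 < α) (hαβ : α < β) {D : Finset latt.edgeSet} {t' t : Env}
    (h : Rch α β D t' t) : (∀ e, 0 < t e) ↔ ∀ e, 0 < t' e := by
  constructor
  · intro hp e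
    by_cases he : e ∈ D
    · rcases h.2 e he with h1 | ⟨h1, -, -⟩
      · rw [← h1]; exact hp e
      · linarith only [hα, hαβ, h1]
    · rw [← h.1 e he]; exact hp e
  · intro hp e
    by_cases he : e ∈ D
    · rcases h.2 e he with h1 | ⟨-, h2, -⟩
      · rw [h1]; exact hp e
      · exact h2
    · rw [h.1 e he]; exact hp e

theorem rch_le {α β : ℝ} (hαβ : α < β) {D : Finset latt.edgeSet} {t' t : Env}
    (h : Rch α β D t' t) (e : latt.edgeSet) : t e ≤ t' e := by
  by_cases he : e ∈ D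
  · rcases h.2 e he with h1 | ⟨h1, -, h3⟩
    · exact h1.le
    · (clear * - hαβ h1 h3; linarith)
  · exact (h.1 e he).le

theorem heavy_empty_step {m : ℕ} [NeZero m] {W T T' : ZMod m → ZMod m → ℝ} (hW : Kal W)
    (hT : Kal T) (hT' : Kal T') (hTW : ∀ x y, T x y ≤ W x y) (hTT : ∀ x y, T' x y ≤ T x y)
    {g : ℝ} (hg : 0 < g) : mu W (heavy T W g) ≤ mu W (heavy T' W g) := by
  have := heavy_step hW hT hT' hTW hTT hg (le_refl (0 : ℝ)) ∅ (by simp only [Finset.notMem_empty, sub_nonneg, IsEmpty.forall_iff, implies_true]) (by simp)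
  simpa only [ge_iff_le, Finset.filter_empty, Finset.card_empty, CharP.cast_eq_zero, zero_sub, mul_neg,     zero_mul, neg_zero, add_zero] using this

section
variable {C' C₁ g h α β : ℝ} {z : V} {N r n : ℕ} [NeZero N] {M : ℕ}

theorem Phi_mono (hKal : KalStmt) (hRC : RingConnStmt) (hα : 0 < α) (hαβ : α < β)
    {s : ℕ} (hz : z ∈ bx 0 (N / 4)) (hs : 2 * s + 2 ≤ N) (hg : 0 < g) {t' t : Env}
    (h : Rch α β (tF 0 s) t' t) : Phi C' C₁ g z N s t' ≤ Phi C' C₁ g z N s t := by
  have hN : 0 < N := NeZero.pos N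
  unfold Phi
  by_cases h1 : (∀ e, 0 < t' e) ∧ Good C' C₁ z N s t'
  · have h2 : (∀ e, 0 < t e) ∧ Good C' C₁ z N s t :=
      ⟨(rch_pos hα hαβ h).2 h1.1, good_congr hN hz hs (fun e he => (h.1 e he).symm) h1.2⟩
    rw [if_pos h1, if_pos h2]
    refine ENNReal.ofReal_le_ofReal ?_
    have hw := adm_of_pos h2.1
    have hw' := adm_of_pos h1.1
    have c1 := cfg hKal hRC hw hN hz hs
    have c2 := cfg hKal hRC hw' hN hz hs
    have e1 : WN (wt t') z N s = WN (wt t) z N s := WN_congr fun e he => (h.1 e he).symm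
    have hle := c2.le
    rw [e1] at hle ⊢
    exact heavy_empty_step c1.kW c2.kT c1.kT hle
      (TN_anti hRC hw (wt_mono (rch_le hαβ h)) hN) hg
  · rw [if_neg h1]
    exact zero_le

theorem Phi_step (hKal : KalStmt) (hRC : RingConnStmt) (hGain : GainDetStmt) (hα : 0 < α)
    (hαβ : α < β) (hr : 1 ≤ r) (hrN : 8 * r + 8 ≤ N) (hz : z ∈ bx 0 (N / 4)) (hg : 0 < g)
    (hh : 0 < h) (hgM : g ≤ M * (β - α)) {t' : Env} (hpos : ∀ e, 0 < t' e)
    (hGood : Good C' C₁ z N (2 * r) t') (hAG : AG β t' 0 r (2 * r))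
    (hMany : Many h n (wt t') z N r (2 * r)) :
    ∃ Q : Fin n → Finset latt.edgeSet,
      (∀ j, Q j ⊆ tF 0 (2 * r) ∧ r ≤ 8 * (Q j).card ∧ ∀ e ∈ Q j, β ≤ t' e) ∧
      ∀ t : Env, Rch α β (tF 0 (2 * r)) t' t →
        Phi C' C₁ g z N (2 * r) t' + ENNReal.ofReal h *
          ({j | M ≤ cnt α (Q j) t} : Set (Fin n)).ncard ≤
        Phi C' C₁ g z N (2 * r) t + ENNReal.ofReal (h / g) * Phi C' C₁ g z N (2 * r) t' := by
  classical
  have hN : 0 < N := NeZero.pos N
  have hs : 2 * (2 * r) + 2 ≤ N := by omega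
  obtain ⟨I₀, hI₀, hL₀, hd₀⟩ := hMany
  obtain ⟨I, hII₀, hIn⟩ := Finset.exists_subset_card_eq hI₀
  have hL : ∀ p ∈ I, Lin h (wt t') z N r (2 * r) p := fun p hp => hL₀ p (hII₀ hp)
  have hd : ∀ p ∈ I, ∀ q ∈ I, Cn (Ex (TN (wt t') z N) (WN (wt t') z N (2 * r))) p q → p = q :=
    fun p hp q hq => hd₀ p (hII₀ hp) q (hII₀ hq)
  set φ : Fin n ≃ I := (Finset.equivFinOfCardEq hIn).symm with hφ
  have hgain : ∀ j : Fin n, ∃ Q ⊆ tF 0 (2 * r), r ≤ 8 * Q.card ∧ (∀ e ∈ Q, β ≤ t' e) ∧
      ∀ t : Env, Rch α β (tF 0 (2 * r)) t' t → M ≤ cnt α Q t →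
        h + M * (β - α) ≤ WN (wt t) z N (2 * r) (φ j).1.1 (φ j).1.2 -
          TN (wt t) z N (φ j).1.1 (φ j).1.2 := fun j =>
    hGain α β h M t' z N r (φ j).1 hα hαβ hpos hr hrN hz hAG (hL _ (φ j).2)
  choose Q hQ1 hQ2 hQ3 hQ4 using hgain
  refine ⟨Q, fun j => ⟨hQ1 j, hQ2 j, hQ3 j⟩, fun t ht => ?_⟩
  have hpos2 : ∀ e, 0 < t e := (rch_pos hα hαβ ht).2 hpos
  have hGood2 : Good C' C₁ z N (2 * r) t :=
    good_congr hN hz hs (fun e he => (ht.1 e he).symm) hGood
  have hw := adm_of_pos hpos2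
  have hw' := adm_of_pos hpos
  have c1 := cfg hKal hRC hw hN hz hs
  have c2 := cfg hKal hRC hw' hN hz hs
  have e1 : WN (wt t') z N (2 * r) = WN (wt t) z N (2 * r) :=
    WN_congr fun e he => (ht.1 e he).symm
  have hle := c2.le
  have hTT := TN_anti (z := z) hRC hw (wt_mono (rch_le hαβ ht)) hN
  unfold Phi
  rw [if_pos ⟨hpos, hGood⟩, if_pos ⟨hpos2, hGood2⟩]
  rw [e1] at hle ⊢
  set W := WN (wt t) z N (2 * r) with hW
  set T' := TN (wt t') z N with hT'
  set T := TN (wt t) z N with hT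
  have hL' : ∀ p ∈ I, h ≤ W p.1 p.2 - T' p.1 p.2 := fun p hp => by
    have := (hL p hp).1
    rwa [e1] at this
  rw [e1] at hd
  have key := heavy_step c1.kW c2.kT c1.kT hle hTT hg hh.le I
    (fun p hp => ⟨hL' p hp, by
      have := hL' p hp
      show T' p.1 p.2 < W p.1 p.2
      linarith only [hh, this]⟩) hd
  have hcard : (({j | M ≤ cnt α (Q j) t} : Set (Fin n)).ncard : ℝ) ≤
      ((I.filter fun p => g ≤ W p.1 p.2 - T p.1 p.2).card : ℝ) := by
    have h1 : ({j | M ≤ cnt α (Q j) t} : Set (Fin n)) =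
        ((Finset.univ.filter fun j => M ≤ cnt α (Q j) t : Finset (Fin n)) : Set (Fin n)) := by
      ext j; simp only [Set.mem_ofPred_eq, Finset.coe_filter, Finset.mem_univ, true_and]
    rw [h1, Set.ncard_coe_finset]
    refine Nat.cast_le.2 (Finset.card_le_card_of_injOn (fun j => (φ j).1) ?_ ?_)
    · intro j hj
      have hj' : M ≤ cnt α (Q j) t := by simpa only [Finset.coe_filter, Finset.mem_univ, true_and, Set.mem_ofPred_eq] using hj
      have := hQ4 j t ht hj'
      simp only [Finset.coe_filter, Set.mem_setOf_eq]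
      exact ⟨(φ j).2, by linarith only [hh, hgM, this]⟩
    · intro a _ b _ hab
      exact φ.injective (Subtype.ext hab)
  have hmu0 : 0 ≤ mu W (heavy T' W g) :=
    mu_nonneg c1.kW c2.kT fun p hp => heavy_sub hp
  have hmu1 : 0 ≤ mu W (heavy T W g) :=
    mu_nonneg c1.kW c1.kT fun p hp => heavy_sub hp
  have hfin : (({j | M ≤ cnt α (Q j) t} : Set (Fin n)).ncard : ℝ≥0∞) =
      ENNReal.ofReal (({j | M ≤ cnt α (Q j) t} : Set (Fin n)).ncard : ℝ) := by simp only [ENNReal.ofReal_natCast]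
  rw [hfin, ← ENNReal.ofReal_mul hh.le, ← ENNReal.ofReal_mul (by positivity),
    ← ENNReal.ofReal_add hmu0 (by (clear * - hh; positivity)), ← ENNReal.ofReal_add hmu1 (by positivity)]
  refine ENNReal.ofReal_le_ofReal ?_
  have h2 := mul_le_mul_of_nonneg_left hcard hh.le
  have h3 : h * (((I.filter fun p => g ≤ W p.1 p.2 - T p.1 p.2).card : ℝ) -
      mu W (heavy T' W g) / g) = h * ((I.filter fun p => g ≤ W p.1 p.2 - T p.1 p.2).card : ℝ) -
      h / g * mu W (heavy T' W g) := by ring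
  rw [h3] at key
  linarith

theorem Phi_le (hKal : KalStmt) (hRC : RingConnStmt) {s : ℕ} (hz : z ∈ bx 0 (N / 4))
    (hs : 2 * s + 2 ≤ N) (t : Env) : Phi C' C₁ g z N s t ≤
      {t : Env | Good C' C₁ z N s t}.indicator
        (fun t => ENNReal.ofReal (mu (WN (wt t) z N s) (Ef (wt t) z N 0 s))) t := by
  classical
  have hN : 0 < N := NeZero.pos N
  unfold Phi
  by_cases h1 : (∀ e, 0 < t e) ∧ Good C' C₁ z N s t
  · rw [if_pos h1, Set.indicator_of_mem (show t ∈ {t : Env | Good C' C₁ z N s t} from h1.2)]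
    refine ENNReal.ofReal_le_ofReal ?_
    have c1 := cfg hKal hRC (adm_of_pos h1.1) hN hz hs
    unfold mu
    refine Finset.sum_le_sum_of_subset_of_nonneg (fun p hp => ?_) fun p hp _ => ?_
    · unfold Ef
      rw [Finset.mem_filter]
      exact ⟨Finset.mem_univ _, heavy_sub hp⟩
    · unfold Ef at hp
      rw [Finset.mem_filter] at hp
      exact cell_nonneg_Ex c1.kW c1.kT hp.2
  · rw [if_neg h1]
    exact zero_le

end

theorem recursion {m : ℕ → ℝ≥0∞} {a κ B : ℝ≥0∞} {k : ℕ} (h0 : m 0 ≤ B)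
    (hmono : ∀ i < k, m (i + 1) ≤ m i)
    (hstep : ∀ i < k, m (i + 1) + a ≤ m i + κ * m (i + 1)) (hκ : k * κ ≤ 1) :
    k * a ≤ 2 * B := by
  have hle : ∀ j ≤ k, m j ≤ m 0 := by
    intro j hj
    induction j with
    | zero => exact le_rfl
    | succ j ih => exact (hmono j (by omega)).trans (ih (by omega))
  have key : ∀ j ≤ k, m j + j * a ≤ m 0 + j * κ * m 0 := by
    intro j hj
    induction j with
    | zero => simp
    | succ j ih =>
      have h1 := hstep j (by omega)
      have h2 := ih (by omega)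
      calc m (j + 1) + ((j + 1 : ℕ) : ℝ≥0∞) * a = (m (j + 1) + a) + j * a := by
            push_cast; ring
        _ ≤ (m j + κ * m (j + 1)) + j * a := add_le_add h1 le_rfl
        _ = (m j + j * a) + κ * m (j + 1) := by ring
        _ ≤ (m 0 + j * κ * m 0) + κ * m 0 :=
            add_le_add h2 (mul_le_mul' le_rfl (hle _ hj))
        _ = _ := by push_cast; ring
  calc (k : ℝ≥0∞) * a ≤ m k + k * a := le_add_self
    _ ≤ m 0 + k * κ * m 0 := key k le_rfl
    _ ≤ m 0 + 1 * m 0 := add_le_add le_rfl (mul_le_mul' hκ le_rfl)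
    _ = 2 * m 0 := by ring
    _ ≤ 2 * B := mul_le_mul' le_rfl h0

theorem exists_delta {A : ℝ≥0∞} (hA : A ≠ ∞) (k : ℕ) :
    ∃ δ : ℝ, 0 < δ ∧ A * (ENNReal.ofReal δ) ^ ((1 / 2 : ℝ) ^ k) ≤ 1 / 16 := by
  have he : 0 < (1 / 2 : ℝ) ^ k := by positivity
  have h1 : Tendsto (fun δ : ℝ => A * (ENNReal.ofReal δ) ^ ((1 / 2 : ℝ) ^ k)) (nhds 0)
      (nhds (A * (ENNReal.ofReal 0) ^ ((1 / 2 : ℝ) ^ k))) := by
    refine ENNReal.Tendsto.const_mul ?_ (Or.inr hA)
    exact ((ENNReal.continuous_rpow_const (y := (1 / 2 : ℝ) ^ k)).comp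
      ENNReal.continuous_ofReal).tendsto 0
  rw [ENNReal.ofReal_zero, ENNReal.zero_rpow_of_pos he, mul_zero] at h1
  have h2 : ∀ᶠ δ : ℝ in nhds 0, A * (ENNReal.ofReal δ) ^ ((1 / 2 : ℝ) ^ k) < 1 / 16 :=
    h1.eventually_lt_const (by simp only [one_div, ENNReal.inv_pos, ne_eq, ENNReal.ofNat_ne_top, not_false_eq_true])
  obtain ⟨ε, hε, h3⟩ := Metric.eventually_nhds_iff.1 h2
  refine ⟨ε / 2, by positivity, (h3 ?_).le⟩
  rw [Real.dist_eq, sub_zero, abs_of_pos (by positivity)]
  linarith only [hε]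

/-- There are no bigeodesics with slack. -/
theorem no_slack (G : Measure ℝ) [IsProbabilityMeasure G] [NullSingletonClass G]
    (hG0 : G (Set.Iio 0) = 0) {α β : ℝ} (hα : 0 < α) (hαβ : α < β)
    (hKal : KalStmt) (hRC : RingConnStmt) (hGain : GainDetStmt) (hMH : MeasHeavyStmt)
    (hGood : GoodStmt G) (hAG : AGStmt G β) (hMany : ManyStmt G) (hUp : UpStmt G)
    (hLev : LevStmt G α β) {h : ℝ} (hh : 0 < h) :
    ∀ᵐ t ∂PG G, ¬ ∃ v : ℤ → V, IsBi (wt t) v ∧ v 0 = 0 ∧ SL h (wt t) v := by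
  classical
  rcases hMany h hh with h0 | ⟨c, hc, hM⟩
  · exact h0
  exfalso
  obtain ⟨C', C₁, hC', hC₁, hGo⟩ := hGood
  obtain ⟨C₄, hC₄, hU⟩ := hUp C' C₁ hC' hC₁
  obtain ⟨k, hk⟩ := exists_nat_gt (16 * C₄ / (h * c))
  obtain ⟨M, hMk⟩ := exists_nat_gt (h * k / (β - α))
  have hβα : 0 < β - α := sub_pos.2 hαβ
  have hkpos : (0 : ℝ) < k := lt_of_le_of_lt (by (clear * - hC₄ hh hc; positivity)) hk
  set g : ℝ := M * (β - α) with hg
  have hgk : h * k < g := by rwa [div_lt_iff₀ hβα] at hMk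
  have hgpos : 0 < g := lt_trans (by (clear * - hh hkpos; positivity)) hgk
  obtain ⟨cL, hcL, A, hA, hLevr⟩ := hLev k M
  obtain ⟨δ, hδ, hδA⟩ := exists_delta hA k
  obtain ⟨r1, hr1⟩ := hM δ hδ
  obtain ⟨r2, hr2⟩ := hAG δ hδ
  obtain ⟨r, hra, hrb, hrc, hrd⟩ : ∃ r : ℕ, r1 ≤ r ∧ r2 ≤ r ∧ 1 ≤ r ∧ cL ≤ r := by
    refine ⟨max (max r1 r2) (max 1 ⌈cL⌉₊), by simp, by simp, by simp, ?_⟩
    exact (Nat.le_ceil cL).trans (Nat.cast_le.2 (by simp))
  obtain ⟨P, hP0, hPp, hPA, hPI, hPS⟩ := hLevr r hrc hrd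
  obtain ⟨N1, hN1⟩ := hr1 r hra
  obtain ⟨N2, hN2⟩ := hGo (2 * r)
  obtain ⟨N3, hN3⟩ := hU (2 * r) (by omega)
  obtain ⟨N, hNa, hNb, hNc, hNd⟩ : ∃ N : ℕ, N1 ≤ N ∧ N2 ≤ N ∧ N3 ≤ N ∧ 8 * r + 8 ≤ N :=
    ⟨max (max N1 N2) (max N3 (8 * r + 8)), by simp, by simp, by simp, by simp⟩
  have hNpos : 0 < N := by omega
  have hNZ : NeZero N := ⟨hNpos.ne'⟩
  obtain ⟨z, hz, hzU⟩ := hN3 N hNc hNZ
  obtain ⟨hMm, hMp⟩ := hN1 N hNa z hz
  obtain ⟨hGm, hGp⟩ := hN2 N hNb z hz
  obtain ⟨hAm, hAp⟩ := hr2 r hrb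
  have hs : 2 * (2 * r) + 2 ≤ N := by omega
  set n : ℕ := ⌈c * r⌉₊ with hn
  set Φ : Env → ℝ≥0∞ := Phi C' C₁ g z N (2 * r) with hΦ
  have hΦm : Measurable Φ := measurable_Phi hMH g hGm
  set S : Set Env := {t : Env | ∀ e, 0 < t e} ∩ ({t | Good C' C₁ z N (2 * r) t} ∩
    ({t | AG β t 0 r (2 * r)} ∩ {t | Many h n (wt t) z N r (2 * r)})) with hS
  have hSm : MeasurableSet S :=
    measurableSet_pos.inter (hGm.inter (hAm.inter hMm))
  have hmono : ∀ t' t : Env, Rch α β (tF 0 (2 * r)) t' t → Φ t' ≤ Φ t := fun t' t hR =>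
    Phi_mono hKal hRC hα hαβ hz hs hgpos hR
  -- probability of `S`
  have hPS2 : ∀ i ≤ k, 1 / 2 ≤ P i S := by
    intro i hi
    have hpr := hPp i hi
    have b1 : P i {t : Env | ∀ e, 0 < t e}ᶜ ≤ 0 := by
      refine (hPA i hi _ measurableSet_pos.compl).trans ?_
      have : PG G {t : Env | ∀ e, 0 < t e}ᶜ = 0 := ae_pos G hG0
      rw [this, ENNReal.zero_rpow_of_pos (by (clear * -; positivity)), mul_zero]
    have b2 : P i {t | Good C' C₁ z N (2 * r) t}ᶜ ≤ 1 / 8 := by
      rw [hPI i hi _ hGm.compl ?_]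
      · exact hGp
      · intro t t' htt ht ht'
        exact ht (good_congr hNpos hz hs (fun e he => (htt e he).symm) ht')
    have b3 : P i {t : Env | AG β t 0 r (2 * r)}ᶜ ≤ 1 / 16 := by
      refine (hPA i hi _ hAm.compl).trans (le_trans ?_ hδA)
      exact mul_le_mul' le_rfl (ENNReal.rpow_le_rpow hAp (by positivity))
    have b4 : P i {t | Many h n (wt t) z N r (2 * r)}ᶜ ≤ 1 / 16 := by
      refine (hPA i hi _ hMm.compl).trans (le_trans ?_ hδA)
      exact mul_le_mul' le_rfl (ENNReal.rpow_le_rpow hMp (by positivity))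
    have b5 : P i Sᶜ ≤ 1 / 2 := by
      rw [hS, Set.compl_inter, Set.compl_inter, Set.compl_inter]
      refine (measure_union_le _ _).trans ?_
      refine (add_le_add b1 ((measure_union_le _ _).trans
        (add_le_add b2 ((measure_union_le _ _).trans (add_le_add b3 b4))))).trans ?_
      rw [zero_add]
      have : (1 / 8 + (1 / 16 + 1 / 16) : ℝ≥0∞) = ENNReal.ofReal (1 / 4) := by
        rw [show (1 / 8 : ℝ≥0∞) = ENNReal.ofReal (1 / 8) by
            rw [ENNReal.ofReal_div_of_pos (by norm_num)]; norm_num,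
          show (1 / 16 : ℝ≥0∞) = ENNReal.ofReal (1 / 16) by
            rw [ENNReal.ofReal_div_of_pos (by norm_num)]; norm_num,
          ← ENNReal.ofReal_add (by norm_num) (by norm_num),
          ← ENNReal.ofReal_add (by norm_num) (by norm_num)]
        norm_num
      rw [this, show (1 / 2 : ℝ≥0∞) = ENNReal.ofReal (1 / 2) by
            rw [ENNReal.ofReal_div_of_pos (by norm_num)]; norm_num]
      exact ENNReal.ofReal_le_ofReal (by norm_num)
    have b6 : (1 : ℝ≥0∞) = P i S + P i Sᶜ := by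
      rw [measure_add_measure_compl hSm, measure_univ]
    have b7 : (1 / 2 + 1 / 2 : ℝ≥0∞) ≤ P i S + 1 / 2 := by
      rw [ENNReal.add_halves]
      exact b6.le.trans (add_le_add le_rfl b5)
    exact (ENNReal.add_le_add_iff_right (by simp)).1 b7
  -- the recursion
  have m0 : ∫⁻ t, Φ t ∂P 0 ≤ ENNReal.ofReal (C₄ * ((2 * r : ℕ) : ℝ)) := by
    rw [hP0]
    refine (lintegral_mono fun t => Phi_le hKal hRC hz hs t).trans ?_
    rw [lintegral_indicator hGm]
    exact hzU
  have hstep : ∀ i < k, ∫⁻ t, Φ t ∂P (i + 1) + ENNReal.ofReal h * (n / 2) * (1 / 2) ≤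
      ∫⁻ t, Φ t ∂P i + ENNReal.ofReal (h / g) * ∫⁻ t, Φ t ∂P (i + 1) := by
    intro i hi
    refine le_trans (add_le_add le_rfl (mul_le_mul' le_rfl (hPS2 (i + 1) hi))) ?_
    refine hPS i hi Φ hΦm S hSm n (ENNReal.ofReal h) (ENNReal.ofReal (h / g))
      ENNReal.ofReal_ne_top ENNReal.ofReal_ne_top hmono fun t' ht' => ?_
    obtain ⟨d1, d2, d3, d4⟩ := ht'
    exact Phi_step hKal hRC hGain hα hαβ hrc hNd hz hgpos hh le_rfl d1 d2 d3 d4
  have hmono2 : ∀ i < k, ∫⁻ t, Φ t ∂P (i + 1) ≤ ∫⁻ t, Φ t ∂P i := by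
    intro i hi
    have := hPS i hi Φ hΦm ∅ MeasurableSet.empty 0 0 0 (by simp) (by simp) hmono
      (fun t' ht' => absurd ht' (Set.notMem_empty _))
    simpa only [ge_iff_le, CharP.cast_eq_zero, ENNReal.zero_div, mul_zero, measure_empty, add_zero,     zero_mul] using this
  have hκ : (k : ℝ≥0∞) * ENNReal.ofReal (h / g) ≤ 1 := by
    rw [← ENNReal.ofReal_natCast, ← ENNReal.ofReal_mul (by (clear * - hkpos; positivity)), ← ENNReal.ofReal_one]
    refine ENNReal.ofReal_le_ofReal ?_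
    rw [← mul_div_assoc, div_le_one hgpos]
    linarith only [hgk]
  have hfin := recursion (m := fun i => ∫⁻ t, Φ t ∂P i) m0 hmono2 hstep hκ
  have e1 : (k : ℝ≥0∞) * (ENNReal.ofReal h * (n / 2) * (1 / 2)) =
      ENNReal.ofReal (k * (h * (n / 2) * (1 / 2))) := by
    have f1 : ((n : ℝ≥0∞) / 2) = ENNReal.ofReal ((n : ℝ) / 2) := by
      rw [ENNReal.ofReal_div_of_pos (by norm_num), ENNReal.ofReal_natCast, ENNReal.ofReal_ofNat]
    have f2 : (1 / 2 : ℝ≥0∞) = ENNReal.ofReal (1 / 2) := by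
      rw [ENNReal.ofReal_div_of_pos (by norm_num), ENNReal.ofReal_one, ENNReal.ofReal_ofNat]
    rw [f1, f2, ← ENNReal.ofReal_natCast k, ← ENNReal.ofReal_mul (by positivity),
      ← ENNReal.ofReal_mul (by (clear * - hh hc hrc; positivity)), ← ENNReal.ofReal_mul (by (clear * - hkpos; positivity))]
  have e2 : 2 * ENNReal.ofReal (C₄ * ((2 * r : ℕ) : ℝ)) =
      ENNReal.ofReal (2 * (C₄ * ((2 * r : ℕ) : ℝ))) := by
    rw [ENNReal.ofReal_mul (p := 2) (by norm_num), ENNReal.ofReal_ofNat]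
  rw [e1, e2, ENNReal.ofReal_le_ofReal_iff (by (clear * - hC₄ hrc; positivity))] at hfin
  have hnr : c * r ≤ n := Nat.le_ceil _
  have hrpos : (0 : ℝ) < r := by exact_mod_cast hrc
  rw [div_lt_iff₀ (by (clear * - hh hc; positivity))] at hk
  push_cast at hfin
  have h5 : k * (h * (c * r)) ≤ k * (h * n) := by
    refine mul_le_mul_of_nonneg_left (mul_le_mul_of_nonneg_left hnr hh.le) hkpos.le
  have h6 : (k * (h * c)) * r ≤ (16 * C₄) * r := by nlinarith only [hfin, h5]
  have h7 := le_of_mul_le_mul_right h6 hrpos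
  linarith only [hk, h7]

end Vale.Agent.P158.C.Main
end
end

section

section

/-! Peierls estimates: probabilities. -/

namespace Vale.Agent.P158.T1.Pe

open Filter MeasureTheory ProbabilityTheory
open scoped ENNReal

variable {G : Measure ℝ} [IsProbabilityMeasure G] {β : ℝ}

open Classical in
/-- Number of heavy edges. -/
noncomputable def nh (β : ℝ) (t : Env) (s : Finset latt.edgeSet) : ℕ :=
  (s.filter fun e => β ≤ t e).card

open Classical in
/-- Exponential weight. -/
noncomputable def phiW (β : ℝ) (u : ℝ) : ℝ≥0∞ := if β ≤ u then 1 else 16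

theorem measurable_phiW : Measurable (phiW β) :=
  Measurable.ite measurableSet_Ici measurable_const measurable_const

theorem lintegral_phiW (hβ : G (Set.Iio β) ≤ 1 / 16) : ∫⁻ u, phiW β u ∂G ≤ 2 := by
  classical
  have h1 : ∀ u, phiW β u ≤ 1 + (Set.Iio β).indicator (fun _ => (16 : ℝ≥0∞)) u := by
    intro u
    unfold phiW
    split_ifs with h
    · exact le_self_add
    · rw [Set.indicator_of_mem (show u ∈ Set.Iio β from not_le.1 h)]
      exact le_add_self
  calc ∫⁻ u, phiW β u ∂G ≤ ∫⁻ u, (1 + (Set.Iio β).indicator (fun _ => (16 : ℝ≥0∞)) u) ∂G :=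
        lintegral_mono h1
    _ = 1 + 16 * G (Set.Iio β) := by
        rw [lintegral_add_left measurable_const, lintegral_const, measure_univ, one_mul,
          lintegral_indicator measurableSet_Iio, lintegral_const,
          Measure.restrict_apply MeasurableSet.univ, Set.univ_inter]
    _ ≤ 1 + 16 * (1 / 16) := by (clear * - hβ; gcongr)
    _ = 2 := by
        rw [ENNReal.mul_div_cancel (by norm_num) (by norm_num)]
        norm_num

/-- Product integrals over distinct edges. -/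
theorem lintegral_prod_PG (s : Finset latt.edgeSet) {φ : ℝ → ℝ≥0∞} (hφ : Measurable φ) :
    ∫⁻ t, ∏ e ∈ s, φ (t e) ∂PG G = (∫⁻ u, φ u ∂G) ^ s.card := by
  have hi : iIndepFun (fun (e : latt.edgeSet) (t : Env) => φ (t e)) (PG G) :=
    iIndepFun_infinitePi (X := fun _ : latt.edgeSet => φ) fun _ => hφ
  rw [lintegral_prod_eq_prod_lintegral_of_indepFun s _ hi fun e =>
    hφ.comp (measurable_pi_apply e)]
  rw [← Finset.prod_const]
  refine Finset.prod_congr rfl fun e _ => ?_
  have hmp : MeasurePreserving (fun t : Env => t e) (PG G) G :=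
    measurePreserving_eval_infinitePi (fun _ : latt.edgeSet => G) e
  exact hmp.lintegral_comp hφ

theorem light_bound (hβ : G (Set.Iio β) ≤ 1 / 16) (s : Finset latt.edgeSet) :
    (2 : ℝ≥0∞) ^ (3 * s.card + s.card / 2) * PG G {t | 8 * nh β t s < s.card} ≤
      2 ^ s.card := by
  classical
  have hm : Measurable fun t : Env => ∏ e ∈ s, phiW β (t e) :=
    Finset.measurable_prod _ fun e _ => measurable_phiW.comp (measurable_pi_apply e)
  have hsub : {t : Env | 8 * nh β t s < s.card} ⊆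
      {t | (2 : ℝ≥0∞) ^ (3 * s.card + s.card / 2) ≤ ∏ e ∈ s, phiW β (t e)} := by
    intro t ht
    have ht' : 8 * nh β t s < s.card := ht
    show (2 : ℝ≥0∞) ^ (3 * s.card + s.card / 2) ≤ ∏ e ∈ s, phiW β (t e)
    unfold phiW
    rw [Finset.prod_ite, Finset.prod_const_one, one_mul, Finset.prod_const]
    have h1 : (s.filter fun e => ¬ β ≤ t e).card + nh β t s = s.card := by
      unfold nh
      rw [add_comm]
      exact Finset.card_filter_add_card_filter_not _
    have h2 : (16 : ℝ≥0∞) = 2 ^ 4 := by norm_num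
    rw [h2, ← pow_mul]
    refine pow_le_pow_right₀ (by norm_num) ?_
    omega
  calc _ ≤ (2 : ℝ≥0∞) ^ (3 * s.card + s.card / 2) *
        PG G {t | (2 : ℝ≥0∞) ^ (3 * s.card + s.card / 2) ≤ ∏ e ∈ s, phiW β (t e)} := by
        (clear hβ hm; gcongr)
    _ ≤ ∫⁻ t, ∏ e ∈ s, phiW β (t e) ∂PG G := mul_meas_ge_le_lintegral hm _
    _ = (∫⁻ u, phiW β u ∂G) ^ s.card := lintegral_prod_PG s measurable_phiW
    _ ≤ 2 ^ s.card := by gcongr; exact lintegral_phiW hβ

/-- Peierls estimate for paths of length `ℓ` from `x`. -/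
theorem peierls_pow (hβ : G (Set.Iio β) ≤ 1 / 16) (x : V) (ℓ : ℕ) :
    (2 : ℝ≥0∞) ^ (ℓ / 2) * PG G {t | ∃ (y : V) (p : latt.Walk x y), p.IsPath ∧ p.length = ℓ ∧
      8 * nh β t (pe p) < ℓ} ≤ 1 := by
  classical
  have hsub : {t : Env | ∃ (y : V) (p : latt.Walk x y), p.IsPath ∧ p.length = ℓ ∧
      8 * nh β t (pe p) < ℓ} ⊆ ⋃ q ∈ (WL ℓ x).filter fun q => (pe q.2).card = ℓ,
        {t | 8 * nh β t (pe q.2) < (pe q.2).card} := by
    rintro t ⟨y, p, hp, hl, ht⟩
    rw [Set.mem_iUnion₂]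
    refine ⟨⟨y, p⟩, ?_, ?_⟩
    · rw [Finset.mem_filter]
      refine ⟨?_, by rw [card_pe hp, hl]⟩
      have := mem_WL p
      rwa [hl] at this
    · show 8 * nh β t (pe p) < (pe p).card
      rw [card_pe hp, hl]
      exact ht
  have h1 : PG G {t | ∃ (y : V) (p : latt.Walk x y), p.IsPath ∧ p.length = ℓ ∧
      8 * nh β t (pe p) < ℓ} ≤ ∑ q ∈ (WL ℓ x).filter fun q => (pe q.2).card = ℓ,
        PG G {t | 8 * nh β t (pe q.2) < (pe q.2).card} :=
    (measure_mono hsub).trans (measure_biUnion_finset_le _ _)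
  have h2 : (2 : ℝ≥0∞) ^ (3 * ℓ + ℓ / 2) * ∑ q ∈ (WL ℓ x).filter fun q => (pe q.2).card = ℓ,
      PG G {t | 8 * nh β t (pe q.2) < (pe q.2).card} ≤ 2 ^ (3 * ℓ) := by
    rw [Finset.mul_sum]
    calc ∑ q ∈ (WL ℓ x).filter fun q => (pe q.2).card = ℓ, (2 : ℝ≥0∞) ^ (3 * ℓ + ℓ / 2) *
          PG G {t | 8 * nh β t (pe q.2) < (pe q.2).card}
        ≤ ∑ _q ∈ (WL ℓ x).filter fun q => (pe q.2).card = ℓ, (2 : ℝ≥0∞) ^ ℓ := by
          refine Finset.sum_le_sum fun q hq => ?_
          have := light_bound hβ (pe q.2)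
          rw [(Finset.mem_filter.1 hq).2] at this
          rw [(Finset.mem_filter.1 hq).2]
          exact this
      _ = (((WL ℓ x).filter fun q => (pe q.2).card = ℓ).card : ℝ≥0∞) * 2 ^ ℓ := by
          rw [Finset.sum_const, nsmul_eq_mul]
      _ ≤ ((4 ^ ℓ : ℕ) : ℝ≥0∞) * 2 ^ ℓ := by
          gcongr
          exact (Finset.card_filter_le _ _).trans (card_WL ℓ x)
      _ = 2 ^ (3 * ℓ) := by
          push_cast
          rw [show (4 : ℝ≥0∞) = 2 ^ 2 by norm_num, ← pow_mul, ← pow_add]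
          congr 1
          ring
  have h3 : (2 : ℝ≥0∞) ^ (3 * ℓ) * ((2 : ℝ≥0∞) ^ (ℓ / 2) *
      PG G {t | ∃ (y : V) (p : latt.Walk x y), p.IsPath ∧ p.length = ℓ ∧
        8 * nh β t (pe p) < ℓ}) ≤ 2 ^ (3 * ℓ) * 1 := by
    rw [← mul_assoc, ← pow_add, mul_one]
    exact (mul_le_mul_right h1 _).trans h2
  exact (ENNReal.mul_le_mul_iff_right (by positivity) (by finiteness)).1 h3

theorem half_pow_le (ℓ : ℕ) : (1 / 2 : ℝ) ^ (ℓ / 2) ≤ 2 * (3 / 4) ^ ℓ := by
  induction ℓ using Nat.strong_induction_on with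
  | _ ℓ ih =>
    rcases ℓ with _ | _ | ℓ
    · norm_num
    · norm_num
    · have h := ih ℓ (by omega)
      have e : (ℓ + 1 + 1) / 2 = ℓ / 2 + 1 := by omega
      rw [e, pow_succ]
      have h2 : (0 : ℝ) ≤ (3 / 4) ^ ℓ := by positivity
      have h3 : (3 / 4 : ℝ) ^ (ℓ + 1 + 1) = (3 / 4) ^ ℓ * (9 / 16) := by ring
      rw [h3]
      nlinarith only [h, h2]

/-- Peierls estimate, final form. -/
theorem peierls_path (hβ : G (Set.Iio β) ≤ 1 / 16) (x : V) (ℓ : ℕ) :
    PG G {t | ∃ (y : V) (p : latt.Walk x y), p.IsPath ∧ p.length = ℓ ∧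
      8 * nh β t (pe p) < ℓ} ≤ ENNReal.ofReal (2 * (3 / 4) ^ ℓ) := by
  have h := peierls_pow hβ x ℓ
  set P := PG G {t | ∃ (y : V) (p : latt.Walk x y), p.IsPath ∧ p.length = ℓ ∧
      8 * nh β t (pe p) < ℓ} with hP
  have h1 : P ≤ ENNReal.ofReal ((1 / 2 : ℝ) ^ (ℓ / 2)) := by
    have e : ENNReal.ofReal ((1 / 2 : ℝ) ^ (ℓ / 2)) = 1 / (2 : ℝ≥0∞) ^ (ℓ / 2) := by
      rw [ENNReal.ofReal_pow (by norm_num), ENNReal.ofReal_div_of_pos (by norm_num),
        ENNReal.ofReal_one, ENNReal.ofReal_ofNat, one_div, one_div, ENNReal.inv_pow]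
    rw [e, ENNReal.le_div_iff_mul_le (Or.inl (by positivity)) (Or.inl (by finiteness)), mul_comm]
    exact h
  exact h1.trans (ENNReal.ofReal_le_ofReal (half_pow_le ℓ))

end Vale.Agent.P158.T1.Pe
end
end

section

section

/-! Peierls estimates: annuli, finiteness of balls, good windows. -/

namespace Vale.Agent.P158.T1.Pe

open Filter MeasureTheory ProbabilityTheory
open scoped ENNReal

/-! ### Walk decompositions -/

/-- Last visit of a set. -/
theorem exists_last {A : Set V} {x y : V} (p : latt.Walk x y) (hy : y ∉ A)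
    (hx : ∃ z ∈ p.support, z ∈ A) :
    ∃ (u v : V) (h : latt.Adj u v) (q₁ : latt.Walk x u) (q₂ : latt.Walk v y), u ∈ A ∧ v ∉ A ∧
      p = q₁.append (SimpleGraph.Walk.cons h q₂) ∧ ∀ z ∈ q₂.support, z ∉ A := by
  induction p with
  | nil =>
    obtain ⟨z, hz, hzA⟩ := hx
    simp only [SimpleGraph.Walk.support_nil, List.mem_singleton] at hz
    subst hz
    exact absurd hzA hy
  | cons h p ih =>
    rename_i a b c
    by_cases h' : ∃ z ∈ p.support, z ∈ A
    · obtain ⟨u, v, huv, q₁, q₂, hu, hv, hp, hq⟩ := ih hy h'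
      exact ⟨u, v, huv, SimpleGraph.Walk.cons h q₁, q₂, hu, hv, by
        rw [SimpleGraph.Walk.cons_append, ← hp], hq⟩
    · push Not at h'
      obtain ⟨z, hz, hzA⟩ := hx
      rw [SimpleGraph.Walk.support_cons, List.mem_cons] at hz
      rcases hz with rfl | hz
      · exact ⟨z, b, h, SimpleGraph.Walk.nil, p, hzA, h' b p.start_mem_support, rfl, h'⟩
      · exact absurd hzA (h' z hz)

theorem mem_bx_of_walk {z x y : V} {k : ℕ} (p : latt.Walk x y) (hx : x ∈ bx z k) :
    y ∈ bx z (k + p.length) := by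
  induction p generalizing k with
  | nil => simpa using hx
  | cons h p ih =>
    have := ih (bx_adj h hx)
    rw [SimpleGraph.Walk.length_cons]
    convert this using 2
    ring

theorem mem_of_mem_pe {x y z : V} {p : latt.Walk x y} {e : latt.edgeSet} (he : e ∈ pe p)
    (hz : z ∈ e.1) : z ∈ p.support := by
  rw [mem_pe] at he
  obtain ⟨d, hd, rfl⟩ := he
  have hz' : z = d.fst ∨ z = d.snd := by
    have : z ∈ s(d.fst, d.snd) := hz
    simpa using this
  rcases hz' with rfl | rfl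
  · exact p.dart_fst_mem_support_of_mem_darts hd
  · exact p.dart_snd_mem_support_of_mem_darts hd

/-- A crossing of an annulus contains a path of length `s - r` in the annulus which starts at
the inner boundary. -/
theorem exists_crossing {z x y : V} {r s : ℕ} (hrs : r < s) (p : latt.Walk x y)
    (hx : x ∈ bx z r) (hy : y ∉ bx z s) :
    ∃ (x' y' : V) (p' : latt.Walk x' y'), x' ∈ bxF z (r + 1) \ bxF z r ∧ p'.IsPath ∧
      p'.length = s - r ∧ ∀ e ∈ pe p', e ∈ pe p ∧ e ∉ tE z r ∧ e ∈ tE z s := by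
  obtain ⟨y₁, p₁, p₂, hp, hy₁, hE⟩ := exists_exit p (bx_mono hrs.le hx) hy
  have hy₁' : y₁ ∉ bx z r := fun h => hy₁ (bx_mono hrs.le h)
  obtain ⟨u, v, h, q₁, q₂, hu, hv, hp₁, hq⟩ :=
    exists_last p₁ hy₁' ⟨x, p₁.start_mem_support, hx⟩
  have hv1 : v ∈ bx z (r + 1) := bx_adj h hu
  have hlen : s - r ≤ q₂.bypass.length := by
    by_contra hlt
    push Not at hlt
    have := mem_bx_of_walk q₂.bypass hv1
    exact hy₁ (bx_mono (by omega) this)
  refine ⟨v, _, q₂.bypass.take (s - r), ?_, q₂.bypass_isPath.take _, ?_, ?_⟩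
  · rw [Finset.mem_sdiff, mem_bxF, mem_bxF]
    exact ⟨hv1, hv⟩
  · rw [SimpleGraph.Walk.take_length]
    exact min_eq_left hlen
  · intro e he
    have h1 : e ∈ pe q₂ := by
      apply pe_bypass_subset
      rw [mem_pe] at he ⊢
      obtain ⟨d, hd, rfl⟩ := he
      rw [SimpleGraph.Walk.darts_take] at hd
      exact ⟨d, List.mem_of_mem_take hd, rfl⟩
    have h2 : e ∈ pe p₁ := by
      rw [hp₁, pe_append, Finset.mem_union]
      right
      rw [mem_pe] at h1 ⊢
      obtain ⟨d, hd, rfl⟩ := h1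
      exact ⟨d, by rw [SimpleGraph.Walk.darts_cons]; exact List.mem_cons_of_mem _ hd, rfl⟩
    refine ⟨?_, ?_, hE e h2⟩
    · rw [hp, pe_append, Finset.mem_union]
      exact Or.inl h2
    · rintro ⟨w, hw, hw'⟩
      exact hq w (mem_of_mem_pe h1 hw) hw'

variable {G : Measure ℝ} [IsProbabilityMeasure G] {β : ℝ}

/-- Peierls estimate for annuli. -/
theorem peierls (G : Measure ℝ) [IsProbabilityMeasure G] : PeierlsStmt G := by
  classical
  intro β hβ
  refine ⟨16, 3 / 4, by norm_num, by norm_num, by norm_num, ?_⟩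
  intro z r s hrs
  rcases hrs.eq_or_lt with rfl | hrs
  · have : {t : Env | ¬ AG β t z r r} = ∅ := by
      ext t
      simp only [Set.mem_ofPred_eq, Set.mem_empty_iff_false, iff_false, not_not]
      intro x y p _ _
      omega
    rw [this, measure_empty]
    exact zero_le
  · have hsub : {t : Env | ¬ AG β t z r s} ⊆ ⋃ x ∈ bxF z (r + 1) \ bxF z r,
        {t | ∃ (y : V) (p : latt.Walk x y), p.IsPath ∧ p.length = s - r ∧
          8 * nh β t (pe p) < s - r} := by
      intro t ht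
      have ht' : ¬ AG β t z r s := ht
      unfold AG at ht'
      push Not at ht'
      obtain ⟨x, y, p, hx, hy, hlt⟩ := ht'
      obtain ⟨x', y', p', hx', hp', hl, he⟩ := exists_crossing hrs p hx hy
      rw [Set.mem_iUnion₂]
      refine ⟨x', hx', y', p', hp', hl, ?_⟩
      have h1 : nh β t (pe p') ≤ (hv β t z r s p).card := by
        refine Finset.card_le_card fun e hm => ?_
        rw [Finset.mem_filter] at hm
        unfold hv
        rw [Finset.mem_filter]
        obtain ⟨a1, a2, a3⟩ := he e hm.1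
        exact ⟨a1, a2, a3, hm.2⟩
      omega
    calc PG G {t : Env | ¬ AG β t z r s} ≤ _ := measure_mono hsub
      _ ≤ ∑ x ∈ bxF z (r + 1) \ bxF z r, PG G {t | ∃ (y : V) (p : latt.Walk x y), p.IsPath ∧
          p.length = s - r ∧ 8 * nh β t (pe p) < s - r} := measure_biUnion_finset_le _ _
      _ ≤ ∑ _x ∈ bxF z (r + 1) \ bxF z r, ENNReal.ofReal (2 * (3 / 4) ^ (s - r)) :=
          Finset.sum_le_sum fun x _ => peierls_path hβ x _
      _ = ENNReal.ofReal (16 * (r + 1) * (3 / 4) ^ (s - r)) := by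
          rw [Finset.sum_const, card_ring, nsmul_eq_mul, ← ENNReal.ofReal_natCast,
            ← ENNReal.ofReal_mul (by positivity)]
          congr 1
          push_cast
          ring

/-- Tail of the Peierls estimate. -/
theorem peierls_tail (hβ : G (Set.Iio β) ≤ 1 / 16) (x : V) (ℓ : ℕ) :
    PG G {t | ∃ (y : V) (p : latt.Walk x y), p.IsPath ∧ ℓ ≤ p.length ∧
      8 * nh β t (pe p) < p.length} ≤ ENNReal.ofReal (8 * (3 / 4) ^ ℓ) := by
  have hsub : {t : Env | ∃ (y : V) (p : latt.Walk x y), p.IsPath ∧ ℓ ≤ p.length ∧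
      8 * nh β t (pe p) < p.length} ⊆ ⋃ j : ℕ, {t | ∃ (y : V) (p : latt.Walk x y), p.IsPath ∧
        p.length = ℓ + j ∧ 8 * nh β t (pe p) < ℓ + j} := by
    rintro t ⟨y, p, hp, hl, ht⟩
    rw [Set.mem_iUnion]
    exact ⟨p.length - ℓ, y, p, hp, by omega, by omega⟩
  calc _ ≤ _ := measure_mono hsub
    _ ≤ ∑' j : ℕ, PG G {t | ∃ (y : V) (p : latt.Walk x y), p.IsPath ∧
        p.length = ℓ + j ∧ 8 * nh β t (pe p) < ℓ + j} := measure_iUnion_le _
    _ ≤ ∑' j : ℕ, ENNReal.ofReal (2 * (3 / 4) ^ (ℓ + j)) :=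
        ENNReal.tsum_le_tsum fun j => peierls_path hβ x _
    _ = ENNReal.ofReal (8 * (3 / 4) ^ ℓ) := by
        rw [← ENNReal.ofReal_tsum_of_nonneg (fun j => by positivity)]
        · congr 1
          have : ∀ j : ℕ, (2 : ℝ) * (3 / 4) ^ (ℓ + j) = 2 * (3 / 4) ^ ℓ * (3 / 4) ^ j := by
            intro j; rw [pow_add]; ring
          simp only [this]
          rw [tsum_mul_left, tsum_geometric_of_lt_one (by norm_num) (by norm_num)]
          ring
        · have : (fun j : ℕ => (2 : ℝ) * (3 / 4) ^ (ℓ + j)) =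
              fun j => 2 * (3 / 4) ^ ℓ * (3 / 4) ^ j := by
            funext j; rw [pow_add]; ring
          rw [this]
          exact (summable_geometric_of_lt_one (by norm_num) (by norm_num)).mul_left _

/-- Almost surely long paths from `x` are heavy. -/
theorem ae_long_heavy (hβ : G (Set.Iio β) ≤ 1 / 16) (x : V) :
    ∀ᵐ t ∂PG G, ∃ ℓ : ℕ, ∀ (y : V) (p : latt.Walk x y), p.IsPath → ℓ ≤ p.length →
      p.length ≤ 8 * nh β t (pe p) := by
  rw [ae_iff]
  have h0 : ∀ ℓ : ℕ, PG G {t | ¬ ∃ ℓ : ℕ, ∀ (y : V) (p : latt.Walk x y), p.IsPath →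
      ℓ ≤ p.length → p.length ≤ 8 * nh β t (pe p)} ≤ ENNReal.ofReal (8 * (3 / 4) ^ ℓ) := by
    intro ℓ
    refine (measure_mono ?_).trans (peierls_tail hβ x ℓ)
    intro t ht
    have ht' : ¬ ∃ ℓ : ℕ, ∀ (y : V) (p : latt.Walk x y), p.IsPath →
      ℓ ≤ p.length → p.length ≤ 8 * nh β t (pe p) := ht
    push Not at ht'
    obtain ⟨y, p, hp, hl, hlt⟩ := ht' ℓ
    exact ⟨y, p, hp, hl, hlt⟩
  refine le_antisymm ?_ zero_le
  refine ge_of_tendsto' (x := atTop (α := ℕ)) ?_ h0
  rw [← ENNReal.ofReal_zero]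
  refine ENNReal.tendsto_ofReal ?_
  have : Tendsto (fun ℓ : ℕ => (8 : ℝ) * (3 / 4) ^ ℓ) atTop (nhds (8 * 0)) :=
    (tendsto_pow_atTop_nhds_zero_of_lt_one (by norm_num) (by norm_num)).const_mul 8
  simpa only [mul_zero] using this

theorem nh_le_ww {t : Env} (ht : ∀ e, 0 < t e) {x y : V} (p : latt.Walk x y) :
    β * nh β t (pe p) ≤ ww (wt t) p := by
  classical
  exact heavy_le_ww ht p (Finset.filter_subset _ _) fun e he => (Finset.mem_filter.1 he).2

/-- Balls are finite, almost surely. -/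
theorem ae_FB [NullSingletonClass G] (hG : G (Set.Iio 0) = 0) (hβ0 : 0 < β)
    (hβ : G (Set.Iio β) ≤ 1 / 16) : ∀ᵐ t ∂PG G, FB (wt t) := by
  filter_upwards [ae_pos G hG, ae_long_heavy hβ 0] with t ht hlong
  obtain ⟨ℓ, hℓ⟩ := hlong
  have hw := adm_of_pos ht
  intro s
  obtain ⟨N, hN⟩ := exists_nat_gt (8 * (s + 1) / β)
  refine (bx_finite 0 (max ℓ N)).subset ?_
  intro z hz
  have hz' : T (wt t) 0 z ≤ s := hz
  by_contra hnot
  obtain ⟨p, -, hp⟩ := exists_walk hw (conn_univ 0 z) one_pos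
  have hp' : ww (wt t) p < s + 1 := by
    have : PT (wt t) Set.univ 0 z = T (wt t) 0 z := rfl
    linarith only [hz', hp, this]
  have hlen : max ℓ N < p.bypass.length := by
    by_contra hlt
    push Not at hlt
    have h1 := mem_bx_of_walk (k := 0) (z := (0 : V)) p.bypass (center_mem 0 0)
    rw [zero_add] at h1
    exact hnot (bx_mono hlt h1)
  have h1 := hℓ z p.bypass p.bypass_isPath ((le_max_left _ _).trans hlen.le)
  have h2 := nh_le_ww (β := β) ht p.bypass
  have h3 := ww_bypass_le hw p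
  have h4 : (N : ℝ) < p.bypass.length := by
    exact_mod_cast (le_max_right ℓ N).trans_lt hlen
  have h5 : (p.bypass.length : ℝ) ≤ 8 * nh β t (pe p.bypass) := by exact_mod_cast h1
  rw [div_lt_iff₀ hβ0] at hN
  nlinarith only [hN, hp', h2, h3, hβ0, h4, h5]

/-- Low levels have small mass. -/
theorem exists_level [NullSingletonClass G] (hG : G (Set.Iio 0) = 0) {η : ℝ≥0∞} (hη : 0 < η) :
    ∃ β : ℝ, 0 < β ∧ G (Set.Iio β) ≤ η := by
  have h0 : G (Set.Iic 0) = 0 := by
    rw [← Set.Iio_union_right, measure_union_null_iff]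
    exact ⟨hG, measure_singleton _⟩
  have hanti : Antitone fun n : ℕ => Set.Iio (1 / ((n : ℝ) + 1)) := by
    intro n m hnm x hx
    have hx' : x < 1 / ((m : ℝ) + 1) := hx
    refine lt_of_lt_of_le hx' ?_
    have : (n : ℝ) ≤ m := by exact_mod_cast hnm
    exact one_div_le_one_div_of_le (by positivity) (by linarith only [this])
  have hinter : (⋂ n : ℕ, Set.Iio (1 / ((n : ℝ) + 1))) = Set.Iic 0 := by
    ext x
    simp only [Set.mem_iInter, Set.mem_Iio, Set.mem_Iic]
    constructor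
    · intro h
      by_contra hx
      push Not at hx
      obtain ⟨n, hn⟩ := exists_nat_one_div_lt hx
      exact absurd (h n) (not_lt.2 hn.le)
    · intro h n
      exact lt_of_le_of_lt h (by positivity)
  have ht := tendsto_measure_iInter_atTop (μ := G)
    (fun n : ℕ => (measurableSet_Iio (a := 1 / ((n : ℝ) + 1))).nullMeasurableSet) hanti
    ⟨0, measure_ne_top _ _⟩
  rw [hinter, h0] at ht
  obtain ⟨n, hn⟩ := ((tendsto_order.1 ht).2 η hη).exists
  exact ⟨1 / ((n : ℝ) + 1), by positivity, hn.le⟩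

end Vale.Agent.P158.T1.Pe
end
end

section

section

/-! Ring sums and good boxes: `LenStmt` and `GoodStmt`. -/

set_option linter.all false

namespace Vale.Agent.P158.C.GoodLen

open Filter MeasureTheory Vale.Agent.P158.T1 Vale.Agent.P158.T1.Pe
open scoped ENNReal

variable {G : Measure ℝ} [IsProbabilityMeasure G]

/-! ### A weak law of large numbers, uniform in the finite set of edges -/

theorem tail_small (hG : ∫⁻ s, ENNReal.ofReal s ∂G ≠ ∞) {δ : ℝ} (hδ : 0 < δ) :
    ∃ K : ℝ, 0 < K ∧ ∫⁻ u, ENNReal.ofReal (u - K) ∂G ≤ ENNReal.ofReal δ := by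
  have ht : Tendsto (fun n : ℕ => ∫⁻ u, ENNReal.ofReal (u - n) ∂G) atTop
      (nhds (∫⁻ _, 0 ∂G)) := by
    refine tendsto_lintegral_of_dominated_convergence (fun u => ENNReal.ofReal u)
      (fun n => ENNReal.measurable_ofReal.comp (measurable_id.sub_const _)) (fun n => ?_) hG ?_
    · refine Eventually.of_forall fun u => ENNReal.ofReal_le_ofReal ?_
      have : (0 : ℝ) ≤ n := Nat.cast_nonneg n
      linarith only []
    · refine Eventually.of_forall fun u => ?_
      obtain ⟨n₀, hn₀⟩ := exists_nat_ge u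
      refine tendsto_const_nhds.congr' ?_
      filter_upwards [eventually_ge_atTop n₀] with n hn
      rw [ENNReal.ofReal_of_nonpos]
      have : (n₀ : ℝ) ≤ n := by exact_mod_cast hn
      linarith only [hn₀, this]
  rw [lintegral_zero] at ht
  obtain ⟨n, hn, hn1⟩ := (((tendsto_order.1 ht).2 _ (ENNReal.ofReal_pos.2 hδ)).and
    (eventually_ge_atTop 1)).exists
  refine ⟨n, by exact_mod_cast hn1, hn.le⟩

theorem exp_le_lin {x : ℝ} (h0 : 0 ≤ x) (h1 : x ≤ 1) : Real.exp x ≤ 1 + 2 * x := by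
  have h := Real.abs_exp_sub_one_le (x := x) (by rw [abs_of_nonneg h0]; exact h1)
  rw [abs_of_nonneg h0] at h
  have := le_abs_self (Real.exp x - 1)
  linarith

/-- the truncated exponential weight -/
noncomputable def phiK (K : ℝ) (u : ℝ) : ℝ≥0∞ := ENNReal.ofReal (Real.exp (min u K / K))

theorem measurable_phiK (K : ℝ) : Measurable (phiK K) := by
  unfold phiK
  exact ENNReal.measurable_ofReal.comp (Real.measurable_exp.comp
    ((measurable_id.min measurable_const).div_const K))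

theorem lintegral_phiK (hG : ∫⁻ s, ENNReal.ofReal s ∂G ≠ ∞) {K : ℝ} (hK : 0 < K) :
    ∫⁻ u, phiK K u ∂G ≤
      ENNReal.ofReal (Real.exp (2 * (∫⁻ s, ENNReal.ofReal s ∂G).toReal / K)) := by
  set m := (∫⁻ s, ENNReal.ofReal s ∂G).toReal with hm
  have hm0 : 0 ≤ m := ENNReal.toReal_nonneg
  have h1 : ∀ u, phiK K u ≤ 1 + ENNReal.ofReal (2 / K) * ENNReal.ofReal u := by
    intro u
    unfold phiK
    rcases le_total u 0 with hu | hu
    · rw [ENNReal.ofReal_of_nonpos hu, mul_zero, add_zero, ← ENNReal.ofReal_one]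
      refine ENNReal.ofReal_le_ofReal (Real.exp_le_one_iff.2 ?_)
      exact div_nonpos_of_nonpos_of_nonneg ((min_le_left _ _).trans hu) hK.le
    · rw [← ENNReal.ofReal_one, ← ENNReal.ofReal_mul (by positivity),
        ← ENNReal.ofReal_add zero_le_one (by positivity)]
      refine ENNReal.ofReal_le_ofReal ?_
      have h2 : 0 ≤ min u K / K := div_nonneg (le_min hu hK.le) hK.le
      have h3 : min u K / K ≤ 1 := (div_le_one hK).2 (min_le_right _ _)
      refine (exp_le_lin h2 h3).trans ?_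
      have h4 : min u K / K ≤ u / K := div_le_div_of_nonneg_right (min_le_left _ _) hK.le
      have h5 : 2 / K * u = 2 * (u / K) := by ring
      rw [h5]
      linarith only [h4]
  calc ∫⁻ u, phiK K u ∂G ≤ ∫⁻ u, (1 + ENNReal.ofReal (2 / K) * ENNReal.ofReal u) ∂G :=
        lintegral_mono h1
    _ = 1 + ENNReal.ofReal (2 / K) * ENNReal.ofReal m := by
        rw [lintegral_add_left measurable_const, lintegral_const, measure_univ, one_mul,
          lintegral_const_mul _ ENNReal.measurable_ofReal, hm, ENNReal.ofReal_toReal hG]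
    _ = ENNReal.ofReal (1 + 2 / K * m) := by
        rw [← ENNReal.ofReal_one, ← ENNReal.ofReal_mul (by positivity),
          ← ENNReal.ofReal_add zero_le_one (by positivity)]
    _ ≤ _ := by
        refine ENNReal.ofReal_le_ofReal ?_
        have h5 : 2 / K * m = 2 * m / K := by ring
        rw [h5]
        linarith [Real.add_one_le_exp (2 * m / K)]

theorem lln (hG : ∫⁻ s, ENNReal.ofReal s ∂G ≠ ∞) :
    ∃ C₀ : ℝ, 0 < C₀ ∧ ∀ δ : ℝ, 0 < δ → ∃ n₀ : ℕ, ∀ S : Finset latt.edgeSet, n₀ ≤ S.card →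
      PG G {t | C₀ * S.card < ∑ e ∈ S, t e} ≤ ENNReal.ofReal δ := by
  set m := (∫⁻ s, ENNReal.ofReal s ∂G).toReal with hm
  have hm0 : 0 ≤ m := ENNReal.toReal_nonneg
  refine ⟨2 * m + 2, by positivity, fun δ hδ => ?_⟩
  obtain ⟨K, hK, hKt⟩ := tail_small hG (half_pos hδ)
  have hlim : Tendsto (fun n : ℕ => Real.exp (-((n : ℝ) / K))) atTop (nhds 0) :=
    Real.tendsto_exp_neg_atTop_nhds_zero.comp (tendsto_natCast_atTop_atTop.atTop_div_const hK)
  obtain ⟨n₀, hn₀⟩ := Filter.eventually_atTop.1 ((tendsto_order.1 hlim).2 (δ / 2) (half_pos hδ))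
  refine ⟨max n₀ 1, fun S hS => ?_⟩
  set n : ℕ := S.card with hn
  have hn1 : 1 ≤ n := (le_max_right _ _).trans hS
  have hnpos : (0 : ℝ) < n := by exact_mod_cast hn1
  have hn0 : n₀ ≤ n := (le_max_left _ _).trans hS
  -- the tail
  have hA : PG G {t | (n : ℝ) < ∑ e ∈ S, max (t e - K) 0} ≤ ENNReal.ofReal (δ / 2) := by
    have hm1 : ∀ e : latt.edgeSet, Measurable fun t : Env => ENNReal.ofReal (t e - K) := by
      intro e
      have h : Measurable fun t : Env => t e := measurable_pi_apply e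
      exact ENNReal.measurable_ofReal.comp (h.sub_const K)
    have hmeas : Measurable fun t : Env => ∑ e ∈ S, ENNReal.ofReal (t e - K) :=
      Finset.measurable_sum _ fun e _ => hm1 e
    have hint : ∫⁻ t, ∑ e ∈ S, ENNReal.ofReal (t e - K) ∂PG G ≤ n * ENNReal.ofReal (δ / 2) := by
      rw [lintegral_finsetSum _ fun e _ => hm1 e]
      have h1 : ∀ e ∈ S, ∫⁻ t : Env, ENNReal.ofReal (t e - K) ∂PG G ≤ ENNReal.ofReal (δ / 2) := by
        intro e _
        have hmp : MeasurePreserving (fun t : Env => t e) (PG G) G :=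
          measurePreserving_eval_infinitePi (fun _ : latt.edgeSet => G) e
        have := hmp.lintegral_comp (f := fun u => ENNReal.ofReal (u - K))
          (ENNReal.measurable_ofReal.comp (measurable_id.sub_const K))
        rw [this]
        exact hKt
      refine (Finset.sum_le_sum h1).trans ?_
      rw [Finset.sum_const, nsmul_eq_mul]
    have hsub : {t : Env | (n : ℝ) < ∑ e ∈ S, max (t e - K) 0} ⊆
        {t | (n : ℝ≥0∞) ≤ ∑ e ∈ S, ENNReal.ofReal (t e - K)} := by
      intro t ht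
      have ht' : (n : ℝ) < ∑ e ∈ S, max (t e - K) 0 := ht
      show (n : ℝ≥0∞) ≤ ∑ e ∈ S, ENNReal.ofReal (t e - K)
      calc (n : ℝ≥0∞) = ENNReal.ofReal n := (ENNReal.ofReal_natCast n).symm
        _ ≤ ENNReal.ofReal (∑ e ∈ S, max (t e - K) 0) := ENNReal.ofReal_le_ofReal ht'.le
        _ = ∑ e ∈ S, ENNReal.ofReal (max (t e - K) 0) :=
            ENNReal.ofReal_sum_of_nonneg fun e _ => le_max_right _ _
        _ = ∑ e ∈ S, ENNReal.ofReal (t e - K) := by
            refine Finset.sum_congr rfl fun e _ => ?_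
            rcases le_total (t e - K) 0 with h | h
            · rw [max_eq_right h, ENNReal.ofReal_zero, ENNReal.ofReal_of_nonpos h]
            · rw [max_eq_left h]
    refine (measure_mono hsub).trans ?_
    have hn' : (n : ℝ≥0∞) ≠ 0 := by exact_mod_cast (by omega : n ≠ 0)
    refine (meas_ge_le_lintegral_div hmeas.aemeasurable hn' (ENNReal.natCast_ne_top n)).trans ?_
    refine (ENNReal.div_le_div_right hint _).trans ?_
    rw [mul_comm, mul_div_assoc, ENNReal.div_self hn' (ENNReal.natCast_ne_top n), mul_one]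
  -- the truncated part
  have hB : PG G {t | (2 * m + 1) * n < ∑ e ∈ S, min (t e) K} ≤ ENNReal.ofReal (δ / 2) := by
    have hmeas : Measurable fun t : Env => ∏ e ∈ S, phiK K (t e) :=
      Finset.measurable_prod _ fun e _ => (measurable_phiK K).comp (measurable_pi_apply e)
    have hint : ∫⁻ t, ∏ e ∈ S, phiK K (t e) ∂PG G ≤
        ENNReal.ofReal (Real.exp (n * (2 * m / K))) := by
      rw [lintegral_prod_PG S (measurable_phiK K)]
      refine (pow_le_pow_left' (lintegral_phiK hG hK) _).trans (le_of_eq ?_)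
      rw [← ENNReal.ofReal_pow (Real.exp_pos _).le, ← Real.exp_nat_mul]
    have hsub : {t : Env | (2 * m + 1) * n < ∑ e ∈ S, min (t e) K} ⊆
        {t | ENNReal.ofReal (Real.exp ((2 * m + 1) * n / K)) ≤ ∏ e ∈ S, phiK K (t e)} := by
      intro t ht
      have ht' : (2 * m + 1) * n < ∑ e ∈ S, min (t e) K := ht
      show ENNReal.ofReal (Real.exp ((2 * m + 1) * n / K)) ≤ ∏ e ∈ S, phiK K (t e)
      unfold phiK
      rw [← ENNReal.ofReal_prod_of_nonneg fun e _ => (Real.exp_pos _).le, ← Real.exp_sum,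
        ← Finset.sum_div]
      refine ENNReal.ofReal_le_ofReal (Real.exp_le_exp.2 ?_)
      exact div_le_div_of_nonneg_right ht'.le hK.le
    refine (measure_mono hsub).trans ?_
    have hpos : (0 : ℝ) < Real.exp ((2 * m + 1) * n / K) := Real.exp_pos _
    refine (meas_ge_le_lintegral_div hmeas.aemeasurable (by positivity) (by finiteness)).trans ?_
    refine (ENNReal.div_le_div_right hint _).trans ?_
    rw [← ENNReal.ofReal_div_of_pos hpos, ← Real.exp_sub]
    refine ENNReal.ofReal_le_ofReal ?_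
    have h6 : (n : ℝ) * (2 * m / K) - (2 * m + 1) * n / K = -((n : ℝ) / K) := by
      field_simp
      ring
    rw [h6]
    exact (hn₀ n hn0).le
  have hsub : {t : Env | (2 * m + 2) * n < ∑ e ∈ S, t e} ⊆
      {t | (2 * m + 1) * n < ∑ e ∈ S, min (t e) K} ∪ {t | (n : ℝ) < ∑ e ∈ S, max (t e - K) 0} := by
    intro t ht
    have ht' : (2 * m + 2) * n < ∑ e ∈ S, t e := ht
    have hs : ∑ e ∈ S, t e = (∑ e ∈ S, min (t e) K) + ∑ e ∈ S, max (t e - K) 0 := by
      rw [← Finset.sum_add_distrib]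
      refine Finset.sum_congr rfl fun e _ => ?_
      rcases le_total (t e) K with h | h
      · rw [min_eq_left h, max_eq_right (by linarith only [h]), add_zero]
      · rw [min_eq_right h, max_eq_left (by linarith only [h])]; ring
    by_contra hnot
    simp only [Set.mem_union, Set.mem_ofPred_eq, not_or, not_lt] at hnot
    obtain ⟨a1, a2⟩ := hnot
    rw [hs] at ht'
    linarith only [ht', a1, a2]
  calc PG G {t : Env | (2 * m + 2) * n < ∑ e ∈ S, t e} ≤ _ := measure_mono hsub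
    _ ≤ ENNReal.ofReal (δ / 2) + ENNReal.ofReal (δ / 2) :=
        (measure_union_le _ _).trans (add_le_add hB hA)
    _ = ENNReal.ofReal δ := by
        rw [← ENNReal.ofReal_add (by positivity) (by positivity), add_halves]

/-! ### The ring -/

/-- The edges of the boundary cycle. -/
def rg (z : V) {N : ℕ} (hN : 0 < N) (k : ℕ) : latt.edgeSet :=
  ⟨s(bd z N (k : ℤ), bd z N ((k : ℤ) + 1)), bd_adj hN k⟩

theorem rg_injOn (z : V) {N : ℕ} (hN : 0 < N) :
    Set.InjOn (rg z hN) (Finset.range (8 * N) : Set ℕ) := by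
  intro k hk l hl h
  rw [Finset.coe_range, Set.mem_Iio] at hk hl
  have h' : s(bd z N (k : ℤ), bd z N ((k : ℤ) + 1)) = s(bd z N (l : ℤ), bd z N ((l : ℤ) + 1)) :=
    congrArg Subtype.val h
  rw [Sym2.eq_iff] at h'
  rcases h' with ⟨h1, -⟩ | ⟨h1, h2⟩
  · have m1 : (k : ℤ) ∈ Set.Ico (0 : ℤ) (0 + 8 * N) := ⟨by (clear * -; positivity), by omega⟩
    have m2 : (l : ℤ) ∈ Set.Ico (0 : ℤ) (0 + 8 * N) := ⟨by (clear * -; positivity), by omega⟩
    have := bd_injOn (z := z) hN 0 m1 m2 h1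
    exact_mod_cast this
  · exfalso
    rw [bd_inj hN] at h1 h2
    have e1 : (8 * (N : ℤ)) ∣ ((k : ℤ) - (l + 1)) := Int.ModEq.dvd (Int.ModEq.symm h1)
    have e2 : (8 * (N : ℤ)) ∣ ((k : ℤ) + 1 - l) := Int.ModEq.dvd (Int.ModEq.symm h2)
    have e3 := dvd_sub e2 e1
    have e4 : (k : ℤ) + 1 - l - (k - (l + 1)) = 2 := by ring
    rw [e4] at e3
    have := Int.le_of_dvd (by (clear * -; norm_num)) e3
    omega

/-- The edges of the boundary cycle, as a finset. -/
noncomputable def ringF (z : V) {N : ℕ} (hN : 0 < N) : Finset latt.edgeSet := by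
  classical exact (Finset.range (8 * N)).image (rg z hN)

theorem card_ringF (z : V) {N : ℕ} (hN : 0 < N) : (ringF z hN).card = 8 * N := by
  classical
  unfold ringF
  rw [Finset.card_image_of_injOn (rg_injOn z hN), Finset.card_range]

theorem rs_eq (t : Env) (z : V) {N : ℕ} (hN : 0 < N) :
    rs (wt t) z N = ∑ e ∈ ringF z hN, t e := by
  classical
  unfold ringF rs
  rw [Finset.sum_image (rg_injOn z hN)]
  refine Finset.sum_congr rfl fun k _ => ?_
  exact wt_eq t (bd_adj hN k)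

/-! ### Peierls -/

theorem peierls_box {β : ℝ} (hβ : G (Set.Iio β) ≤ 1 / 16) (z : V) (N ℓ : ℕ) :
    PG G {t | ∃ x ∈ Pe.bxF z N, ∃ (y : V) (p : latt.Walk x y), p.IsPath ∧ ℓ ≤ p.length ∧
      8 * nh β t (pe p) < p.length} ≤ ENNReal.ofReal ((2 * N + 1) ^ 2 * (8 * (3 / 4) ^ ℓ)) := by
  have hsub : {t : Env | ∃ x ∈ Pe.bxF z N, ∃ (y : V) (p : latt.Walk x y), p.IsPath ∧ ℓ ≤ p.length ∧
      8 * nh β t (pe p) < p.length} ⊆ ⋃ x ∈ Pe.bxF z N, {t | ∃ (y : V) (p : latt.Walk x y),
        p.IsPath ∧ ℓ ≤ p.length ∧ 8 * nh β t (pe p) < p.length} := by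
    rintro t ⟨x, hx, h⟩
    rw [Set.mem_iUnion₂]
    exact ⟨x, hx, h⟩
  calc _ ≤ _ := measure_mono hsub
    _ ≤ ∑ x ∈ Pe.bxF z N, PG G {t | ∃ (y : V) (p : latt.Walk x y),
        p.IsPath ∧ ℓ ≤ p.length ∧ 8 * nh β t (pe p) < p.length} := measure_biUnion_finset_le _ _
    _ ≤ ∑ _x ∈ Pe.bxF z N, ENNReal.ofReal (8 * (3 / 4) ^ ℓ) :=
        Finset.sum_le_sum fun x _ => peierls_tail hβ x ℓ
    _ = _ := by
        rw [Finset.sum_const, Pe.card_bxF, nsmul_eq_mul, ← ENNReal.ofReal_natCast,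
          ← ENNReal.ofReal_mul (by positivity)]
        push_cast
        rfl

theorem poly_exp {δ : ℝ} (hδ : 0 < δ) : ∃ N₀ : ℕ, 1 ≤ N₀ ∧ ∀ N ≥ N₀,
    (2 * ((N : ℝ) + 1) + 1) ^ 2 * (8 * (3 / 4) ^ N) ≤ δ := by
  have h := (tendsto_pow_const_mul_const_pow_of_lt_one 2 (r := 3 / 4) (by norm_num)
    (by norm_num)).const_mul 200
  rw [mul_zero] at h
  obtain ⟨N₀, hN₀⟩ := Filter.eventually_atTop.1 ((tendsto_order.1 h).2 δ hδ)
  refine ⟨max N₀ 1, le_max_right _ _, fun N hN => ?_⟩
  have h1 : (1 : ℝ) ≤ N := by exact_mod_cast (le_max_right _ _).trans hN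
  have h2 := (hN₀ N ((le_max_left _ _).trans hN)).le
  refine le_trans ?_ h2
  have h3 : (0 : ℝ) < (3 / 4) ^ N := by positivity
  have h4 : (2 * ((N : ℝ) + 1) + 1) ^ 2 ≤ 25 * (N : ℝ) ^ 2 := by (clear * - h1; nlinarith)
  calc (2 * ((N : ℝ) + 1) + 1) ^ 2 * (8 * (3 / 4) ^ N) ≤ 25 * (N : ℝ) ^ 2 * (8 * (3 / 4) ^ N) :=
        mul_le_mul_of_nonneg_right h4 (by positivity)
    _ = 200 * ((N : ℝ) ^ 2 * (3 / 4) ^ N) := by ring

/-! ### LenStmt -/

theorem len_of [NullSingletonClass G] (h0 : G (Set.Iio 0) = 0)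
    (hmean : ∫⁻ s, ENNReal.ofReal s ∂G ≠ ∞) : LenStmt G := by
  classical
  obtain ⟨β, hβ0, hβ⟩ := exists_level (G := G) h0 (η := 1 / 16) (by norm_num)
  obtain ⟨C₀, hC₀, hlln⟩ := lln hmean
  refine ⟨max 1 (8 * (16 * C₀ + 1) / β), lt_max_of_lt_left one_pos, fun δ hδ => ?_⟩
  set C₁ : ℝ := max 1 (8 * (16 * C₀ + 1) / β) with hC₁
  have hC1 : 1 ≤ C₁ := le_max_left _ _
  have hC2 : (16 * C₀ + 1) ≤ β * C₁ / 8 := by
    have : 8 * (16 * C₀ + 1) / β ≤ C₁ := le_max_right _ _
    rw [div_le_iff₀ hβ0] at this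
    linarith
  obtain ⟨n₀, hn₀⟩ := hlln (δ / 2) (half_pos hδ)
  obtain ⟨N₀, hN1, hN₀⟩ := poly_exp (half_pos hδ)
  refine ⟨max n₀ N₀, fun r hr => ?_⟩
  have hr0 : n₀ ≤ r := (le_max_left _ _).trans hr
  have hr1 : N₀ ≤ r := (le_max_right _ _).trans hr
  have hr2 : 1 ≤ r := hN1.trans hr1
  have hrpos : (1 : ℝ) ≤ r := by exact_mod_cast hr2
  have hrr : 0 < r + 1 := Nat.succ_pos r
  have h1 := hn₀ (ringF 0 hrr) (by rw [card_ringF]; omega)
  have h2 : PG G {t | ∃ x ∈ Pe.bxF 0 (r + 1), ∃ (y : V) (p : latt.Walk x y), p.IsPath ∧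
      r ≤ p.length ∧ 8 * nh β t (pe p) < p.length} ≤ ENNReal.ofReal (δ / 2) := by
    refine (peierls_box hβ 0 (r + 1) r).trans (ENNReal.ofReal_le_ofReal ?_)
    have := hN₀ r hr1
    push_cast
    exact this
  have h3 : PG G {t | ¬ ∀ e, 0 < t e} = 0 := ae_iff.1 (ae_pos G h0)
  have hsub : {t : Env | ¬ LenE C₁ r t} ⊆ ({t | C₀ * (ringF 0 hrr).card < ∑ e ∈ ringF 0 hrr, t e} ∪
      {t | ∃ x ∈ Pe.bxF 0 (r + 1), ∃ (y : V) (p : latt.Walk x y), p.IsPath ∧
      r ≤ p.length ∧ 8 * nh β t (pe p) < p.length}) ∪ {t | ¬ ∀ e, 0 < t e} := by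
    intro t ht
    by_contra hnot
    simp only [Set.mem_union, Set.mem_ofPred_eq, not_or, not_not, not_lt] at hnot
    obtain ⟨⟨a1, a2⟩, a3⟩ := hnot
    refine ht ?_
    intro x y p hp hx hlen
    have b0 : r ≤ p.length := by
      have : (r : ℝ) ≤ p.length := le_trans (by nlinarith only [hC1]) hlen
      exact_mod_cast this
    have b1 : p.length ≤ 8 * nh β t (pe p) := by
      by_contra hc
      push Not at hc
      exact a2 ⟨x, Pe.mem_bxF.2 hx, y, p, hp, b0, hc⟩
    have b2 := nh_le_ww (β := β) a3 p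
    have b3 : (p.length : ℝ) ≤ 8 * nh β t (pe p) := by exact_mod_cast b1
    rw [rs_eq t 0 hrr]
    rw [card_ringF] at a1
    push_cast at a1
    have b4 : C₀ * (8 * ((r : ℝ) + 1)) ≤ 16 * C₀ * r := by nlinarith only [hC₀, hrpos]
    have b5 : (16 * C₀ + 1) * r ≤ β * C₁ / 8 * r := mul_le_mul_of_nonneg_right hC2 (by linarith only [])
    have b6 : β * (C₁ * r) ≤ β * (8 * nh β t (pe p)) :=
      mul_le_mul_of_nonneg_left (hlen.trans b3) hβ0.le
    nlinarith only [hrpos, b2, a1, b4, b5, b6]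
  calc PG G {t : Env | ¬ LenE C₁ r t} ≤ _ := measure_mono hsub
    _ ≤ (ENNReal.ofReal (δ / 2) + ENNReal.ofReal (δ / 2)) + 0 :=
        (measure_union_le _ _).trans (add_le_add
          ((measure_union_le _ _).trans (add_le_add h1 h2)) h3.le)
    _ = ENNReal.ofReal δ := by
        rw [add_zero, ← ENNReal.ofReal_add (by positivity) (by positivity), add_halves]

/-! ### GoodStmt -/

theorem measurableSet_good (C' C₁ : ℝ) (z : V) (N s : ℕ) :
    MeasurableSet {t | Good C' C₁ z N s t} := by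
  classical
  have h1 : MeasurableSet {t : Env | rs (wt t) z N ≤ C' * N} := by
    refine measurableSet_le ?_ measurable_const
    unfold rs
    exact Finset.measurable_sum _ fun k _ => measurable_wt _ _
  have h2 : {t : Env | Good C' C₁ z N s t} = {t : Env | rs (wt t) z N ≤ C' * N} ∩
      ⋂ (x : V), ⋂ (y : V), ⋂ (p : latt.Walk x y), {t | p.IsPath → (∀ v ∈ p.support, v ∈ bx z N) →
        C₁ * N ≤ p.length → C' * N < ∑ e ∈ (pe p).filter (fun e => e ∉ tF 0 s), t e} := by
    ext t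
    simp only [Set.mem_inter_iff, Set.mem_iInter, Set.mem_ofPred_eq]
    unfold Good
    exact Iff.rfl
  rw [h2]
  refine h1.inter (MeasurableSet.iInter fun x => MeasurableSet.iInter fun y =>
    MeasurableSet.iInter fun p => ?_)
  by_cases hp : p.IsPath ∧ (∀ v ∈ p.support, v ∈ bx z N) ∧ C₁ * N ≤ p.length
  · have : {t : Env | p.IsPath → (∀ v ∈ p.support, v ∈ bx z N) →
        C₁ * N ≤ p.length → C' * N < ∑ e ∈ (pe p).filter (fun e => e ∉ tF 0 s), t e} =
        {t | C' * N < ∑ e ∈ (pe p).filter (fun e => e ∉ tF 0 s), t e} := by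
      ext t
      simp only [Set.mem_ofPred_eq]
      exact ⟨fun h => h hp.1 hp.2.1 hp.2.2, fun h _ _ _ => h⟩
    rw [this]
    exact measurableSet_lt measurable_const
      (Finset.measurable_sum _ fun e _ => measurable_pi_apply e)
  · have : {t : Env | p.IsPath → (∀ v ∈ p.support, v ∈ bx z N) →
        C₁ * N ≤ p.length → C' * N < ∑ e ∈ (pe p).filter (fun e => e ∉ tF 0 s), t e} =
        Set.univ := by
      ext t
      simp only [Set.mem_ofPred_eq, Set.mem_univ, iff_true]
      intro a b c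
      exact absurd ⟨a, b, c⟩ hp
    rw [this]
    exact MeasurableSet.univ

theorem good_of [NullSingletonClass G] (h0 : G (Set.Iio 0) = 0)
    (hmean : ∫⁻ s, ENNReal.ofReal s ∂G ≠ ∞) : GoodStmt G := by
  classical
  obtain ⟨β, hβ0, hβ⟩ := exists_level (G := G) h0 (η := 1 / 16) (by norm_num)
  obtain ⟨C₀, hC₀, hlln⟩ := lln hmean
  refine ⟨8 * C₀, max 1 (8 * (8 * C₀ + 1) / β), by (clear * - hC₀; positivity), lt_max_of_lt_left one_pos,
    fun s => ?_⟩
  set C₁ : ℝ := max 1 (8 * (8 * C₀ + 1) / β) with hC₁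
  have hC1 : 1 ≤ C₁ := le_max_left _ _
  have hC2 : (8 * C₀ + 1) ≤ β * C₁ / 8 := by
    have : 8 * (8 * C₀ + 1) / β ≤ C₁ := le_max_right _ _
    rw [div_le_iff₀ hβ0] at this
    linarith only [this]
  obtain ⟨n₀, hn₀⟩ := hlln (1 / 16) (by norm_num)
  obtain ⟨N₀, hN1, hN₀⟩ := poly_exp (δ := 1 / 16) (by norm_num)
  obtain ⟨N₂, hN₂⟩ := exists_nat_gt (β * (4 * (2 * (s : ℝ) + 1) ^ 2))
  refine ⟨max (max n₀ N₀) N₂, fun N hN z _ => ⟨measurableSet_good _ _ z N s, ?_⟩⟩
  have hr0 : n₀ ≤ N := ((le_max_left _ _).trans (le_max_left _ _)).trans hN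
  have hr1 : N₀ ≤ N := ((le_max_right _ _).trans (le_max_left _ _)).trans hN
  have hr2 : N₂ ≤ N := (le_max_right _ _).trans hN
  have hN0 : 0 < N := lt_of_lt_of_le Nat.one_pos (hN1.trans hr1)
  have hNpos : (1 : ℝ) ≤ N := by exact_mod_cast hN0
  have hN2' : β * (4 * (2 * (s : ℝ) + 1) ^ 2) < N := hN₂.trans_le (by exact_mod_cast hr2)
  have h1 := hn₀ (ringF z hN0) (by rw [card_ringF]; (clear * - hr0; omega))
  have h2 : PG G {t | ∃ x ∈ Pe.bxF z N, ∃ (y : V) (p : latt.Walk x y), p.IsPath ∧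
      N ≤ p.length ∧ 8 * nh β t (pe p) < p.length} ≤ ENNReal.ofReal (1 / 16) := by
    refine (peierls_box hβ z N N).trans (ENNReal.ofReal_le_ofReal ?_)
    refine le_trans ?_ (hN₀ N hr1)
    refine mul_le_mul_of_nonneg_right ?_ (by positivity)
    exact pow_le_pow_left₀ (by positivity) (by linarith only []) 2
  have h3 : PG G {t | ¬ ∀ e, 0 < t e} = 0 := ae_iff.1 (ae_pos G h0)
  have hsub : {t : Env | ¬ Good (8 * C₀) C₁ z N s t} ⊆
      ({t | C₀ * (ringF z hN0).card < ∑ e ∈ ringF z hN0, t e} ∪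
      {t | ∃ x ∈ Pe.bxF z N, ∃ (y : V) (p : latt.Walk x y), p.IsPath ∧
      N ≤ p.length ∧ 8 * nh β t (pe p) < p.length}) ∪ {t | ¬ ∀ e, 0 < t e} := by
    intro t ht
    by_contra hnot
    simp only [Set.mem_union, Set.mem_ofPred_eq, not_or, not_lt, not_not] at hnot
    obtain ⟨⟨a1, a2⟩, a3⟩ := hnot
    refine ht ⟨?_, ?_⟩
    · rw [rs_eq t z hN0]
      rw [card_ringF] at a1
      push_cast at a1
      linarith only [a1]
    · intro x y p hp hsup hlen
      have b0 : N ≤ p.length := by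
        have : (N : ℝ) ≤ p.length := le_trans (by nlinarith only [hC1]) hlen
        exact_mod_cast this
      have b1 : p.length ≤ 8 * nh β t (pe p) := by
        by_contra hc
        push Not at hc
        exact a2 ⟨x, Pe.mem_bxF.2 (hsup x p.start_mem_support), y, p, hp, b0, hc⟩
      have b3 : (p.length : ℝ) ≤ 8 * nh β t (pe p) := by exact_mod_cast b1
      -- heavy edges off the window
      set Hv : Finset latt.edgeSet := ((pe p).filter (fun e => β ≤ t e)) \ tF 0 s with hHv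
      have c1 : ((nh β t (pe p) : ℕ) : ℝ) - (tF 0 s).card ≤ (Hv.card : ℝ) := by
        have : nh β t (pe p) ≤ Hv.card + (tF 0 s).card := by
          have : ((pe p).filter (fun e => β ≤ t e)).card - (tF 0 s).card ≤ Hv.card := by
            rw [hHv]; exact Finset.le_card_sdiff _ _
          have h' : nh β t (pe p) = ((pe p).filter (fun e => β ≤ t e)).card := by
            unfold nh
            congr 1
          omega
        have h'' : ((nh β t (pe p) : ℕ) : ℝ) ≤ Hv.card + (tF 0 s).card := by exact_mod_cast this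
        linarith only [h'']
      have c2 : β * Hv.card ≤ ∑ e ∈ (pe p).filter (fun e => e ∉ tF 0 s), t e := by
        calc β * Hv.card = ∑ _e ∈ Hv, β := by rw [Finset.sum_const, nsmul_eq_mul, mul_comm]
          _ ≤ ∑ e ∈ Hv, t e := Finset.sum_le_sum fun e he => by
              exact (Finset.mem_filter.1 (Finset.mem_sdiff.1 he).1).2
          _ ≤ _ := by
              refine Finset.sum_le_sum_of_subset_of_nonneg (fun e he => ?_)
                fun e _ _ => (a3 e).le
              rw [Finset.mem_filter]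
              exact ⟨(Finset.mem_filter.1 (Finset.mem_sdiff.1 he).1).1,
                (Finset.mem_sdiff.1 he).2⟩
      have c3 : ((tF 0 s).card : ℝ) ≤ 4 * (2 * (s : ℝ) + 1) ^ 2 := by
        have := Pe.card_tF_le 0 s
        exact_mod_cast this
      have c4 : β * ((tF 0 s).card : ℝ) ≤ β * (4 * (2 * (s : ℝ) + 1) ^ 2) :=
        mul_le_mul_of_nonneg_left c3 hβ0.le
      have c5 : (8 * C₀ + 1) * N ≤ β * C₁ / 8 * N := mul_le_mul_of_nonneg_right hC2 (by linarith only [])
      have c6 : β * (C₁ * N) ≤ β * (8 * nh β t (pe p)) :=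
        mul_le_mul_of_nonneg_left (hlen.trans b3) hβ0.le
      have c7 : β * (((nh β t (pe p) : ℕ) : ℝ) - (tF 0 s).card) ≤ β * (Hv.card : ℝ) :=
        mul_le_mul_of_nonneg_left c1 hβ0.le
      refine lt_of_lt_of_le ?_ c2
      nlinarith only [hN2', c4, c5, c6, c7]
  calc PG G {t : Env | ¬ Good (8 * C₀) C₁ z N s t} ≤ _ := measure_mono hsub
    _ ≤ (ENNReal.ofReal (1 / 16) + ENNReal.ofReal (1 / 16)) + 0 :=
        (measure_union_le _ _).trans (add_le_add
          ((measure_union_le _ _).trans (add_le_add h1 h2)) h3.le)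
    _ = 1 / 8 := by
        rw [add_zero, ← ENNReal.ofReal_add (by positivity) (by positivity)]
        rw [show (1 / 16 + 1 / 16 : ℝ) = 1 / 8 by norm_num, ENNReal.ofReal_div_of_pos (by norm_num)]
        simp

end Vale.Agent.P158.C.GoodLen
end
end

section

section

/-! Growth of an increasing potential along the levels of block raising: each step from one
level to the next is one coupling of two product laws. -/

namespace Vale.Agent.P158.C

open MeasureTheory Function Set Vale.Agent.P158.T1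
open scoped ENNReal

set_option linter.unusedVariables false
set_option linter.unusedSectionVars false

variable {G : Measure ℝ} {α β ε : ℝ} {δ : Type*} [DecidableEq δ]

theorem Kop_add (h : RP G α β ε) {f f' : (δ → ℝ) → ℝ≥0∞} (hf : Measurable f) (e : δ) :
    Kop G α β ε e (fun t => f t + f' t) =
      fun t => Kop G α β ε e f t + Kop G α β ε e f' t := by
  funext t
  unfold Kop
  split_ifs with hb
  · have h1 : Measurable fun u : ℝ => f (update t e u) := hf.comp (measurable_update t)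
    have h2 := lintegral_add_left (μ := glo G α) h1 fun u => f' (update t e u)
    simp only at h2 ⊢
    rw [h2]
    ring
  · rfl

theorem KL_add (h : RP G α β ε) (l : List δ) : ∀ {f f' : (δ → ℝ) → ℝ≥0∞}, Measurable f →
    KL G α β ε l (fun t => f t + f' t) =
      fun t => KL G α β ε l f t + KL G α β ε l f' t := by
  induction l with
  | nil => intro f f' _; rfl
  | cons e l ih =>
    intro f f' hf
    unfold KL
    rw [Kop_add h hf e]
    exact ih (h.measurable_Kop hf e)

theorem Kop_const (h : RP G α β ε) (c : ℝ≥0∞) (e : δ) :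
    Kop G α β ε e (fun _ => c) = fun _ => c := by
  have := h.prob_glo
  funext t
  unfold Kop
  split_ifs with hb
  · rw [lintegral_const, measure_univ, mul_one, ← add_mul, h.q_add, one_mul]
  · rfl

theorem KL_const (h : RP G α β ε) (c : ℝ≥0∞) (l : List δ) :
    KL G α β ε l (fun _ => c) = fun _ => c := by
  induction l with
  | nil => rfl
  | cons e l ih =>
    unfold KL
    rw [Kop_const h c e]
    exact ih

theorem Kop_const_mul (h : RP G α β ε) {f : (δ → ℝ) → ℝ≥0∞} (hf : Measurable f) (c : ℝ≥0∞)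
    (e : δ) : Kop G α β ε e (fun t => c * f t) = fun t => c * Kop G α β ε e f t := by
  funext t
  unfold Kop
  split_ifs with hb
  · have h1 : Measurable fun u : ℝ => f (update t e u) := hf.comp (measurable_update t)
    have h2 := lintegral_const_mul (μ := glo G α) c h1
    simp only at h2 ⊢
    rw [h2]
    ring
  · rfl

theorem KL_const_mul (h : RP G α β ε) (c : ℝ≥0∞) (l : List δ) :
    ∀ {f : (δ → ℝ) → ℝ≥0∞}, Measurable f →
    KL G α β ε l (fun t => c * f t) = fun t => c * KL G α β ε l f t := by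
  induction l with
  | nil => intro f _; rfl
  | cons e l ih =>
    intro f hf
    unfold KL
    rw [Kop_const_mul h hf c e]
    exact ih (h.measurable_Kop hf e)

theorem KL_sum (h : RP G α β ε) {ι : Type*} (I : Finset ι) {f : ι → (δ → ℝ) → ℝ≥0∞}
    (hf : ∀ i, Measurable (f i)) (l : List δ) :
    KL G α β ε l (fun t => ∑ i ∈ I, f i t) = fun t => ∑ i ∈ I, KL G α β ε l (f i) t := by
  classical
  induction I using Finset.induction_on with
  | empty => simpa only [Finset.sum_empty] using KL_const h 0 l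
  | insert i I hi ih =>
    simp only [Finset.sum_insert hi]
    rw [KL_add h l (hf i), ih]

theorem KL_mono_on (h : RP G α β ε) {D : Finset δ} (t' : δ → ℝ) (l : List δ) (hl : l.Nodup)
    (hlD : ∀ e ∈ l, e ∈ D) : ∀ (U : Finset δ) {F F' : (δ → ℝ) → ℝ≥0∞}, (∀ e ∈ l, e ∉ U) →
    (∀ t, Rch α β D t' t → (∀ e ∈ U, t e = t' e) → F t ≤ F' t) →
    ∀ t, Rch α β D t' t → (∀ e ∈ U, t e = t' e) → (∀ e ∈ l, t e = t' e) →
      KL G α β ε l F t ≤ KL G α β ε l F' t := by
  induction l with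
  | nil => intro U F F' _ hF t ht h2 _; exact hF t ht h2
  | cons e l ih =>
    intro U F F' hU hF t ht h2 h3
    have hel := (List.nodup_cons.1 hl).1
    have heD := hlD e (by simp)
    have heU := hU e (by simp)
    unfold KL
    refine ih (List.nodup_cons.1 hl).2 (fun i hi => hlD i (by simp [hi])) (insert e U) ?_ ?_ t ht
      ?_ (fun i hi => h3 i (by simp [hi]))
    · intro i hi hi'
      rcases Finset.mem_insert.1 hi' with rfl | hi'
      · exact hel hi
      · exact hU i (by simp [hi]) hi'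
    · intro s hs hsU
      have hse : s e = t' e := hsU e (by simp)
      have hsU' : ∀ i ∈ U, s i = t' i := fun i hi => hsU i (by simp [hi])
      unfold Kop
      split_ifs with hb
      · refine add_le_add (mul_le_mul' le_rfl (hF s hs hsU')) (mul_le_mul' le_rfl ?_)
        refine lintegral_mono_ae ?_
        filter_upwards [h.ae_glo] with u hu
        refine hF _ ⟨fun i hi => ?_, fun i hi => ?_⟩ fun i hi => ?_
        · have : i ≠ e := fun h' => hi (h' ▸ heD)
          rw [update_of_ne this]; exact hs.1 i hi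
        · by_cases hie : i = e
          · subst hie; rw [update_self]; exact Or.inr ⟨hse ▸ hb, hu.1, hu.2⟩
          · rw [update_of_ne hie]; exact hs.2 i hi
        · have : i ≠ e := fun h' => heU (h' ▸ hi)
          rw [update_of_ne this]; exact hsU' i hi
      · exact hF s hs hsU'
    · intro i hi
      rcases Finset.mem_insert.1 hi with rfl | hi
      · exact h3 _ (by simp)
      · exact h2 i hi

theorem KL_mono (h : RP G α β ε) {D : Finset δ} (t' : δ → ℝ) {F F' : (δ → ℝ) → ℝ≥0∞}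
    (hF : ∀ t, Rch α β D t' t → F t ≤ F' t) :
    KL G α β ε D.toList F t' ≤ KL G α β ε D.toList F' t' :=
  KL_mono_on h t' D.toList (Finset.nodup_toList D) (fun e he => by simpa using he) ∅
    (by simp) (fun t ht _ => hF t ht) t' ⟨fun _ _ => rfl, fun _ _ => Or.inl rfl⟩ (by simp)
    (fun _ _ => rfl)

theorem num_le (h : RP G α β ε) {N M : ℕ}
    (hNM : 2 * (M : ℝ) + 4 ≤
      N * (ε * (G (Iic α)).toReal / ((G (Ici β)).toReal + ε * (G (Iic α)).toReal))) :
    ENNReal.ofReal (Real.exp M) * Th G α β ε ^ N ≤ 1 / 4 := by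
  rw [h.Th_eq]
  rw [← h.q2_toReal] at hNM
  set q := (q2 G α β ε).toReal with hq
  have hq0 : 0 ≤ q := ENNReal.toReal_nonneg
  have hq1 : q ≤ 1 := by
    have h1 : q2 G α β ε ≤ 1 := by rw [← h.q_add]; exact le_add_self
    exact ENNReal.toReal_le_of_le_ofReal (by norm_num) (by simpa only [ENNReal.ofReal_one] using h1)
  have he1 : Real.exp (-1) ≤ 3 / 8 := by
    have h5 := Real.exp_one_gt_d9
    rw [Real.exp_neg, ← one_div, div_le_div_iff₀ (Real.exp_pos _) (by norm_num)]
    linarith only [h5]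
  have he0 : 0 < Real.exp (-1) := Real.exp_pos _
  have h0 : 0 ≤ 1 - q * (1 - Real.exp (-1)) := by nlinarith only [he0, hq1, hNM]
  rw [← ENNReal.ofReal_pow h0, ← ENNReal.ofReal_mul (Real.exp_pos _).le]
  have h2 : (1 / 4 : ℝ≥0∞) = ENNReal.ofReal (1 / 4) := by
    rw [ENNReal.ofReal_div_of_pos (by norm_num)]; norm_num
  rw [h2]
  refine ENNReal.ofReal_le_ofReal ?_
  have h3 : 1 - q * (1 - Real.exp (-1)) ≤ Real.exp (-(q * (5 / 8))) := by
    have := Real.add_one_le_exp (-(q * (5 / 8)))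
    nlinarith only [this, hq0, he1]
  calc Real.exp M * (1 - q * (1 - Real.exp (-1))) ^ N
      ≤ Real.exp M * Real.exp (-(q * (5 / 8))) ^ N :=
        mul_le_mul_of_nonneg_left (pow_le_pow_left₀ h0 h3 _) (Real.exp_pos _).le
    _ = Real.exp ((M : ℝ) - N * (q * (5 / 8))) := by
        rw [← Real.exp_nat_mul, ← Real.exp_add]; congr 1; ring
    _ ≤ Real.exp (-2) := by
        refine Real.exp_le_exp.2 ?_
        have hM : (0 : ℝ) ≤ M := Nat.cast_nonneg _
        nlinarith only [hNM]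
    _ = Real.exp (-1) * Real.exp (-1) := by rw [← Real.exp_add]; norm_num
    _ ≤ 3 / 8 * (3 / 8) := mul_le_mul he1 he1 he0.le (by norm_num)
    _ ≤ 1 / 4 := by norm_num

/-- Probability that at least `M` edges of `Q` are lowered. -/
theorem KL_cnt_ge (h : RP G α β ε) {D Q : Finset δ} {N M : ℕ}
    (hNM : 2 * (M : ℝ) + 4 ≤
      N * (ε * (G (Iic α)).toReal / ((G (Ici β)).toReal + ε * (G (Iic α)).toReal)))
    (t' : δ → ℝ) (hQD : Q ⊆ D) (hQN : N ≤ Q.card) (hQ : ∀ e ∈ Q, β ≤ t' e) :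
    3 / 4 ≤ KL G α β ε D.toList ({t | M ≤ cnt α Q t}.indicator 1) t' := by
  set f : (δ → ℝ) → ℝ≥0∞ := {t | M ≤ cnt α Q t}.indicator 1 with hf
  have hTh1 : Th G α β ε ≤ 1 := by
    have h1 : ENNReal.ofReal (Real.exp (-1)) ≤ 1 := by
      rw [← ENNReal.ofReal_one]
      exact ENNReal.ofReal_le_ofReal (Real.exp_le_one_iff.2 (by norm_num))
    calc Th G α β ε ≤ q1 G α β ε + q2 G α β ε * 1 :=
          add_le_add le_rfl (mul_le_mul' le_rfl h1)
      _ = 1 := by rw [mul_one, h.q_add]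
  have hnum := num_le h hNM
  have h1 := h.KL_ge (D := D) (Q := Q) M t' hQ D.toList (Finset.nodup_toList D)
    (fun e he => by simpa using he) ∅ 0 f (by simp) ?_ t'
    ⟨fun _ _ => rfl, fun _ _ => Or.inl rfl⟩ (by simp) (fun _ _ => rfl)
  · rw [Finset.toList_toFinset, Finset.inter_eq_right.2 hQD, zero_add] at h1
    have hc : cnt α Q t' = 0 := by
      classical
      unfold cnt
      rw [Finset.card_eq_zero, Finset.filter_eq_empty_iff]
      intro e he
      exact not_le.2 (lt_of_lt_of_le h.lt (hQ e he))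
    rw [hc, Nat.cast_zero, sub_zero] at h1
    have h2 : Th G α β ε ^ Q.card ≤ Th G α β ε ^ N := pow_le_pow_right_of_le_one' hTh1 hQN
    have h3 : 1 ≤ KL G α β ε D.toList f t' + 1 / 4 :=
      h1.trans (add_le_add le_rfl ((mul_le_mul' le_rfl h2).trans hnum))
    have h4 : (3 / 4 : ℝ≥0∞) + 1 / 4 = 1 := by
      rw [← ENNReal.add_div]
      norm_num
      exact ENNReal.div_self (by norm_num) (by norm_num)
    exact (ENNReal.add_le_add_iff_right
      (ENNReal.div_ne_top ENNReal.one_ne_top (by norm_num) : (1 / 4 : ℝ≥0∞) ≠ ∞)).1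
      (h4.le.trans h3)
  · intro t ht _
    rw [pow_zero, mul_one]
    by_cases hM : M ≤ cnt α Q t
    · have : f t = 1 := by
        simp only [hf]
        rw [indicator_of_mem (by exact hM)]; rfl
      rw [this]
      exact le_self_add
    · have : (1 : ℝ≥0∞) ≤ ENNReal.ofReal (Real.exp ((M : ℝ) - cnt α Q t)) := by
        rw [← ENNReal.ofReal_one]
        refine ENNReal.ofReal_le_ofReal (Real.one_le_exp ?_)
        have : (cnt α Q t : ℝ) ≤ M := by exact_mod_cast (not_le.1 hM).le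
        linarith only [this]
      exact this.trans le_add_self

theorem measurable_cnt (Q : Finset δ) : Measurable fun t : δ → ℝ => cnt α Q t := by
  classical
  have : (fun t : δ → ℝ => cnt α Q t) = fun t => ∑ e ∈ Q, if t e ≤ α then 1 else 0 := by
    funext t
    unfold cnt
    rw [Finset.card_filter]
  rw [this]
  refine Finset.measurable_sum _ fun e _ => ?_
  exact Measurable.ite (measurable_pi_apply e measurableSet_Iic) measurable_const
    measurable_const

theorem measurableSet_cnt (Q : Finset δ) (M : ℕ) :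
    MeasurableSet {t : δ → ℝ | M ≤ cnt α Q t} :=
  measurable_cnt Q measurableSet_Ici

/-- Integral of the lowered function under the raised law. -/
theorem lintegral_KL (h : RP G α β ε) {D : Finset δ} {P : Measure (δ → ℝ)}
    [IsProbabilityMeasure P] (hP : rsm G D P = P) {f : (δ → ℝ) → ℝ≥0∞} (hfm : Measurable f) :
    ∫⁻ t, KL G α β ε D.toList f t ∂rsm (rl G α β ε) D P = ∫⁻ t, f t ∂P := by
  have := h.prob
  have := h.prob_rl
  have hkm : Measurable (KL G α β ε D.toList f) := h.measurable_KL _ hfm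
  rw [lintegral_rsm hkm]
  have e1 := h.lm_KL (D := D) D.toList (Finset.nodup_toList D)
    (fun e he => by simpa using he) hfm
  have e0 : (∫⋯∫⁻_D, f ∂fun i => if i ∈ D.toList then G else rl G α β ε) =
      ∫⋯∫⁻_D, f ∂fun _ => G := lmarginal_congr_meas (fun i hi => by simp [hi]) f
  rw [e0] at e1
  rw [← e1, ← lintegral_rsm hfm, hP]

/-- ONE STEP.  `Φ` grows by `c` for every `i` such that at least `M` edges of `Q i` are
lowered. -/
theorem pair_step (h : RP G α β ε) {D : Finset δ} {P : Measure (δ → ℝ)} [IsProbabilityMeasure P]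
    (hP : rsm G D P = P) {Φ Ψ : (δ → ℝ) → ℝ≥0∞} (hΦ : Measurable Φ) (hΨ : Measurable Ψ)
    {A : Set (δ → ℝ)} (hA : MeasurableSet A) {N M n : ℕ} {c : ℝ≥0∞}
    (hNM : 2 * (M : ℝ) + 4 ≤
      N * (ε * (G (Iic α)).toReal / ((G (Ici β)).toReal + ε * (G (Iic α)).toReal)))
    (H₀ : ∀ t' t, Rch α β D t' t → Ψ t' ≤ Φ t)
    (H : ∀ t' ∈ A, ∃ Q : Fin n → Finset δ,
      (∀ i, Q i ⊆ D ∧ N ≤ (Q i).card ∧ ∀ e ∈ Q i, β ≤ t' e) ∧
      ∀ t, Rch α β D t' t →
        Ψ t' + c * ∑ i, ({t | M ≤ cnt α (Q i) t}.indicator 1 t : ℝ≥0∞) ≤ Φ t) :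
    ∫⁻ t, Ψ t ∂rsm (rl G α β ε) D P + c * (n * (3 / 4)) * rsm (rl G α β ε) D P A
      ≤ ∫⁻ t, Φ t ∂P := by
  have hgo : ∀ t', Ψ t' + c * (n * (3 / 4)) * A.indicator 1 t' ≤ KL G α β ε D.toList Φ t' := by
    intro t'
    by_cases ht' : t' ∈ A
    · obtain ⟨Q, hQ, hQΦ⟩ := H t' ht'
      have hm : ∀ i, Measurable ({t : δ → ℝ | M ≤ cnt α (Q i) t}.indicator
          (1 : (δ → ℝ) → ℝ≥0∞)) := fun i => measurable_one.indicator (measurableSet_cnt _ _)
      have h1 := KL_mono h t' (F := fun t => Ψ t' + c * ∑ i,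
        ({t | M ≤ cnt α (Q i) t}.indicator 1 t : ℝ≥0∞)) (F' := Φ) hQΦ
      rw [KL_add h _ (f := fun _ => Ψ t') measurable_const, KL_const h] at h1
      rw [KL_const_mul h c _ (f := fun t => ∑ i,
        ({t | M ≤ cnt α (Q i) t}.indicator 1 t : ℝ≥0∞)) (by
          exact Finset.measurable_sum _ fun i _ => hm i)] at h1
      rw [KL_sum h Finset.univ hm] at h1
      refine le_trans ?_ h1
      simp only [indicator_of_mem ht', Pi.one_apply, mul_one]
      refine add_le_add le_rfl (mul_le_mul' le_rfl ?_)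
      have h2 : ∀ i ∈ (Finset.univ : Finset (Fin n)), (3 / 4 : ℝ≥0∞) ≤
          KL G α β ε D.toList ({t | M ≤ cnt α (Q i) t}.indicator 1) t' := fun i _ =>
        KL_cnt_ge h hNM t' (hQ i).1 (hQ i).2.1 (hQ i).2.2
      have h3 := Finset.card_nsmul_le_sum _ _ _ h2
      rw [Finset.card_univ, Fintype.card_fin, nsmul_eq_mul] at h3
      exact h3
    · simp only [indicator_of_notMem ht', mul_zero, add_zero]
      have h1 := KL_mono h t' (F := fun _ => Ψ t') (F' := Φ) (fun t ht => H₀ t' t ht)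
      rw [KL_const h] at h1
      exact h1
  rw [← lintegral_KL h hP hΦ, ← lintegral_indicator_one hA, ← lintegral_const_mul _
    (measurable_one.indicator hA), ← lintegral_add_left hΨ]
  exact lintegral_mono hgo

/-! ### Levels -/

theorem rl_Iic (h : RP G α β ε) : rl G α β ε (Iic α) = ENNReal.ofReal (1 - ε) * G (Iic α) := by
  unfold rl
  rw [withDensity_apply _ measurableSet_Iic]
  rw [setLIntegral_congr_fun (g := fun _ => ENNReal.ofReal (1 - ε)) measurableSet_Iic
    (fun s hs => by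
      have hs' : s ≤ α := hs
      simp only [den, if_pos hs'])]
  rw [setLIntegral_const]

theorem rl_Ici (h : RP G α β ε) : rl G α β ε (Ici β) = (1 + exd G α β ε) * G (Ici β) := by
  unfold rl
  rw [withDensity_apply _ measurableSet_Ici]
  rw [setLIntegral_congr_fun (g := fun _ => 1 + exd G α β ε) measurableSet_Ici
    (fun s hs => by
      have hs' : β ≤ s := hs
      have hs'' : ¬ s ≤ α := not_le.2 (lt_of_lt_of_le h.lt hs')
      simp only [den, if_neg hs'', if_pos hs'])]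
  rw [setLIntegral_const]

theorem exd_toReal (h : RP G α β ε) :
    (exd G α β ε).toReal = ε * (G (Iic α)).toReal / (G (Ici β)).toReal := by
  unfold exd
  rw [ENNReal.toReal_div, ENNReal.toReal_mul, ENNReal.toReal_ofReal h.nonneg]

theorem RP.comp {ε₁ ε₂ : ℝ} (h : RP G α β ε₁) (h₁ : ε₁ < 1) (h₂ : 0 ≤ ε₂) (h₂' : ε₂ ≤ 1) :
    RP (rl G α β ε₁) α β ε₂ where
  prob := h.prob_rl
  lt := h.lt
  lo := by
    rw [rl_Iic h]
    exact mul_ne_zero (by simpa only [ne_eq, ENNReal.ofReal_eq_zero, tsub_le_iff_right, zero_add, not_le] using h₁) h.lo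
  hi := by
    rw [rl_Ici h]
    exact mul_ne_zero h.one_add_ne.1 h.hi
  nonneg := h₂
  le_one := h₂'
  pos := by
    unfold rl
    exact withDensity_absolutelyContinuous _ _ h.pos

theorem rl_rl {ε₁ ε₂ : ℝ} (h : RP G α β ε₁) (h₁ : ε₁ < 1) (h₂ : 0 ≤ ε₂) (h₂' : ε₂ ≤ 1) :
    rl (rl G α β ε₁) α β ε₂ = rl G α β (ε₁ + ε₂ - ε₁ * ε₂) := by
  have hp := h.prob
  have hc := RP.comp h h₁ h₂ h₂'
  have h₁' := h.nonneg
  have h3 : RP G α β (ε₁ + ε₂ - ε₁ * ε₂) := ⟨h.prob, h.lt, h.lo, h.hi, by nlinarith only [h₁', h₁, h₂], by nlinarith only [h₁, h₂'],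
    h.pos⟩
  have key : (1 + exd G α β ε₁) * (1 + exd (rl G α β ε₁) α β ε₂) =
      1 + exd G α β (ε₁ + ε₂ - ε₁ * ε₂) := by
    have hne := h.one_add_ne
    rw [← ENNReal.toReal_eq_toReal_iff' (ENNReal.mul_ne_top hne.2 hc.one_add_ne.2)
      h3.one_add_ne.2, ENNReal.toReal_mul, ENNReal.toReal_add ENNReal.one_ne_top h.exd_ne_top,
      ENNReal.toReal_add ENNReal.one_ne_top hc.exd_ne_top,
      ENNReal.toReal_add ENNReal.one_ne_top h3.exd_ne_top, exd_toReal h, exd_toReal hc,
      exd_toReal h3, rl_Iic h, rl_Ici h, ENNReal.toReal_mul, ENNReal.toReal_mul,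
      ENNReal.toReal_ofReal (by linarith), ENNReal.toReal_add ENNReal.one_ne_top h.exd_ne_top,
      exd_toReal h, ENNReal.toReal_one]
    have hb : 0 < (G (Ici β)).toReal := ENNReal.toReal_pos h.hi (measure_ne_top _ _)
    have ha : 0 ≤ (G (Iic α)).toReal := ENNReal.toReal_nonneg
    have hb2 : 0 < (G (Ici β)).toReal + ε₁ * (G (Iic α)).toReal := by (clear * - hb h₁'; positivity)
    field_simp
    ring
  unfold rl at *
  rw [← withDensity_mul _ measurable_den measurable_den]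
  congr 1
  funext s
  simp only [Pi.mul_apply]
  by_cases hs : s ≤ α
  · simp only [den, if_pos hs]
    rw [← ENNReal.ofReal_mul (by linarith only [h₁])]
    congr 1
    ring
  · by_cases hs' : β ≤ s
    · simp only [den, if_neg hs, if_pos hs']
      exact key
    · simp only [den, if_neg hs, if_neg hs', mul_one]

theorem rl_zero : rl G α β 0 = G := by
  unfold rl
  have : den G α β 0 = 1 := by
    funext s
    simp only [den, sub_zero, ENNReal.ofReal_one, exd, ENNReal.ofReal_zero, zero_mul, ENNReal.zero_div, add_zero, ite_self, Pi.one_apply]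
  rw [this, withDensity_one]

theorem rsm_rsm {G₁ G₂ : Measure ℝ} [IsProbabilityMeasure G₁] [IsProbabilityMeasure G₂]
    {D : Finset δ} {P : Measure (δ → ℝ)} [IsProbabilityMeasure P] :
    rsm G₁ D (rsm G₂ D P) = rsm G₁ D P := by
  have := prob_rsm (G' := G₂) (D := D) (P := P)
  refine Measure.ext_of_lintegral _ fun f hf => ?_
  have hm : Measurable (∫⋯∫⁻_D, f ∂fun _ => G₁) := hf.lmarginal (fun _ => G₁)
  rw [lintegral_rsm hf, lintegral_rsm hm, lintegral_rsm hf]
  refine lintegral_congr fun t => ?_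
  unfold lmarginal
  have : ∀ y : (D → ℝ), (∫⁻ z : (D → ℝ), f (updateFinset (updateFinset t D y) D z)
      ∂Measure.pi fun _ => G₁) = ∫⁻ z : (D → ℝ), f (updateFinset t D z)
      ∂Measure.pi fun _ => G₁ := by
    intro y
    refine lintegral_congr fun z => ?_
    congr 1
    funext i
    by_cases hi : i ∈ D
    · simp [updateFinset, hi]
    · simp [updateFinset, hi]
  simp only [this]
  rw [lintegral_const, measure_univ, mul_one]

/-- Raising probability after `i` steps. -/
def lev (ε : ℝ) (i : ℕ) : ℝ := 1 - (1 - ε) ^ i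

theorem lev_mem (h0 : 0 ≤ ε) (h1 : ε < 1) (i : ℕ) : 0 ≤ lev ε i ∧ lev ε i < 1 := by
  unfold lev
  have h2 : (1 - ε) ^ i ≤ 1 := pow_le_one₀ (by linarith) (by linarith only [h0])
  have h3 : 0 < (1 - ε) ^ i := pow_pos (by linarith) i
  constructor <;> linarith

theorem lev_le (h0 : 0 ≤ ε) (h1 : ε < 1) (i : ℕ) : lev ε i ≤ i * ε := by
  unfold lev
  have := one_add_mul_le_pow (a := -ε) (by linarith) i
  have e : (1 + -ε) = 1 - ε := by ring
  rw [e] at this
  linarith only [this]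

theorem one_step (h : RP G α β ε) (h1 : ε < 1) {D : Finset δ} {P : Measure (δ → ℝ)}
    [IsProbabilityMeasure P] {Φ Ψ : (δ → ℝ) → ℝ≥0∞} (hΦ : Measurable Φ) (hΨ : Measurable Ψ)
    {A : Set (δ → ℝ)} (hA : MeasurableSet A) {N M n i k : ℕ} (hik : i ≤ k) {c : ℝ≥0∞}
    (hNM : 2 * (M : ℝ) + 4 ≤ N * (ε * ((1 - ε) ^ k * (G (Iic α)).toReal)))
    (H₀ : ∀ t' t, Rch α β D t' t → Ψ t' ≤ Φ t)
    (H : ∀ t' ∈ A, ∃ Q : Fin n → Finset δ,
      (∀ i, Q i ⊆ D ∧ N ≤ (Q i).card ∧ ∀ e ∈ Q i, β ≤ t' e) ∧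
      ∀ t, Rch α β D t' t →
        Ψ t' + c * ∑ i, ({t | M ≤ cnt α (Q i) t}.indicator 1 t : ℝ≥0∞) ≤ Φ t) :
    ∫⁻ t, Ψ t ∂rsm (rl G α β (lev ε (i + 1))) D P +
        c * (n * (3 / 4)) * rsm (rl G α β (lev ε (i + 1))) D P A
      ≤ ∫⁻ t, Φ t ∂rsm (rl G α β (lev ε i)) D P := by
  have hp := h.prob
  have hl := lev_mem h.nonneg h1 i
  have hi : RP G α β (lev ε i) := ⟨h.prob, h.lt, h.lo, h.hi, hl.1, hl.2.le, h.pos⟩
  have hpi := hi.prob_rl
  have hc : RP (rl G α β (lev ε i)) α β ε := RP.comp hi hl.2 h.nonneg h.le_one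
  have hpc := hc.prob_rl
  have hPi := prob_rsm (G' := rl G α β (lev ε i)) (D := D) (P := P)
  have e1 : rl (rl G α β (lev ε i)) α β ε = rl G α β (lev ε (i + 1)) := by
    rw [rl_rl hi hl.2 h.nonneg h.le_one]
    congr 1
    unfold lev
    ring
  have e2 : rsm (rl (rl G α β (lev ε i)) α β ε) D (rsm (rl G α β (lev ε i)) D P) =
      rsm (rl G α β (lev ε (i + 1))) D P := by
    rw [rsm_rsm, e1]
  rw [← e2]
  refine pair_step hc rsm_rsm hΦ hΨ hA ?_ H₀ H
  refine hNM.trans (mul_le_mul_of_nonneg_left ?_ (Nat.cast_nonneg N))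
  have ha : (rl G α β (lev ε i) (Iic α)).toReal = (1 - ε) ^ i * (G (Iic α)).toReal := by
    rw [rl_Iic hi, ENNReal.toReal_mul, ENNReal.toReal_ofReal (by linarith only [hl])]
    congr 1
    unfold lev
    ring
  have hb : 0 < (rl G α β (lev ε i) (Ici β)).toReal :=
    ENNReal.toReal_pos hc.hi (measure_ne_top _ _)
  have hab : (rl G α β (lev ε i) (Iic α)).toReal + (rl G α β (lev ε i) (Ici β)).toReal ≤ 1 := by
    rw [← ENNReal.toReal_add (measure_ne_top _ _) (measure_ne_top _ _), ← measure_union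
      (by
        rw [Set.disjoint_left]
        intro x hx hx'
        exact absurd (lt_of_lt_of_le h.lt hx') (not_lt.2 hx)) measurableSet_Ici]
    exact ENNReal.toReal_le_of_le_ofReal (by norm_num) (by simpa only [ENNReal.ofReal_one] using prob_le_one)
  rw [ha] at hab ⊢
  have hG0 : 0 ≤ (G (Iic α)).toReal := ENNReal.toReal_nonneg
  have hε := h.nonneg
  have hpw : (1 - ε) ^ k ≤ (1 - ε) ^ i :=
    pow_le_pow_of_le_one (by linarith only [h1]) (by linarith only [hε]) hik
  have h5 : 0 ≤ (1 - ε) ^ i * (G (Iic α)).toReal := by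
    have : 0 ≤ (1 - ε) ^ i := pow_nonneg (by linarith only [h1]) i
    (clear * - h1; positivity)
  have h6 : (1 - ε) ^ k * (G (Iic α)).toReal ≤ (1 - ε) ^ i * (G (Iic α)).toReal :=
    mul_le_mul_of_nonneg_right hpw hG0
  rw [le_div_iff₀ (by positivity)]
  have h7 : (rl G α β (lev ε i) (Ici β)).toReal + ε * ((1 - ε) ^ i * (G (Iic α)).toReal) ≤ 1 := by
    have := mul_le_of_le_one_left h5 h.le_one
    linarith only [hab, this]
  have h8 : 0 ≤ ε * ((1 - ε) ^ k * (G (Iic α)).toReal) := by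
    have : 0 ≤ (1 - ε) ^ k := pow_nonneg (by linarith only [h1]) k
    (clear * - hε h1; positivity)
  calc _ ≤ ε * ((1 - ε) ^ k * (G (Iic α)).toReal) * 1 := mul_le_mul_of_nonneg_left h7 h8
    _ ≤ ε * ((1 - ε) ^ i * (G (Iic α)).toReal) := by
      rw [mul_one]
      exact mul_le_mul_of_nonneg_left h6 hε

/-- GROWTH along `k` levels. -/
theorem growth (h : RP G α β ε) (h1 : ε < 1) {D : Finset δ} {P : Measure (δ → ℝ)}
    [IsProbabilityMeasure P] (hP : rsm G D P = P) {Φ : (δ → ℝ) → ℝ≥0∞} (hΦ : Measurable Φ)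
    {A : Set (δ → ℝ)} (hA : MeasurableSet A) {N M n k : ℕ} {c : ℝ≥0∞} {r : ℝ}
    (hr0 : 0 ≤ r) (hr : 2 * (k : ℝ) * r ≤ 1)
    (hNM : 2 * (M : ℝ) + 4 ≤ N * (ε * ((1 - ε) ^ k * (G (Iic α)).toReal)))
    (H₀ : ∀ t' t, Rch α β D t' t → ENNReal.ofReal (1 - r) * Φ t' ≤ Φ t)
    (H : ∀ t' ∈ A, ∃ Q : Fin n → Finset δ,
      (∀ i, Q i ⊆ D ∧ N ≤ (Q i).card ∧ ∀ e ∈ Q i, β ≤ t' e) ∧
      ∀ t, Rch α β D t' t → ENNReal.ofReal (1 - r) * Φ t' +
        c * ∑ i, ({t | M ≤ cnt α (Q i) t}.indicator 1 t : ℝ≥0∞) ≤ Φ t)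
    (hPA : ∀ i, 1 ≤ i → i ≤ k → 3 / 4 ≤ rsm (rl G α β (lev ε i)) D P A) :
    c * n * k * (1 / 4) ≤ ∫⁻ t, Φ t ∂P := by
  rcases Nat.eq_zero_or_pos k with hk | hk
  · subst hk; simp only [CharP.cast_eq_zero, mul_zero, one_div, zero_mul, zero_le]
  have hk1 : (1 : ℝ) ≤ k := by exact_mod_cast hk
  have hr1 : r ≤ 1 / 2 := by nlinarith only [hr, hk1]
  set a : ℝ≥0∞ := ENNReal.ofReal (1 - r) with ha
  set m : ℕ → ℝ≥0∞ := fun i => ∫⁻ t, Φ t ∂rsm (rl G α β (lev ε i)) D P with hm
  have hstep : ∀ i < k, a * m (i + 1) + c * (n * (3 / 4)) * (3 / 4) ≤ m i := by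
    intro i hi
    have h2 := one_step h h1 (P := P) hΦ (Ψ := fun t => a * Φ t) (hΦ.const_mul a) hA
      (i := i) (k := k) hi.le hNM H₀ H
    rw [lintegral_const_mul _ hΦ] at h2
    refine le_trans (add_le_add le_rfl (mul_le_mul' le_rfl ?_)) h2
    exact hPA (i + 1) (by omega) (by omega)
  have ha1 : a ≤ 1 := by
    rw [ha, ← ENNReal.ofReal_one]
    exact ENNReal.ofReal_le_ofReal (by linarith only [hr0])
  set d := c * (n * (3 / 4)) * (3 / 4) with hd
  have hind : ∀ i ≤ k, a ^ k * (i * d) + a ^ i * m i ≤ m 0 := by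
    intro i
    induction i with
    | zero => intro _; simp
    | succ i ih =>
      intro hi
      have h2 := ih (by omega)
      have h3 := hstep i (by omega)
      refine le_trans ?_ h2
      have h4 : a ^ k ≤ a ^ i := pow_le_pow_right_of_le_one' ha1 (by omega)
      calc a ^ k * (((i + 1 : ℕ) : ℝ≥0∞) * d) + a ^ (i + 1) * m (i + 1)
          = a ^ k * (i * d) + (a ^ k * d + a ^ i * (a * m (i + 1))) := by
            push_cast; ring
        _ ≤ a ^ k * (i * d) + (a ^ i * d + a ^ i * (a * m (i + 1))) := by gcongr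
        _ = a ^ k * (i * d) + a ^ i * (a * m (i + 1) + d) := by ring
        _ ≤ _ := by (clear * - h3; gcongr)
  have h0 : m 0 = ∫⁻ t, Φ t ∂P := by
    have : lev ε 0 = 0 := by simp [lev]
    simp only [hm, this, rl_zero, hP]
  rw [← h0]
  refine le_trans ?_ ((le_add_right le_rfl).trans (hind k le_rfl))
  have hak : (1 / 2 : ℝ≥0∞) ≤ a ^ k := by
    rw [ha, ← ENNReal.ofReal_pow (by linarith only [hr1])]
    have h2 := one_add_mul_le_pow (a := -r) (by linarith only [hr1]) k
    have e : (1 + -r) = 1 - r := by ring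
    rw [e] at h2
    have h3 : (1 / 2 : ℝ≥0∞) = ENNReal.ofReal (1 / 2) := by
      rw [ENNReal.ofReal_div_of_pos (by norm_num)]; norm_num
    rw [h3]
    exact ENNReal.ofReal_le_ofReal (by nlinarith only [hr, h2])
  have h5 : (1 / 4 : ℝ≥0∞) ≤ 1 / 2 * (3 / 4 * (3 / 4)) := by
    have e1 : (1 / 4 : ℝ≥0∞) = ENNReal.ofReal (1 / 4) := by
      rw [ENNReal.ofReal_div_of_pos (by norm_num)]; norm_num
    have e2 : (1 / 2 : ℝ≥0∞) = ENNReal.ofReal (1 / 2) := by
      rw [ENNReal.ofReal_div_of_pos (by norm_num)]; norm_num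
    have e3 : (3 / 4 : ℝ≥0∞) = ENNReal.ofReal (3 / 4) := by
      rw [ENNReal.ofReal_div_of_pos (by norm_num)]; norm_num
    rw [e1, e2, e3, ← ENNReal.ofReal_mul (by norm_num), ← ENNReal.ofReal_mul (by norm_num)]
    exact ENNReal.ofReal_le_ofReal (by norm_num)
  calc c * n * k * (1 / 4) ≤ c * n * k * (1 / 2 * (3 / 4 * (3 / 4))) := by (clear * - h5; gcongr)
    _ = 1 / 2 * (k * d) := by rw [hd]; ring
    _ ≤ a ^ k * (k * d) := by (clear * - hak; gcongr)

end Vale.Agent.P158.C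
end
end

section

section

/-! Plan C' module (9): the levels. -/

namespace Vale.Agent.P158.C.Lv

open MeasureTheory Function Set Vale.Agent.P158.T1 Vale.Agent.P158.C
open scoped ENNReal

variable {G : Measure ℝ} {α β ε : ℝ}

theorem sum_ind_eq {α : Type*} {n : ℕ} (S : Fin n → Set α) (t : α) :
    ∑ j, ((S j).indicator 1 t : ℝ≥0∞) = (({j | t ∈ S j} : Set (Fin n)).ncard : ℝ≥0∞) := by
  classical
  have h1 : ({j | t ∈ S j} : Set (Fin n)) = ((Finset.univ.filter fun j => t ∈ S j : Finset _) :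
      Set (Fin n)) := by ext; simp only [mem_ofPred_eq, Finset.coe_filter, Finset.mem_univ, true_and]
  rw [h1, ncard_coe_finset, Finset.card_filter, Nat.cast_sum]
  refine Finset.sum_congr rfl fun j _ => ?_
  by_cases h : t ∈ S j
  · rw [indicator_of_mem h, if_pos h]; simp
  · rw [indicator_of_notMem h, if_neg h]; simp

/-- One step with a relative loss. -/
theorem pair_step' {δ : Type*} [DecidableEq δ] (h : RP G α β ε) {D : Finset δ}
    {P : Measure (δ → ℝ)} [IsProbabilityMeasure P]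
    (hP : rsm G D P = P) {Φ : (δ → ℝ) → ℝ≥0∞} (hΦ : Measurable Φ)
    {A : Set (δ → ℝ)} (hA : MeasurableSet A) {N M n : ℕ} {c κ : ℝ≥0∞}
    (hNM : 2 * (M : ℝ) + 4 ≤
      N * (ε * (G (Iic α)).toReal / ((G (Ici β)).toReal + ε * (G (Iic α)).toReal)))
    (H₀ : ∀ t' t, Rch α β D t' t → Φ t' ≤ Φ t)
    (H : ∀ t' ∈ A, ∃ Q : Fin n → Finset δ,
      (∀ i, Q i ⊆ D ∧ N ≤ (Q i).card ∧ ∀ e ∈ Q i, β ≤ t' e) ∧
      ∀ t, Rch α β D t' t →
        Φ t' + c * (({j | M ≤ cnt α (Q j) t} : Set (Fin n)).ncard : ℝ≥0∞) ≤ Φ t + κ * Φ t') :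
    ∫⁻ t, Φ t ∂rsm (rl G α β ε) D P + c * (n * (3 / 4)) * rsm (rl G α β ε) D P A
      ≤ ∫⁻ t, Φ t ∂P + κ * ∫⁻ t, Φ t ∂rsm (rl G α β ε) D P := by
  have hgo : ∀ t', Φ t' + c * (n * (3 / 4)) * A.indicator 1 t' ≤
      KL G α β ε D.toList Φ t' + κ * Φ t' := by
    intro t'
    by_cases ht' : t' ∈ A
    · obtain ⟨Q, hQ, hQΦ⟩ := H t' ht'
      have hm : ∀ i, Measurable ({t : δ → ℝ | M ≤ cnt α (Q i) t}.indicator
          (1 : (δ → ℝ) → ℝ≥0∞)) := fun i => measurable_one.indicator (measurableSet_cnt _ _)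
      have h1 := KL_mono h t' (F := fun t => Φ t' + c * ∑ i,
        ({t | M ≤ cnt α (Q i) t}.indicator 1 t : ℝ≥0∞)) (F' := fun t => Φ t + κ * Φ t') (by
          intro t ht
          have h0 := hQΦ t ht
          rw [sum_ind_eq]
          exact h0)
      rw [KL_add h _ (f := fun _ => Φ t') measurable_const, KL_const h] at h1
      rw [KL_const_mul h c _ (f := fun t => ∑ i,
        ({t | M ≤ cnt α (Q i) t}.indicator 1 t : ℝ≥0∞)) (by
          exact Finset.measurable_sum _ fun i _ => hm i)] at h1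
      rw [KL_sum h Finset.univ hm] at h1
      rw [KL_add h _ (f := Φ) hΦ, KL_const h] at h1
      refine le_trans ?_ h1
      simp only [indicator_of_mem ht', Pi.one_apply, mul_one]
      refine add_le_add le_rfl (mul_le_mul' le_rfl ?_)
      have h2 : ∀ i ∈ (Finset.univ : Finset (Fin n)), (3 / 4 : ℝ≥0∞) ≤
          KL G α β ε D.toList ({t | M ≤ cnt α (Q i) t}.indicator 1) t' := fun i _ =>
        KL_cnt_ge h hNM t' (hQ i).1 (hQ i).2.1 (hQ i).2.2
      have h3 := Finset.card_nsmul_le_sum _ _ _ h2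
      rw [Finset.card_univ, Fintype.card_fin, nsmul_eq_mul] at h3
      exact h3
    · simp only [indicator_of_notMem ht', mul_zero, add_zero]
      have h1 := KL_mono h t' (F := fun _ => Φ t') (F' := Φ) (fun t ht => H₀ t' t ht)
      rw [KL_const h] at h1
      exact h1.trans le_self_add
  have hkm : Measurable (KL G α β ε D.toList Φ) := h.measurable_KL _ hΦ
  rw [← lintegral_KL h hP hΦ, ← lintegral_indicator_one hA, ← lintegral_const_mul _
    (measurable_one.indicator hA), ← lintegral_add_left hΦ, ← lintegral_const_mul _ hΦ,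
    ← lintegral_add_left hkm]
  exact lintegral_mono hgo

theorem rsm_off {δ : Type*} [DecidableEq δ] {G' : Measure ℝ} [IsProbabilityMeasure G']
    {D : Finset δ} {P : Measure (δ → ℝ)} [IsProbabilityMeasure P] {C : Set (δ → ℝ)}
    (hC : MeasurableSet C)
    (h : ∀ t t' : δ → ℝ, (∀ e, e ∉ D → t e = t' e) → t ∈ C → t' ∈ C) : rsm G' D P C = P C := by
  rw [← lintegral_indicator_one hC, ← lintegral_indicator_one hC,
    lintegral_rsm (measurable_one.indicator hC)]
  refine lintegral_congr fun t => ?_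
  unfold lmarginal
  have h1 : ∀ y : (D → ℝ), C.indicator (1 : (δ → ℝ) → ℝ≥0∞) (updateFinset t D y) =
      C.indicator 1 t := by
    intro y
    have h2 : ∀ e, e ∉ D → updateFinset t D y e = t e := fun e he => by
      rw [updateFinset, dif_neg he]
    by_cases ht : t ∈ C
    · rw [indicator_of_mem ht, indicator_of_mem (h t _ (fun e he => (h2 e he).symm) ht)]
      rfl
    · rw [indicator_of_notMem ht, indicator_of_notMem fun h' => ht (h _ t h2 h')]
  simp only [h1]
  rw [lintegral_const, measure_univ, mul_one]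

/-- Module (9). -/
theorem levels [IsProbabilityMeasure G] (h0 : RP G α β 0) : LevStmt G α β := by
  intro k M
  set a : ℝ := (G (Iic α)).toReal with ha
  have ha0 : 0 < a := ENNReal.toReal_pos h0.lo (measure_ne_top _ _)
  set c' : ℝ := 16 * (2 * M + 4) / a with hc'
  have hc'0 : 0 < c' := by positivity
  set K : ℝ := Real.exp (169 * (k * c') ^ 2 * (1 + 1 / (G (Ici β)).toReal)) with hK
  have hK1 : 1 ≤ K := Real.one_le_exp (by (clear * -; positivity))
  have hKe : (1 : ℝ≥0∞) ≤ ENNReal.ofReal K ^ (1 / 2 : ℝ) := by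
    have h1 : (1 : ℝ≥0∞) ≤ ENNReal.ofReal K := by
      rw [← ENNReal.ofReal_one]; exact ENNReal.ofReal_le_ofReal hK1
    calc (1 : ℝ≥0∞) = 1 ^ (1 / 2 : ℝ) := by rw [ENNReal.one_rpow]
      _ ≤ _ := ENNReal.rpow_le_rpow h1 (by norm_num)
  refine ⟨2 * (k + 1) * c' + 1, by positivity, ENNReal.ofReal K ^ (1 / 2 : ℝ),
    ENNReal.rpow_ne_top_of_nonneg (by norm_num) ENNReal.ofReal_ne_top, ?_⟩
  intro r hr hcr
  have hr0 : (0 : ℝ) < r := by exact_mod_cast hr
  have hk0 : (0 : ℝ) ≤ k := Nat.cast_nonneg k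
  set ε : ℝ := c' / r with hε
  have hε0 : 0 ≤ ε := by (clear * - ha0 hr; positivity)
  have hεk : ε * (2 * (k + 1)) ≤ 1 := by
    rw [hε, div_mul_eq_mul_div, div_le_one hr0]
    linarith
  have hε1 : ε < 1 := by nlinarith only [hεk]
  have hkε : k * ε ≤ 1 / 2 := by nlinarith only [hεk]
  have hrp : RP G α β ε := ⟨h0.prob, h0.lt, h0.lo, h0.hi, hε0, hε1.le, h0.pos⟩
  have hlev : ∀ i, RP G α β (lev ε i) := fun i =>
    ⟨h0.prob, h0.lt, h0.lo, h0.hi, (lev_mem hε0 hε1 i).1, (lev_mem hε0 hε1 i).2.le, h0.pos⟩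
  set D := tF 0 (2 * r) with hD
  have hPG : rsm G D (PG G) = PG G := rsm_PG D
  refine ⟨fun i => rsm (rl G α β (lev ε i)) D (PG G), ?_, ?_, ?_, ?_, ?_⟩
  · have : lev ε 0 = 0 := by simp [lev]
    simp only [this, rl_zero, hPG]
  · intro i _
    have := (hlev i).prob_rl
    exact prob_rsm
  · intro i hi C hC
    have hle : PG G C ≤ 1 := prob_le_one
    rcases Nat.eq_zero_or_pos k with hk | hk
    · have hi0 : i = 0 := by omega
      have : lev ε 0 = 0 := by simp [lev]
      simp only [hi0, this, rl_zero, hPG, hk, pow_zero, ENNReal.rpow_one]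
      calc PG G C = 1 * PG G C := (one_mul _).symm
        _ ≤ _ := mul_le_mul' hKe le_rfl
    · have hcard : (D.card : ℝ) * (lev ε i) ^ 2 ≤ 169 * (k * c') ^ 2 := by
        have h1 : (D.card : ℝ) ≤ (13 * r) ^ 2 := by
          have h2 := card_tF_le 0 (2 * r)
          have h3 : (4 * (2 * r) + 5) ^ 2 ≤ (13 * r) ^ 2 := Nat.pow_le_pow_left (by (clear * - hr; omega)) 2
          exact_mod_cast h2.trans h3
        have h2 : lev ε i ≤ k * ε := by
          refine (lev_le hε0 hε1 i).trans ?_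
          have : (i : ℝ) ≤ k := by exact_mod_cast hi
          exact mul_le_mul_of_nonneg_right this hε0
        have h3 := (lev_mem hε0 hε1 i).1
        calc (D.card : ℝ) * (lev ε i) ^ 2 ≤ (13 * r) ^ 2 * (k * ε) ^ 2 :=
              mul_le_mul h1 (pow_le_pow_left₀ h3 h2 2) (by (clear * -; positivity)) (by positivity)
          _ = _ := by rw [hε]; field_simp; ring
      have h1 := (hlev i).rsm_le_exp hPG hcard hC
      rw [ENNReal.mul_rpow_of_nonneg _ _ (by norm_num : (0 : ℝ) ≤ 1 / 2)] at h1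
      refine h1.trans (mul_le_mul' le_rfl ?_)
      refine ENNReal.rpow_le_rpow_of_exponent_ge hle ?_
      calc (1 / 2 : ℝ) ^ k ≤ (1 / 2 : ℝ) ^ 1 := pow_le_pow_of_le_one (by norm_num) (by norm_num) hk
        _ = 1 / 2 := pow_one _
  · intro i _ C hC hoff
    have := (hlev i).prob_rl
    exact rsm_off hC hoff
  · intro i hi Φ hΦ 𝓜 hM n h κ _ _ H₀ H
    -- one step from level `i` to level `i + 1`
    have hpi := (hlev i).prob_rl
    have hl := lev_mem hε0 hε1 i
    have hc : RP (rl G α β (lev ε i)) α β ε := RP.comp (hlev i) hl.2 hε0 hε1.le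
    have hpc := hc.prob_rl
    have hPi := prob_rsm (G' := rl G α β (lev ε i)) (D := D) (P := PG G)
    have e1 : rl (rl G α β (lev ε i)) α β ε = rl G α β (lev ε (i + 1)) := by
      rw [rl_rl (hlev i) hl.2 hε0 hε1.le]
      congr 1
      unfold lev
      ring
    have e2 : rsm (rl (rl G α β (lev ε i)) α β ε) D (rsm (rl G α β (lev ε i)) D (PG G)) =
        rsm (rl G α β (lev ε (i + 1))) D (PG G) := by
      rw [rsm_rsm, e1]
    set N : ℕ := (r + 7) / 8 with hN
    have hNr : (r : ℝ) / 8 ≤ N := by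
      have : r ≤ 8 * N := by (clear * -; omega)
      have : (r : ℝ) ≤ 8 * N := by exact_mod_cast this
      linarith only [this]
    have hNM : 2 * (M : ℝ) + 4 ≤ N * (ε * (rl G α β (lev ε i) (Iic α)).toReal /
        ((rl G α β (lev ε i) (Ici β)).toReal + ε * (rl G α β (lev ε i) (Iic α)).toReal)) := by
      have ea : (rl G α β (lev ε i) (Iic α)).toReal = (1 - ε) ^ i * a := by
        rw [rl_Iic (hlev i), ENNReal.toReal_mul, ENNReal.toReal_ofReal (by linarith only [hl])]
        congr 1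
        unfold lev
        ring
      have hb : 0 < (rl G α β (lev ε i) (Ici β)).toReal :=
        ENNReal.toReal_pos hc.hi (measure_ne_top _ _)
      have hab : (rl G α β (lev ε i) (Iic α)).toReal + (rl G α β (lev ε i) (Ici β)).toReal ≤ 1 := by
        rw [← ENNReal.toReal_add (measure_ne_top _ _) (measure_ne_top _ _), ← measure_union
          (by
            rw [Set.disjoint_left]
            intro x hx hx'
            exact absurd (lt_of_lt_of_le h0.lt hx') (not_lt.2 hx)) measurableSet_Ici]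
        exact ENNReal.toReal_le_of_le_ofReal (by norm_num) (by simpa only [ENNReal.ofReal_one] using prob_le_one)
      have h3 : (1 / 2 : ℝ) ≤ (1 - ε) ^ i := by
        have h4 := one_add_mul_le_pow (a := -ε) (by linarith only [hε1]) i
        have e : (1 + -ε) = 1 - ε := by ring
        rw [e] at h4
        have h5 : (i : ℝ) * ε ≤ k * ε := by
          have : (i : ℝ) ≤ k := by exact_mod_cast hi.le
          exact mul_le_mul_of_nonneg_right this hε0
        linarith only [hε0, hεk, h4, h5]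
      set x := (rl G α β (lev ε i) (Iic α)).toReal with hx
      set y := (rl G α β (lev ε i) (Ici β)).toReal with hy
      have hx2 : a / 2 ≤ x := by rw [ea]; nlinarith only [ha0, h3]
      have hx0 : 0 ≤ x := ENNReal.toReal_nonneg
      have h6 : y + ε * x ≤ 1 := by nlinarith only [hab, hx2, ha0, hεk]
      have h7 : ε * x ≤ ε * x / (y + ε * x) := by
        rw [le_div_iff₀ (by (clear * - hb ha0 hr; positivity))]
        exact mul_le_of_le_one_right (by (clear * - ha0 hr; positivity)) h6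
      calc 2 * (M : ℝ) + 4 = r / 8 * (ε * (a / 2)) := by
            rw [hε, hc']
            field_simp
            ring
        _ ≤ N * (ε * x / (y + ε * x)) := by
            refine mul_le_mul hNr ?_ (by (clear * - ha0 hr; positivity)) (by (clear * -; positivity))
            exact (mul_le_mul_of_nonneg_left hx2 hε0).trans h7
    have key := pair_step' hc (D := D) (P := rsm (rl G α β (lev ε i)) D (PG G)) rsm_rsm hΦ hM
      (n := n) (c := h) (κ := κ) hNM H₀ ?_
    · rw [e2] at key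
      refine le_trans (add_le_add le_rfl (mul_le_mul' (mul_le_mul' le_rfl ?_) le_rfl)) key
      rw [ENNReal.div_eq_inv_mul, mul_comm]
      refine mul_le_mul' le_rfl ?_
      have e3 : (2⁻¹ : ℝ≥0∞) = ENNReal.ofReal (1 / 2) := by
        rw [ENNReal.ofReal_div_of_pos (by norm_num)]; norm_num
      have e4 : (3 / 4 : ℝ≥0∞) = ENNReal.ofReal (3 / 4) := by
        rw [ENNReal.ofReal_div_of_pos (by norm_num)]; norm_num
      rw [e3, e4]
      exact ENNReal.ofReal_le_ofReal (by norm_num)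
    · intro t' ht'
      obtain ⟨Q, hQ, hQΦ⟩ := H t' ht'
      refine ⟨Q, fun j => ⟨(hQ j).1, ?_, (hQ j).2.2⟩, hQΦ⟩
      have := (hQ j).2.1
      omega

end Vale.Agent.P158.C.Lv
end
end

section

section

/-! Plan C' module (10): gain by lowering heavy edges of a line. -/

namespace Vale.Agent.P158.C.GainDet

open Filter MeasureTheory Vale.Agent.P158.T1 Vale.Agent.P158.C

theorem conn_bx_aux {z : V} {r : ℕ} {a b : V} (ha : a ∈ bx z r) (hb : b ∈ bx z r) :
    Conn (bx z r) a b := by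
  -- horizontal moves
  have hor : ∀ (c d e : ℤ), |c - z.1| ≤ r → |d - z.1| ≤ r → |e - z.2| ≤ r → c ≤ d →
      Conn (bx z r) (c, e) (d, e) := by
    intro c d e hc hd he hcd
    obtain ⟨n, rfl⟩ := Int.le.dest hcd
    clear hcd
    induction n with
    | zero => simpa using Conn.refl' (S := bx z r) (x := (c, e)) ⟨hc, he⟩
    | succ n ih =>
      rw [abs_le] at hc hd
      push_cast at hd
      have h1 : |c + n - z.1| ≤ r := by rw [abs_le]; constructor <;> omega
      refine (ih h1).trans' ?_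
      have e1 : ((c + ((n + 1 : ℕ) : ℤ), e) : V) = ((c + n) + 1, e) := by
        push_cast; rw [add_assoc]
      rw [e1]
      refine Conn.of_adj (adj_right _ _) ⟨h1, he⟩ ⟨?_, he⟩
      simp only
      rw [abs_le]; constructor <;> omega
  have ver : ∀ (e c d : ℤ), |e - z.1| ≤ r → |c - z.2| ≤ r → |d - z.2| ≤ r → c ≤ d →
      Conn (bx z r) (e, c) (e, d) := by
    intro e c d he hc hd hcd
    obtain ⟨n, rfl⟩ := Int.le.dest hcd
    clear hcd
    induction n with
    | zero => simpa using Conn.refl' (S := bx z r) (x := (e, c)) ⟨he, hc⟩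
    | succ n ih =>
      rw [abs_le] at hc hd
      push_cast at hd
      have h1 : |c + n - z.2| ≤ r := by rw [abs_le]; constructor <;> omega
      refine (ih h1).trans' ?_
      have e1 : ((e, c + ((n + 1 : ℕ) : ℤ)) : V) = (e, (c + n) + 1) := by
        push_cast; rw [add_assoc]
      rw [e1]
      refine Conn.of_adj (adj_up _ _) ⟨he, h1⟩ ⟨he, ?_⟩
      simp only
      rw [abs_le]; constructor <;> omega
  obtain ⟨a1, a2⟩ := a
  obtain ⟨b1, b2⟩ := b
  have c1 : Conn (bx z r) (a1, a2) (b1, a2) := by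
    rcases le_total a1 b1 with h | h
    · exact hor _ _ _ ha.1 hb.1 ha.2 h
    · exact (hor _ _ _ hb.1 ha.1 ha.2 h).symm'
  have c2 : Conn (bx z r) (b1, a2) (b1, b2) := by
    rcases le_total a2 b2 with h | h
    · exact ver _ _ _ hb.1 ha.2 hb.2 h
    · exact (ver _ _ _ hb.1 hb.2 ha.2 h).symm'
  exact c1.trans' c2


/-- Boundary vertices are outside the window. -/
theorem bd_not_mem {z : V} {N r : ℕ} (hN : 8 * r + 8 ≤ N) (hz : z ∈ bx 0 (N / 4)) (k : ℤ) :
    bd z N k ∉ bx 0 (2 * r) := by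
  intro h
  have h1 := bd_mem_bB (z := z) (n := N) (by omega) k
  obtain ⟨-, h2⟩ := h1
  obtain ⟨h3, h4⟩ := h
  obtain ⟨h5, h6⟩ := hz
  simp only [Prod.fst_zero, Prod.snd_zero, sub_zero, abs_le] at h3 h4 h5 h6
  push_cast at h3 h4 h5 h6
  rcases h2 with h2 | h2
  · rw [abs_eq (by positivity)] at h2
    omega
  · rw [abs_eq (by (clear * -; positivity))] at h2
    omega

/-- Module (10). -/
theorem gainDet : GainDetStmt := by
  classical
  intro α β h M t' z N r p hα hαβ ht' hr hN hz hAG hlin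
  obtain ⟨hh, v, hvr, hvS, hOn⟩ := hlin
  have hN0 : 0 < N := by omega
  have hw' := adm_of_pos ht'
  set x := bd z N (p.1.val : ℤ) with hx
  set y := bd z N (p.2.val : ℤ) with hy
  have hxB : x ∈ bx z N := bd_mem_bx hN0 _
  have hyB : y ∈ bx z N := bd_mem_bx hN0 _
  have hcon : ∀ u ∈ bx z N, ∀ u' ∈ bx z N, Conn (bx z N) u u' := fun u hu u' hu' =>
    conn_bx_aux hu hu'
  obtain ⟨q, hq, hq'⟩ := att_of_finite hw' (bx_finite z N) hcon v hvS x hxB
  have h1 := hAG v x q hvr (bd_not_mem hN hz _)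
  refine ⟨hv β t' 0 r (2 * r) q, ?_, by omega, ?_, ?_⟩
  · intro e he
    unfold hv at he
    rw [Finset.mem_filter] at he
    exact mem_tF.2 he.2.2.1
  · intro e he
    unfold hv at he
    rw [Finset.mem_filter] at he
    exact he.2.2.2
  intro t ht hcnt
  have hle : ∀ e, t e ≤ t' e := by
    intro e
    by_cases he : e ∈ tF 0 (2 * r)
    · rcases ht.2 e he with h | h
      · exact h.le
      · exact h.2.2.trans (hαβ.le.trans h.1)
    · exact (ht.1 e he).le
  have hpos : ∀ e, 0 < t e := by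
    intro e
    by_cases he : e ∈ tF 0 (2 * r)
    · rcases ht.2 e he with h | h
      · rw [h]; exact ht' e
      · exact h.2.1
    · rw [ht.1 e he]; exact ht' e
  have hw := adm_of_pos hpos
  set Q := (hv β t' 0 r (2 * r) q).filter fun e => t e ≤ α with hQ
  have hMQ : M ≤ Q.card := by
    unfold cnt at hcnt
    rw [hQ]
    convert hcnt
  have h2 : ww (wt t) q + Q.card * (β - α) ≤ ww (wt t') q := by
    refine ww_gain hle q Q ?_ ?_
    · intro e he
      rw [hQ, Finset.mem_filter] at he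
      have := he.1
      unfold hv at this
      rw [Finset.mem_filter] at this
      exact this.1
    · intro e he
      rw [hQ, Finset.mem_filter] at he
      have h3 := he.1
      unfold hv at h3
      rw [Finset.mem_filter] at h3
      linarith only [he, h3]
  have h3 : (M : ℝ) * (β - α) ≤ Q.card * (β - α) := by
    have : (M : ℝ) ≤ Q.card := by exact_mod_cast hMQ
    exact mul_le_mul_of_nonneg_right this (by linarith only [hαβ])
  have h4 : WN (wt t) z N (2 * r) p.1 p.2 = WN (wt t') z N (2 * r) p.1 p.2 := by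
    unfold WN bT
    refine PT_congr fun e he => ht.1 e fun h => ?_
    exact not_mem_tE_of_sdiff he (mem_tF.1 h)
  have h5 : PT (wt t) (bx z N) v x ≤ ww (wt t) q := PT_le hw q hq
  have h6 : PT (wt t) (bx z N) v y ≤ PT (wt t') (bx z N) v y :=
    PT_mono_weight hw (wt_mono hle) (hcon _ hvS _ hyB)
  have h7 : TN (wt t) z N p.1 p.2 ≤ PT (wt t) (bx z N) x v + PT (wt t) (bx z N) v y :=
    PT_triangle hw (hcon _ hxB _ hvS) (hcon _ hvS _ hyB)
  have h8 : TN (wt t') z N p.1 p.2 = PT (wt t') (bx z N) x v + PT (wt t') (bx z N) v y :=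
    hOn.symm
  rw [PT_comm hw] at h7
  rw [PT_comm hw'] at h8
  rw [h4]
  linarith only [hh, hq', h2, h3, h5, h6, h7, h8]

end Vale.Agent.P158.C.GainDet
end
end

section

section

end
end

section

section

/-! Almost surely no two different paths with the same ends have the same weight, and slack
passes to limits of geodesics. -/

namespace Vale.Agent.P158.CL

open SimpleGraph Filter MeasureTheory Vale.Agent.P158.T1

variable {G : Measure ℝ} [IsProbabilityMeasure G]

theorem exists_edge_diff {x y : V} (p : latt.Walk x y) :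
    ∀ q : latt.Walk x y, p.IsPath → q.IsPath → p ≠ q →
      (∃ e ∈ p.edges, e ∉ q.edges) ∨ (∃ e ∈ q.edges, e ∉ p.edges) := by
  classical
  induction p with
  | nil =>
    intro q _ hq hne
    exact absurd (Walk.isPath_iff_eq_nil.1 hq).symm hne
  | @cons a b c h p ih =>
    intro q hp hq hne
    rw [Walk.cons_isPath_iff] at hp
    cases q with
    | nil => exact absurd p.end_mem_support hp.2
    | @cons _ b' _ h' q =>
      rw [Walk.cons_isPath_iff] at hq
      have e1 : s(a, b) ∉ p.edges := fun hh => hp.2 (p.fst_mem_support_of_mem_edges hh)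
      have e2 : ∀ d, s(a, d) ∉ q.edges := fun d hh => hq.2 (q.fst_mem_support_of_mem_edges hh)
      by_cases hbb : b = b'
      · subst hbb
        have hpq : p ≠ q := fun hh => hne (by rw [hh])
        rcases ih q hp.1 hq.1 hpq with ⟨e, he, he'⟩ | ⟨e, he, he'⟩
        · refine Or.inl ⟨e, by simp [he], ?_⟩
          rw [Walk.edges_cons, List.mem_cons, not_or]
          exact ⟨fun hh => e1 (hh ▸ he), he'⟩
        · refine Or.inr ⟨e, by simp [he], ?_⟩
          rw [Walk.edges_cons, List.mem_cons, not_or]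
          exact ⟨fun hh => e2 b (hh ▸ he), he'⟩
      · refine Or.inl ⟨s(a, b), by simp, ?_⟩
        rw [Walk.edges_cons, List.mem_cons, not_or]
        refine ⟨fun hh => hbb ?_, e2 b⟩
        rw [Sym2.eq_iff] at hh
        rcases hh with ⟨-, hh⟩ | ⟨h1, h2⟩
        · exact hh
        · exact absurd h2 (latt.ne_of_adj h).symm

theorem ww_update_of_not_mem (t : Env) {a b : V} (h : latt.Adj a b) (s s' : ℝ) {x y : V}
    (p : latt.Walk x y) (hp : s(a, b) ∉ p.edges) :
    ww (wt (Function.update t ⟨s(a, b), h⟩ s)) p = ww (wt (Function.update t ⟨s(a, b), h⟩ s')) p := by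
  induction p with
  | nil => rfl
  | cons hc p ih =>
    rw [Walk.edges_cons, List.mem_cons, not_or] at hp
    rw [ww_cons, ww_cons, ih hp.2, wt_update_of_ne _ _ _ (fun h => hp.1 h.symm),
      wt_update_of_ne _ _ _ (fun h => hp.1 h.symm)]

theorem ww_update_of_mem (t : Env) {a b : V} (h : latt.Adj a b) {s s' : ℝ} (hs : s < s')
    {x y : V} (p : latt.Walk x y) (hp : p.IsPath) (he : s(a, b) ∈ p.edges) :
    ww (wt (Function.update t ⟨s(a, b), h⟩ s)) p <
      ww (wt (Function.update t ⟨s(a, b), h⟩ s')) p := by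
  induction p with
  | nil => simp at he
  | @cons c d e hc p ih =>
    rw [Walk.cons_isPath_iff] at hp
    rw [Walk.edges_cons, List.mem_cons] at he
    rw [ww_cons, ww_cons]
    by_cases hcd : s(a, b) = s(c, d)
    · have h1 : s(a, b) ∉ p.edges := by
        rw [hcd]
        exact fun hh => hp.2 (p.fst_mem_support_of_mem_edges hh)
      rw [ww_update_of_not_mem t h s s' p h1]
      have h2 : wt (Function.update t ⟨s(a, b), h⟩ s) c d = s := by
        have : wt (Function.update t ⟨s(c, d), hc⟩ s) c d = s := wt_update_self t hc s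
        rw [← this]
        congr 2
        · exact Subtype.ext hcd
      have h3 : wt (Function.update t ⟨s(a, b), h⟩ s') c d = s' := by
        have : wt (Function.update t ⟨s(c, d), hc⟩ s') c d = s' := wt_update_self t hc s'
        rw [← this]
        congr 2
        · exact Subtype.ext hcd
      rw [h2, h3]
      linarith only [hs]
    · have h1 := ih hp.1 (he.resolve_left hcd)
      rw [wt_update_of_ne _ _ _ (fun h => hcd h.symm), wt_update_of_ne _ _ _ (fun h => hcd h.symm)]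
      linarith only [h1]

theorem ae_TF [NullSingletonClass G] : ∀ᵐ t ∂PG G, TF (wt t) := by
  classical
  unfold TF
  rw [ae_all_iff]
  intro x
  rw [ae_all_iff]
  intro y
  rw [ae_all_iff]
  intro p
  rw [ae_all_iff]
  intro q
  by_cases hne : p = q
  · exact Eventually.of_forall fun _ _ _ _ => hne
  by_cases hp : p.IsPath
  swap
  · exact Eventually.of_forall fun _ h _ _ => absurd h hp
  by_cases hq : q.IsPath
  swap
  · exact Eventually.of_forall fun _ _ h _ => absurd h hq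
  have hm : MeasurableSet {t : Env | ww (wt t) p = ww (wt t) q} :=
    measurableSet_eq_fun (measurable_ww p) (measurable_ww q)
  have h0 : PG G {t : Env | ww (wt t) p = ww (wt t) q} = 0 := by
    rcases exists_edge_diff p q hp hq hne with ⟨e, he, he'⟩ | ⟨e, he, he'⟩
    · induction e with
      | _ a b =>
        have hab : latt.Adj a b := p.adj_of_mem_edges he
        refine null_of_section hm ⟨s(a, b), hab⟩ fun t s₀ s₁ hlt h1 h2 => ?_
        have h3 := ww_update_of_mem t hab hlt p hp he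
        have h4 := ww_update_of_not_mem t hab s₀ s₁ q he'
        rw [Set.mem_ofPred_eq] at h1 h2
        linarith
    · induction e with
      | _ a b =>
        have hab : latt.Adj a b := q.adj_of_mem_edges he
        refine null_of_section hm ⟨s(a, b), hab⟩ fun t s₀ s₁ hlt h1 h2 => ?_
        have h3 := ww_update_of_mem t hab hlt q hq he
        have h4 := ww_update_of_not_mem t hab s₀ s₁ p he'
        rw [Set.mem_ofPred_eq] at h1 h2
        linarith only [h1, h2, h3, h4]
  have h1 : ∀ᵐ t ∂PG G, ¬ ww (wt t) p = ww (wt t) q := by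
    rw [ae_iff]
    simpa only [Decidable.not_not] using h0
  filter_upwards [h1] with t ht _ _ h
  exact absurd h ht

end Vale.Agent.P158.CL
end
end

section

section

/-! Plan C', statement (2): almost sure uniqueness. -/

namespace Vale.Agent.P158.C.UqAE

open MeasureTheory Vale.Agent.P158.C

variable {G : Measure ℝ} [IsProbabilityMeasure G]

theorem uq_ae [NullSingletonClass G] : UqStmt G := CL.ae_TF

end Vale.Agent.P158.C.UqAE
end
end

section

section

/-! Budget of a box (UpDetStmt), adapted from helper741's Ysum/Up: the chosen geodesics version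
(no uniqueness of geodesics is needed). -/

set_option linter.all false

namespace Vale.Agent.P158.C.UpDet

open Finset Vale.Agent.P158.T1

variable {w : V → V → ℝ} {N ρ : ℕ} {S : Set V}

/-- The boundary vertices of `bx 0 N`. -/
def bz (N : ℕ) (i : ZMod (8 * N)) : V := bd 0 N (i.val : ℤ)

/-- The matrix of passage times between boundary vertices. -/
noncomputable def TB (w : V → V → ℝ) (N : ℕ) (S : Set V) (i j : ZMod (8 * N)) : ℝ :=
  PT w S (bz N i) (bz N j)

instance nz8 (N : ℕ) [NeZero N] : NeZero (8 * N) := ⟨mul_ne_zero (by norm_num) (NeZero.ne N)⟩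

theorem bz_cast [NeZero N] (k : ℤ) : bz N ((k : ℤ) : ZMod (8 * N)) = bd 0 N k := by
  unfold bz
  rw [ZMod.val_intCast]
  have : ((8 * N : ℕ) : ℤ) = 8 * (N : ℤ) := by push_cast; ring
  rw [this]
  exact bd_emod 0 N k

theorem bz_succ [NeZero N] (i : ZMod (8 * N)) : bz N (i + 1) = bd 0 N ((i.val : ℤ) + 1) := by
  rw [← bz_cast]
  congr 1
  push_cast
  rw [ZMod.natCast_val, ZMod.cast_id', id]

theorem bz_adj [NeZero N] (i : ZMod (8 * N)) : latt.Adj (bz N i) (bz N (i + 1)) := by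
  rw [bz_succ]
  exact bd_adj (NeZero.pos N) _

theorem bz_mem_bB [NeZero N] (i : ZMod (8 * N)) : bz N i ∈ bB 0 N := bd_mem_bB (NeZero.pos N) _

theorem bz_mem [NeZero N] (i : ZMod (8 * N)) : bz N i ∈ bx 0 N := (bz_mem_bB i).1

theorem bz_surj [NeZero N] {x : V} (hx : x ∈ bB 0 N) : ∃ i, bz N i = x := by
  obtain ⟨k, -, -, hk⟩ := bd_surj (NeZero.pos N) hx 0
  exact ⟨(k : ZMod (8 * N)), by rw [bz_cast, hk]⟩

/-! ### Connectedness -/

theorem conn_bd [NeZero N] (hS : bB 0 N ⊆ S) (k : ℤ) (r : ℕ) : Conn S (bd 0 N k) (bd 0 N (k + r)) := by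
  induction r with
  | zero => simpa using Conn.refl' (S := S) (hS (bd_mem_bB (NeZero.pos N) k))
  | succ r ih =>
    refine ih.trans' ?_
    push_cast
    rw [← add_assoc]
    exact Conn.of_adj (bd_adj (NeZero.pos N) _) (hS (bd_mem_bB (NeZero.pos N) _))
      (hS (bd_mem_bB (NeZero.pos N) _))

theorem conn_bz [NeZero N] (hS : bB 0 N ⊆ S) (i j : ZMod (8 * N)) : Conn S (bz N i) (bz N j) := by
  have h : j = i + ((j - i).val : ZMod (8 * N)) := by
    rw [ZMod.natCast_val, ZMod.cast_id', id, add_sub_cancel]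
  have h1 : bz N j = bd 0 N ((i.val : ℤ) + ((j - i).val : ℕ)) := by
    rw [← bz_cast]
    congr 1
    conv_lhs => rw [h]
    push_cast
    rw [ZMod.natCast_zmod_val i]
  rw [h1]
  exact conn_bd hS _ _

theorem conn_row {z : V} {r : ℕ} {a b : ℤ} (hb : |b - z.2| ≤ r) {c d : ℤ} (hc : |c - z.1| ≤ r)
    (hd : |d - z.1| ≤ r) : Conn (bx z r) (c, b) (d, b) := by
  have key : ∀ (m : ℕ) (c : ℤ), |c - z.1| ≤ r → |c + m - z.1| ≤ r →
      Conn (bx z r) (c, b) (c + m, b) := by
    intro m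
    induction m with
    | zero => intro c hc _; simpa using Conn.refl' (S := bx z r) (x := (c, b)) ⟨hc, hb⟩
    | succ m ih =>
      intro c hc hc'
      push_cast at hc' ⊢
      have h1 : |c + m - z.1| ≤ r := by
        rw [abs_le] at hc hc' ⊢
        constructor <;> linarith only [hc', hc]
      refine (ih c hc h1).trans' ?_
      have := adj_right (c + m) b
      rw [add_assoc] at this
      refine Conn.of_adj this ⟨h1, hb⟩ ⟨?_, hb⟩
      exact hc'
  rcases le_total c d with h | h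
  · have := key (d - c).toNat c hc (by rw [Int.toNat_of_nonneg (by omega)]; convert hd using 2; ring)
    rw [Int.toNat_of_nonneg (by omega)] at this
    convert this using 2
    ring
  · have := key (c - d).toNat d hd (by rw [Int.toNat_of_nonneg (by omega)]; convert hc using 2; ring)
    rw [Int.toNat_of_nonneg (by omega)] at this
    refine Conn.symm' ?_
    convert this using 2
    ring

theorem conn_col {z : V} {r : ℕ} {a : ℤ} (ha : |a - z.1| ≤ r) {c d : ℤ} (hc : |c - z.2| ≤ r)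
    (hd : |d - z.2| ≤ r) : Conn (bx z r) (a, c) (a, d) := by
  have key : ∀ (m : ℕ) (c : ℤ), |c - z.2| ≤ r → |c + m - z.2| ≤ r →
      Conn (bx z r) (a, c) (a, c + m) := by
    intro m
    induction m with
    | zero => intro c hc _; simpa using Conn.refl' (S := bx z r) (x := (a, c)) ⟨ha, hc⟩
    | succ m ih =>
      intro c hc hc'
      push_cast at hc' ⊢
      have h1 : |c + m - z.2| ≤ r := by
        rw [abs_le] at hc hc' ⊢
        constructor <;> linarith only [hc', hc]
      refine (ih c hc h1).trans' ?_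
      have := adj_up a (c + m)
      rw [add_assoc] at this
      refine Conn.of_adj this ⟨ha, h1⟩ ⟨ha, ?_⟩
      exact hc'
  rcases le_total c d with h | h
  · have := key (d - c).toNat c hc (by rw [Int.toNat_of_nonneg (by omega)]; convert hd using 2; ring)
    rw [Int.toNat_of_nonneg (by omega)] at this
    convert this using 2
    ring
  · have := key (c - d).toNat d hd (by rw [Int.toNat_of_nonneg (by omega)]; convert hc using 2; ring)
    rw [Int.toNat_of_nonneg (by omega)] at this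
    refine Conn.symm' ?_
    convert this using 2
    ring

theorem conn_bx {z x y : V} {r : ℕ} (hx : x ∈ bx z r) (hy : y ∈ bx z r) : Conn (bx z r) x y :=
  (conn_row (a := 0) (c := x.1) (d := y.1) hx.2 hx.1 hy.1).trans' (conn_col hy.1 hx.2 hy.2)

/-! ### Vertices of attaining walks -/

/-- sup distance -/
def sd (z x : V) : ℤ := max |x.1 - z.1| |x.2 - z.2|

theorem mem_bx_iff_sd {z x : V} {r : ℕ} : x ∈ bx z r ↔ sd z x ≤ r := by
  rw [mem_bx, sd, max_le_iff]

theorem sd_adj {z x y : V} (h : latt.Adj x y) : sd z y ≤ sd z x + 1 := by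
  have h' : |x.1 - y.1| + |x.2 - y.2| = 1 := h
  have e1 := abs_nonneg (x.1 - y.1)
  have e2 := abs_nonneg (x.2 - y.2)
  unfold sd
  refine max_le ?_ ?_
  · have := abs_sub_le y.1 x.1 z.1
    rw [abs_sub_comm y.1 x.1] at this
    linarith only [h', e2, this, le_max_left |x.1 - z.1| |x.2 - z.2|]
  · have := abs_sub_le y.2 x.2 z.2
    rw [abs_sub_comm y.2 x.2] at this
    linarith [le_max_right |x.1 - z.1| |x.2 - z.2|]

/-- A walk meets all intermediate levels of the distance. -/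
theorem exists_level {z x y : V} (p : latt.Walk x y) {k : ℤ} (hx : sd z x ≤ k) (hy : k ≤ sd z y) :
    ∃ v ∈ p.support, sd z v = k := by
  induction p with
  | nil => exact ⟨_, by simp, le_antisymm hx hy⟩
  | cons h p ih =>
    rename_i a b c
    rcases eq_or_lt_of_le hx with hx | hx
    · exact ⟨a, by simp, hx⟩
    · obtain ⟨v, hv, hv'⟩ := ih (by linarith only [hx, sd_adj (z := z) h]) hy
      exact ⟨v, by simp [hv], hv'⟩

theorem exists_level' {z x y : V} (p : latt.Walk x y) {u : V} (hu : u ∈ p.support) {k : ℤ}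
    (hx : sd z u ≤ k) (hy : k ≤ sd z x) : ∃ v ∈ p.support, sd z v = k := by
  obtain ⟨v, hv, hv'⟩ := exists_level (z := z) (p.takeUntil u hu).reverse hx hy
  refine ⟨v, p.support_takeUntil_subset_support hu ?_, hv'⟩
  simpa using hv

open Classical in
/-- If avoiding the box `bx z ρ` costs more then the geodesic has at least `ρ` vertices in the
box `bx z (2 ρ)`. -/
theorem card_walk [NeZero N] (hw : Adm w) {z : V} (hz : ∀ i : ZMod (8 * N), bz N i ∉ bx z (2 * ρ))
    {x y : ZMod (8 * N)} (hlt : TB w N (bx 0 N) x y < TB w N (bx 0 N \ bx z ρ) x y)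
    (p : latt.Walk (bz N x) (bz N y)) (hp : ∀ v ∈ p.support, v ∈ bx 0 N)
    (hpw : ww w p = PT w (bx 0 N) (bz N x) (bz N y)) :
    ρ ≤ ((bxF z (2 * ρ)).filter fun v => v ∈ p.support).card := by
  obtain ⟨u, hu, hu'⟩ : ∃ u ∈ p.support, u ∈ bx z ρ := by
    by_contra hcon
    push Not at hcon
    have := PT_le (S := bx 0 N \ bx z ρ) hw p fun v hv => ⟨hp v hv, hcon v hv⟩
    rw [hpw] at this
    exact absurd hlt (not_lt.2 this)
  have hx : (2 * ρ : ℤ) < sd z (bz N x) := by
    have := hz x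
    rw [mem_bx_iff_sd] at this
    push_cast at this
    linarith
  have hlev : ∀ k : ℕ, k < ρ → ∃ v ∈ p.support, sd z v = ρ + 1 + k := by
    intro k hk
    have hk' : (k : ℤ) < ρ := by exact_mod_cast hk
    refine exists_level' p hu ?_ ?_
    · rw [mem_bx_iff_sd] at hu'
      linarith only [hu']
    · linarith
  choose! f hf using hlev
  have : (Finset.range ρ).card ≤
      ((bxF z (2 * ρ)).filter fun v => v ∈ p.support).card := by
    refine Finset.card_le_card_of_injOn f ?_ ?_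
    · intro k hk
      have hk1 := Finset.mem_range.1 (Finset.mem_coe.1 hk)
      obtain ⟨h1, h2⟩ := hf k hk1
      have hk' : (k : ℤ) < ρ := by exact_mod_cast hk1
      refine Finset.mem_coe.2 (Finset.mem_filter.2 ⟨mem_bxF.2 ?_, h1⟩)
      rw [mem_bx_iff_sd, h2]
      push_cast
      linarith only [hk1]
    · intro k hk l hl hkl
      have hk1 := Finset.mem_range.1 (Finset.mem_coe.1 hk)
      have hl1 := Finset.mem_range.1 (Finset.mem_coe.1 hl)
      have h1 := (hf k hk1).2
      have h2 := (hf l hl1).2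
      have h3 : f k = f l := hkl
      rw [h3, h2] at h1
      have : (l : ℤ) = k := by linarith only [h1]
      exact_mod_cast this.symm
  rwa [Finset.card_range] at this

/-! ### The mass through a vertex -/

open Classical in
/-- The mass of the cells touching a geodesic through `v` (plus a diagonal term). -/
noncomputable def Yv (w : V → V → ℝ) (N : ℕ) [NeZero N]
    (P : ZMod (8 * N) → ZMod (8 * N) → V → Prop) (v : V) : ℝ :=
  (∑ p : ZMod (8 * N) × ZMod (8 * N),
    if p.1 ≠ p.2 ∧ Touch (fun a b => P a b v) p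
    then cell (TB w N (bx 0 N)) p.1 p.2 else 0) +
  ∑ x : ZMod (8 * N), if P x (x + 1) v
    then 2 * w (bz N x) (bz N (x + 1)) else 0

theorem TB_comm (hw : Adm w) (x y : ZMod (8 * N)) : TB w N S x y = TB w N S y x := PT_comm hw

theorem TB_nonneg (hw : Adm w) (x y : ZMod (8 * N)) : 0 ≤ TB w N S x y := PT_nonneg hw

theorem TB_adj_le [NeZero N] (hw : Adm w) (hS : bB 0 N ⊆ S) (x : ZMod (8 * N)) :
    TB w N S x (x + 1) ≤ w (bz N x) (bz N (x + 1)) :=
  PT_adj_le hw (bz_adj x) (hS (bz_mem_bB _)) (hS (bz_mem_bB _))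

open Classical in
/-- LOWER BOUND. -/
theorem mass_le_Y [NeZero N] (hw : Adm w) {z : V} {P : ZMod (8 * N) → ZMod (8 * N) → V → Prop}
    (hz : ∀ i : ZMod (8 * N), bz N i ∉ bx z (2 * ρ))
    (hT : Kal (TB w N (bx 0 N))) (hW : Kal (TB w N (bx 0 N \ bx z ρ)))
    (hcard : ∀ x y, TB w N (bx 0 N) x y < TB w N (bx 0 N \ bx z ρ) x y →
      ρ ≤ ((bxF z (2 * ρ)).filter fun v => P x y v).card) :
    ρ * ∑ p ∈ univ.filter (fun p : ZMod (8 * N) × ZMod (8 * N) =>
        TB w N (bx 0 N) p.1 p.2 < TB w N (bx 0 N \ bx z ρ) p.1 p.2),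
        cell (TB w N (bx 0 N \ bx z ρ)) p.1 p.2
      ≤ ∑ v ∈ bxF z (2 * ρ), Yv w N P v := by
  classical
  set T := TB w N (bx 0 N) with hTdef
  set W := TB w N (bx 0 N \ bx z ρ) with hWdef
  have hBS : bB 0 N ⊆ bx 0 N \ bx z ρ := by
    intro x hx
    refine ⟨hx.1, fun hx' => ?_⟩
    obtain ⟨i, rfl⟩ := bz_surj hx
    exact hz i (bx_mono (by omega) hx')
  have hle : ∀ x y, T x y ≤ W x y := fun x y =>
    PT_mono hw Set.sdiff_subset (conn_bz hBS x y)
  have h1 := mass_le hW hT hle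
  have h2 : (ρ : ℝ) * ∑ p ∈ univ.filter (fun p : ZMod (8 * N) × ZMod (8 * N) =>
        p.1 ≠ p.2 ∧ Touch (fun x y => T x y < W x y) p), cell T p.1 p.2 ≤
      ∑ v ∈ bxF z (2 * ρ), ∑ p : ZMod (8 * N) × ZMod (8 * N),
        if p.1 ≠ p.2 ∧ Touch (fun a b => P a b v) p
        then cell T p.1 p.2 else 0 := by
    rw [Finset.sum_comm, Finset.mul_sum, Finset.sum_filter]
    refine Finset.sum_le_sum fun p _ => ?_
    split_ifs with hp
    · obtain ⟨hne, htouch⟩ := hp
      have hc : 0 ≤ cell T p.1 p.2 := hT.cell _ _ hne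
      have hsub : ρ ≤ ((bxF z (2 * ρ)).filter fun v =>
          Touch (fun a b => P a b v) p).card := by
        rcases htouch with h | h | h | h
        · exact (hcard _ _ h).trans (Finset.card_le_card (Finset.monotone_filter_right _
            fun v _ hv => Or.inl hv))
        · exact (hcard _ _ h).trans (Finset.card_le_card (Finset.monotone_filter_right _
            fun v _ hv => Or.inr (Or.inl hv)))
        · exact (hcard _ _ h).trans (Finset.card_le_card (Finset.monotone_filter_right _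
            fun v _ hv => Or.inr (Or.inr (Or.inl hv))))
        · exact (hcard _ _ h).trans (Finset.card_le_card (Finset.monotone_filter_right _
            fun v _ hv => Or.inr (Or.inr (Or.inr hv))))
      have h3 : ∑ v ∈ bxF z (2 * ρ),
          (if p.1 ≠ p.2 ∧ Touch (fun a b => P a b v) p
            then cell T p.1 p.2 else 0) =
          (((bxF z (2 * ρ)).filter fun v =>
          Touch (fun a b => P a b v) p).card : ℝ) * cell T p.1 p.2 := by
        rw [← nsmul_eq_mul, ← Finset.sum_const, Finset.sum_filter]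
        refine Finset.sum_congr rfl fun v _ => ?_
        simp only [hne, ne_eq, not_false_eq_true, true_and]
      rw [h3]
      exact mul_le_mul_of_nonneg_right (by exact_mod_cast hsub) hc
    · refine Finset.sum_nonneg fun v _ => ?_
      split_ifs with hv
      · exact hT.cell _ _ hv.1
      · exact le_refl _
  have h3 : (ρ : ℝ) * ∑ x : ZMod (8 * N), ((W x (x + 1) - T x (x + 1)) +
      (W (x + 1) x - T (x + 1) x)) ≤
      ∑ v ∈ bxF z (2 * ρ), ∑ x : ZMod (8 * N),
        if P x (x + 1) v then 2 * w (bz N x) (bz N (x + 1)) else 0 := by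
    rw [Finset.sum_comm, Finset.mul_sum]
    refine Finset.sum_le_sum fun x _ => ?_
    have hw0 : 0 < w (bz N x) (bz N (x + 1)) := hw.pos _ _ (bz_adj x)
    have hWx : W x (x + 1) ≤ w (bz N x) (bz N (x + 1)) := TB_adj_le hw hBS x
    have hTx : 0 ≤ T x (x + 1) := TB_nonneg hw _ _
    have hc1 : W (x + 1) x = W x (x + 1) := TB_comm hw _ _
    have hc2 : T (x + 1) x = T x (x + 1) := TB_comm hw _ _
    rw [hc1, hc2]
    rw [← Finset.sum_filter, Finset.sum_const, nsmul_eq_mul]
    rcases eq_or_lt_of_le (hle x (x + 1)) with h | h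
    · rw [h, sub_self, add_zero, mul_zero]
      (clear * - hw0; positivity)
    · have h4 := hcard _ _ h
      have h5 : (ρ : ℝ) ≤ (((bxF z (2 * ρ)).filter fun v =>
        P x (x + 1) v).card : ℝ) := by exact_mod_cast h4
      calc (ρ : ℝ) * (W x (x + 1) - T x (x + 1) + (W x (x + 1) - T x (x + 1)))
          ≤ ρ * (2 * w (bz N x) (bz N (x + 1))) := by
            apply mul_le_mul_of_nonneg_left _ (by (clear * -; positivity))
            linarith only [hWx, hTx]
        _ ≤ _ := mul_le_mul_of_nonneg_right h5 (by (clear * - hw0; positivity))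
  calc ρ * ∑ p ∈ univ.filter (fun p : ZMod (8 * N) × ZMod (8 * N) => T p.1 p.2 < W p.1 p.2),
        cell W p.1 p.2
      ≤ ρ * (∑ p ∈ univ.filter (fun p : ZMod (8 * N) × ZMod (8 * N) =>
          p.1 ≠ p.2 ∧ Touch (fun x y => T x y < W x y) p), cell T p.1 p.2
        + ∑ x : ZMod (8 * N), ((W x (x + 1) - T x (x + 1)) + (W (x + 1) x - T (x + 1) x))) :=
        mul_le_mul_of_nonneg_left h1 (by (clear * -; positivity))
    _ ≤ _ := by
        rw [mul_add]
        refine (add_le_add h2 h3).trans_eq ?_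
        rw [← Finset.sum_add_distrib]
        rfl

/-- UPPER BOUND. -/
theorem sum_Y_le [NeZero N] (hw : Adm w) (hT : Kal (TB w N (bx 0 N)))
    {P : ZMod (8 * N) → ZMod (8 * N) → V → Prop} {L : ℕ}
    (hL : ∀ x y : ZMod (8 * N), ∀ F : Finset V,
      (∀ v ∈ F, P x y v) → F.card ≤ L) :
    ∑ v ∈ bxF 0 N, Yv w N P v ≤
      10 * L * ∑ x : ZMod (8 * N), w (bz N x) (bz N (x + 1)) := by
  classical
  set T := TB w N (bx 0 N) with hTdef
  set A : ℝ := ∑ x : ZMod (8 * N), w (bz N x) (bz N (x + 1)) with hA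
  have hcell : ∀ p : ZMod (8 * N) × ZMod (8 * N),
      0 ≤ if p.1 ≠ p.2 then cell T p.1 p.2 else 0 := by
    intro p
    split_ifs with h
    · exact hT.cell _ _ h
    · exact le_refl _
  have hsum : ∑ p : ZMod (8 * N) × ZMod (8 * N), (if p.1 ≠ p.2 then cell T p.1 p.2 else 0)
      ≤ 2 * A := by
    have e1 := sum_cell T
    have e2 : ∑ p : ZMod (8 * N) × ZMod (8 * N), (if p.1 ≠ p.2 then cell T p.1 p.2 else 0) +
        ∑ x : ZMod (8 * N), cell T x x = ∑ p : ZMod (8 * N) × ZMod (8 * N), cell T p.1 p.2 := by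
      have : ∑ x : ZMod (8 * N), cell T x x =
          ∑ p : ZMod (8 * N) × ZMod (8 * N), (if p.1 ≠ p.2 then 0 else cell T p.1 p.2) := by
        rw [Fintype.sum_prod_type]
        refine Finset.sum_congr rfl fun x _ => ?_
        rw [Finset.sum_eq_single x]
        · simp
        · intro b _ hb
          simp [Ne.symm hb]
        · intro h; exact absurd (Finset.mem_univ _) h
      rw [this, ← Finset.sum_add_distrib]
      refine Finset.sum_congr rfl fun p _ => ?_
      by_cases h : p.1 = p.2 <;> simp [h]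
    have e3 : ∀ x, - cell T x x ≤ 2 * w (bz N x) (bz N (x + 1)) := by
      intro x
      have h1 : T x (x + 1) ≤ w (bz N x) (bz N (x + 1)) := TB_adj_le hw (fun _ h => h.1) x
      have h2 : T (x + 1) x = T x (x + 1) := TB_comm hw _ _
      have h3 : T x x = 0 := hT.diag x
      have h4 : T (x + 1) (x + 1) = 0 := hT.diag _
      unfold cell
      linarith only [h1, h2, h3, h4]
    rw [e1] at e2
    have e4 : - ∑ x : ZMod (8 * N), cell T x x ≤ 2 * A := by
      rw [← Finset.sum_neg_distrib, hA, Finset.mul_sum]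
      exact Finset.sum_le_sum fun x _ => e3 x
    (clear hw P L hL hT hTdef hcell e1; linarith)
  have h1 : ∑ v ∈ bxF 0 N, (∑ p : ZMod (8 * N) × ZMod (8 * N),
      if p.1 ≠ p.2 ∧ Touch (fun a b => P a b v) p
      then cell T p.1 p.2 else 0) ≤ 4 * L * (2 * A) := by
    rw [Finset.sum_comm]
    calc ∑ p : ZMod (8 * N) × ZMod (8 * N), ∑ v ∈ bxF 0 N,
        (if p.1 ≠ p.2 ∧ Touch (fun a b => P a b v) p
          then cell T p.1 p.2 else 0)
        ≤ ∑ p : ZMod (8 * N) × ZMod (8 * N),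
          4 * L * (if p.1 ≠ p.2 then cell T p.1 p.2 else 0) := by
          refine Finset.sum_le_sum fun p _ => ?_
          by_cases hp : p.1 ≠ p.2
          · simp only [hp, ne_eq, not_false_eq_true, true_and, if_true]
            rw [← Finset.sum_filter, Finset.sum_const, nsmul_eq_mul]
            refine mul_le_mul_of_nonneg_right ?_ (hT.cell _ _ hp)
            have hsub : ((bxF 0 N).filter fun v =>
                Touch (fun a b => P a b v) p) ⊆
                ((bxF 0 N).filter fun v => P p.1 p.2 v) ∪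
                (((bxF 0 N).filter fun v => P (p.1 + 1) p.2 v) ∪
                (((bxF 0 N).filter fun v => P p.1 (p.2 + 1) v) ∪
                ((bxF 0 N).filter fun v =>
                  P (p.1 + 1) (p.2 + 1) v))) := by
              intro v hv
              rw [Finset.mem_filter] at hv
              obtain ⟨hv1, hv2⟩ := hv
              simp only [Finset.mem_union, Finset.mem_filter]
              rcases hv2 with h | h | h | h
              · exact Or.inl ⟨hv1, h⟩
              · exact Or.inr (Or.inl ⟨hv1, h⟩)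
              · exact Or.inr (Or.inr (Or.inl ⟨hv1, h⟩))
              · exact Or.inr (Or.inr (Or.inr ⟨hv1, h⟩))
            have hcard := Finset.card_le_card hsub
            have c1 := hL p.1 p.2 ((bxF 0 N).filter fun v => P p.1 p.2 v)
              fun v hv => (Finset.mem_filter.1 hv).2
            have c2 := hL (p.1 + 1) p.2
              ((bxF 0 N).filter fun v => P (p.1 + 1) p.2 v)
              fun v hv => (Finset.mem_filter.1 hv).2
            have c3 := hL p.1 (p.2 + 1)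
              ((bxF 0 N).filter fun v => P p.1 (p.2 + 1) v)
              fun v hv => (Finset.mem_filter.1 hv).2
            have c4 := hL (p.1 + 1) (p.2 + 1)
              ((bxF 0 N).filter fun v => P (p.1 + 1) (p.2 + 1) v)
              fun v hv => (Finset.mem_filter.1 hv).2
            have u1 := Finset.card_union_le
              ((bxF 0 N).filter fun v => P p.1 p.2 v)
              (((bxF 0 N).filter fun v => P (p.1 + 1) p.2 v) ∪
                (((bxF 0 N).filter fun v => P p.1 (p.2 + 1) v) ∪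
                ((bxF 0 N).filter fun v =>
                  P (p.1 + 1) (p.2 + 1) v)))
            have u2 := Finset.card_union_le
              ((bxF 0 N).filter fun v => P (p.1 + 1) p.2 v)
              (((bxF 0 N).filter fun v => P p.1 (p.2 + 1) v) ∪
                ((bxF 0 N).filter fun v =>
                  P (p.1 + 1) (p.2 + 1) v))
            have u3 := Finset.card_union_le
              ((bxF 0 N).filter fun v => P p.1 (p.2 + 1) v)
              ((bxF 0 N).filter fun v => P (p.1 + 1) (p.2 + 1) v)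
            have : ((bxF 0 N).filter fun v =>
                Touch (fun a b => P a b v) p).card ≤ 4 * L := by
              omega
            exact_mod_cast this
          · simp only [hp, false_and, ↓reduceIte, sum_const_zero, mul_zero, Std.le_refl]
      _ = 4 * L * ∑ p : ZMod (8 * N) × ZMod (8 * N),
          (if p.1 ≠ p.2 then cell T p.1 p.2 else 0) := by rw [Finset.mul_sum]
      _ ≤ 4 * L * (2 * A) := mul_le_mul_of_nonneg_left hsum (by (clear * -; positivity))
  have h2 : ∑ v ∈ bxF 0 N, (∑ x : ZMod (8 * N),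
      if P x (x + 1) v then 2 * w (bz N x) (bz N (x + 1)) else 0) ≤
      2 * L * A := by
    rw [Finset.sum_comm, hA, Finset.mul_sum]
    refine Finset.sum_le_sum fun x _ => ?_
    rw [← Finset.sum_filter, Finset.sum_const, nsmul_eq_mul]
    have h3 := hL x (x + 1)
      ((bxF 0 N).filter fun v => P x (x + 1) v)
      fun v hv => (Finset.mem_filter.1 hv).2
    have hw0 : 0 < w (bz N x) (bz N (x + 1)) := hw.pos _ _ (bz_adj x)
    have h4 : (((bxF 0 N).filter fun v =>
      P x (x + 1) v).card : ℝ) ≤ L := by exact_mod_cast h3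
    nlinarith only [hw0, h4]
  have h3 : ∑ v ∈ bxF 0 N, Yv w N P v = ∑ v ∈ bxF 0 N, (∑ p : ZMod (8 * N) × ZMod (8 * N),
      if p.1 ≠ p.2 ∧ Touch (fun a b => P a b v) p
      then cell T p.1 p.2 else 0) + ∑ v ∈ bxF 0 N, (∑ x : ZMod (8 * N),
      if P x (x + 1) v then 2 * w (bz N x) (bz N (x + 1)) else 0) := by
    rw [← Finset.sum_add_distrib]
    rfl
  rw [h3]
  calc _ ≤ 4 * L * (2 * A) + 2 * L * A := add_le_add h1 h2
    _ = _ := by ring


theorem Yv_nonneg [NeZero N] (hw : Adm w) (hT : Kal (TB w N (bx 0 N)))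
    (P : ZMod (8 * N) → ZMod (8 * N) → V → Prop) (v : V) : 0 ≤ Yv w N P v := by
  classical
  unfold Yv
  refine add_nonneg (Finset.sum_nonneg fun p _ => ?_) (Finset.sum_nonneg fun x _ => ?_)
  · split_ifs with h
    · exact hT.cell _ _ h.1
    · exact le_refl _
  · split_ifs with h
    · have := hw.pos _ _ (bz_adj x)
      positivity
    · exact le_refl _

theorem bz_notMem [NeZero N] {z : V} {r k : ℕ} (hz : z ∈ bx 0 r) (h : r + k < N)
    (i : ZMod (8 * N)) : bz N i ∉ bx z k := by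
  intro hc
  obtain ⟨-, h1⟩ := bz_mem_bB (N := N) i
  simp only [Prod.fst_zero, Prod.snd_zero, sub_zero] at h1
  have h2 := bx_sub (x := z) (z := 0) (r := k) (s := r + k)
    (by push_cast; linarith only [hz.1]) (by push_cast; linarith only [hz.2]) hc
  obtain ⟨h3, h4⟩ := h2
  simp only [Prod.fst_zero, Prod.snd_zero, sub_zero] at h3 h4
  rcases h1 with h1 | h1 <;> omega

theorem card_bxF_eq (z : V) (r : ℕ) : (bxF z r).card = (2 * r + 1) ^ 2 := by
  have : bxF z r = Finset.Icc (z.1 - r) (z.1 + r) ×ˢ Finset.Icc (z.2 - r) (z.2 + r) := by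
    ext x
    rw [mem_bxF, mem_bx, Finset.mem_product, Finset.mem_Icc, Finset.mem_Icc, abs_le, abs_le]
    constructor
    · rintro ⟨⟨h1, h2⟩, h3, h4⟩
      exact ⟨⟨by linarith, by linarith⟩, by linarith, by linarith⟩
    · rintro ⟨⟨h1, h2⟩, h3, h4⟩
      exact ⟨⟨by linarith, by linarith⟩, by linarith, by linarith⟩
  rw [this, Finset.card_product, Int.card_Icc, Int.card_Icc, pow_two]
  congr 1 <;> omega

/-- The ring sum as a sum over `ZMod`. -/
theorem rs_eq [NeZero N] (w : V → V → ℝ) :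
    rs w 0 N = ∑ x : ZMod (8 * N), w (bz N x) (bz N (x + 1)) := by
  unfold rs
  symm
  refine Finset.sum_bij' (fun x _ => x.val) (fun k _ => (k : ZMod (8 * N))) ?_ ?_ ?_ ?_ ?_
  · intro x _; exact Finset.mem_range.2 (ZMod.val_lt x)
  · intro k _; exact Finset.mem_univ _
  · intro x _; exact ZMod.natCast_zmod_val x
  · intro k hk; exact ZMod.val_cast_of_lt (Finset.mem_range.1 hk)
  · intro x _
    rw [bz_succ]
    rfl

/-- Passage times between boundary vertices are bounded by the ring sum. -/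
theorem TB_le_rs [NeZero N] (hw : Adm w) (hS : bB 0 N ⊆ S) (x y : ZMod (8 * N)) :
    TB w N S x y ≤ rs w 0 N := by
  have key : ∀ r : ℕ, TB w N S x (x + r) ≤
      ∑ k ∈ Finset.range r, w (bz N (x + k)) (bz N (x + k + 1)) := by
    intro r
    induction r with
    | zero =>
      simp only [Nat.cast_zero, add_zero, Finset.range_zero, Finset.sum_empty]
      exact (PT_self hw).le
    | succ r ih =>
      rw [Finset.sum_range_succ]
      have h1 : TB w N S x (x + (r + 1 : ℕ)) ≤ TB w N S x (x + r) + TB w N S (x + r) (x + r + 1) := by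
        have : x + ((r + 1 : ℕ) : ZMod (8 * N)) = x + r + 1 := by push_cast; ring
        rw [this]
        exact PT_triangle hw (conn_bz hS _ _) (conn_bz hS _ _)
      have h2 := TB_adj_le hw hS (x + (r : ZMod (8 * N)))
      linarith only [ih, h1, h2]
  have h1 := key (y - x).val
  rw [ZMod.natCast_zmod_val, add_sub_cancel] at h1
  refine h1.trans ?_
  rw [rs_eq]
  have h2 : ∑ k ∈ Finset.range (y - x).val, w (bz N (x + k)) (bz N (x + k + 1)) =
      ∑ u ∈ (Finset.range (y - x).val).image (fun k : ℕ => x + (k : ZMod (8 * N))),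
        w (bz N u) (bz N (u + 1)) := by
    rw [Finset.sum_image]
    intro a ha b hb hab
    have ha' := (Finset.mem_range.1 ha).trans (ZMod.val_lt _)
    have hb' := (Finset.mem_range.1 hb).trans (ZMod.val_lt _)
    exact zmod_cast_inj ha' hb' (add_left_cancel hab)
  rw [h2]
  exact Finset.sum_le_sum_of_subset_of_nonneg (Finset.subset_univ _)
    fun u _ _ => (hw.pos _ _ (bz_adj u)).le

theorem upDet (hX : CrossStmt) : UpDetStmt := by
  classical
  refine ⟨500, by norm_num, ?_⟩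
  intro w N s R L _ hw hs hN hL hR hlen
  have hN0 : 0 < N := NeZero.pos N
  have hKal := Ring.kal hX
  have hT : Kal (TB w N (bx 0 N)) := hKal w 0 N (bx 0 N) hN0 hw (le_refl _) (fun _ h => h.1)
  have hs' : (1 : ℝ) ≤ s := by exact_mod_cast hs
  have hdiv : N / 4 + 2 * s < N := by omega
  -- geodesics
  have hatt := att_of_finite hw (bx_finite 0 N) fun a ha b hb => conn_bx ha hb
  have hgeo : ∀ x y : ZMod (8 * N), ∃ p : latt.Walk (bz N x) (bz N y), p.IsPath ∧
      (∀ v ∈ p.support, v ∈ bx 0 N) ∧ ww w p = PT w (bx 0 N) (bz N x) (bz N y) := by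
    intro x y
    obtain ⟨p, hp, hpw⟩ := hatt _ (bz_mem x) _ (bz_mem y)
    have h1 : ∀ v ∈ p.bypass.support, v ∈ bx 0 N :=
      fun v hv => hp v (p.support_bypass_subset_support hv)
    refine ⟨p.bypass, p.bypass_isPath, h1, le_antisymm ?_ (PT_le hw _ h1)⟩
    rw [← hpw]
    exact ww_bypass_le hw p
  choose γ hγ1 hγ2 hγ3 using hgeo
  have hγlen : ∀ x y, ((γ x y).length : ℝ) < L := by
    intro x y
    by_contra hcon
    have h1 := hlen _ _ (γ x y) (hγ1 x y) (hγ2 x y) (not_lt.1 hcon)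
    rw [hγ3] at h1
    have h2 : TB w N (bx 0 N) x y ≤ rs w 0 N := TB_le_rs hw (fun _ h => h.1) x y
    exact absurd (h1.trans_le (h2.trans hR)) (lt_irrefl _)
  set P : ZMod (8 * N) → ZMod (8 * N) → V → Prop := fun x y v => v ∈ (γ x y).support with hP
  set L' : ℕ := ⌊2 * L⌋₊ with hL'
  have hL0 : (L' : ℝ) ≤ 2 * L := Nat.floor_le (by linarith only [hL])
  have hcardL : ∀ x y : ZMod (8 * N), ∀ F : Finset V, (∀ v ∈ F, P x y v) → F.card ≤ L' := by
    intro x y F hF
    have h1 : F.card ≤ (γ x y).support.toFinset.card :=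
      Finset.card_le_card fun v hv => List.mem_toFinset.2 (hF v hv)
    have h2 : (γ x y).support.toFinset.card ≤ (γ x y).length + 1 := by
      refine (List.toFinset_card_le _).trans ?_
      rw [SimpleGraph.Walk.length_support]
    refine Nat.le_floor ?_
    have h3 : (F.card : ℝ) ≤ (γ x y).length + 1 := by exact_mod_cast h1.trans h2
    have := hγlen x y
    linarith only [hL, h3, this]
  -- each centre
  have hz : ∀ z ∈ bxF 0 (N / 4),
      s * mu (bT w 0 N (bx 0 N \ bx z s)) (Ef w 0 N z s) ≤ ∑ v ∈ bxF z (2 * s), Yv w N P v := by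
    intro z hz
    rw [mem_bxF] at hz
    have hnot : ∀ i : ZMod (8 * N), bz N i ∉ bx z (2 * s) := bz_notMem hz hdiv
    have hW : Kal (TB w N (bx 0 N \ bx z s)) := by
      refine hKal w 0 N _ hN0 hw Set.sdiff_subset ?_
      intro x hx
      refine ⟨hx.1, fun hx' => ?_⟩
      obtain ⟨i, rfl⟩ := bz_surj hx
      exact hnot i (bx_mono (by omega) hx')
    exact mass_le_Y hw hnot hT hW fun x y hlt => by
      convert card_walk hw hnot hlt _ (hγ2 x y) (hγ3 x y)
  -- double counting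
  have hdc : ∑ z ∈ bxF 0 (N / 4), ∑ v ∈ bxF z (2 * s), Yv w N P v ≤
      (2 * (2 * s : ℕ) + 1 : ℝ) ^ 2 * ∑ v ∈ bxF 0 N, Yv w N P v := by
    calc ∑ z ∈ bxF 0 (N / 4), ∑ v ∈ bxF z (2 * s), Yv w N P v
        ≤ ∑ z ∈ bxF 0 (N / 4), ∑ v ∈ bxF 0 N, (if v ∈ bxF z (2 * s) then Yv w N P v else 0) := by
          refine Finset.sum_le_sum fun z hz => ?_
          rw [← Finset.sum_filter]
          refine Finset.sum_le_sum_of_subset_of_nonneg ?_ fun v _ _ => Yv_nonneg hw hT P v
          intro v hv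
          rw [Finset.mem_filter]
          refine ⟨?_, hv⟩
          rw [mem_bxF] at hz hv ⊢
          obtain ⟨g1, g2⟩ := hz
          refine bx_sub ?_ ?_ hv
          · push_cast
            have : ((N / 4 : ℕ) : ℤ) + 2 * s < N := by exact_mod_cast hdiv
            push_cast at g1 this
            linarith only [hdiv, g1]
          · push_cast
            have : ((N / 4 : ℕ) : ℤ) + 2 * s < N := by exact_mod_cast hdiv
            push_cast at g2 this
            linarith only [hdiv, g2]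
      _ = ∑ v ∈ bxF 0 N, ∑ z ∈ bxF 0 (N / 4), (if v ∈ bxF z (2 * s) then Yv w N P v else 0) :=
          Finset.sum_comm
      _ ≤ ∑ v ∈ bxF 0 N, (2 * (2 * s : ℕ) + 1 : ℝ) ^ 2 * Yv w N P v := by
          refine Finset.sum_le_sum fun v _ => ?_
          rw [← Finset.sum_filter, Finset.sum_const, nsmul_eq_mul]
          refine mul_le_mul_of_nonneg_right ?_ (Yv_nonneg hw hT P v)
          have hsub : (bxF 0 (N / 4)).filter (fun z => v ∈ bxF z (2 * s)) ⊆ bxF v (2 * s) := by
            intro z hz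
            rw [Finset.mem_filter, mem_bxF, mem_bxF] at hz
            rw [mem_bxF]
            obtain ⟨-, h3, h4⟩ := hz
            exact ⟨by rw [abs_sub_comm]; exact h3, by rw [abs_sub_comm]; exact h4⟩
          have := Finset.card_le_card hsub
          rw [card_bxF_eq] at this
          exact_mod_cast this
      _ = _ := by rw [Finset.mul_sum]
  have hA0 : 0 ≤ ∑ x : ZMod (8 * N), w (bz N x) (bz N (x + 1)) :=
    Finset.sum_nonneg fun x _ => (hw.pos _ _ (bz_adj x)).le
  have hY := sum_Y_le hw hT hcardL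
  rw [← rs_eq] at hY hA0
  have hR0 : 0 ≤ R := hA0.trans hR
  have hY' : ∑ v ∈ bxF 0 N, Yv w N P v ≤ 20 * L * R := by
    refine hY.trans ?_
    have h0 : (0 : ℝ) ≤ L' := by (clear * -; positivity)
    calc 10 * (L' : ℝ) * rs w 0 N ≤ 10 * (2 * L) * R := by (clear * - hL0 hR hA0 hL; gcongr)
      _ = 20 * L * R := by ring
  have hmain : (s : ℝ) * ∑ z ∈ bxF 0 (N / 4), mu (bT w 0 N (bx 0 N \ bx z s)) (Ef w 0 N z s) ≤
      (2 * (2 * s : ℕ) + 1 : ℝ) ^ 2 * (20 * L * R) := by
    rw [Finset.mul_sum]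
    exact (Finset.sum_le_sum hz).trans (hdc.trans (mul_le_mul_of_nonneg_left hY' (by positivity)))
  have h5 : (2 * ((2 * s : ℕ) : ℝ) + 1) ^ 2 ≤ 25 * (s : ℝ) ^ 2 := by
    push_cast
    nlinarith only [hs']
  have hCC : 0 ≤ 20 * L * R := by (clear * - hL hR0; positivity)
  have h6 : (s : ℝ) * ∑ z ∈ bxF 0 (N / 4), mu (bT w 0 N (bx 0 N \ bx z s)) (Ef w 0 N z s) ≤
      s * (500 * s * R * L) := by
    refine hmain.trans ((mul_le_mul_of_nonneg_right h5 hCC).trans_eq ?_)
    ring
  exact le_of_mul_le_mul_left h6 (by linarith only [hs'])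

end Vale.Agent.P158.C.UpDet
end
end

section

section

/-! The crossing lemma for the cyclic boundary of a box. -/

namespace Vale.Agent.P158.C.Cross

open Vale.Agent.P158.T1

/-- Correction term of an end point `a` on the boundary of `bx 0 n`. -/
def cor (n : ℤ) (a v : V) : ZMod 2 :=
  if a.2 = -n then (if a.1 ≤ v.1 then 1 else 0)
  else if a.1 = n then (if v.1 = n ∧ a.2 ≤ v.2 then 1 else 0)
  else 0

/-- Parity function of a walk `A` in the box. -/
def F (n : ℤ) {a a' : V} (A : latt.Walk a a') (v : V) : ZMod 2 :=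
  par v.1 v.2 A + (cor n a v + cor n a' v)

/-- `a` is a boundary point of the box of radius `n` about the origin. -/
def Bd (n : ℤ) (a : V) : Prop := |a.1| ≤ n ∧ |a.2| ≤ n ∧ (|a.1| = n ∨ |a.2| = n)

/-- Horizontal move: the correction compensates `low`. -/
theorem cor_left {n : ℤ} {a : V} (ha : Bd n a) {i j : ℤ} (hi : -n < i) (hi' : i ≤ n)
    (hj : -n ≤ j) (hj' : j ≤ n) (hne : ((i, j) : V) ≠ a) :
    cor n a (i, j) + cor n a (i - 1, j) = low i j a := by
  obtain ⟨h1, h2, h3⟩ := ha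
  obtain ⟨x, y⟩ := a
  simp only [abs_le] at h1 h2
  have hne' : ¬ (i = x ∧ j = y) := fun h => hne (by rw [h.1, h.2])
  have h3' : x = n ∨ x = -n ∨ y = n ∨ y = -n := by
    simp only at h3
    rcases h3 with h | h <;> rcases abs_cases x with hx | hx <;> rcases abs_cases y with hy | hy <;>
      omega
  unfold cor low
  simp only
  split_ifs <;> first | rfl | (exfalso; omega)

/-- Vertical move. -/
theorem cor_down {n : ℤ} {a : V} (ha : Bd n a) {i j : ℤ} (hi' : i ≤ n)
    (hj : -n ≤ j - 1) (hj' : j ≤ n) (hne : ((i, j) : V) ≠ a) :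
    cor n a (i, j) = cor n a (i, j - 1) := by
  obtain ⟨h1, h2, h3⟩ := ha
  obtain ⟨x, y⟩ := a
  simp only [abs_le] at h1 h2
  have hne' : ¬ (i = x ∧ j = y) := fun h => hne (by rw [h.1, h.2])
  unfold cor
  simp only
  split_ifs <;> first | rfl | (exfalso; omega)

theorem F_left {n : ℤ} {a a' : V} (A : latt.Walk a a') (ha : Bd n a) (ha' : Bd n a')
    {i j : ℤ} (hi : -n < i) (hi' : i ≤ n) (hj : -n ≤ j) (hj' : j ≤ n)
    (h : ((i, j) : V) ∉ A.support) : F n A (i, j) = F n A (i - 1, j) := by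
  have h1 := par_id i j A
  rw [pver_eq_zero A h, add_zero] at h1
  have h2 := cor_left ha hi hi' hj hj' (fun e => h (e ▸ A.start_mem_support))
  have h3 := cor_left ha' hi hi' hj hj' (fun e => h (e ▸ A.end_mem_support))
  unfold F
  simp only
  have e1 := two_zero (par (i - 1) j A)
  have e2 := two_zero (cor n a (i - 1, j))
  have e3 := two_zero (cor n a' (i - 1, j))
  have e4 := two_zero (low i j a)
  have e5 := two_zero (low i j a')
  linear_combination h1 + h2 + h3 - e1 - e2 - e3 + e4 + e5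

theorem F_down {n : ℤ} {a a' : V} (A : latt.Walk a a') (ha : Bd n a) (ha' : Bd n a')
    {i j : ℤ} (hi' : i ≤ n) (hj : -n ≤ j - 1) (hj' : j ≤ n)
    (h : ((i, j) : V) ∉ A.support) : F n A (i, j) = F n A (i, j - 1) := by
  have h2 := cor_down ha hi' hj hj' (fun e => h (e ▸ A.start_mem_support))
  have h3 := cor_down ha' hi' hj hj' (fun e => h (e ▸ A.end_mem_support))
  unfold F
  simp only
  rw [par_vert A h, h2, h3]

theorem F_adj {n : ℤ} {a a' : V} (A : latt.Walk a a') (ha : Bd n a) (ha' : Bd n a')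
    {u v : V} (huv : latt.Adj u v) (hu1 : |u.1| ≤ n) (hu2 : |u.2| ≤ n) (hv1 : |v.1| ≤ n)
    (hv2 : |v.2| ≤ n) (hu : u ∉ A.support) (hv : v ∉ A.support) : F n A u = F n A v := by
  obtain ⟨x, y⟩ := u
  obtain ⟨x', y'⟩ := v
  have hc := adj_cases huv
  simp only [abs_le] at hc hu1 hu2 hv1 hv2
  rcases hc with ⟨h1, h2⟩ | ⟨h1, h2⟩ | ⟨h1, h2⟩ | ⟨h1, h2⟩ <;> subst h1 <;> subst h2
  · have := F_left A ha ha' (i := x + 1) (j := y') (by omega) (by omega) (by omega) (by omega) hv
    rw [this, add_sub_cancel_right]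
  · exact F_left A ha ha' (by omega) (by omega) (by omega) (by omega) hu
  · have := F_down A ha ha' (i := x') (j := y + 1) (by omega) (by omega) (by omega) hv
    rw [this, add_sub_cancel_right]
  · exact F_down A ha ha' (by omega) (by omega) (by omega) hu

theorem F_walk {n : ℕ} {a a' : V} (A : latt.Walk a a') (ha : Bd n a) (ha' : Bd n a')
    {u v : V} (B : latt.Walk u v) (hB : ∀ z ∈ B.support, z ∈ bx 0 n)
    (hAB : ∀ z ∈ A.support, z ∉ B.support) : F n A u = F n A v := by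
  induction B with
  | nil => rfl
  | @cons x y z h p ih =>
    have hx := hB x (by simp)
    have hy := hB y (by simp)
    rw [mem_bx] at hx hy
    simp only [Prod.fst_zero, Prod.snd_zero, sub_zero] at hx hy
    rw [F_adj A ha ha' h hx.1 hx.2 hy.1 hy.2 (fun hh => hAB _ hh (by simp))
      (fun hh => hAB _ hh (by simp))]
    exact ih (fun z hz => hB z (by simp [hz])) (fun z hz hz' => hAB z hz (by simp [hz']))

/-! ### Values on the boundary -/

/-- No horizontal step leaves the box. -/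
theorem par_out {n i j : ℤ} (hi : i = n ∨ i = -n - 1) {a a' : V} (A : latt.Walk a a')
    (hA : ∀ z ∈ A.support, |z.1| ≤ n) : par i j A = 0 := by
  unfold par
  refine List.sum_eq_zero fun x hx => ?_
  obtain ⟨d, hd, rfl⟩ := List.mem_map.1 hx
  have h1 := hA _ (A.dart_fst_mem_support_of_mem_darts hd)
  have h2 := hA _ (A.dart_snd_mem_support_of_mem_darts hd)
  rw [abs_le] at h1 h2
  unfold hor
  rw [if_neg]
  rintro ⟨-, -, h3 | h3⟩ <;> omega

/-- At a bottom vertex not on `A` nothing is counted. -/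
theorem par_bottom {n i : ℤ} {a a' : V} (A : latt.Walk a a')
    (hA : ∀ z ∈ A.support, |z.2| ≤ n) (h : ((i, -n) : V) ∉ A.support) : par i (-n) A = 0 := by
  unfold par
  refine List.sum_eq_zero fun x hx => ?_
  obtain ⟨d, hd, rfl⟩ := List.mem_map.1 hx
  have m1 := A.dart_fst_mem_support_of_mem_darts hd
  have m2 := A.dart_snd_mem_support_of_mem_darts hd
  have h1 := hA _ m1
  have h2 := hA _ m2
  rw [abs_le] at h1 h2
  unfold hor
  rw [if_neg]
  rintro ⟨h3, h4, h5 | h5⟩
  · exact h (by rwa [show d.fst = (i, -n) from Prod.ext h5.1 (by simp only; omega)] at m1)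
  · exact h (by rwa [show d.snd = (i, -n) from Prod.ext h5.1 (by simp only; omega)] at m2)

/-- Number of horizontal steps between the columns `i` and `i + 1`. -/
theorem par_top {n i : ℤ} {a a' : V} (A : latt.Walk a a')
    (hA : ∀ z ∈ A.support, |z.2| ≤ n) :
    par i n A = (if a.1 ≤ i then 1 else 0) + (if a'.1 ≤ i then 1 else 0) := by
  induction A with
  | nil => unfold par; simp [two_zero]
  | @cons x y z h p ih =>
    have hx := hA x (by simp)
    have hy := hA y (by simp)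
    rw [abs_le] at hx hy
    have ih' := ih fun z hz => hA z (by simp [hz])
    have e1 : par i n (SimpleGraph.Walk.cons h p) = hor i n x y + par i n p := by
      unfold par; simp
    have e2 : hor i n x y = (if x.1 ≤ i then 1 else 0) + (if y.1 ≤ i then 1 else 0) := by
      have hc := adj_cases h
      unfold hor
      rcases hc with ⟨h1, h2⟩ | ⟨h1, h2⟩ | ⟨h1, h2⟩ | ⟨h1, h2⟩ <;> split_ifs <;>
        first | rfl | (exfalso; omega)
    rw [e1, e2, ih']
    have := two_zero (if y.1 ≤ i then (1 : ZMod 2) else 0)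
    linear_combination this

/-- Contribution of the side of `v`. -/
def sde (n m : ℤ) (a v : V) : ZMod 2 :=
  if m ≤ 2 * n then 0 else if m ≤ 4 * n then (if a.1 ≤ v.1 then 1 else 0)
  else if m ≤ 6 * n then low (-n) v.2 a else 0

/-- Position of the boundary point. -/
theorem bdr_eq {n m : ℤ} (hn : 0 < n) :
    bdr n m = if m ≤ 2 * n then (n, m - n) else if m ≤ 4 * n then (3 * n - m, n)
      else if m ≤ 6 * n then (-n, 5 * n - m) else (m - 7 * n, -n) := by
  unfold bdr
  split_ifs <;> first | rfl | (exfalso; omega) | (ext <;> simp only <;> omega)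

theorem sde_add_cor {n i m : ℤ} (hn : 0 < n) (hi0 : 0 ≤ i) (hi : i < 8 * n) (hm0 : 0 ≤ m)
    (hm : m < 8 * n) (hne : i ≠ m) :
    sde n m (bdr n i) (bdr n m) + cor n (bdr n i) (bdr n m) =
      (if i ≤ m then 1 else 0) + (if 6 * n ≤ i then 1 else 0) +
        (if 2 * n < m then 1 else 0) := by
  rw [bdr_eq hn (m := i), bdr_eq hn (m := m)]
  unfold sde cor low
  rcases le_or_gt m (2 * n) with h1 | h1
  · simp only [if_pos h1]
    rcases le_or_gt i (2 * n) with g1 | g1
    · simp only [if_pos g1, true_and]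
      split_ifs <;> first | rfl | (exfalso; omega)
    · simp only [if_neg (not_le.2 g1)]
      rcases le_or_gt i (4 * n) with g2 | g2
      · simp only [if_pos g2]
        split_ifs <;> first | rfl | (exfalso; omega)
      · simp only [if_neg (not_le.2 g2)]
        rcases le_or_gt i (6 * n) with g3 | g3
        · simp only [if_pos g3, true_and]
          split_ifs <;> first | rfl | (exfalso; omega)
        · simp only [if_neg (not_le.2 g3)]
          split_ifs <;> first | rfl | (exfalso; omega)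
  · simp only [if_neg (not_le.2 h1)]
    rcases le_or_gt m (4 * n) with h2 | h2
    · simp only [if_pos h2]
      rcases le_or_gt i (2 * n) with g1 | g1
      · simp only [if_pos g1, true_and]
        split_ifs <;> first | rfl | (exfalso; omega)
      · simp only [if_neg (not_le.2 g1)]
        rcases le_or_gt i (4 * n) with g2 | g2
        · simp only [if_pos g2]
          split_ifs <;> first | rfl | (exfalso; omega)
        · simp only [if_neg (not_le.2 g2)]
          rcases le_or_gt i (6 * n) with g3 | g3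
          · simp only [if_pos g3, true_and]
            split_ifs <;> first | rfl | (exfalso; omega)
          · simp only [if_neg (not_le.2 g3)]
            split_ifs <;> first | rfl | (exfalso; omega)
    · simp only [if_neg (not_le.2 h2)]
      rcases le_or_gt m (6 * n) with h3 | h3
      · simp only [if_pos h3]
        rcases le_or_gt i (2 * n) with g1 | g1
        · simp only [if_pos g1, true_and]
          split_ifs <;> first | rfl | (exfalso; omega)
        · simp only [if_neg (not_le.2 g1)]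
          rcases le_or_gt i (4 * n) with g2 | g2
          · simp only [if_pos g2]
            split_ifs <;> first | rfl | (exfalso; omega)
          · simp only [if_neg (not_le.2 g2)]
            rcases le_or_gt i (6 * n) with g3 | g3
            · simp only [if_pos g3, true_and]
              split_ifs <;> first | rfl | (exfalso; omega)
            · simp only [if_neg (not_le.2 g3)]
              split_ifs <;> first | rfl | (exfalso; omega)
      · simp only [if_neg (not_le.2 h3)]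
        rcases le_or_gt i (2 * n) with g1 | g1
        · simp only [if_pos g1, true_and]
          split_ifs <;> first | rfl | (exfalso; omega)
        · simp only [if_neg (not_le.2 g1)]
          rcases le_or_gt i (4 * n) with g2 | g2
          · simp only [if_pos g2]
            split_ifs <;> first | rfl | (exfalso; omega)
          · simp only [if_neg (not_le.2 g2)]
            rcases le_or_gt i (6 * n) with g3 | g3
            · simp only [if_pos g3, true_and]
              split_ifs <;> first | rfl | (exfalso; omega)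
            · simp only [if_neg (not_le.2 g3)]
              split_ifs <;> first | rfl | (exfalso; omega)

theorem F_bdr {n m : ℤ} (hn : 0 < n) (hm0 : 0 ≤ m) (hm : m < 8 * n) {a a' : V}
    (A : latt.Walk a a') (hA : ∀ z ∈ A.support, |z.1| ≤ n ∧ |z.2| ≤ n)
    (h : bdr n m ∉ A.support) :
    F n A (bdr n m) = (sde n m a (bdr n m) + cor n a (bdr n m)) +
      (sde n m a' (bdr n m) + cor n a' (bdr n m)) := by
  have key : par (bdr n m).1 (bdr n m).2 A = sde n m a (bdr n m) + sde n m a' (bdr n m) := by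
    rw [bdr_eq hn] at h ⊢
    unfold sde
    rcases le_or_gt m (2 * n) with h1 | h1
    · simp only [if_pos h1] at h ⊢
      rw [par_out (Or.inl rfl) A fun z hz => (hA z hz).1, add_zero]
    · simp only [if_neg (not_le.2 h1)] at h ⊢
      rcases le_or_gt m (4 * n) with h2 | h2
      · simp only [if_pos h2] at h ⊢
        exact par_top A fun z hz => (hA z hz).2
      · simp only [if_neg (not_le.2 h2)] at h ⊢
        rcases le_or_gt m (6 * n) with h3 | h3
        · simp only [if_pos h3] at h ⊢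
          have h4 := par_id (-n) (5 * n - m) A
          rw [pver_eq_zero A h, par_out (i := -n - 1) (Or.inr rfl) A fun z hz => (hA z hz).1,
            add_zero, add_zero] at h4
          exact h4
        · simp only [if_neg (not_le.2 h3)] at h ⊢
          rw [par_bottom A (fun z hz => (hA z hz).2) h, add_zero]
  unfold F
  rw [key]
  ring

/-- The crossing lemma at the origin. -/
theorem cross0 {n : ℕ} (hn : 0 < n) {i j k l : ℤ} (hi0 : 0 ≤ i) (hi : i < 8 * n) (hj0 : 0 ≤ j)
    (hj : j < 8 * n) (hk0 : 0 ≤ k) (hk : k < 8 * n) (hl0 : 0 ≤ l) (hl : l < 8 * n)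
    (hcyc : (i < j ∧ j < k ∧ k < l) ∨ (l < i ∧ i < j ∧ j < k) ∨ (k < l ∧ l < i ∧ i < j) ∨
      (j < k ∧ k < l ∧ l < i)) {a b c d : V} (ha : a = bdr n i) (hb : b = bdr n j)
    (hc : c = bdr n k) (hd : d = bdr n l) (p : latt.Walk a c) (q : latt.Walk b d)
    (hp : ∀ v ∈ p.support, v ∈ bx 0 n) (hq : ∀ v ∈ q.support, v ∈ bx 0 n) :
    ∃ v, v ∈ p.support ∧ v ∈ q.support := by
  by_contra hcon
  push Not at hcon
  have hn' : (0 : ℤ) < n := by exact_mod_cast hn
  have hBa : Bd n a := by rw [ha]; exact bdr_mem hi0 hi.le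
  have hBc : Bd n c := by rw [hc]; exact bdr_mem hk0 hk.le
  have hp' : ∀ z ∈ p.support, |z.1| ≤ n ∧ |z.2| ≤ n := fun z hz => by
    have := hp z hz
    rw [mem_bx] at this
    simpa only [Prod.fst_zero, sub_zero, Prod.snd_zero] using this
  have h1 := F_walk p hBa hBc q hq hcon
  have hbn : b ∉ p.support := fun h => hcon b h q.start_mem_support
  have hdn : d ∉ p.support := fun h => hcon d h q.end_mem_support
  rw [hb] at hbn h1
  rw [hd] at hdn h1
  rw [F_bdr hn' hj0 hj p hp' hbn, F_bdr hn' hl0 hl p hp' hdn, ha, hc,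
    sde_add_cor hn' hi0 hi hj0 hj (by omega), sde_add_cor hn' hk0 hk hj0 hj (by omega),
    sde_add_cor hn' hi0 hi hl0 hl (by omega), sde_add_cor hn' hk0 hk hl0 hl (by omega)] at h1
  have e1 := two_zero (if 2 * (n : ℤ) < j then (1 : ZMod 2) else 0)
  have e2 := two_zero (if 2 * (n : ℤ) < l then (1 : ZMod 2) else 0)
  have h2 : (if i ≤ j then (1 : ZMod 2) else 0) + (if k ≤ j then 1 else 0) =
      (if i ≤ l then 1 else 0) + (if k ≤ l then 1 else 0) := by
    linear_combination h1 - e1 + e2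
  rcases hcyc with ⟨h3, h4, h5⟩ | ⟨h3, h4, h5⟩ | ⟨h3, h4, h5⟩ | ⟨h3, h4, h5⟩
  · rw [if_pos (by omega), if_neg (by omega), if_pos (by omega), if_pos (by omega)] at h2
    revert h2; decide
  · rw [if_pos (by omega), if_neg (by omega), if_neg (by omega), if_neg (by omega)] at h2
    revert h2; decide
  · rw [if_pos (by omega), if_pos (by omega), if_neg (by omega), if_pos (by omega)] at h2
    revert h2; decide
  · rw [if_neg (by omega), if_neg (by omega), if_neg (by omega), if_pos (by omega)] at h2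
    revert h2; decide

/-- Residue in `[0, 8 n)` of a number in `[0, 16 n)`. -/
theorem bd_red {z : V} {n : ℕ} (hn : 0 < n) {k : ℤ} (h0 : 0 ≤ k) (h1 : k < 16 * n) :
    bd z n k = z + bdr n (if k < 8 * n then k else k - 8 * n) := by
  unfold bd
  split_ifs with h
  · rw [Int.emod_eq_of_lt h0 h]
  · have : k = (k - 8 * n) + 8 * n := by ring
    conv_lhs => rw [this]
    rw [Int.add_emod_right, Int.emod_eq_of_lt (by omega) (by omega)]

/-- THE CROSSING LEMMA. -/
theorem cross : CrossStmt := by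
  intro z N hN a b c d hab hbc hcd hda p q hp hq
  have hN' : (0 : ℤ) < N := by exact_mod_cast hN
  -- reduction to `a ∈ [0, 8 N)`
  have key : ∀ a b c d : ℤ, 0 ≤ a → a < 8 * N → a < b → b < c → c < d → d < a + 8 * N →
      ∀ {A B C D : V}, A = bd z N a → B = bd z N b → C = bd z N c → D = bd z N d →
      ∀ (p : latt.Walk A C) (q : latt.Walk B D), (∀ v ∈ p.support, v ∈ bx z N) →
      (∀ v ∈ q.support, v ∈ bx z N) → ∃ v, v ∈ p.support ∧ v ∈ q.support := by
    intro a b c d ha0 ha1 hab hbc hcd hda A B C D hA hB hC hD p q hp hq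
    rw [bd_red hN ha0 (by omega)] at hA
    rw [bd_red hN (by omega) (by omega)] at hB hC hD
    set φ : latt →g latt := (shIso (-z)).toHom with hφ
    have hφv : ∀ v, φ v = v + -z := fun v => rfl
    have hmem : ∀ v, v ∈ bx z N → φ v ∈ bx 0 N := by
      rintro v ⟨h1, h2⟩
      rw [hφv]
      exact ⟨by simpa only [Prod.fst_add, Prod.fst_neg, Prod.fst_zero, sub_eq_add_neg, neg_zero, add_zero] using h1, by simpa only [Prod.snd_add, Prod.snd_neg, Prod.snd_zero, sub_eq_add_neg, neg_zero, add_zero] using h2⟩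
    have hcan : ∀ u : V, z + u + -z = u := fun u => by abel
    obtain ⟨v, hv1, hv2⟩ := cross0 hN (i := if a < 8 * N then a else a - 8 * N)
      (j := if b < 8 * N then b else b - 8 * N) (k := if c < 8 * N then c else c - 8 * N)
      (l := if d < 8 * N then d else d - 8 * N) (by split_ifs <;> omega) (by split_ifs <;> omega)
      (by split_ifs <;> omega) (by split_ifs <;> omega) (by split_ifs <;> omega)
      (by split_ifs <;> omega) (by split_ifs <;> omega) (by split_ifs <;> omega)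
      (by split_ifs <;> omega) (a := φ A) (b := φ B) (c := φ C) (d := φ D)
      (by rw [hφv, hA, hcan]) (by rw [hφv, hB, hcan]) (by rw [hφv, hC, hcan])
      (by rw [hφv, hD, hcan]) (p.map φ) (q.map φ)
      (fun v hv => by
        rw [SimpleGraph.Walk.support_map, List.mem_map] at hv
        obtain ⟨u, hu, rfl⟩ := hv
        exact hmem u (hp u hu))
      (fun v hv => by
        rw [SimpleGraph.Walk.support_map, List.mem_map] at hv
        obtain ⟨u, hu, rfl⟩ := hv
        exact hmem u (hq u hu))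
    rw [SimpleGraph.Walk.support_map, List.mem_map] at hv1 hv2
    obtain ⟨u, hu, hu'⟩ := hv1
    obtain ⟨u', hu1, hu1'⟩ := hv2
    have : u' = u := by
      rw [← hu', hφv, hφv] at hu1'
      exact add_right_cancel hu1'
    exact ⟨u, hu, this ▸ hu1⟩
  have hq0 : 0 ≤ a % (8 * N) := (emod_bound hN a).1
  have hq1 : a % (8 * N) < 8 * N := (emod_bound hN a).2
  have hdm := Int.emod_add_mul_ediv a (8 * N)
  have hper : ∀ k : ℤ, bd z N k = bd z N (k - 8 * N * (a / (8 * N))) := by
    intro k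
    have := bd_add_mul_period z N (k - 8 * N * (a / (8 * N))) (a / (8 * N))
    rw [← this]
    congr 1
    ring
  exact key (a - 8 * N * (a / (8 * N))) (b - 8 * N * (a / (8 * N))) (c - 8 * N * (a / (8 * N)))
    (d - 8 * N * (a / (8 * N))) (by linarith only [hq0, hdm]) (by linarith only [hq1, hdm]) (by linarith only [hab]) (by linarith only [hbc])
    (by linarith only [hcd]) (by linarith only [hda]) (hper a) (hper b) (hper c) (hper d) p q hp hq

end Vale.Agent.P158.C.Cross
end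
end

section

section

/-! The budget in expectation, for one deterministic position of the window. -/

namespace Vale.Agent.P158.C.UpAv

open Finset MeasureTheory Vale.Agent.P158.T1
open scoped ENNReal

variable {w : V → V → ℝ} {N s : ℕ} {S : Set V}

theorem sum_lintegral_le {Ω κ : Type*} [MeasurableSpace Ω] (μ : Measure Ω) (s : Finset κ)
    (f : κ → Ω → ℝ≥0∞) : ∑ k ∈ s, ∫⁻ t, f k t ∂μ ≤ ∫⁻ t, ∑ k ∈ s, f k t ∂μ := by
  classical
  induction s using Finset.induction_on with
  | empty => simp only [sum_empty, lintegral_const, zero_mul, Std.le_refl]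
  | insert a s ha ih =>
    simp only [Finset.sum_insert ha]
    exact (add_le_add (le_refl _) ih).trans (le_lintegral_add _ _)

theorem mu_nonneg [NeZero N] (hw : Adm w) {z : V} (hT : Kal (TN w 0 N))
    (hW : Kal (bT w 0 N (bx 0 N \ bx z s))) :
    0 ≤ mu (bT w 0 N (bx 0 N \ bx z s)) (Ef w 0 N z s) := by
  classical
  refine Finset.sum_nonneg fun p hp => hW.cell _ _ ?_
  have hlt : TN w 0 N p.1 p.2 < bT w 0 N (bx 0 N \ bx z s) p.1 p.2 := (Finset.mem_filter.1 hp).2
  intro heq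
  rw [heq, hT.diag, hW.diag] at hlt
  exact lt_irrefl _ hlt

/-- AVERAGING over the position of the window, for an arbitrary random field. -/
theorem up_field (hD : UpDetStmt) : ∃ A : ℝ, 0 < A ∧
    ∀ (Ω : Type) [MeasurableSpace Ω] (μ : Measure Ω) [IsProbabilityMeasure μ]
      (U : Ω → V → V → ℝ) (N s : ℕ) (R L : ℝ) [NeZero N], 1 ≤ s → 8 * s ≤ N → 1 ≤ L → 0 ≤ R →
      (∀ᵐ t ∂μ, Adm (U t)) → ∀ Gd : Set Ω, MeasurableSet Gd →
      (∀ t ∈ Gd, rs (U t) 0 N ≤ R ∧
        ∀ (x y : V) (p : latt.Walk x y), p.IsPath → (∀ v ∈ p.support, v ∈ bx 0 N) →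
          L ≤ p.length → R < ww (U t) p) →
      ∃ u ∈ bx 0 (N / 4),
        ∫⁻ t in Gd, ENNReal.ofReal (mu (bT (U t) 0 N (bx 0 N \ bx u s)) (Ef (U t) 0 N u s)) ∂μ ≤
          ENNReal.ofReal (A * s * (R / N) * (L / N)) := by
  classical
  obtain ⟨A, hA, hD⟩ := hD
  refine ⟨16 * A, by positivity, ?_⟩
  intro Ω _ μ _ U N s R L _ hs hN hL hR hU Gd hGm hGd
  have hN0 : 0 < N := NeZero.pos N
  have hN1 : (1 : ℝ) ≤ N := by exact_mod_cast hN0
  by_contra hcon
  push Not at hcon
  set K : ℝ := 16 * A * s * (R / N) * (L / N) with hK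
  have hK0 : 0 ≤ K := by (clear * - hA hs hR hN0 hL; positivity)
  have hlow : ((bxF 0 (N / 4)).card : ℝ≥0∞) * ENNReal.ofReal K <
      ∑ u ∈ bxF 0 (N / 4), ∫⁻ t in Gd,
        ENNReal.ofReal (mu (bT (U t) 0 N (bx 0 N \ bx u s)) (Ef (U t) 0 N u s)) ∂μ := by
    rw [← nsmul_eq_mul, ← Finset.sum_const]
    refine ENNReal.sum_lt_sum_of_nonempty ?_ fun u hu => hcon u (mem_bxF.1 hu)
    rw [← Finset.card_pos, UpDet.card_bxF_eq]
    (clear * -; positivity)
  have hup : ∑ u ∈ bxF 0 (N / 4), ∫⁻ t in Gd,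
        ENNReal.ofReal (mu (bT (U t) 0 N (bx 0 N \ bx u s)) (Ef (U t) 0 N u s)) ∂μ ≤
      ENNReal.ofReal (A * s * R * L) := by
    refine (sum_lintegral_le _ _ _).trans ?_
    have h1 : ∫⁻ _ in Gd, ENNReal.ofReal (A * s * R * L) ∂μ ≤
        ENNReal.ofReal (A * s * R * L) := by
      rw [lintegral_const]
      refine (mul_le_mul_of_nonneg_left (prob_le_one (μ := μ) (s := Gd)) (by (clear * -; positivity))
        |>.trans_eq (mul_one _)).trans' ?_
      rw [Measure.restrict_apply_univ]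
    refine le_trans ?_ h1
    refine lintegral_mono_ae ?_
    filter_upwards [ae_restrict_of_ae hU, ae_restrict_mem hGm] with t ht htG
    have hkal := Ring.kal Cross.cross
    have hT : Kal (TN (U t) 0 N) := hkal (U t) 0 N _ hN0 ht (le_refl _) (fun _ h => h.1)
    have hnn : ∀ u ∈ bxF 0 (N / 4),
        0 ≤ mu (bT (U t) 0 N (bx 0 N \ bx u s)) (Ef (U t) 0 N u s) := by
      intro u hu
      rw [mem_bxF] at hu
      have hnot : ∀ i : ZMod (8 * N), UpDet.bz N i ∉ bx u s := UpDet.bz_notMem hu (by (clear * - hs hN; omega))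
      have hBS : bB 0 N ⊆ bx 0 N \ bx u s := by
        intro x hx
        refine ⟨hx.1, fun hx' => ?_⟩
        obtain ⟨i, rfl⟩ := UpDet.bz_surj hx
        exact hnot i hx'
      exact mu_nonneg ht hT (hkal (U t) 0 N _ hN0 ht Set.sdiff_subset hBS)
    rw [← ENNReal.ofReal_sum_of_nonneg hnn]
    exact ENNReal.ofReal_le_ofReal
      (hD (U t) N s R L ht hs hN hL (hGd t htG).1 (hGd t htG).2)
  have hcard : (N : ℝ) ^ 2 / 16 ≤ ((bxF 0 (N / 4)).card : ℝ) := by
    rw [UpDet.card_bxF_eq]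
    push_cast
    have h3 : (N : ℝ) ≤ 4 * ((N / 4 : ℕ) : ℝ) + 3 := by
      have : N ≤ 4 * (N / 4) + 3 := by omega
      exact_mod_cast this
    have h4 : (N : ℝ) / 4 ≤ 2 * ((N / 4 : ℕ) : ℝ) + 1 := by
      rcases Nat.eq_zero_or_pos (N / 4) with h | h
      · rw [h] at h3 ⊢
        push_cast at h3 ⊢
        linarith only [h3]
      · have : (1 : ℝ) ≤ ((N / 4 : ℕ) : ℝ) := by exact_mod_cast h
        linarith only [h3]
    nlinarith only [h3]
  have hfin : ENNReal.ofReal (A * s * R * L) ≤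
      ((bxF 0 (N / 4)).card : ℝ≥0∞) * ENNReal.ofReal K := by
    rw [← ENNReal.ofReal_natCast, ← ENNReal.ofReal_mul (by (clear * -; positivity))]
    refine ENNReal.ofReal_le_ofReal ?_
    calc A * s * R * L = (N : ℝ) ^ 2 / 16 * K := by
          rw [hK]
          field_simp
      _ ≤ _ := mul_le_mul_of_nonneg_right hcard hK0
  exact absurd (hlow.trans_le (hup.trans hfin)) (lt_irrefl _)

/-! ### Translation -/

theorem trs_diff (z : V) (N s : ℕ) : trs z (bx 0 N \ bx (-z) s) = bx z N \ bx 0 s := by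
  ext v
  simp only [trs, Set.mem_ofPred_eq, Set.mem_sdiff, mem_bx, Prod.fst_zero, Prod.snd_zero,
    sub_zero, Prod.fst_sub, Prod.snd_sub, Prod.fst_neg, Prod.snd_neg, sub_neg_eq_add,
    sub_add_cancel]

theorem trs_bx (z : V) (N : ℕ) : trs z (bx 0 N) = bx z N := by
  ext v
  simp only [trs, Set.mem_ofPred_eq, mem_bx, Prod.fst_zero, Prod.snd_zero,
    sub_zero, Prod.fst_sub, Prod.snd_sub]

theorem bd_shift (z : V) (N : ℕ) (k : ℤ) : bd 0 N k + z = bd z N k := by
  rw [← bd_translate, zero_add]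

theorem bT_shift (hN : 0 < N) (hw : Adm w) (z : V) (hS : bB 0 N ⊆ S) :
    bT (sh z w) 0 N S = bT w z N (trs z S) := by
  funext x y
  unfold bT
  rw [PT_sh hw (Ring.conn_bd' hN hS _ _) z, bd_shift, bd_shift]

theorem rs_shift (z : V) : rs (sh z w) 0 N = rs w z N := by
  unfold rs sh
  simp only [bd_shift]

/-- The good event for the box at the origin. -/
def Gd (R L : ℝ) (N : ℕ) : Set Env :=
  {t | rs (wt t) 0 N ≤ R ∧
    ∀ (x y : V) (p : latt.Walk x y), p.IsPath → (∀ v ∈ p.support, v ∈ bx 0 N) →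
      L ≤ p.length → R < ww (wt t) p}

theorem measurable_wt (x y : V) : Measurable fun t : Env => wt t x y := by
  unfold wt
  by_cases h : latt.Adj x y
  · simp only [dif_pos h]
    exact measurable_pi_apply _
  · simp only [dif_neg h]
    exact measurable_const

theorem measurable_rs (z : V) (N : ℕ) : Measurable fun t : Env => rs (wt t) z N :=
  Finset.measurable_sum _ fun _ _ => measurable_wt _ _

theorem measurableSet_Gd (R L : ℝ) (N : ℕ) : MeasurableSet (Gd R L N) := by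
  suffices h : MeasurableSet {t : Env | ∀ (x y : V) (p : latt.Walk x y), p.IsPath →
      (∀ v ∈ p.support, v ∈ bx 0 N) → L ≤ p.length → R < ww (wt t) p} from
    (measurableSet_le (measurable_rs 0 N) measurable_const).inter h
  have : {t : Env | ∀ (x y : V) (p : latt.Walk x y), p.IsPath →
      (∀ v ∈ p.support, v ∈ bx 0 N) → L ≤ p.length → R < ww (wt t) p} =
      ⋂ (x : V) (y : V) (p : latt.Walk x y), {t | p.IsPath →
      (∀ v ∈ p.support, v ∈ bx 0 N) → L ≤ p.length → R < ww (wt t) p} := by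
    ext t
    simp only [Set.mem_iInter, Set.mem_ofPred_eq]
  rw [this]
  refine MeasurableSet.iInter fun x => MeasurableSet.iInter fun y => MeasurableSet.iInter
    fun p => ?_
  by_cases h : p.IsPath ∧ (∀ v ∈ p.support, v ∈ bx 0 N) ∧ L ≤ p.length
  · have e : {t : Env | p.IsPath → (∀ v ∈ p.support, v ∈ bx 0 N) → L ≤ p.length →
        R < ww (wt t) p} = {t | R < ww (wt t) p} := by
      ext t
      simp only [Set.mem_ofPred_eq]
      exact ⟨fun g => g h.1 h.2.1 h.2.2, fun g _ _ _ => g⟩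
    rw [e]
    exact measurableSet_lt measurable_const (measurable_ww p)
  · have e : {t : Env | p.IsPath → (∀ v ∈ p.support, v ∈ bx 0 N) → L ≤ p.length →
        R < ww (wt t) p} = Set.univ := by
      ext t
      simp only [Set.mem_ofPred_eq, Set.mem_univ, iff_true]
      exact fun g1 g2 g3 => absurd ⟨g1, g2, g3⟩ h
    rw [e]
    exact MeasurableSet.univ

theorem shE_neg (u : V) (t : Env) : shE (-u) (shE u t) = t := by
  funext e
  obtain ⟨e, he⟩ := e
  induction e using Sym2.ind with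
  | _ x y =>
    have h : latt.Adj x y := he
    have h1 : wt (shE (-u) (shE u t)) x y = wt t x y := by
      rw [wt_shE, wt_shE, sh_sh]
    rw [wt_eq _ h, wt_eq _ h] at h1
    exact h1

variable {G : Measure ℝ} [IsProbabilityMeasure G]

/-- Translation as a measurable equivalence. -/
def shEq (G : Measure ℝ) [IsProbabilityMeasure G] (u : V) : Env ≃ᵐ Env where
  toFun := shE u
  invFun := shE (-u)
  left_inv := shE_neg u
  right_inv t := by
    have := shE_neg (-u) t
    rwa [neg_neg] at this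
  measurable_toFun := (mp_sh (G := G) u).measurable
  measurable_invFun := (mp_sh (G := G) (-u)).measurable

/-- A path uses each edge once. -/
theorem ww_ge_filter {t : Env} (ht : ∀ e, 0 ≤ t e) {x y : V} (p : latt.Walk x y)
    (hp : p.IsPath) (P : latt.edgeSet → Prop) [DecidablePred P] :
    ∑ e ∈ (pe p).filter P, t e ≤ ww (wt t) p := by
  classical
  have h1 : ww (wt t) p = ∑ e ∈ pe p, t e := by
    unfold ww pe
    have hnd : (p.darts.map dE).Nodup := by
      have h2 : (p.darts.map SimpleGraph.Dart.edge).Nodup := hp.isTrail.edges_nodup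
      refine List.Nodup.of_map Subtype.val ?_
      rw [List.map_map]
      exact h2
    rw [List.sum_toFinset _ hnd, List.map_map]
    congr 1
    refine List.map_congr_left fun d _ => ?_
    rw [wt_eq t d.adj]
    rfl
  rw [h1]
  exact Finset.sum_le_sum_of_subset_of_nonneg (Finset.filter_subset _ _) fun e _ _ => ht e

/-- MODULE (8'). -/
theorem up [NullSingletonClass G] (hG : G (Set.Iio 0) = 0) (hD : UpDetStmt) : UpStmt G := by
  classical
  obtain ⟨A, hA, hF⟩ := up_field hD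
  intro C' C₁ hC' hC₁
  refine ⟨A * C' * (C₁ + 1), by (clear * - hA hC' hC₁; positivity), ?_⟩
  intro s hs
  refine ⟨8 * s, ?_⟩
  intro N hN hNz
  have hN0 : 0 < N := NeZero.pos N
  have hN1 : (1 : ℝ) ≤ N := by exact_mod_cast hN0
  obtain ⟨u, hu, hint⟩ := hF Env (PG G) (fun t => wt t) N s (C' * N) (max (C₁ * N) 1) hs hN
    (le_max_right _ _) (by (clear * - hC' hN0; positivity)) (ae_adm hG) (Gd (C' * N) (max (C₁ * N) 1) N)
    (measurableSet_Gd _ _ _) (fun t ht => ht)
  refine ⟨-u, ?_, ?_⟩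
  · rw [mem_bx] at hu ⊢
    simpa only [Prod.fst_neg, Prod.fst_zero, sub_zero, abs_neg, Int.natCast_ediv, Nat.cast_ofNat, Prod.snd_neg,     Prod.snd_zero] using hu
  set z : V := -u with hz
  have hzu : u = -z := by rw [hz, neg_neg]
  have hnot : ∀ i : ZMod (8 * N), UpDet.bz N i ∉ bx u s := UpDet.bz_notMem hu (by omega)
  have hBS : bB 0 N ⊆ bx 0 N \ bx u s := by
    intro x hx
    refine ⟨hx.1, fun hx' => ?_⟩
    obtain ⟨i, rfl⟩ := UpDet.bz_surj hx
    exact hnot i hx'
  -- comparison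
  have hpos := ae_pos G hG
  calc ∫⁻ t in {t | Good C' C₁ z N s t},
        ENNReal.ofReal (mu (WN (wt t) z N s) (Ef (wt t) z N 0 s)) ∂PG G
      ≤ ∫⁻ t in shE z ⁻¹' (Gd (C' * N) (max (C₁ * N) 1) N),
        ENNReal.ofReal (mu (WN (wt t) z N s) (Ef (wt t) z N 0 s)) ∂PG G := by
        refine lintegral_mono' (Measure.restrict_mono_ae ?_) (le_refl _)
        filter_upwards [hpos] with t ht hg
        have hg' : Good C' C₁ z N s t := hg
        show shE z t ∈ Gd (C' * N) (max (C₁ * N) 1) N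
        refine ⟨?_, ?_⟩
        · rw [wt_shE, rs_shift]
          exact hg'.1
        · intro x y p hp hpS hpl
          rw [wt_shE, ← ww_map]
          have hinj : Function.Injective (shHom z) := fun a b h => add_right_cancel h
          have hp' : (p.map (shHom z)).IsPath := hp.map hinj
          refine lt_of_lt_of_le (hg'.2 _ _ (p.map (shHom z)) hp' ?_ ?_)
            (ww_ge_filter (fun e => (ht e).le) _ hp' _)
          · intro v hv
            rw [SimpleGraph.Walk.support_map, List.mem_map] at hv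
            obtain ⟨v', hv', rfl⟩ := hv
            have := hpS v' hv'
            rw [mem_bx] at this ⊢
            have e : (shHom z) v' = v' + z := rfl
            rw [e]
            simpa only [Prod.fst_add, add_sub_cancel_right, Prod.snd_add, Prod.fst_zero, sub_zero, Prod.snd_zero] using     this
          · rw [SimpleGraph.Walk.length_map]
            exact (le_max_left _ _).trans hpl
    _ = ∫⁻ t in shE z ⁻¹' (Gd (C' * N) (max (C₁ * N) 1) N),
        ENNReal.ofReal (mu (bT (wt (shE z t)) 0 N (bx 0 N \ bx u s))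
          (Ef (wt (shE z t)) 0 N u s)) ∂PG G := by
        refine lintegral_congr_ae ?_
        filter_upwards [ae_restrict_of_ae (ae_adm (G := G) hG)] with t ht
        have e1 : bT (wt (shE z t)) 0 N (bx 0 N \ bx u s) = WN (wt t) z N s := by
          rw [wt_shE, bT_shift hN0 ht z hBS, hzu, trs_diff]
          rfl
        have e2 : TN (wt (shE z t)) 0 N = TN (wt t) z N := by
          unfold TN
          rw [wt_shE, bT_shift hN0 ht z (fun _ h => h.1), trs_bx]
        have e3 : Ef (wt (shE z t)) 0 N u s = Ef (wt t) z N 0 s := by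
          unfold Ef
          rw [e1, e2]
          rfl
        rw [e1, e3]
    _ = ∫⁻ t in Gd (C' * N) (max (C₁ * N) 1) N,
        ENNReal.ofReal (mu (bT (wt t) 0 N (bx 0 N \ bx u s)) (Ef (wt t) 0 N u s)) ∂PG G :=
        (mp_sh (G := G) z).setLIntegral_comp_preimage_emb (shEq G z).measurableEmbedding
          (fun t => ENNReal.ofReal (mu (bT (wt t) 0 N (bx 0 N \ bx u s)) (Ef (wt t) 0 N u s))) _
    _ ≤ ENNReal.ofReal (A * s * (C' * N / N) * (max (C₁ * N) 1 / N)) := hint
    _ ≤ _ := by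
        refine ENNReal.ofReal_le_ofReal ?_
        have h1 : C' * N / N = C' := by (clear * - hN0 hC'; field_simp)
        have h2 : max (C₁ * N) 1 / N ≤ C₁ + 1 := by
          rw [div_le_iff₀ (by positivity)]
          refine max_le ?_ ?_ <;> nlinarith only [hN1, hC₁]
        rw [h1]
        calc A * s * C' * (max (C₁ * N) 1 / N) ≤ A * s * C' * (C₁ + 1) :=
              mul_le_mul_of_nonneg_left h2 (by positivity)
          _ = A * C' * (C₁ + 1) * s := by ring

end Vale.Agent.P158.C.UpAv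
end
end

section

section

/-! The event that a bigeodesic with slack passes through the origin is measurable: it is an
intersection of events about pairs of far points. -/

namespace Vale.Agent.P158.C.Lin

open Filter Vale.Agent.P158.T1 MeasureTheory SimpleGraph

/-- The pair `x`, `y` sees the edge `0 → u` with slack `h`. -/
def FarS (h : ℝ) (w : V → V → ℝ) (u x y : V) : Prop :=
  T w x 0 + w 0 u + T w u y = T w x y ∧
    ∀ π : latt.Walk x y, s((0 : V), u) ∉ π.edges → T w x y + h ≤ ww w π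

/-- The slack event. -/
def SE (h : ℝ) : Set Env := {t | ∃ u : V, latt.Adj 0 u ∧ ∀ R : ℕ, ∃ x y : V,
  x ∉ bx 0 R ∧ y ∉ bx 0 R ∧ FarS h (wt t) u x y}

theorem measurableSet_SE (h : ℝ) : MeasurableSet (SE h) := by
  refine measurableSet_setOfPred.2 ?_
  refine Measurable.exists fun u => (mconst _).and (Measurable.forall fun R =>
    Measurable.exists fun x => Measurable.exists fun y => (mconst _).and ((mconst _).and ?_))
  unfold FarS
  refine Measurable.and ?_ (Measurable.forall fun π => (mconst _).imp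
    (mle ((measurable_T _ _).add_const _) (measurable_ww _)))
  exact measurableSet_setOfPred.1 (measurableSet_eq_fun
    (((measurable_T _ _).add (measurable_wt _ _)).add (measurable_T _ _)) (measurable_T _ _))

variable {w : V → V → ℝ}

/-- First step of a geodesic. -/
theorem exists_next (hw : Adm w) (hA : Att w Set.univ) {z y : V} (h : z ≠ y) :
    ∃ z' : V, latt.Adj z z' ∧ T w z y = w z z' + T w z' y := by
  obtain ⟨p, -, hp⟩ := hA z (Set.mem_univ _) y (Set.mem_univ _)
  cases p with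
  | nil => exact absurd rfl h
  | cons hadj q =>
    rename_i z'
    refine ⟨z', hadj, ?_⟩
    rw [ww_cons] at hp
    have h1 := T_le hw q
    have h2 := T_triangle hw z z' y
    have h3 := T_adj_le hw hadj
    have h4 : w z z' + ww w q = T w z y := hp
    linarith only [h1, h4, h2, h3]

theorem adj_mem_bx {z z' : V} (h : latt.Adj z z') : z' ∈ bx z 1 := by
  have h1 : z ∈ bx z 0 := by simp [mem_bx]
  simpa using bx_adj h h1

/-- The next vertex along an ultrafilter. -/
theorem exists_next_lim (hw : Adm w) (hA : Att w Set.univ) (f : Ultrafilter ℕ) {y : ℕ → V}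
    {z : V} (hy : ∀ᶠ n in (f : Filter ℕ), y n ≠ z) :
    ∃ z' : V, latt.Adj z z' ∧ ∀ᶠ n in (f : Filter ℕ), T w z (y n) = w z z' + T w z' (y n) := by
  have h1 : ∀ᶠ n in (f : Filter ℕ), ∃ z' ∈ bx z 1, latt.Adj z z' ∧
      T w z (y n) = w z z' + T w z' (y n) := by
    filter_upwards [hy] with n hn
    obtain ⟨z', h2, h3⟩ := exists_next hw hA (Ne.symm hn)
    exact ⟨z', adj_mem_bx h2, h2, h3⟩
  rw [Ultrafilter.eventually_exists_mem_iff (bx_finite z 1)] at h1
  obtain ⟨z', -, h2⟩ := h1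
  obtain ⟨n, hn⟩ := h2.exists
  exact ⟨z', hn.1, h2.mono fun n h => h.2⟩

theorem exists_ray_lim (hw : Adm w) (hA : Att w Set.univ) (f : Ultrafilter ℕ) {y : ℕ → V}
    (hy : ∀ z, ∀ᶠ n in (f : Filter ℕ), y n ≠ z) (u : V) :
    ∃ r : ℕ → V, r 0 = u ∧ ∀ i, latt.Adj (r i) (r (i + 1)) ∧
      ∀ᶠ n in (f : Filter ℕ), T w (r i) (y n) = w (r i) (r (i + 1)) + T w (r (i + 1)) (y n) := by
  choose nx hnx using fun z => exists_next_lim hw hA f (z := z) (hy z)
  refine ⟨fun i => nx^[i] u, rfl, fun i => ?_⟩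
  have := hnx (nx^[i] u)
  simp only [Function.iterate_succ_apply']
  exact this

/-- The two-sided limit path. -/
theorem exists_path_lim (hw : Adm w) (hA : Att w Set.univ) (f : Ultrafilter ℕ) {x y : ℕ → V}
    (hx : ∀ z, ∀ᶠ n in (f : Filter ℕ), x n ≠ z) (hy : ∀ z, ∀ᶠ n in (f : Filter ℕ), y n ≠ z)
    {u : V} (hu : latt.Adj 0 u) (hxy : ∀ᶠ n in (f : Filter ℕ),
      T w (x n) 0 + w 0 u + T w u (y n) = T w (x n) (y n)) :
    ∃ v : ℤ → V, v 0 = 0 ∧ v 1 = u ∧ (∀ k, latt.Adj (v k) (v (k + 1))) ∧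
      ∀ P : ℤ → ℝ, PosF w v P → ∀ k, ∀ᶠ n in (f : Filter ℕ),
        T w (x n) (v k) = T w (x n) 0 + (P k - P 0) ∧
        T w (x n) (v k) + T w (v k) (y n) = T w (x n) (y n) := by
  obtain ⟨r, hr0, hr⟩ := exists_ray_lim hw hA f hy u
  obtain ⟨l, hl0, hl⟩ := exists_ray_lim hw hA f hx 0
  set v : ℤ → V := fun k => if 1 ≤ k then r (k - 1).toNat else l (-k).toNat with hv
  have hv0 : v 0 = 0 := by simp only [hv, Int.pred_toNat, Int.reduceLE, ↓reduceIte, neg_zero, Int.toNat_zero, hl0]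
  have hv1 : v 1 = u := by simp only [hv, Int.pred_toNat, Std.le_refl, ↓reduceIte, Int.toNat_one, tsub_self, hr0]
  have hvr : ∀ i : ℕ, v ((i : ℤ) + 1) = r i := by
    intro i
    simp only [hv]
    rw [if_pos (by omega)]
    congr 1
    omega
  have hvl : ∀ i : ℕ, v (-(i : ℤ)) = l i := by
    intro i
    simp only [hv]
    rw [if_neg (by omega)]
    congr 1
    omega
  have hadj : ∀ k, latt.Adj (v k) (v (k + 1)) := by
    intro k
    rcases lt_trichotomy k 0 with hk | hk | hk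
    · obtain ⟨i, rfl⟩ : ∃ i : ℕ, k = -((i : ℤ) + 1) := ⟨(-k - 1).toNat, by omega⟩
      have e1 : -((i : ℤ) + 1) = -((i + 1 : ℕ) : ℤ) := by push_cast; ring
      have e2 : -((i : ℤ) + 1) + 1 = -(i : ℤ) := by ring
      rw [e2, hvl, e1, hvl]
      exact (hl i).1.symm
    · subst hk
      rw [zero_add, hv0, hv1]
      exact hu
    · obtain ⟨i, rfl⟩ : ∃ i : ℕ, k = (i : ℤ) + 1 := ⟨(k - 1).toNat, by omega⟩
      have e1 : (i : ℤ) + 1 + 1 = ((i + 1 : ℕ) : ℤ) + 1 := by push_cast; ring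
      rw [hvr, e1, hvr]
      exact (hr i).1
  refine ⟨v, hv0, hv1, hadj, fun P hP => ?_⟩
  have base : ∀ᶠ n in (f : Filter ℕ), T w (x n) (v 0) = T w (x n) 0 + (P 0 - P 0) ∧
        T w (x n) (v 0) + T w (v 0) (y n) = T w (x n) (y n) := by
    filter_upwards [hxy] with n hn
    rw [hv0]
    refine ⟨by ring, ?_⟩
    have h1 := T_triangle hw 0 u (y n)
    have h2 := T_adj_le hw hu
    have h3 := T_triangle hw (x n) 0 (y n)
    linarith
  have up : ∀ i : ℕ, ∀ᶠ n in (f : Filter ℕ), T w (x n) (v i) = T w (x n) 0 + (P i - P 0) ∧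
        T w (x n) (v i) + T w (v i) (y n) = T w (x n) (y n) := by
    intro i
    induction i with
    | zero => exact base
    | succ i ih =>
      have hstep : ∀ᶠ n in (f : Filter ℕ),
          T w (v i) (y n) = w (v i) (v (i + 1)) + T w (v (i + 1)) (y n) := by
        cases i with
        | zero =>
          filter_upwards [hxy] with n hn
          simp only [Nat.cast_zero, zero_add, hv0, hv1]
          have h1 := T_triangle hw 0 u (y n)
          have h2 := T_adj_le hw hu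
          have h3 := T_triangle hw (x n) 0 (y n)
          linarith only [hn, h3, h1, h2]
        | succ i =>
          have e1 : (((i + 1 : ℕ) : ℤ)) = (i : ℤ) + 1 := by push_cast; ring
          rw [hvr (i + 1), e1, hvr i]
          exact (hr i).2
      filter_upwards [ih, hstep] with n h1 h2
      have e1 : (((i + 1 : ℕ) : ℤ)) = (i : ℤ) + 1 := by push_cast; ring
      rw [e1]
      have h3 := T_triangle hw (x n) (v i) (v (i + 1))
      have h4 := T_adj_le hw (hadj i)
      have h5 := T_triangle hw (x n) (v (i + 1)) (y n)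
      have h6 := hP i
      constructor <;> linarith only [h1, h2, h5, h6, h3, h4]
  have down : ∀ i : ℕ, ∀ᶠ n in (f : Filter ℕ),
      T w (x n) (v (-(i : ℤ))) = T w (x n) 0 + (P (-(i : ℤ)) - P 0) ∧
        T w (x n) (v (-(i : ℤ))) + T w (v (-(i : ℤ))) (y n) = T w (x n) (y n) := by
    intro i
    induction i with
    | zero => simpa only [CharP.cast_eq_zero, neg_zero, sub_self, add_zero, eventually_and] using base
    | succ i ih =>
      filter_upwards [ih, (hl i).2] with n h1 h2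
      have e0 : -(((i + 1 : ℕ) : ℤ)) + 1 = -(i : ℤ) := by push_cast; ring
      have h4 := T_adj_le hw (hadj (-(((i + 1 : ℕ) : ℤ))))
      have h6 := hP (-(((i + 1 : ℕ) : ℤ)))
      rw [e0] at h4 h6
      rw [← hvl i, ← hvl (i + 1), T_comm hw, T_comm hw _ (x n),
        hw.symm (v (-(i : ℤ)))] at h2
      have h3 := T_triangle hw (v (-(((i + 1 : ℕ) : ℤ)))) (v (-(i : ℤ))) (y n)
      have h5 := T_triangle hw (x n) (v (-(((i + 1 : ℕ) : ℤ)))) (y n)
      constructor <;> linarith [h1.1, h1.2]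
  intro k
  rcases le_total 0 k with hk | hk
  · obtain ⟨i, rfl⟩ := Int.eq_ofNat_of_zero_le hk
    exact up i
  · obtain ⟨i, rfl⟩ : ∃ i : ℕ, k = -(i : ℤ) := ⟨(-k).toNat, by omega⟩
    exact down i

/-- A walk of small weight does not meet far vertices. -/
theorem not_mem_support_of_lt (hw : Adm w) {x y z : V} (π : latt.Walk x y)
    (h : ww w π < T w x z + T w z y) : z ∉ π.support := by
  intro hz
  have h1 := T_le hw (π.takeUntil z hz)
  have h2 := T_le hw (π.dropUntil z hz)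
  have h3 := ww_takeUntil_add_dropUntil (w := w) π hz
  linarith

theorem not_mem_edges_of_not_mem_support {x y a b : V} {π : latt.Walk x y}
    (h : b ∉ π.support) : s(a, b) ∉ π.edges := fun hm => h (π.snd_mem_support_of_mem_edges hm)

/-- COMPACTNESS: far pairs with slack give a bigeodesic with slack. -/
theorem exists_slack (hw : Adm w) (hA : Att w Set.univ) {h : ℝ} {u : V} (hu : latt.Adj 0 u)
    (H : ∀ R : ℕ, ∃ x y : V, x ∉ bx 0 R ∧ y ∉ bx 0 R ∧ FarS h w u x y) :
    ∃ v : ℤ → V, IsBi w v ∧ v 0 = 0 ∧ v 1 = u ∧ SL h w v := by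
  choose x y hx hy hF using H
  set f := hyperfilter ℕ with hf
  have far : ∀ (x : ℕ → V), (∀ n, x n ∉ bx 0 n) → ∀ z, ∀ᶠ n in (f : Filter ℕ), x n ≠ z := by
    intro x hx z
    have h1 : ∀ᶠ n in atTop, x n ≠ z := by
      filter_upwards [eventually_ge_atTop (|z.1| + |z.2|).toNat] with n hn he
      apply hx n
      rw [he, mem_bx]
      have h1 := abs_nonneg z.1
      have h2 := abs_nonneg z.2
      simp only [Prod.fst_zero, Prod.snd_zero, sub_zero]
      constructor <;> omega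
    exact Nat.hyperfilter_le_atTop h1
  have fx := far x hx
  have fy := far y hy
  obtain ⟨v, hv0, hv1, hadj, hP⟩ := exists_path_lim hw hA f fx fy hu
    (Eventually.of_forall fun n => (hF n).1)
  obtain ⟨P, hPos⟩ := exists_posF w v
  have hP' := hP P hPos
  have hbi : IsBi w v := by
    refine isBi_of_core hw hadj hPos fun i j π => ?_
    obtain ⟨n, h1, h2⟩ := ((hP' i).and (hP' j)).exists
    have h3 := T_triangle hw (x n) (v i) (v j)
    have h4 := T_le hw π
    linarith only [h1, h2, h3, h4]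
  refine ⟨v, hbi, hv0, hv1, fun i j hi hj π hπ => ?_⟩
  obtain ⟨n, h1, h2, h3, h4⟩ := ((hP' i).and ((hP' j).and ((hP' 0).and (hP' 1)))).exists
  rw [hv0] at h3
  rw [hv1] at h4
  rw [hv0, hv1] at hπ
  have hm1 : P i ≤ P 0 := hPos.mono hw hadj hi
  have hm2 : P 1 ≤ P j := hPos.mono hw hadj hj
  have h01 : P 1 = P 0 + w 0 u := by
    have := hPos 0
    rwa [zero_add, hv0, hv1] at this
  have hpos := hw.pos _ _ hu
  have hT := isBi_T hbi hPos (by omega : i ≤ j)
  obtain ⟨g₁, -, hg₁⟩ := hA (x n) (Set.mem_univ _) (v i) (Set.mem_univ _)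
  obtain ⟨g₂, -, hg₂⟩ := hA (v j) (Set.mem_univ _) (y n) (Set.mem_univ _)
  have hg₁' : ww w g₁ = T w (x n) (v i) := hg₁
  have hg₂' : ww w g₂ = T w (v j) (y n) := hg₂
  have a1 : u ∉ g₁.support := by
    refine not_mem_support_of_lt hw g₁ ?_
    have := T_nonneg hw u (v i)
    (clear * - h1 h4 hm1 h01 hpos hg₁' this; linarith [h1.1, h4.1])
  have a2 : (0 : V) ∉ g₂.support := by
    refine not_mem_support_of_lt hw g₂ ?_
    have := T_nonneg hw (v j) 0
    linarith only [h2, h3, hm2, h01, hpos, hg₂', this]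
  have a3 : s((0 : V), u) ∉ ((g₁.append π).append g₂).edges := by
    rw [Walk.edges_append, Walk.edges_append, List.mem_append, List.mem_append]
    push Not
    refine ⟨⟨not_mem_edges_of_not_mem_support a1, hπ⟩, ?_⟩
    rw [Sym2.eq_swap]
    exact not_mem_edges_of_not_mem_support a2
  have a4 := (hF n).2 _ a3
  rw [ww_append, ww_append, hg₁', hg₂'] at a4
  linarith only [h1, h2, hT, a4]

/-- A bigeodesic with slack gives far pairs with slack. -/
theorem far_of_slack (hw : Adm w) {h : ℝ} {v : ℤ → V} (hv : IsBi w v) (h0 : v 0 = 0)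
    (hs : SL h w v) (R : ℕ) : ∃ x y : V, x ∉ bx 0 R ∧ y ∉ bx 0 R ∧ FarS h w (v 1) x y := by
  obtain ⟨N, hN⟩ := exists_out hw hv (bx_finite 0 R)
  obtain ⟨M, hM1, hM2⟩ : ∃ M : ℤ, N ≤ M ∧ 1 ≤ M := ⟨max N 1, le_max_left _ _, le_max_right _ _⟩
  obtain ⟨P, hP⟩ := exists_posF w v
  refine ⟨v (-M), v M, hN _ (Or.inl (by omega)), hN _ (Or.inr (by omega)), ?_, ?_⟩
  · have e1 := isBi_T hv hP (i := -M) (j := 0) (by omega)
    have e2 := isBi_T hv hP (i := 1) (j := M) (by omega)
    have e3 := isBi_T hv hP (i := -M) (j := M) (by omega)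
    have e4 := hP 0
    rw [zero_add] at e4
    rw [h0] at e1 e4
    linarith only [e1, e2, e3, e4]
  · intro π hπ
    refine hs (-M) M (by omega) hM2 π ?_
    rwa [h0]

/-- The slack event is exactly the existence of a bigeodesic with slack through the origin. -/
theorem mem_SE_iff {t : Env} (hw : Adm (wt t)) (hA : Att (wt t) Set.univ) (h : ℝ) :
    t ∈ SE h ↔ ∃ v : ℤ → V, IsBi (wt t) v ∧ v 0 = 0 ∧ SL h (wt t) v := by
  constructor
  · rintro ⟨u, hu, H⟩
    obtain ⟨v, h1, h2, -, h3⟩ := exists_slack hw hA hu H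
    exact ⟨v, h1, h2, h3⟩
  · rintro ⟨v, h1, h2, h3⟩
    refine ⟨v 1, ?_, far_of_slack hw h1 h2 h3⟩
    rw [← h2]
    simpa using isBi_adj h1 0

/-! ### Translations -/

theorem isBi_sh (hw : Adm w) (u : V) {v : ℤ → V} :
    IsBi (sh u w) v ↔ IsBi w (fun k => v k + u) := by
  unfold IsBi
  exact forall_congr' fun n => IsRay_sh hw u _

theorem sl_sh (hw : Adm w) (u : V) {h : ℝ} {v : ℤ → V} (hv : SL h (sh u w) v) :
    SL h w (fun k => v k + u) := by
  have gen : ∀ i j : ℤ, i ≤ 0 → 1 ≤ j → ∀ a b : V, a = v i → b = v j → ∀ π : latt.Walk a b,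
      s(v 0, v 1) ∉ π.edges → T (sh u w) a b + h ≤ ww (sh u w) π := by
    intro i j hi hj a b ha hb π hπ
    subst ha; subst hb
    exact hv i j hi hj π hπ
  intro i j hi hj π hπ
  have e1 : T w (v i + u) (v j + u) = T (sh u w) (v i) (v j) := (T_sh hw u _ _).symm
  have e2 : ∀ a : V, (a + u) + -u = a := fun a => by simp
  have h1 := gen i j hi hj _ _ (e2 (v i)) (e2 (v j)) (π.map (shHom (-u))) ?_
  · have h2 : ww (sh u w) (Walk.map (shHom (-u)) π) = ww w π := by rw [ww_map, sh_sh]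
    have e3 : T (sh u w) (v i + u + -u) (v j + u + -u) = T (sh u w) (v i) (v j) := by
      rw [e2, e2]
    change T w (v i + u) (v j + u) + h ≤ ww w π
    rw [e1, ← e3]
    exact h1.trans_eq h2
  · intro hm
    apply hπ
    have hm' : s(v 0, v 1) ∈ (Walk.map (shHom (-u)) π).edges := hm
    rw [Walk.edges_map, List.mem_map] at hm'
    obtain ⟨e, he, he'⟩ := hm'
    have hinj : Function.Injective (Sym2.map (shHom (-u))) :=
      Sym2.map.injective fun a b hab => add_right_cancel (b := -u) hab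
    have : e = s(v 0 + u, v 1 + u) := by
      apply hinj
      rw [he', Sym2.map_mk]
      show s(v 0, v 1) = s(v 0 + u + -u, v 1 + u + -u)
      rw [e2, e2]
    rwa [this] at he

/-- Translated slack events. -/
theorem mem_SE_sh {t : Env} (hw : Adm (wt t)) (hA : ∀ u, Att (wt (shE u t)) Set.univ) {h : ℝ}
    {u : V} (hu : shE u t ∈ SE h) :
    ∃ v : ℤ → V, IsBi (wt t) v ∧ v 0 = u ∧ SL h (wt t) v := by
  have hw' : Adm (wt (shE u t)) := by rw [wt_shE]; exact hw.sh u
  obtain ⟨v, h1, h2, h3⟩ := (mem_SE_iff hw' (hA u) h).1 hu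
  rw [wt_shE] at h1 h3
  exact ⟨fun k => v k + u, (isBi_sh hw u).1 h1, by simp [h2], sl_sh hw u h3⟩

/-- Passage times are attained in all translates. -/
theorem att_sh (hw : Adm w) (hf : FB w) (u : V) : Att (sh u w) Set.univ :=
  att_of_fb (hw.sh u) (fb_sh hw hf u) fun _ _ _ _ => conn_univ _ _

end Vale.Agent.P158.C.Lin
end
end

section

section

/-! Module CL of Plan C: geodesics of large boxes that hit a finite set and share an end with a
geodesic that looks like a slack bigeodesic look like that bigeodesic. -/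

namespace Vale.Agent.P158.CL

open SimpleGraph Filter Vale.Agent.P158.T1

variable {w : V → V → ℝ} {C : Set V} {g : ℤ → V} {x y : V}

theorem isBi_shift {v : ℤ → V} (hv : IsBi w v) (a : ℤ) : IsBi w (fun i => v (a + i)) := by
  intro n
  have := hv (a + n)
  simpa only [add_assoc] using this

/-- Finite pieces of bigeodesics as walks. -/
theorem exists_piece (hw : Adm w) {v : ℤ → V} (hv : IsBi w v) (a : ℤ) (n : ℕ) :
    ∃ p : latt.Walk (v a) (v (a + n)), p.length = n ∧ (∀ i ≤ n, p.getVert i = v (a + i)) ∧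
      ww w p = T w (v a) (v (a + n)) := by
  have key : ∀ n : ℕ, ∃ p : latt.Walk (v a) (v (a + n)), p.length = n ∧
      (∀ i ≤ n, p.getVert i = v (a + i)) ∧
      ww w p = ∑ i ∈ Finset.range n, w (v (a + (i : ℤ))) (v (a + ((i + 1 : ℕ) : ℤ))) := by
    intro n
    induction n with
    | zero =>
      refine ⟨Walk.nil.copy rfl (by simp), by simp, fun i hi => ?_, ?_⟩
      · have : i = 0 := by omega
        subst this
        simp
      · rw [ww_eq_sum]
        simp only [Int.cast_ofNat_Int, Walk.length_copy, Walk.length_nil, Finset.range_zero, Walk.getVert_copy, Walk.getVert_nil, Finset.sum_const, Finset.card_empty, zero_nsmul, Nat.cast_add, Nat.cast_one, Finset.sum_empty]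
    | succ n ih =>
      obtain ⟨p, h1, h2, h3⟩ := ih
      have hadj : latt.Adj (v (a + (n : ℤ))) (v (a + ((n + 1 : ℕ) : ℤ))) := by
        have := isBi_adj hv (a + n)
        push_cast
        rwa [← add_assoc]
      refine ⟨p.append (Walk.cons hadj Walk.nil), by simp [h1], fun i hi => ?_, ?_⟩
      · rw [Walk.getVert_append]
        split_ifs with hlt
        · exact h2 i (by omega)
        · have : i = n ∨ i = n + 1 := by omega
          rcases this with rfl | rfl
          · rw [h1, Nat.sub_self, Walk.getVert_zero]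
          · rw [h1, Nat.add_sub_cancel_left]
            simp
      · rw [ww_append, ww_cons, ww_nil, h3, Finset.sum_range_succ, add_zero]
  obtain ⟨p, h1, h2, h3⟩ := key n
  refine ⟨p, h1, h2, ?_⟩
  rw [h3]
  have := (hv a).2 n
  simpa only [Nat.cast_add, Nat.cast_one, CharP.cast_eq_zero, add_zero] using this

theorem piece_geo (hw : Adm w) {v : ℤ → V} {a : ℤ} {n : ℕ}
    {p : latt.Walk (v a) (v (a + n))} (h1 : p.length = n)
    (h2 : ∀ i ≤ n, p.getVert i = v (a + i)) (h3 : ww w p = T w (v a) (v (a + n))) {S : Set V}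
    (hS : ∀ i : ℕ, i ≤ n → v (a + i) ∈ S) : Geo w S p := by
  have hmem : ∀ z ∈ p.support, z ∈ S := by
    intro z hz
    obtain ⟨i, rfl, hi⟩ := Walk.mem_support_iff_exists_getVert.1 hz
    rw [h2 i (by omega)]
    exact hS i (by omega)
  refine ⟨hmem, le_antisymm ?_ (PT_le hw p hmem)⟩
  rw [h3]
  exact T_le_PT hw ⟨p, hmem⟩

/-- `p` has the trace of `g` on `bx 0 k`. -/
def Tr (g : ℤ → V) (k : ℕ) {x y : V} (p : latt.Walk x y) : Prop :=
  ∀ z ∈ bx 0 k, z ∈ p.support ↔ z ∈ Set.range g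

/-- Two geodesics with a common end, one of them looking like `g`, the other hitting `C` and
not looking like `g`. -/
structure BadAt (w : V → V → ℝ) (g : ℤ → V) (C : Set V) (k N : ℕ) (S : Set V) (x x' y : V)
    (p : latt.Walk x y) (p' : latt.Walk x' y) : Prop where
  big : bx 0 N ⊆ S
  hx : x ∉ bx 0 N
  hx' : x' ∉ bx 0 N
  hy : y ∉ bx 0 N
  geo : Geo w S p
  geo' : Geo w S p'
  tr : Tr g k p
  hC : ∃ c ∈ C, c ∈ p'.support
  ntr : ¬ Tr g k p'

/-- Bad pairs in arbitrarily large sets. -/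
def Bad (w : V → V → ℝ) (g : ℤ → V) (C : Set V) (k : ℕ) : Prop :=
  ∀ N, ∃ (S : Set V) (x x' y : V) (p : latt.Walk x y) (p' : latt.Walk x' y),
    BadAt w g C k N S x x' y p p'

theorem exists_bx_of_finite (hC : C.Finite) : ∃ r : ℕ, C ⊆ bx 0 r := by
  induction C, hC using Set.Finite.induction_on with
  | empty => exact ⟨0, Set.empty_subset _⟩
  | @insert a s _ _ ih =>
    obtain ⟨r, hr⟩ := ih
    refine ⟨max r (max a.1.natAbs a.2.natAbs), ?_⟩
    rw [Set.insert_subset_iff]
    refine ⟨?_, hr.trans (bx_mono (le_max_left _ _))⟩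
    rw [mem_bx]
    have e1 : |a.1 - (0 : V).1| = (a.1.natAbs : ℤ) := by simp only [Prod.fst_zero, sub_zero, Nat.cast_natAbs, Int.cast_abs, Int.cast_eq]
    have e2 : |a.2 - (0 : V).2| = (a.2.natAbs : ℤ) := by simp only [Prod.snd_zero, sub_zero, Nat.cast_natAbs, Int.cast_abs, Int.cast_eq]
    rw [e1, e2]
    constructor <;> push_cast <;> (clear * -; omega)

theorem exists_bx_mem (z : V) : ∃ r : ℕ, z ∈ bx 0 r := by
  obtain ⟨r, hr⟩ := exists_bx_of_finite (Set.finite_singleton z)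
  exact ⟨r, hr rfl⟩

theorem hyper_ge (N : ℕ) : ∀ᶠ n in (hyperfilter ℕ : Filter ℕ), N ≤ n :=
  Nat.hyperfilter_le_atTop (eventually_ge_atTop N)

/-- Sequences of geodesics between far vertices, hitting a finite set. -/
theorem app_of_far {S : ℕ → Set V} {x y : ℕ → V} {p : ∀ n, latt.Walk (x n) (y n)} {m : ℕ → ℕ}
    (hC : C.Finite) (hS : ∀ n, bx 0 n ⊆ S n) (hx : ∀ n, x n ∉ bx 0 n) (hy : ∀ n, y n ∉ bx 0 n)
    (hgeo : ∀ n, Geo w (S n) (p n)) (hle : ∀ n, m n ≤ (p n).length)
    (hmem : ∀ n, (p n).getVert (m n) ∈ C) : App w (hyperfilter ℕ) S C x y p m := by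
  obtain ⟨r, hr⟩ := exists_bx_of_finite hC
  refine ⟨hgeo, hle, hmem, fun N => ?_, fun z => ?_⟩
  · filter_upwards [hyper_ge (N + r)] with n hn
    have h1 := length_ge (p n) (hr (hmem n)) (hle n) (hx n) (hy n)
    have h2 := hle n
    omega
  · obtain ⟨s, hs⟩ := exists_bx_mem z
    filter_upwards [hyper_ge s] with n hn
    exact hS n (bx_mono hn hs)

theorem bad_step (hw : Adm w) (ht : TF w) (hf : FB w) (hC : C.Finite) {k : ℕ}
    (hg0 : g 0 ∈ bx 0 k)
    (hNB : ∀ v v' : ℤ → V, IsBi w v → IsBi w v' → (∀ i : ℤ, 0 ≤ i → v i = v' i) → v = v')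
    (hbad : Bad w g C k) : ∃ g₁ g₂ : ℤ → V, IsBi w g₁ ∧ IsBi w g₂ ∧
      (∃ c ∈ C, c ∈ Set.range g₂) ∧ (∀ z ∈ bx 0 k, z ∈ Set.range g₁ ↔ z ∈ Set.range g) ∧
      ∀ z, z ∈ Set.range g₁ → z ∉ Set.range g₂ := by
  choose S x x' y p p' H using hbad
  have hm : ∀ n, ∃ m, (p n).getVert m = g 0 ∧ m ≤ (p n).length := fun n =>
    Walk.mem_support_iff_exists_getVert.1 (((H n).tr (g 0) hg0).2 ⟨0, rfl⟩)
  choose m hm1 hm2 using hm
  have hm' : ∀ n, ∃ m, (p' n).getVert m ∈ C ∧ m ≤ (p' n).length := fun n => by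
    obtain ⟨c, hc, hc'⟩ := (H n).hC
    obtain ⟨m, h1, h2⟩ := Walk.mem_support_iff_exists_getVert.1 hc'
    exact ⟨m, h1 ▸ hc, h2⟩
  choose m' hm1' hm2' using hm'
  have A : App w (hyperfilter ℕ) S {g 0} x y p m := app_of_far (Set.finite_singleton _)
    (fun n => (H n).big) (fun n => (H n).hx) (fun n => (H n).hy) (fun n => (H n).geo) hm2
    (fun n => by rw [hm1 n]; rfl)
  have A' : App w (hyperfilter ℕ) S C x' y p' m' := app_of_far hC
    (fun n => (H n).big) (fun n => (H n).hx') (fun n => (H n).hy) (fun n => (H n).geo') hm2' hm1'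
  obtain ⟨g₁, hb1, hl1⟩ := A.exists_limit hw (Set.finite_singleton _)
  obtain ⟨g₂, hb2, hl2⟩ := A'.exists_limit hw hC
  have hr1 := A.mem_range hw hf hl1
  have hr2 := A'.mem_range hw hf hl2
  have htr1 : ∀ z ∈ bx 0 k, z ∈ Set.range g₁ ↔ z ∈ Set.range g := by
    intro z hz
    rw [hr1 z]
    constructor
    · intro h
      obtain ⟨n, hn⟩ := h.exists
      exact ((H n).tr z hz).1 hn
    · intro h
      exact Eventually.of_forall fun n => ((H n).tr z hz).2 h
  refine ⟨g₁, g₂, hb1, hb2, ?_, htr1, ?_⟩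
  · obtain ⟨n, hn⟩ := (hl2 0).exists
    refine ⟨g₂ 0, ?_, ⟨0, rfl⟩⟩
    rw [← hn]
    unfold pos
    simpa using hm1' n
  · rintro z ⟨i, hi⟩ ⟨j, hj⟩
    have hagree : ∀ l : ℤ, 0 ≤ l → g₁ (i + l) = g₂ (j + l) := by
      intro l hl
      obtain ⟨n, h1, h2, h3, h4, h5, h6⟩ := ((hl1 i).and ((hl2 j).and ((hl1 (i + l)).and
        ((hl2 (j + l)).and ((A.far i.natAbs).and (A'.far j.natAbs)))))).exists
      rw [← h3, ← h4]
      have h7 : (p n).getVert ((m n : ℤ) + i).toNat = (p' n).getVert ((m' n : ℤ) + j).toNat := by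
        have e1 : pos p m n i = pos p' m' n j := by rw [h1, h2, hi, hj]
        exact e1
      have h8 := (H n).geo.tail_eq hw ht (H n).geo' h7 l.toNat
      unfold pos
      have e1 : ((m n : ℤ) + (i + l)).toNat = ((m n : ℤ) + i).toNat + l.toNat := by omega
      have e2 : ((m' n : ℤ) + (j + l)).toNat = ((m' n : ℤ) + j).toNat + l.toNat := by (clear * - hl h6 e1; omega)
      rw [e1, e2]
      exact h8
    have heq := hNB _ _ (isBi_shift hb1 i) (isBi_shift hb2 j) hagree
    have hrange : ∀ z, z ∈ Set.range g₁ ↔ z ∈ Set.range g₂ := by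
      intro z
      constructor
      · rintro ⟨a, rfl⟩
        have := congrFun heq (a - i)
        simp only [add_sub_cancel] at this
        exact ⟨_, this.symm⟩
      · rintro ⟨a, rfl⟩
        have := congrFun heq (a - j)
        simp only [add_sub_cancel] at this
        exact ⟨_, this⟩
    have hev : ∀ᶠ n in (hyperfilter ℕ : Filter ℕ), ∀ z ∈ (bx_finite 0 k).toFinset,
        (z ∈ (p' n).support ↔ z ∈ Set.range g) := by
      refine (Finset.eventually_all _).2 fun z hz => ?_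
      rw [Set.Finite.mem_toFinset] at hz
      by_cases hzg : z ∈ Set.range g
      · have := (hr2 z).1 ((hrange z).1 ((htr1 z hz).2 hzg))
        filter_upwards [this] with n hn
        exact ⟨fun _ => hzg, fun _ => hn⟩
      · have h1 : ¬ ∀ᶠ n in (hyperfilter ℕ : Filter ℕ), z ∈ (p' n).support := by
          intro h
          exact hzg ((htr1 z hz).1 ((hrange z).2 ((hr2 z).2 h)))
        rw [← Ultrafilter.eventually_not] at h1
        filter_upwards [h1] with n hn
        exact ⟨fun h => absurd h hn, fun h => absurd h hzg⟩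
    obtain ⟨n, hn⟩ := hev.exists
    exact (H n).ntr fun z hz => hn z ((bx_finite 0 k).mem_toFinset.2 hz)

/-- Module CL. -/
theorem not_bad (hw : Adm w) (ht : TF w) (hf : FB w) (hC : C.Finite)
    (hNB : ∀ v v' : ℤ → V, IsBi w v → IsBi w v' → (∀ i : ℤ, 0 ≤ i → v i = v' i) → v = v')
    (hS3 : ∀ v : ℤ → V, IsBi w v → ∃ i j, v i = g j) : ∃ k₀, ∀ k, k₀ ≤ k → ¬ Bad w g C k := by
  by_contra hcon
  push Not at hcon
  obtain ⟨r, hr⟩ := exists_bx_mem (g 0)
  have h1 : ∀ n : ℕ, ∃ k, max r n ≤ k ∧ Bad w g C k := fun n => hcon _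
  choose k hk hbad using h1
  have h2 := fun n => bad_step hw ht hf hC (bx_mono ((le_max_left r n).trans (hk n)) hr) hNB
    (hbad n)
  choose g₁ g₂ hb1 hb2 hc htr hdis using h2
  choose c hcC hcr using hc
  choose a ha using hcr
  have hp := fun n : ℕ => exists_piece hw (hb2 n) (a n - n) (2 * n)
  choose p hp1 hp2 hp3 using hp
  have A : App w (hyperfilter ℕ) (fun _ => Set.univ) C _ _ p (fun n => n) := by
    refine ⟨fun n => piece_geo hw (hp1 n) (hp2 n) (hp3 n) fun _ _ => Set.mem_univ _,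
      fun n => by rw [hp1]; omega, fun n => ?_, fun N => ?_, fun z => ?_⟩
    · rw [hp2 n n (by omega), sub_add_cancel, ha n]
      exact hcC n
    · filter_upwards [hyper_ge N] with n hn
      rw [hp1]
      omega
    · exact Eventually.of_forall fun _ => Set.mem_univ _
  obtain ⟨G, hG, hl⟩ := A.exists_limit hw hC
  obtain ⟨i, j, hij⟩ := hS3 G hG
  have h3 := (A.mem_range hw hf hl (G i)).1 ⟨i, rfl⟩
  obtain ⟨s, hs⟩ := exists_bx_mem (G i)
  obtain ⟨n, h4, h5⟩ := (h3.and (hyper_ge s)).exists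
  have h6 : G i ∈ Set.range (g₂ n) := by
    obtain ⟨l, h7, h8⟩ := Walk.mem_support_iff_exists_getVert.1 h4
    rw [hp2 n l (by rw [hp1] at h8; omega)] at h7
    exact ⟨_, h7⟩
  refine hdis n (G i) ((htr n _ (bx_mono (h5.trans ((le_max_right r n).trans (hk n))) hs)).2
    ⟨j, hij.symm⟩) h6

theorem cl_step (hw : Adm w) (ht : TF w) (hf : FB w) (hC : C.Finite)
    (hNB : ∀ v v' : ℤ → V, IsBi w v → IsBi w v' → (∀ i : ℤ, 0 ≤ i → v i = v' i) → v = v')
    (hS3 : ∀ v : ℤ → V, IsBi w v → ∃ i j, v i = g j) : ∃ k₀, ∀ k, k₀ ≤ k → ∃ N, ∀ S : Set V,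
      bx 0 N ⊆ S → ∀ x x' y : V, x ∉ bx 0 N → x' ∉ bx 0 N → y ∉ bx 0 N →
      ∀ (p : latt.Walk x y) (p' : latt.Walk x' y), Geo w S p → Geo w S p' → Tr g k p →
      (∃ c ∈ C, c ∈ p'.support) → Tr g k p' := by
  obtain ⟨k₀, h⟩ := not_bad hw ht hf hC hNB hS3
  refine ⟨k₀, fun k hk => ?_⟩
  have h1 := h k hk
  unfold Bad at h1
  push Not at h1
  obtain ⟨N, hN⟩ := h1
  refine ⟨N, fun S hS x x' y hx hx' hy p p' hp hp' htr hC' => ?_⟩
  by_contra hntr
  exact hN S x x' y p p' ⟨hS, hx, hx', hy, hp, hp', htr, hC', hntr⟩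

end Vale.Agent.P158.CL
end
end

section

section

/-! Module CL of Plan C, second part: components of the set of pairs of boundary vertices of a
large box whose geodesic is changed when `C` is removed. -/

namespace Vale.Agent.P158.CL

open SimpleGraph Filter Vale.Agent.P158.T1 Vale.Agent.P158.C

variable {w : V → V → ℝ} {C : Set V} {g : ℤ → V} {x y : V}

/-- No branching. -/
def NB (w : V → V → ℝ) : Prop :=
  ∀ v v' : ℤ → V, IsBi w v → IsBi w v' → (∀ i : ℤ, 0 ≤ i → v i = v' i) → v = v'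

theorem nb_of_br (hw : Adm w) (h : ∀ p, ¬ Br w p) : NB w := by
  intro v v' hv hv' heq
  have key : ∀ n : ℕ, ∀ i : ℤ, -(n : ℤ) ≤ i → v i = v' i := by
    intro n
    induction n with
    | zero => intro i hi; exact heq i (by simpa only [CharP.cast_eq_zero, neg_zero] using hi)
    | succ n ih =>
      intro i hi
      rcases eq_or_lt_of_le hi with h1 | h1
      · by_contra hne
        refine h _ (br_of_isBi hw (isBi_shift hv (-(n : ℤ))) (isBi_shift hv' (-(n : ℤ)))
          (fun j hj => ih _ (by omega)) ?_)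
        have e : -(n : ℤ) + -1 = i := by rw [← h1]; push_cast; ring
        simp only [e]
        exact hne
      · exact ih i (by push_cast at h1; omega)
  funext i
  exact key i.natAbs i (by omega)

/-- `g` meets every bigeodesic. -/
def Meets (w : V → V → ℝ) (g : ℤ → V) : Prop :=
  ∀ v : ℤ → V, IsBi w v → ∃ i j, v i = g j

/-- If all walks avoiding `C` cost more, the geodesic hits `C`. -/
theorem hits_of_lt (hw : Adm w) {S : Set V} {p : latt.Walk x y} (hp : Geo w S p)
    (h : PT w S x y < PT w (S \ C) x y) : ∃ c ∈ C, c ∈ p.support := by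
  by_contra hcon
  push Not at hcon
  have h1 : PT w (S \ C) x y ≤ ww w p :=
    PT_le hw p fun z hz => ⟨hp.1 z hz, fun hc => hcon z hc hz⟩
  rw [hp.2] at h1
  exact absurd h (not_lt.2 h1)

theorem exists_geo {S : Set V} (hA : Att w S) (hx : x ∈ S) (hy : y ∈ S) :
    ∃ p : latt.Walk x y, Geo w S p := by
  obtain ⟨p, h1, h2⟩ := hA x hx y hy
  exact ⟨p, h1, h2⟩

/-- The trace is constant on components (module CL). -/
theorem cl_comp (hw : Adm w) (ht : TF w) (hf : FB w) (hC : C.Finite) (hNB : NB w)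
    (hg : Meets w g) : ∃ k₀, ∀ k, k₀ ≤ k → ∃ N, ∀ (S : Set V) (m : ℕ) [NeZero m]
      (b : ZMod m → V), Att w S → bx 0 N ⊆ S → (∀ i, b i ∈ S ∧ b i ∉ bx 0 N) →
      ∀ a c : ZMod m × ZMod m,
        Cn (Ex (fun i j => PT w S (b i) (b j)) (fun i j => PT w (S \ C) (b i) (b j))) a c →
        ∀ (p : latt.Walk (b a.1) (b a.2)) (q : latt.Walk (b c.1) (b c.2)), Geo w S p →
          Geo w S q → Tr g k p → Tr g k q := by
  obtain ⟨k₀, h⟩ := cl_step hw ht hf hC hNB hg
  refine ⟨k₀, fun k hk => ?_⟩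
  obtain ⟨N, hN⟩ := h k hk
  refine ⟨N, fun S m _ b hA hS hb a c hac => ?_⟩
  obtain ⟨-, hac⟩ := hac
  induction hac with
  | refl =>
    intro p q hp hq htr
    rwa [← hp.unique hw ht hq]
  | @tail d e _ hde ih =>
    intro p q hp hq htr
    obtain ⟨hd, he, hstep⟩ := hde
    obtain ⟨r, hr⟩ := exists_geo (w := w) hA (hb d.1).1 (hb d.2).1
    have htr' := ih p r hp hr htr
    have hhit := hits_of_lt hw hq he
    have hcase : d.2 = e.2 ∨ d.1 = e.1 := by
      rcases hstep with h | h | h | h <;> rw [h] <;> simp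
    rcases hcase with h1 | h1
    · have h2 : ∀ j, j = e.2 → ∀ r : latt.Walk (b d.1) (b j), Geo w S r → Tr g k r →
          Tr g k q := by
        rintro j rfl r hr htr
        exact hN S hS _ _ _ (hb d.1).2 (hb e.1).2 (hb e.2).2 r q hr hq htr hhit
      exact h2 _ h1 r hr htr'
    · have h2 : ∀ j, j = e.1 → ∀ r : latt.Walk (b j) (b d.2), Geo w S r → Tr g k r →
          Tr g k q := by
        rintro j rfl r hr htr
        have h3 := hN S hS _ _ _ (hb d.2).2 (hb e.2).2 (hb e.1).2 r.reverse q.reverse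
          (hr.reverse hw) (hq.reverse hw) (fun z hz => by simpa only [Walk.support_reverse, List.mem_reverse, Set.mem_range] using htr z hz)
          (by simpa only [Walk.support_reverse, List.mem_reverse, Prod.exists] using hhit)
        intro z hz
        simpa only [Set.mem_range, Walk.support_reverse, List.mem_reverse] using h3 z hz
      exact h2 _ h1 r hr htr'

/-- `x` and `y` are the first exits of `g` from `S` in both directions, seen from `g 0`. -/
def ExitP (g : ℤ → V) (S : Set V) (x y : V) (s t : ℤ) : Prop :=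
  s ≤ 0 ∧ 0 ≤ t ∧ g s = x ∧ g t = y ∧ (∀ l, s ≤ l → l ≤ t → g l ∈ S) ∧ g (s - 1) ∉ S ∧
    g (t + 1) ∉ S

theorem exists_exitP (hw : Adm w) (hg : IsBi w g) {S : Set V} (hS : S.Finite) (h0 : g 0 ∈ S) :
    ∃ s t, ExitP g S (g s) (g t) s t := by
  classical
  obtain ⟨N, hN⟩ := exists_out hw hg hS
  have h1 : ∃ n : ℕ, g ((n : ℤ) + 1) ∉ S := ⟨N.natAbs, hN _ (Or.inr (by omega))⟩
  have h2 : ∃ n : ℕ, g (-(n : ℤ) - 1) ∉ S := ⟨N.natAbs, hN _ (Or.inl (by omega))⟩
  have h3 : ∀ l : ℤ, 0 ≤ l → l ≤ Nat.find h1 → g l ∈ S := by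
    intro l hl hl'
    rcases eq_or_lt_of_le hl with h | h
    · rw [← h]; exact h0
    · have := Nat.find_min h1 (m := (l - 1).toNat) (by omega)
      rw [not_not] at this
      have e : (((l - 1).toNat : ℕ) : ℤ) + 1 = l := by omega
      rwa [e] at this
  have h4 : ∀ l : ℤ, l ≤ 0 → -(Nat.find h2 : ℤ) ≤ l → g l ∈ S := by
    intro l hl hl'
    rcases eq_or_lt_of_le hl with h | h
    · rw [h]; exact h0
    · have := Nat.find_min h2 (m := (-l - 1).toNat) (by omega)
      rw [not_not] at this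
      have e : -(((-l - 1).toNat : ℕ) : ℤ) - 1 = l := by omega
      rwa [e] at this
  refine ⟨-(Nat.find h2 : ℤ), Nat.find h1, by omega, by omega, rfl, rfl, fun l hl hl' => ?_,
    Nat.find_spec h2, Nat.find_spec h1⟩
  rcases le_total 0 l with h | h
  · exact h3 l h hl'
  · exact h4 l h hl

theorem exitP_geo (hw : Adm w) (hg : IsBi w g) {S : Set V} {s t : ℤ}
    (h : ExitP g S x y s t) : ∃ p : latt.Walk x y, Geo w S p ∧
      ∀ z, z ∈ p.support ↔ ∃ l, s ≤ l ∧ l ≤ t ∧ g l = z := by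
  obtain ⟨hs, ht, rfl, rfl, hin, -, -⟩ := h
  obtain ⟨n, rfl⟩ : ∃ n : ℕ, t = s + n := ⟨(t - s).toNat, by omega⟩
  obtain ⟨p, h1, h2, h3⟩ := exists_piece hw hg s n
  refine ⟨p, piece_geo hw h1 h2 h3 fun i hi => hin _ (by omega) (by omega), fun z => ?_⟩
  rw [Walk.mem_support_iff_exists_getVert]
  constructor
  · rintro ⟨i, rfl, hi⟩
    exact ⟨s + i, by omega, by omega, (h2 i (by omega)).symm⟩
  · rintro ⟨l, hl1, hl2, rfl⟩
    refine ⟨(l - s).toNat, ?_, by omega⟩
    rw [h2 _ (by omega)]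
    congr 1
    omega

/-- In large boxes the piece between the exits contains all visits to `bx 0 k`. -/
theorem exitP_tr (hw : Adm w) (hg : IsBi w g) (k : ℕ) : ∃ N, ∀ (S : Set V) (x y : V) (s t : ℤ),
    bx 0 N ⊆ S → ExitP g S x y s t → ∀ p : latt.Walk x y,
      (∀ z, z ∈ p.support ↔ ∃ l, s ≤ l ∧ l ≤ t ∧ g l = z) → Tr g k p := by
  obtain ⟨M, hM⟩ := exists_out hw hg (bx_finite 0 k)
  obtain ⟨N, hN⟩ := exists_bx_of_finite ((Set.finite_Icc (-M) M).image g)
  refine ⟨N, fun S x y s t hS hex p hp z hz => ?_⟩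
  obtain ⟨hs, ht, -, -, -, hs', ht'⟩ := hex
  have h1 : s ≤ -M := by
    by_contra hc
    refine hs' (hS (hN ⟨s - 1, ?_, rfl⟩))
    rw [Set.mem_Icc]
    omega
  have h2 : M ≤ t := by
    by_contra hc
    refine ht' (hS (hN ⟨t + 1, ?_, rfl⟩))
    rw [Set.mem_Icc]
    omega
  rw [hp z]
  constructor
  · rintro ⟨l, -, -, h⟩
    exact ⟨l, h⟩
  · rintro ⟨l, rfl⟩
    by_cases h : l ≤ -M ∨ M ≤ l
    · exact absurd hz (hM l h)
    · push Not at h
      exact ⟨l, by omega, by omega, rfl⟩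

/-- Different ranges give different traces on all large boxes. -/
theorem tr_ne {g g' : ℤ → V} (h : Set.range g ≠ Set.range g') :
    ∃ k₀, ∀ k, k₀ ≤ k → ∃ z ∈ bx 0 k, ¬ (z ∈ Set.range g ↔ z ∈ Set.range g') := by
  have : ∃ z, ¬ (z ∈ Set.range g ↔ z ∈ Set.range g') := by
    by_contra hcon
    push Not at hcon
    exact h (Set.ext hcon)
  obtain ⟨z, hz⟩ := this
  obtain ⟨r, hr⟩ := exists_bx_mem z
  exact ⟨r, fun k hk => ⟨z, bx_mono hk hr, hz⟩⟩

/-- Different slack bigeodesics have their exits in different components, for all large boxes. -/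
theorem cl_sep (hw : Adm w) (ht : TF w) (hf : FB w) (hC : C.Finite) (hNB : NB w)
    {g g' : ℤ → V} (hb : IsBi w g) (hb' : IsBi w g') (hm : Meets w g)
    (hne : Set.range g ≠ Set.range g') :
    ∃ N, ∀ (S : Set V) (m : ℕ) [NeZero m] (b : ZMod m → V), Att w S → bx 0 N ⊆ S →
      (∀ i, b i ∈ S ∧ b i ∉ bx 0 N) → ∀ (a c : ZMod m × ZMod m) (s t s' t' : ℤ),
        ExitP g S (b a.1) (b a.2) s t → ExitP g' S (b c.1) (b c.2) s' t' →
        ¬ Cn (Ex (fun i j => PT w S (b i) (b j)) (fun i j => PT w (S \ C) (b i) (b j))) a c := by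
  obtain ⟨k₀, h1⟩ := cl_comp hw ht hf hC hNB hm
  obtain ⟨k₁, h2⟩ := tr_ne hne
  set k := max k₀ k₁ with hk
  obtain ⟨N₀, h3⟩ := h1 k (le_max_left _ _)
  obtain ⟨N₁, h4⟩ := exitP_tr hw hb k
  obtain ⟨N₂, h5⟩ := exitP_tr hw hb' k
  obtain ⟨z, hz, hz'⟩ := h2 k (le_max_right _ _)
  refine ⟨max N₀ (max N₁ N₂), fun S m _ b hA hS hbd a c s t s' t' hex hex' hcn => ?_⟩
  obtain ⟨p, hp, hp'⟩ := exitP_geo hw hb hex
  obtain ⟨q, hq, hq'⟩ := exitP_geo hw hb' hex'
  have e0 : N₀ ≤ max N₀ (max N₁ N₂) := le_max_left _ _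
  have e1 : N₁ ≤ max N₀ (max N₁ N₂) := (le_max_left _ _).trans (le_max_right _ _)
  have e2 : N₂ ≤ max N₀ (max N₁ N₂) := (le_max_right _ _).trans (le_max_right _ _)
  have t1 := h4 S _ _ s t ((bx_mono e1).trans hS) hex p hp'
  have t2 := h5 S _ _ s' t' ((bx_mono e2).trans hS) hex' q hq'
  have t3 := h3 S m b hA ((bx_mono e0).trans hS)
    (fun i => ⟨(hbd i).1, fun h => (hbd i).2 (bx_mono e0 h)⟩) a c hcn p q hp hq t1
  exact hz' ((t3 z hz).symm.trans (t2 z hz))

/-- Finite families of slack bigeodesics. -/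
theorem cl_family (hw : Adm w) (ht : TF w) (hf : FB w) (hC : C.Finite) (hNB : NB w)
    {ι : Type*} [Finite ι] (g : ι → ℤ → V) (hb : ∀ i, IsBi w (g i)) (hm : ∀ i, Meets w (g i))
    (hne : ∀ i j, i ≠ j → Set.range (g i) ≠ Set.range (g j)) :
    ∃ N, ∀ (S : Set V) (m : ℕ) [NeZero m] (b : ZMod m → V), Att w S → bx 0 N ⊆ S →
      (∀ i, b i ∈ S ∧ b i ∉ bx 0 N) → ∀ (i j : ι) (a c : ZMod m × ZMod m) (s t s' t' : ℤ),
        i ≠ j → ExitP (g i) S (b a.1) (b a.2) s t → ExitP (g j) S (b c.1) (b c.2) s' t' →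
        ¬ Cn (Ex (fun i j => PT w S (b i) (b j)) (fun i j => PT w (S \ C) (b i) (b j))) a c := by
  classical
  have h1 : ∀ i j : ι, ∃ N, i ≠ j → ∀ (S : Set V) (m : ℕ) [NeZero m] (b : ZMod m → V),
      Att w S → bx 0 N ⊆ S → (∀ i, b i ∈ S ∧ b i ∉ bx 0 N) →
      ∀ (a c : ZMod m × ZMod m) (s t s' t' : ℤ), ExitP (g i) S (b a.1) (b a.2) s t →
        ExitP (g j) S (b c.1) (b c.2) s' t' →
        ¬ Cn (Ex (fun i j => PT w S (b i) (b j)) (fun i j => PT w (S \ C) (b i) (b j))) a c := by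
    intro i j
    by_cases hij : i = j
    · exact ⟨0, fun h => absurd hij h⟩
    · obtain ⟨N, hN⟩ := cl_sep hw ht hf hC hNB (hb i) (hb j) (hm i) (hne i j hij)
      exact ⟨N, fun _ => hN⟩
  choose N hN using h1
  obtain ⟨M, hM⟩ : ∃ M, ∀ i j, N i j ≤ M := by
    have := Fintype.ofFinite ι
    refine ⟨Finset.univ.sup fun ij : ι × ι => N ij.1 ij.2, fun i j => ?_⟩
    exact Finset.le_sup (f := fun ij : ι × ι => N ij.1 ij.2) (Finset.mem_univ (i, j))
  refine ⟨M, fun S m _ b hA hS hbd i j a c s t s' t' hij hex hex' => ?_⟩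
  exact hN i j hij S m b hA ((bx_mono (hM i j)).trans hS)
    (fun l => ⟨(hbd l).1, fun h => (hbd l).2 (bx_mono (hM i j) h)⟩) a c s t s' t' hex hex'

end Vale.Agent.P158.CL
end
end

section

section

/-! `CLStmt` of the plan, from helper511's module CL. -/

namespace Vale.Agent.P158.C.CLp

open SimpleGraph Filter Vale.Agent.P158.T1 Vale.Agent.P158.C Vale.Agent.P158.CL

variable {w : V → V → ℝ}

theorem conn_bd {z : V} {N : ℕ} (hN : 0 < N) {S : Set V} (hS : bB z N ⊆ S) (k : ℤ) (r : ℕ) :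
    Conn S (bd z N k) (bd z N (k + r)) := by
  induction r with
  | zero => simpa using Conn.refl' (S := S) (hS (bd_mem_bB hN k))
  | succ r ih =>
    refine ih.trans' ?_
    push_cast
    rw [← add_assoc]
    exact Conn.of_adj (bd_adj hN _) (hS (bd_mem_bB hN _)) (hS (bd_mem_bB hN _))

theorem conn_bd' {z : V} {N : ℕ} (hN : 0 < N) {S : Set V} (hS : bB z N ⊆ S) (i j : ℤ) :
    Conn S (bd z N i) (bd z N j) := by
  rcases le_total i j with h | h
  · obtain ⟨r, rfl⟩ : ∃ r : ℕ, j = i + r := ⟨(j - i).toNat, by omega⟩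
    exact conn_bd hN hS i r
  · obtain ⟨r, rfl⟩ : ∃ r : ℕ, i = j + r := ⟨(i - j).toNat, by omega⟩
    exact (conn_bd hN hS j r).symm'

theorem conn_row {z : V} {r : ℕ} {b : ℤ} (hb : |b - z.2| ≤ r) {c : ℤ} (n : ℕ)
    (h1 : |c - z.1| ≤ r) (h2 : |c + n - z.1| ≤ r) : Conn (bx z r) (c, b) (c + n, b) := by
  induction n with
  | zero => simpa using Conn.refl' (S := bx z r) (x := (c, b)) ⟨h1, hb⟩
  | succ n ih =>
    have h3 : |c + n - z.1| ≤ r := by
      rw [abs_le] at h1 h2 ⊢
      push_cast at h2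
      constructor <;> linarith [h1.1, h1.2, h2.1, h2.2]
    refine (ih h3).trans' ?_
    have := adj_right (c + n) b
    push_cast
    rw [← add_assoc]
    refine Conn.of_adj this ⟨h3, hb⟩ ⟨?_, hb⟩
    push_cast at h2
    rwa [← add_assoc] at h2

theorem conn_col {z : V} {r : ℕ} {a : ℤ} (ha : |a - z.1| ≤ r) {c : ℤ} (n : ℕ)
    (h1 : |c - z.2| ≤ r) (h2 : |c + n - z.2| ≤ r) : Conn (bx z r) (a, c) (a, c + n) := by
  induction n with
  | zero => simpa using Conn.refl' (S := bx z r) (x := (a, c)) ⟨ha, h1⟩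
  | succ n ih =>
    have h3 : |c + n - z.2| ≤ r := by
      rw [abs_le] at h1 h2 ⊢
      push_cast at h2
      constructor <;> linarith only [h1, h2]
    refine (ih h3).trans' ?_
    have := adj_up a (c + n)
    push_cast
    rw [← add_assoc]
    refine Conn.of_adj this ⟨ha, h3⟩ ⟨ha, ?_⟩
    push_cast at h2
    rwa [← add_assoc] at h2

theorem conn_row' {z : V} {r : ℕ} {b : ℤ} (hb : |b - z.2| ≤ r) {c d : ℤ} (h1 : |c - z.1| ≤ r)
    (h2 : |d - z.1| ≤ r) : Conn (bx z r) (c, b) (d, b) := by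
  rcases le_total c d with h | h
  · obtain ⟨n, rfl⟩ : ∃ n : ℕ, d = c + n := ⟨(d - c).toNat, by omega⟩
    exact conn_row hb n h1 h2
  · obtain ⟨n, rfl⟩ : ∃ n : ℕ, c = d + n := ⟨(c - d).toNat, by omega⟩
    exact (conn_row hb n h2 h1).symm'

theorem conn_col' {z : V} {r : ℕ} {a : ℤ} (ha : |a - z.1| ≤ r) {c d : ℤ} (h1 : |c - z.2| ≤ r)
    (h2 : |d - z.2| ≤ r) : Conn (bx z r) (a, c) (a, d) := by
  rcases le_total c d with h | h
  · obtain ⟨n, rfl⟩ : ∃ n : ℕ, d = c + n := ⟨(d - c).toNat, by omega⟩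
    exact conn_col ha n h1 h2
  · obtain ⟨n, rfl⟩ : ∃ n : ℕ, c = d + n := ⟨(c - d).toNat, by omega⟩
    exact (conn_col ha n h2 h1).symm'

theorem conn_bx {z x y : V} {r : ℕ} (hx : x ∈ bx z r) (hy : y ∈ bx z r) : Conn (bx z r) x y :=
  (conn_row' (b := x.2) hx.2 hx.1 hy.1).trans' (conn_col' (a := y.1) hy.1 hx.2 hy.2)

theorem att_bx (hw : Adm w) (z : V) (N : ℕ) : Att w (bx z N) :=
  att_of_finite hw (bx_finite z N) fun _ hx _ hy => conn_bx hx hy

/-- `On` is membership in the geodesic. -/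
theorem on_iff (hw : Adm w) (huq : Uq w) {S : Set V} (hA : Att w S) {x y u : V}
    {p : latt.Walk x y} (hp : Geo w S p) : On w S x y u ↔ u ∈ p.support := by
  constructor
  · rintro ⟨hu, he⟩
    obtain ⟨p1, a1, b1⟩ := hA x (hp.1 _ p.start_mem_support) u hu
    obtain ⟨p2, a2, b2⟩ := hA u hu y (hp.1 _ p.end_mem_support)
    have h : Geo w S (p1.append p2) := by
      refine ⟨fun z hz => ?_, by rw [ww_append, b1, b2, he]⟩
      rw [Walk.mem_support_append_iff] at hz
      rcases hz with hz | hz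
      · exact a1 z hz
      · exact a2 z hz
    rw [← h.unique hw huq hp, Walk.mem_support_append_iff]
    exact Or.inl p1.end_mem_support
  · intro hu
    have h1 : ∀ z ∈ (p.takeUntil u hu).support, z ∈ S := fun z hz =>
      hp.1 z (p.support_takeUntil_subset_support hu hz)
    have h2 : ∀ z ∈ (p.dropUntil u hu).support, z ∈ S := fun z hz =>
      hp.1 z (p.support_dropUntil_subset_support hu hz)
    have h3 := ww_takeUntil_add_dropUntil (w := w) p hu
    have h4 := PT_le hw _ h1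
    have h5 := PT_le hw _ h2
    have h6 := PT_triangle hw ⟨_, h1⟩ ⟨_, h2⟩
    have h7 := hp.2
    exact ⟨hp.1 u hu, by linarith only [h6, h3, h4, h5, h7]⟩

/-- The exit pair of a bigeodesic. -/
theorem exists_exit_pair (hw : Adm w) {v : ℤ → V} (hv : IsBi w v) {z : V} {N : ℕ} (hN0 : 0 < N)
    (hv0 : v 0 ∈ bx z N) : ∃ (p : ZMod (8 * N) × ZMod (8 * N)) (s' t' : ℤ),
      ExitP v (bx z N) (bd z N (p.1.val : ℤ)) (bd z N (p.2.val : ℤ)) s' t' := by
  have : NeZero (8 * N) := ⟨by omega⟩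
  obtain ⟨s', t', hex⟩ := exists_exitP hw hv (bx_finite z N) hv0
  obtain ⟨hs, ht, -, -, hseg, hs1, ht1⟩ := hex
  have hbs : v s' ∈ bB z N := by
    refine mem_bB_of_adj (hseg s' le_rfl (by omega)) hs1 ?_
    have := isBi_adj hv (s' - 1)
    rw [sub_add_cancel] at this
    exact this.symm
  have hbt : v t' ∈ bB z N := mem_bB_of_adj (hseg t' (by omega) le_rfl) ht1 (isBi_adj hv t')
  have hcast : ∀ x ∈ bB z N, ∃ i : ZMod (8 * N), bd z N (i.val : ℤ) = x := fun x hx => by
    obtain ⟨k, rfl⟩ := (exists_bd_iff hN0).2 hx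
    refine ⟨(k : ZMod (8 * N)), ?_⟩
    rw [ZMod.val_intCast]
    push_cast
    exact bd_emod z N k
  obtain ⟨p1, hp1⟩ := hcast _ hbs
  obtain ⟨p2, hp2⟩ := hcast _ hbt
  exact ⟨(p1, p2), s', t', hs, ht, hp1.symm, hp2.symm, hseg, hs1, ht1⟩

/-- The exit pair of a bigeodesic with slack is a line. -/
theorem lin_of_exitP (hw : Adm w) (huq : Uq w) {h : ℝ} {v : ℤ → V} (hv : IsBi w v)
    (hsl : SL h w v) {z : V} {N r s : ℕ} (hN0 : 0 < N) (hv0 : v 0 ∈ bx 0 r) (hrs : r ≤ s)
    (hout : ∀ x ∈ bB z N, x ∉ bx 0 s) {p : ZMod (8 * N) × ZMod (8 * N)} {s' t' : ℤ}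
    (hex : ExitP v (bx z N) (bd z N (p.1.val : ℤ)) (bd z N (p.2.val : ℤ)) s' t') :
    Lin h w z N r s p := by
  have hA : Att w (bx z N) := att_bx hw z N
  obtain ⟨π, hπ, hπ'⟩ := exitP_geo hw hv hex
  obtain ⟨hs, ht, hp1, hp2, hseg, hs1, ht1⟩ := hex
  have ht2 : 1 ≤ t' := by
    rcases eq_or_lt_of_le ht with h0 | h0
    · rw [← h0] at hp2
      refine absurd (bx_mono hrs hv0) (hout _ ?_)
      rw [hp2]
      exact bd_mem_bB hN0 _
    · omega
  refine ⟨?_, v 0, hv0, (on_iff (u := v 0) hw huq hA hπ).2 ((hπ' (v 0)).2 ⟨0, hs, ht, rfl⟩)⟩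
  have hT : PT w (bx z N) (v s') (v t') ≤ T w (v s') (v t') := by
    obtain ⟨n, rfl⟩ : ∃ n : ℕ, t' = s' + n := ⟨(t' - s').toNat, by omega⟩
    obtain ⟨p, a1, a2, a3⟩ := exists_piece hw hv s' n
    rw [← a3]
    refine PT_le hw p fun x hx => ?_
    obtain ⟨i, rfl, hi⟩ := Walk.mem_support_iff_exists_getVert.1 hx
    rw [a2 i (by omega)]
    exact hseg _ (by omega) (by omega)
  have hW : T w (v s') (v t') + h ≤ PT w (bx z N \ bx 0 s) (v s') (v t') := by
    have hc : Conn (bx z N \ bx 0 s) (v s') (v t') := by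
      have hsub : bB z N ⊆ bx z N \ bx 0 s := fun x hx => ⟨hx.1, hout x hx⟩
      rw [hp1, hp2]
      exact conn_bd' hN0 hsub _ _
    refine le_PT hc fun p hp => hsl s' t' hs ht2 p fun he => ?_
    exact (hp _ (Walk.fst_mem_support_of_mem_edges p he)).2 (bx_mono hrs hv0)
  show h ≤ PT w (bx z N \ bx 0 s) (bd z N (p.1.val : ℤ)) (bd z N (p.2.val : ℤ))
    - PT w (bx z N) (bd z N (p.1.val : ℤ)) (bd z N (p.2.val : ℤ))
  rw [← hp1, ← hp2]
  linarith only [hT, hW]

end Vale.Agent.P158.C.CLp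
end
end

section

section

/-! Module ManyStmt of Plan C', deterministic part: from many vertices on slack bigeodesics to
many lines in different components. -/

namespace Vale.Agent.P158.C.LinB

open SimpleGraph Filter Vale.Agent.P158.T1 Vale.Agent.P158.C Vale.Agent.P158.CL

/-- Two vertices of the boundary cycle are at distance at most its weight. -/
theorem T_le_rs {w : V → V → ℝ} (hw : Adm w) {z x y : V} {N : ℕ} (hN : 0 < N)
    (hx : x ∈ bB z N) (hy : y ∈ bB z N) : T w x y ≤ rs w z N := by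
  obtain ⟨i, hi0, hi1, rfl⟩ := bd_surj hN hx 0
  obtain ⟨j, hj0, hj1, rfl⟩ := bd_surj hN hy 0
  rw [zero_add] at hi1 hj1
  obtain ⟨i, rfl⟩ : ∃ n : ℕ, i = n := ⟨i.toNat, by omega⟩
  obtain ⟨j, rfl⟩ : ∃ n : ℕ, j = n := ⟨j.toNat, by omega⟩
  have hadj : ∀ k : ℕ, latt.Adj (bd z N (k : ℤ)) (bd z N ((k + 1 : ℕ) : ℤ)) := fun k => by
    push_cast
    exact bd_adj hN k
  have key : ∀ i j : ℕ, i ≤ j → j < 8 * N → T w (bd z N i) (bd z N j) ≤ rs w z N := by
    intro i j hij hj
    refine (T_le_sum (r := fun k : ℕ => bd z N (k : ℤ)) hw hadj hij).trans ?_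
    unfold rs
    refine (Finset.sum_le_sum_of_subset_of_nonneg (t := Finset.range (8 * N)) ?_
      fun k _ _ => (hw.pos _ _ (hadj k)).le).trans (le_of_eq ?_)
    · intro k hk
      rw [Finset.mem_Ico] at hk
      rw [Finset.mem_range]
      omega
    · refine Finset.sum_congr rfl fun k _ => ?_
      push_cast
      rfl
  rcases le_total i j with h | h
  · exact key i j h (by omega)
  · rw [T_comm hw]
    exact key j i h (by omega)

/-- A bigeodesic has at most `C₁ r` vertices in `bx 0 r`. -/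
theorem trace_le {t : Env} (hw : Adm (wt t)) {C₁ : ℝ} {r : ℕ} (hE : LenE C₁ r t) {v : ℤ → V}
    (hv : IsBi (wt t) v) (F : Finset V) (hF : ∀ x ∈ F, x ∈ bx 0 r ∧ x ∈ Set.range v) :
    F.card ≤ ⌈C₁ * r⌉₊ := by
  classical
  rcases F.eq_empty_or_nonempty with rfl | ⟨x₀, hx₀⟩
  · simp
  have hfin : {i : ℤ | v i ∈ bx 0 (r + 1)}.Finite :=
    (bx_finite 0 (r + 1)).preimage (isBi_inj hw hv).injOn
  have hnon : {i : ℤ | v i ∈ bx 0 (r + 1)}.Nonempty := by
    obtain ⟨h1, i, rfl⟩ := hF x₀ hx₀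
    exact ⟨i, bx_mono (Nat.le_succ r) h1⟩
  obtain ⟨a, ha, hamin⟩ := Set.exists_min_image _ id hfin hnon
  obtain ⟨b, hb, hbmax⟩ := Set.exists_max_image _ id hfin hnon
  simp only [id, Set.mem_ofPred_eq] at ha hamin hb hbmax
  have hab : a ≤ b := hamin b hb
  have hba : v a ∈ bB 0 (r + 1) := by
    refine mem_bB_of_adj ha (y := v (a - 1)) (fun h => ?_) ?_
    · have := hamin _ h
      omega
    · have := isBi_adj hv (a - 1)
      rw [sub_add_cancel] at this
      exact this.symm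
  have hbb : v b ∈ bB 0 (r + 1) := by
    refine mem_bB_of_adj hb (y := v (b + 1)) (fun h => ?_) (isBi_adj hv b)
    have := hbmax _ h
    omega
  obtain ⟨n, rfl⟩ : ∃ n : ℕ, b = a + n := ⟨(b - a).toNat, by omega⟩
  obtain ⟨p, h1, h2, h3⟩ := exists_piece hw hv a n
  have hpath : p.IsPath := Geo.isPath (S := Set.univ) hw ⟨fun _ _ => trivial, h3⟩
  have hlen : ¬ C₁ * r ≤ p.length := fun h => by
    have h4 := hE _ _ p hpath ha h
    rw [h3] at h4
    exact absurd (T_le_rs hw (Nat.succ_pos r) hba hbb) (not_le.2 h4)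
  rw [h1, not_le] at hlen
  have hn : n < ⌈C₁ * r⌉₊ := Nat.lt_ceil.2 hlen
  have hsub : F ⊆ (Finset.Icc a (a + n)).image v := fun x hx => by
    obtain ⟨h4, i, rfl⟩ := hF x hx
    have h5 : v i ∈ bx 0 (r + 1) := bx_mono (Nat.le_succ r) h4
    exact Finset.mem_image_of_mem v (Finset.mem_Icc.2 ⟨hamin i h5, hbmax i h5⟩)
  have h6 := (Finset.card_le_card hsub).trans Finset.card_image_le
  rw [Int.card_Icc] at h6
  omega

/-- If a box contains a slightly larger window, its boundary avoids the window. -/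
theorem out_of_sub {z : V} {N M : ℕ} (h : bx 0 (M + 1) ⊆ bx z N) {x : V} (hx : x ∈ bB z N) :
    x ∉ bx 0 M := by
  intro hM
  obtain ⟨-, h1⟩ := hx
  have key : ∀ y : V, latt.Adj x y → y ∈ bx z N := fun y hy => h (bx_adj hy hM)
  obtain ⟨a, b⟩ := x
  have e1 := (key _ (adj_right a b)).1
  have e2 := (key _ (adj_left a b)).1
  have e3 := (key _ (adj_up a b)).2
  have e4 := (key _ (adj_down a b)).2
  simp only at h1 e1 e2 e3 e4
  rw [abs_le] at e1 e2 e3 e4
  rcases h1 with h1 | h1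
  · rcases abs_cases (a - z.1) with ⟨h2, -⟩ | ⟨h2, -⟩ <;> omega
  · rcases abs_cases (b - z.2) with ⟨h2, -⟩ | ⟨h2, -⟩ <;> omega

/-- From many vertices on slack bigeodesics to many lines in different components. -/
theorem many_of_points {w : V → V → ℝ} (hw : Adm w) (ht : CL.TF w) (hf : FB w) (hNB : CL.NB w)
    {h : ℝ} (hh : 0 < h) (hm : ∀ v, IsBi w v → SL h w v → CL.Meets w v) {r s n L : ℕ}
    (hrs : r ≤ s) (hL0 : 0 < L) (X : Finset V)
    (hX : ∀ x ∈ X, x ∈ bx 0 r ∧ ∃ v : ℤ → V, IsBi w v ∧ v 0 = x ∧ SL h w v)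
    (hL : ∀ v, IsBi w v → ∀ F : Finset V, (∀ x ∈ F, x ∈ bx 0 r ∧ x ∈ Set.range v) → F.card ≤ L)
    (hn : n * L ≤ X.card) :
    ∃ N₀ : ℕ, ∀ (N : ℕ) (z : V), bx 0 N₀ ⊆ bx z N → Many h n w z N r s := by
  classical
  have hX' : ∀ x : V, ∃ v : ℤ → V, x ∈ X → IsBi w v ∧ v 0 = x ∧ SL h w v := fun x => by
    by_cases hx : x ∈ X
    · obtain ⟨v, hv⟩ := (hX x hx).2
      exact ⟨v, fun _ => hv⟩
    · exact ⟨fun _ => 0, fun h => absurd h hx⟩
  choose v hv using hX'
  -- the set of ranges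
  obtain ⟨R, hR⟩ : ∃ R, R = X.image fun x => Set.range (v x) := ⟨_, rfl⟩
  have hcard : n ≤ R.card := by
    have h1 : X.card ≤ L * R.card := by
      rw [hR]
      refine Finset.card_le_mul_card_image X L fun b hb => ?_
      obtain ⟨x, hx, rfl⟩ := Finset.mem_image.1 hb
      refine hL (v x) (hv x hx).1 _ fun y hy => ?_
      rw [Finset.mem_filter] at hy
      refine ⟨(hX y hy.1).1, ?_⟩
      rw [← hy.2]
      exact ⟨0, (hv y hy.1).2.1⟩
    rw [mul_comm] at hn
    exact le_of_mul_le_mul_left (hn.trans h1) hL0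
  have hrep : ∀ i : R, ∃ x ∈ X, Set.range (v x) = i.1 := fun i => by
    obtain ⟨x, hx, hxi⟩ := Finset.mem_image.1 (hR ▸ i.2 : i.1 ∈ X.image fun x => Set.range (v x))
    exact ⟨x, hx, hxi⟩
  choose c hcX hcr using hrep
  obtain ⟨N₁, hN₁⟩ := cl_family (C := bx 0 s) hw ht hf (bx_finite 0 s) hNB
    (fun i : R => v (c i)) (fun i => (hv _ (hcX i)).1)
    (fun i => hm _ (hv _ (hcX i)).1 (hv _ (hcX i)).2.2)
    (fun i j hij heq => hij (Subtype.ext (by rw [← hcr i, ← hcr j]; exact heq)))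
  refine ⟨N₁ + s + 1, fun N z hz => ?_⟩
  have hN0 : 0 < N := by
    rcases Nat.eq_zero_or_pos N with h0 | h0
    · exfalso
      subst h0
      have e1 : (0 : V) ∈ bx z 0 := hz (center_mem 0 _)
      have e2 : ((1, 0) : V) ∈ bx 0 1 := ⟨by (clear * -; norm_num), by norm_num⟩
      have e3 := abs_le.1 e1.1
      have e4 := abs_le.1 (hz (bx_mono (by omega) e2)).1
      simp only [Prod.fst_zero, Nat.cast_zero] at e3 e4
      omega
    · exact h0
  have : NeZero (8 * N) := ⟨by omega⟩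
  have hsub : ∀ M : ℕ, M ≤ N₁ + s → bx 0 (M + 1) ⊆ bx z N := fun M hM =>
    (bx_mono (by omega)).trans hz
  have hout : ∀ M : ℕ, M ≤ N₁ + s → ∀ x ∈ bB z N, x ∉ bx 0 M := fun M hM x hx =>
    out_of_sub (hsub M hM) hx
  have hin : ∀ M : ℕ, M ≤ N₁ + s → bx 0 M ⊆ bx z N := fun M hM =>
    (bx_mono (Nat.le_succ M)).trans (hsub M hM)
  have h0 : ∀ i : R, v (c i) 0 ∈ bx 0 r := fun i => by
    rw [(hv _ (hcX i)).2.1]
    exact (hX _ (hcX i)).1
  have hex : ∀ i : R, ∃ (p : ZMod (8 * N) × ZMod (8 * N)) (s' t' : ℤ),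
      ExitP (v (c i)) (bx z N) (bd z N (p.1.val : ℤ)) (bd z N (p.2.val : ℤ)) s' t' := fun i =>
    CLp.exists_exit_pair hw (hv _ (hcX i)).1 hN0 (hin s (by omega) (bx_mono hrs (h0 i)))
  choose p s' t' hp using hex
  have hlin : ∀ i : R, Lin h w z N r s (p i) := fun i =>
    CLp.lin_of_exitP hw ht (hv _ (hcX i)).1 (hv _ (hcX i)).2.2 hN0 (h0 i) hrs
      (hout s (by omega)) (hp i)
  have hsep : ∀ i j : R, i ≠ j → ¬ Cn (Ex (TN w z N) (WN w z N s)) (p i) (p j) := fun i j hij =>
    hN₁ (bx z N) (8 * N) (fun i => bd z N (i.val : ℤ)) (CLp.att_bx hw z N) (hin N₁ (by omega))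
      (fun i => ⟨bd_mem_bx hN0 _, hout N₁ (by omega) _ (bd_mem_bB hN0 _)⟩) i j (p i) (p j) _ _ _ _
      hij (hp i) (hp j)
  have hself : ∀ i : R, Cn (Ex (TN w z N) (WN w z N s)) (p i) (p i) := fun i => by
    refine ⟨?_, Relation.ReflTransGen.refl⟩
    show TN w z N (p i).1 (p i).2 < WN w z N s (p i).1 (p i).2
    have := (hlin i).1
    linarith only [hh, this]
  have hinj : Function.Injective p := fun i j hij => by
    by_contra hne
    exact hsep i j hne (hij ▸ hself i)
  refine ⟨Finset.univ.image p, ?_, fun q hq => ?_, fun q hq q' hq' hcn => ?_⟩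
  · rw [Finset.card_image_of_injective _ hinj, Finset.card_univ, Fintype.card_coe]
    exact hcard
  · obtain ⟨i, -, rfl⟩ := Finset.mem_image.1 hq
    exact hlin i
  · obtain ⟨i, -, rfl⟩ := Finset.mem_image.1 hq
    obtain ⟨j, -, rfl⟩ := Finset.mem_image.1 hq'
    by_contra hne
    exact hsep i j (fun h => hne (by rw [h])) hcn

end Vale.Agent.P158.C.LinB
end
end

section

section

/-! Lowering lemma: two lanes with the same target are made to merge by lowering finitely many
weights on the two lanes only. -/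

namespace Vale.Agent.P158.C.Low

open SimpleGraph Vale.Agent.P158.T1 Vale.Agent.P158.CL

variable {t t' : Env} {S : Set V} {F R L : Finset latt.edgeSet} {x y z : V}

open Classical in
/-- The weights on `F` are replaced by those of `t'`. -/
noncomputable def mix (F : Finset latt.edgeSet) (t t' : Env) : Env :=
  fun e => if e ∈ F then t' e else t e

theorem mix_of_mem {e : latt.edgeSet} (h : e ∈ F) : mix F t t' e = t' e := if_pos h

theorem mix_of_not_mem {e : latt.edgeSet} (h : e ∉ F) : mix F t t' e = t e := if_neg h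

theorem mix_pos (ht : ∀ e, 0 < t e) (ht' : ∀ e ∈ F, 0 < t' e) (e : latt.edgeSet) :
    0 < mix F t t' e := by
  by_cases h : e ∈ F
  · rw [mix_of_mem h]; exact ht' e h
  · rw [mix_of_not_mem h]; exact ht e

theorem mix_le (ht' : ∀ e ∈ F, t' e ≤ t e) (e : latt.edgeSet) : mix F t t' e ≤ t e := by
  by_cases h : e ∈ F
  · rw [mix_of_mem h]; exact ht' e h
  · rw [mix_of_not_mem h]

theorem mix_union_le (ht' : ∀ e ∈ R ∪ L, t' e ≤ t e) (e : latt.edgeSet) :
    mix (R ∪ L) t t' e ≤ mix R t t' e := by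
  classical
  by_cases h : e ∈ R
  · rw [mix_of_mem h, mix_of_mem (Finset.mem_union_left L h)]
  · by_cases h' : e ∈ L
    · rw [mix_of_not_mem h, mix_of_mem (Finset.mem_union_right R h')]
      exact ht' e (Finset.mem_union_right R h')
    · rw [mix_of_not_mem h, mix_of_not_mem]
      simp [h, h']

/-- Weight of a path after mixing. -/
theorem ww_mix_ge (ht' : ∀ e ∈ F, t' e ≤ t e) {p : latt.Walk x y} (hp : p.IsPath) :
    ww (wt t) p - ∑ e ∈ F, (t e - t' e) ≤ ww (wt (mix F t t')) p := by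
  classical
  rw [Pe.ww_eq_sum hp, Pe.ww_eq_sum hp]
  have h1 : ∑ e ∈ pe p, mix F t t' e = ∑ e ∈ pe p, t e - ∑ e ∈ (pe p).filter (· ∈ F),
      (t e - t' e) := by
    rw [Finset.sum_filter, ← Finset.sum_sub_distrib]
    refine Finset.sum_congr rfl fun e _ => ?_
    by_cases h : e ∈ F
    · rw [mix_of_mem h, if_pos h]; ring
    · rw [mix_of_not_mem h, if_neg h]; ring
  have h2 : ∑ e ∈ (pe p).filter (· ∈ F), (t e - t' e) ≤ ∑ e ∈ F, (t e - t' e) := by
    refine Finset.sum_le_sum_of_subset_of_nonneg (fun e he => (Finset.mem_filter.1 he).2) ?_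
    intro e he _
    linarith only [ht' e he]
  rw [h1]
  linarith only [h2]

theorem ww_mix_eq {p : latt.Walk x y} (hp : p.IsPath) (hF : ∀ e ∈ F, e ∈ pe p) :
    ww (wt (mix F t t')) p = ww (wt t) p - ∑ e ∈ F, (t e - t' e) := by
  classical
  rw [Pe.ww_eq_sum hp, Pe.ww_eq_sum hp]
  have h1 : ∑ e ∈ pe p, mix F t t' e = ∑ e ∈ pe p, t e - ∑ e ∈ (pe p).filter (· ∈ F),
      (t e - t' e) := by
    rw [Finset.sum_filter, ← Finset.sum_sub_distrib]
    refine Finset.sum_congr rfl fun e _ => ?_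
    by_cases h : e ∈ F
    · rw [mix_of_mem h, if_pos h]; ring
    · rw [mix_of_not_mem h, if_neg h]; ring
  have h2 : (pe p).filter (· ∈ F) = F := by
    ext e
    rw [Finset.mem_filter]
    exact ⟨fun h => h.2, fun h => ⟨hF e h, h⟩⟩
  rw [h1, h2]

theorem ww_mix_off {p : latt.Walk x y} (hp : ∀ e ∈ pe p, e ∉ F) :
    ww (wt (mix F t t')) p = ww (wt t) p :=
  Vale.Agent.P158.T1.ww_congr p fun e he => mix_of_not_mem (hp e he)

theorem ww_mix_offL {p : latt.Walk x y} (hp : ∀ e ∈ pe p, e ∉ L) :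
    ww (wt (mix (R ∪ L) t t')) p = ww (wt (mix R t t')) p := by
  classical
  refine Vale.Agent.P158.T1.ww_congr p fun e he => ?_
  by_cases h : e ∈ R
  · rw [mix_of_mem h, mix_of_mem (Finset.mem_union_left L h)]
  · rw [mix_of_not_mem h, mix_of_not_mem]
    simp [h, hp e he]

theorem ww_mix_offR {p : latt.Walk x y} (hp : ∀ e ∈ pe p, e ∉ R) :
    ww (wt (mix (R ∪ L) t t')) p = ww (wt (mix L t t')) p := by
  classical
  refine Vale.Agent.P158.T1.ww_congr p fun e he => ?_
  by_cases h : e ∈ L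
  · rw [mix_of_mem h, mix_of_mem (Finset.mem_union_right R h)]
  · rw [mix_of_not_mem h, mix_of_not_mem]
    simp [h, hp e he]

/-- Split a walk at its first edge in `E`. -/
theorem split_edge {E : Set latt.edgeSet} (p : latt.Walk x y) (h : ∃ e ∈ pe p, e ∈ E) :
    ∃ (a b : V) (hab : latt.Adj a b) (p₁ : latt.Walk x a) (p₂ : latt.Walk b y),
      p = p₁.append (Walk.cons hab p₂) ∧ (⟨s(a, b), hab⟩ : latt.edgeSet) ∈ E ∧
      ∀ e ∈ pe p₁, e ∉ E := by
  induction p with
  | nil =>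
    obtain ⟨e, he, -⟩ := h
    simp [pe] at he
  | cons hab p ih =>
    rename_i a b c
    by_cases hE : (⟨s(a, b), hab⟩ : latt.edgeSet) ∈ E
    · exact ⟨a, b, hab, Walk.nil, p, rfl, hE, by simp [pe]⟩
    · obtain ⟨e, he, heE⟩ := h
      have he' : e ∈ pe p := by
        rw [mem_pe] at he ⊢
        obtain ⟨d, hd, rfl⟩ := he
        rw [Walk.darts_cons, List.mem_cons] at hd
        rcases hd with rfl | hd
        · exact absurd heE hE
        · exact ⟨d, hd, rfl⟩
      obtain ⟨u, v, huv, p₁, p₂, h1, h2, h3⟩ := ih ⟨e, he', heE⟩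
      refine ⟨u, v, huv, Walk.cons hab p₁, p₂, by rw [h1]; rfl, h2, fun e hm => ?_⟩
      rw [mem_pe] at hm
      obtain ⟨d, hd, rfl⟩ := hm
      rw [Walk.darts_cons, List.mem_cons] at hd
      rcases hd with rfl | hd
      · exact hE
      · exact h3 _ (mem_pe.2 ⟨d, hd, rfl⟩)

/-- Passage time additivity along a geodesic walk. -/
theorem geo_split {w : V → V → ℝ} (hw : Adm w) {p : latt.Walk x y} (hp : Geo w S p)
    (hz : z ∈ p.support) :
    Geo w S (p.takeUntil z hz) ∧ Geo w S (p.dropUntil z hz) ∧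
      PT w S x z + PT w S z y = PT w S x y := by
  have h1 : ∀ u ∈ (p.takeUntil z hz).support, u ∈ S := fun u hu =>
    hp.1 u (p.support_takeUntil_subset_support hz hu)
  have h2 : ∀ u ∈ (p.dropUntil z hz).support, u ∈ S := fun u hu =>
    hp.1 u (p.support_dropUntil_subset_support hz hu)
  have h3 := ww_takeUntil_add_dropUntil (w := w) p hz
  have h4 := PT_le hw _ h1
  have h5 := PT_le hw _ h2
  have h6 := PT_triangle hw (⟨_, h1⟩ : Conn S x z) (⟨_, h2⟩ : Conn S z y)
  have h7 := hp.2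
  exact ⟨⟨h1, by linarith only [h4, h3, h5, h6, h7]⟩, ⟨h2, by linarith only [h5, h3, h4, h6, h7]⟩, by linarith only [h6, h3, h4, h5, h7]⟩

theorem geo_append {w : V → V → ℝ} (hw : Adm w) {p : latt.Walk x z} {q : latt.Walk z y}
    (hp : Geo w S (p.append q)) : Geo w S p ∧ Geo w S q ∧
      PT w S x z + PT w S z y = PT w S x y := by
  have h1 : ∀ u ∈ p.support, u ∈ S := fun u hu =>
    hp.1 u (by rw [Walk.mem_support_append_iff]; exact Or.inl hu)
  have h2 : ∀ u ∈ q.support, u ∈ S := fun u hu =>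
    hp.1 u (by rw [Walk.mem_support_append_iff]; exact Or.inr hu)
  have h3 := ww_append (w := w) p q
  have h4 := PT_le hw _ h1
  have h5 := PT_le hw _ h2
  have h6 := PT_triangle hw (⟨_, h1⟩ : Conn S x z) (⟨_, h2⟩ : Conn S z y)
  have h7 := hp.2
  exact ⟨⟨h1, by linarith only [h4, h3, h5, h6, h7]⟩, ⟨h2, by linarith⟩, by linarith⟩

theorem mem_supp_of_pe {p : latt.Walk x y} {e : latt.edgeSet} (he : e ∈ pe p) {u : V}
    (hu : u ∈ e.1) : u ∈ p.support := by
  rw [mem_pe] at he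
  obtain ⟨d, hd, rfl⟩ := he
  have hz' : u = d.fst ∨ u = d.snd := by
    have : u ∈ s(d.fst, d.snd) := hu
    simpa using this
  rcases hz' with rfl | rfl
  · exact p.dart_fst_mem_support_of_mem_darts hd
  · exact p.dart_snd_mem_support_of_mem_darts hd

theorem mem_pe_append {p : latt.Walk x z} {q : latt.Walk z y} {e : latt.edgeSet} :
    e ∈ pe (p.append q) ↔ e ∈ pe p ∨ e ∈ pe q := by
  rw [Pe.pe_append, Finset.mem_union]

theorem mem_pe_cons {a b : V} {hab : latt.Adj a b} {q : latt.Walk b y} {e : latt.edgeSet} :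
    e ∈ pe (Walk.cons hab q) ↔ e = ⟨s(a, b), hab⟩ ∨ e ∈ pe q := by
  rw [mem_pe, mem_pe]
  constructor
  · rintro ⟨d, hd, rfl⟩
    rw [Walk.darts_cons, List.mem_cons] at hd
    rcases hd with rfl | hd
    · exact Or.inl rfl
    · exact Or.inr ⟨d, hd, rfl⟩
  · rintro (rfl | ⟨d, hd, rfl⟩)
    · exact ⟨⟨(a, b), hab⟩, by simp, rfl⟩
    · exact ⟨d, by simp [hd], rfl⟩

/-- Hypotheses of the lowering lemma. -/
structure Data (t t' : Env) (S : Set V) (R L : Finset latt.edgeSet) {x y x' v v' : V}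
    (l₁ : latt.Walk x v) (l₂ : latt.Walk v y) (l' : latt.Walk x' v') (K h η Λ : ℝ) : Prop where
  ht : ∀ e, 0 < t e
  ht' : ∀ e ∈ R ∪ L, 0 < t' e ∧ t' e ≤ t e
  hc : ∀ a ∈ S, ∀ b ∈ S, Conn S a b
  hA : Att (wt t) S
  hA0 : Att (wt (mix R t t')) S
  hAi : Att (wt (mix (R ∪ L) t t')) S
  hl : Geo (wt t) S (l₁.append l₂)
  hl' : Geo (wt t) S l'
  hR : ∀ e ∈ R, e ∈ pe l₂
  hL : ∀ e ∈ L, e ∈ pe l'
  hLl : ∀ e ∈ L, e ∉ pe (l₁.append l₂)
  hK : PT (wt t) S v v' ≤ K
  hK0 : 0 < K
  hS : PT (wt t) S x' v' + PT (wt t) S v y ≤ PT (wt t) S x' y + K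
  hΛ : ∀ e ∈ L, ∀ z ∈ e.1, Λ ≤ PT (wt t) S z v'
  hH : ∀ e ∈ L, ∀ q ∈ e.1, ∀ e' ∈ R, ∀ m ∈ e'.1,
    PT (wt (mix R t t')) S x y + PT (wt t) S x' q + h ≤
      PT (wt t) S x q + PT (wt t) S x' m + PT (wt (mix R t t')) S m y
  hη : η < h
  hη0 : 0 ≤ η
  hD : 4 * K + η < ∑ e ∈ R, (t e - t' e)
  hΛ' : 5 * K + η ≤ Λ
  h1 : PT (wt (mix (R ∪ L) t t')) S x' y < PT (wt (mix R t t')) S x' y
  h2 : PT (wt (mix R t t')) S x' y - η ≤ PT (wt (mix (R ∪ L) t t')) S x' y

/-- The lowering lemma. -/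
theorem lowering {x y x' v v' : V} {l₁ : latt.Walk x v} {l₂ : latt.Walk v y}
    {l' : latt.Walk x' v'} {K h η Λ : ℝ} (d : Data t t' S R L l₁ l₂ l' K h η Λ) :
    Geo (wt (mix (R ∪ L) t t')) S (l₁.append l₂) ∧
    ∃ p ∈ (l₁.append l₂).support, ∃ q', q' ∉ (l₁.append l₂).support ∧
      UE (wt (mix (R ∪ L) t t')) S x' y q' p ∧
      ∃ e ∈ L, ∃ z ∈ e.1, ∃ e' ∈ R, ∃ m ∈ e'.1,
        PT (wt (mix (R ∪ L) t t')) S z p ≤ PT (wt t) S z m := by
  classical
  obtain ⟨ht, ht', hc, hA, hA0, hAi, hl, hl', hR, hL, hLl, hK, hK0, hS, hΛ, hH, hη, hη0, hD,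
    hΛ', h1, h2⟩ := d
  set l := l₁.append l₂ with hldef
  set w := wt t with hwdef
  set w0 := wt (mix R t t') with hw0def
  set wi := wt (mix (R ∪ L) t t') with hwidef
  set D := ∑ e ∈ R, (t e - t' e) with hDdef
  set φ := ∑ e ∈ L, (t e - t' e) with hφdef
  have hRl : ∀ e ∈ R, e ∈ pe l := fun e he => mem_pe_append.2 (Or.inr (hR e he))
  have hdisj : Disjoint R L := by
    rw [Finset.disjoint_left]
    exact fun e he he' => hLl e he' (hRl e he)
  have hw : Adm w := adm_of_pos ht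
  have hw0 : Adm w0 := adm_of_pos (mix_pos ht fun e he => (ht' e (Finset.mem_union_left L he)).1)
  have hwi : Adm wi := adm_of_pos (mix_pos ht fun e he => (ht' e he).1)
  have htR : ∀ e ∈ R, t' e ≤ t e := fun e he => (ht' e (Finset.mem_union_left L he)).2
  have htL : ∀ e ∈ L, t' e ≤ t e := fun e he => (ht' e (Finset.mem_union_right R he)).2
  have htU : ∀ e ∈ R ∪ L, t' e ≤ t e := fun e he => (ht' e he).2
  have hφ0 : 0 ≤ φ := Finset.sum_nonneg fun e he => by linarith only [htL e he]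
  have le0 : ∀ a b, latt.Adj a b → w0 a b ≤ w a b := wt_mono (mix_le htR)
  have lei : ∀ a b, latt.Adj a b → wi a b ≤ w0 a b := wt_mono (mix_union_le htU)
  have sumU : ∑ e ∈ R ∪ L, (t e - t' e) = D + φ := Finset.sum_union hdisj
  -- endpoints
  have hxS : x ∈ S := hl.1 x l.start_mem_support
  have hyS : y ∈ S := hl.1 y l.end_mem_support
  have hx'S : x' ∈ S := hl'.1 x' l'.start_mem_support
  have hv'S : v' ∈ S := hl'.1 v' l'.end_mem_support
  have hvl : v ∈ l.support := by
    rw [hldef, Walk.mem_support_append_iff]; exact Or.inl l₁.end_mem_support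
  have hvS : v ∈ S := hl.1 v hvl
  have hmS : ∀ e ∈ R, ∀ m ∈ e.1, m ∈ l.support := fun e he m hm => mem_supp_of_pe (hRl e he) hm
  have hqS : ∀ e ∈ L, ∀ q ∈ e.1, q ∈ l'.support := fun e he q hq => mem_supp_of_pe (hL e he) hq
  -- monotonicity
  have T0le : ∀ a ∈ S, ∀ b ∈ S, PT w0 S a b ≤ PT w S a b := fun a ha b hb =>
    PT_mono_weight hw0 le0 (hc a ha b hb)
  have Tile : ∀ a ∈ S, ∀ b ∈ S, PT wi S a b ≤ PT w0 S a b := fun a ha b hb =>
    PT_mono_weight hwi lei (hc a ha b hb)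
  have T0ge : ∀ a ∈ S, ∀ b ∈ S, PT w S a b - D ≤ PT w0 S a b := by
    intro a ha b hb
    obtain ⟨p, hp, hp'⟩ := hA0 a ha b hb
    have hpp : p.IsPath := Geo.isPath hw0 ⟨hp, hp'⟩
    have a1 := ww_mix_ge htR hpp
    have a2 := PT_le hw p hp
    linarith only [hp', a1, a2]
  -- weights of l
  have hlp : l.IsPath := hl.isPath hw
  obtain ⟨hl1, hl2, hladd⟩ := geo_append hw hl
  have hl2p : l₂.IsPath := hl2.isPath hw
  have hl'p : l'.IsPath := hl'.isPath hw
  have e0l : ww w0 l = PT w S x y - D := by rw [← hl.2]; exact ww_mix_eq hlp hRl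
  have e0l2 : ww w0 l₂ = PT w S v y - D := by rw [← hl2.2]; exact ww_mix_eq hl2p hR
  have eil : ww wi l = ww w0 l := ww_mix_offL fun e he he' => hLl e he' he
  have E0 : PT w0 S x y = PT w S x y - D := by
    apply le_antisymm
    · rw [← e0l]; exact PT_le hw0 l hl.1
    · exact T0ge x hxS y hyS
  -- step 1
  have s1 : PT w0 S x' y ≤ PT w S x' y + 2 * K - D := by
    have a1 := PT_triangle hw0 (hc x' hx'S v' hv'S) (hc v' hv'S y hyS)
    have a2 := PT_triangle hw0 (hc v' hv'S v hvS) (hc v hvS y hyS)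
    have a3 := T0le x' hx'S v' hv'S
    have a4 := T0le v' hv'S v hvS
    have a5 := PT_le hw0 l₂ hl2.1
    rw [PT_comm hw (x := v')] at a4
    linarith only [hK, hS, e0l2, a1, a2, a3, a4, a5]
  -- step 2
  have s2 : φ ≤ 2 * K + η := by
    have a1 := PT_triangle hwi (hc x' hx'S v' hv'S) (hc v' hv'S y hyS)
    have a2 := PT_triangle hwi (hc v' hv'S v hvS) (hc v hvS y hyS)
    have a3 := (Tile v' hv'S v hvS).trans (T0le v' hv'S v hvS)
    rw [PT_comm hw (x := v')] at a3
    have a4 : PT wi S x' v' ≤ PT w S x' v' - φ := by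
      have b1 := PT_le hwi l' hl'.1
      have b2 : ww wi l' ≤ ww (wt (mix L t t')) l' := by
        refine ww_mono (wt_mono fun e => ?_) l'
        by_cases h : e ∈ L
        · rw [mix_of_mem h, mix_of_mem (Finset.mem_union_right R h)]
        · rw [mix_of_not_mem h]
          exact mix_le htU e
      have b3 := ww_mix_eq (t := t) (t' := t') hl'p hL
      have b4 := hl'.2
      linarith only [b1, b2, b3, b4]
    have a5 : PT wi S v y ≤ PT w S v y - D := by
      have b1 := PT_le hwi l₂ hl2.1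
      have b2 : ww wi l₂ ≤ ww w0 l₂ := ww_mono lei l₂
      linarith only [e0l2, b1, b2]
    have a6 := T0ge x' hx'S y hyS
    linarith only [hK, hS, h2, a1, a2, a3, a4, a5, a6]
  -- step 3
  obtain ⟨e₀, he₀, m₀, hm₀, s3⟩ : ∃ e ∈ R, ∃ m ∈ e.1,
      PT w S x' m + PT w0 S m y ≤ PT w0 S x' y := by
    obtain ⟨p, hp, hp'⟩ := hA0 x' hx'S y hyS
    have hR' : ∃ e ∈ pe p, e ∈ (R : Set latt.edgeSet) := by
      by_contra hcon
      push Not at hcon
      have a1 : ww w0 p = ww w p := ww_mix_off fun e he => by simpa using hcon e he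
      have a2 := PT_le hw p hp
      linarith only [hK0, h1, h2, hD, s1, hp', a1, a2]
    obtain ⟨a, b, hab, p₁, p₂, hpe, hE, hoff⟩ := split_edge p hR'
    have hE' : (⟨s(a, b), hab⟩ : latt.edgeSet) ∈ R := by simpa using hE
    refine ⟨_, hE', a, by simp, ?_⟩
    have hs1 : ∀ u ∈ p₁.support, u ∈ S := fun u hu => hp u (by
      rw [hpe, Walk.mem_support_append_iff]; exact Or.inl hu)
    have hs2 : ∀ u ∈ (Walk.cons hab p₂).support, u ∈ S := fun u hu => hp u (by
      rw [hpe, Walk.mem_support_append_iff]; exact Or.inr hu)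
    have a1 : ww w0 p₁ = ww w p₁ := ww_mix_off fun e he => by simpa using hoff e he
    have a2 := PT_le hw p₁ hs1
    have a3 := PT_le hw0 _ hs2
    rw [hpe, ww_append] at hp'
    linarith only [hp', a1, a2, a3]
  have T0x'y := T0ge x' hx'S y hyS
  -- step 4
  have s4 : ∀ p : latt.Walk x y, (∀ u ∈ p.support, u ∈ S) → p.IsPath →
      (∃ e ∈ pe p, e ∈ (L : Set latt.edgeSet)) → PT w0 S x y < ww wi p := by
    intro p hp hpp hpL
    obtain ⟨q, b, hqb, p₁, p₂, hpe, hE, hoff⟩ := split_edge p hpL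
    have hE' : (⟨s(q, b), hqb⟩ : latt.edgeSet) ∈ L := by simpa using hE
    have hs1 : ∀ u ∈ p₁.support, u ∈ S := fun u hu => hp u (by
      rw [hpe, Walk.mem_support_append_iff]; exact Or.inl hu)
    have hs2 : ∀ u ∈ (Walk.cons hqb p₂).support, u ∈ S := fun u hu => hp u (by
      rw [hpe, Walk.mem_support_append_iff]; exact Or.inr hu)
    have hqS' : q ∈ S := hs1 q p₁.end_mem_support
    have hql' : q ∈ l'.support := hqS _ hE' q (by simp)
    by_cases hcase : ∃ e ∈ pe p₁, e ∈ R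
    · -- a lowered right edge before `q`
      obtain ⟨e₁, he₁, he₁R⟩ := hcase
      obtain ⟨m, hm⟩ : ∃ m, m ∈ e₁.1 := by
        obtain ⟨⟨u, v⟩, huv⟩ := Sym2.mk_surjective e₁.1
        exact ⟨u, by rw [← huv]; simp⟩
      have hmp : m ∈ p₁.support := mem_supp_of_pe he₁ hm
      have hml : m ∈ l.support := hmS _ he₁R m hm
      have hml2 : m ∈ l₂.support := mem_supp_of_pe (hR _ he₁R) hm
      have hmS' : m ∈ S := hs1 m hmp
      have a1 : PT w S x m ≤ ww w p₁ := by
        have b1 := PT_le hw (p₁.takeUntil m hmp) fun u hu =>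
          hs1 u (p₁.support_takeUntil_subset_support hmp hu)
        exact b1.trans (ww_takeUntil_le hw p₁ hmp)
      have a2 := PT_le hw _ hs2
      have a3 : ww w p = ww w p₁ + ww w (Walk.cons hqb p₂) := by rw [hpe, ww_append]
      have a4 := PT_triangle hw (hc x' hx'S q hqS') (hc q hqS' y hyS)
      have a5 := (geo_split hw hl' hql').2.2
      have a6 := hΛ _ hE' q (by simp)
      have a7 := (geo_split hw hl2 hml2).2.2
      have a8 := PT_triangle hw (hc x hxS m hmS') (hc m hmS' y hyS)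
      have a9 := ww_mix_ge (F := R ∪ L) htU hpp
      rw [sumU] at a9
      have a10 := PT_nonneg (S := S) (x := v) (y := m) hw
      linarith only [hK0, hΛ', hS, E0, s2, a1, a2, a3, a4, a5, a6, a7, a8, a9, a10]
    · push Not at hcase
      have a1 : ww wi p₁ = ww w p₁ := by
        refine ww_mix_off fun e he => ?_
        rw [Finset.mem_union, not_or]
        exact ⟨hcase e he, fun h => hoff e he (by simpa using h)⟩
      have a2 := PT_le hw p₁ hs1
      have a3 := PT_le hwi _ hs2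
      have a4 := PT_triangle hwi (hc x' hx'S q hqS') (hc q hqS' y hyS)
      have a5 := (Tile x' hx'S q hqS').trans (T0le x' hx'S q hqS')
      have a6 := hH _ hE' q (by simp) e₀ he₀ m₀ hm₀
      have a7 : ww wi p = ww wi p₁ + ww wi (Walk.cons hqb p₂) := by rw [hpe, ww_append]
      linarith only [hη, h2, s3, a1, a2, a3, a4, a5, a6, a7]
  -- step 5
  have s5 : PT wi S x y = ww wi l := by
    apply le_antisymm
    · exact PT_le hwi l hl.1
    · obtain ⟨p, hp, hp'⟩ := hAi x hxS y hyS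
      have hpp : p.IsPath := Geo.isPath hwi ⟨hp, hp'⟩
      have hE : ww wi l = PT w0 S x y := by rw [eil, e0l, E0]
      by_cases hpL : ∃ e ∈ pe p, e ∈ (L : Set latt.edgeSet)
      · have := s4 p hp hpp hpL
        linarith only [e0l, eil, E0, hp', this]
      · push Not at hpL
        have a1 : ww wi p = ww w0 p := ww_mix_offL fun e he => by simpa using hpL e he
        have a2 := PT_le hw0 p hp
        linarith
  have hgl : Geo wi S l := ⟨hl.1, s5.symm⟩
  have hwil : ww wi l = PT w0 S x y := by rw [eil, e0l, E0]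
  refine ⟨hgl, ?_⟩
  -- step 6
  obtain ⟨π, hπS, hπ⟩ := hAi x' hx'S y hyS
  have hπg : Geo wi S π := ⟨hπS, hπ⟩
  have hπp : π.IsPath := hπg.isPath hwi
  have hπL : ∃ e ∈ pe π, e ∈ L := by
    by_contra hcon
    push Not at hcon
    have a1 : ww wi π = ww w0 π := ww_mix_offL hcon
    have a2 := PT_le hw0 π hπS
    linarith only [h1, hπ, a1, a2]
  have hπR : ∃ e ∈ pe π, e ∈ R := by
    by_contra hcon
    push Not at hcon
    have a1 : ww wi π = ww (wt (mix L t t')) π := ww_mix_offR hcon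
    have a2 := ww_mix_ge (F := L) htL hπp
    have a3 := PT_le hw π hπS
    linarith only [h1, hD, s1, s2, hπ, a1, a2, a3]
  -- first vertex on `l`
  obtain ⟨p, π₁, π₂, hπe, hpl, hfirst⟩ := first_hit (fun u => u ∈ l.support) π l.end_mem_support
  rw [hπe] at hπg
  obtain ⟨hπ1, hπ2, hπadd⟩ := geo_append hwi hπg
  have hpS : p ∈ S := hl.1 p hpl
  -- `π₂` avoids `L`
  have hπ2L : ∀ e ∈ pe π₂, e ∉ L := by
    intro e he heL
    obtain ⟨g1, g2, g3⟩ := geo_split hwi hgl hpl
    set σ := (l.takeUntil p hpl).append π₂ with hσ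
    have hσS : ∀ u ∈ σ.support, u ∈ S := by
      intro u hu
      rw [hσ, Walk.mem_support_append_iff] at hu
      rcases hu with hu | hu
      · exact g1.1 u hu
      · exact hπ2.1 u hu
    have hσw : ww wi σ = PT wi S x y := by
      rw [hσ, ww_append, g1.2, hπ2.2, g3]
    have hσp : σ.IsPath := Geo.isPath hwi ⟨hσS, hσw⟩
    have := s4 σ hσS hσp ⟨e, mem_pe_append.2 (Or.inr he), by simpa using heL⟩
    linarith only [e0l, eil, E0, s5, hσw, this]
  obtain ⟨e₁, he₁, he₁L⟩ := hπL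
  have he₁π : e₁ ∈ pe π₁ := by
    rw [hπe, mem_pe_append] at he₁
    rcases he₁ with h | h
    · exact h
    · exact absurd he₁L (hπ2L _ h)
  obtain ⟨e₂, he₂, he₂R⟩ := hπR
  have hsupp1 : ∀ u ∈ π₁.support, u ∈ l.support → u = p := by
    intro u hu hul
    by_contra hne
    obtain ⟨d, hd, hdu⟩ : ∃ d ∈ π₁.darts, d.fst = u := by
      have : u ∈ π₁.support.dropLast := by
        rw [← Walk.dropLast_support_concat, List.mem_append, List.mem_singleton] at hu
        rcases hu with hu | hu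
        · exact hu
        · exact absurd hu hne
      rw [← Walk.map_fst_darts] at this
      obtain ⟨d, hd, h⟩ := List.mem_map.1 this
      exact ⟨d, hd, h⟩
    exact hfirst d hd (hdu ▸ hul)
  have he₂π : e₂ ∈ pe π₂ := by
    rw [hπe, mem_pe_append] at he₂
    rcases he₂ with h | h
    · exfalso
      obtain ⟨e₂, he₂'⟩ := e₂
      induction e₂ using Sym2.ind with
      | _ a b =>
        have hab : latt.Adj a b := he₂'
        have ha := hsupp1 a (mem_supp_of_pe h (by simp)) (hmS _ he₂R a (by simp))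
        have hb := hsupp1 b (mem_supp_of_pe h (by simp)) (hmS _ he₂R b (by simp))
        rw [ha, hb] at hab
        exact hab.ne rfl
    · exact h
  -- the last edge of `π₁`
  obtain ⟨q', ρ, hq'p, hρ⟩ : ∃ (q' : V) (ρ : latt.Walk x' q') (h : latt.Adj q' p),
      π₁ = ρ.concat h := by
    cases π₁ with
    | nil => simp [pe] at he₁π
    | cons h₀ p₀ =>
      obtain ⟨u, q, h', hh⟩ := Walk.exists_cons_eq_concat h₀ p₀
      exact ⟨u, q, h', hh⟩
  have hρS : ∀ u ∈ ρ.support, u ∈ S := fun u hu => hπ1.1 u (by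
    rw [hρ, Walk.support_concat, List.mem_append]; exact Or.inl hu)
  have hq'S : q' ∈ S := hρS q' ρ.end_mem_support
  have hq'π : q' ∈ π₁.support := by
    rw [hρ, Walk.support_concat, List.mem_append]
    exact Or.inl ρ.end_mem_support
  have hq'l : q' ∉ l.support := fun h => hq'p.ne (hsupp1 q' hq'π h)
  have hwρ : ww wi π₁ = ww wi ρ + wi q' p := by
    rw [hρ, Walk.concat_eq_append, ww_append, ww_cons, ww_nil, add_zero]
  have hue : UE wi S x' y q' p := by
    refine ⟨hq'p, hq'S, hpS, ?_⟩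
    have a1 := PT_le hwi ρ hρS
    have a2 := hπ1.2
    have a3 := PT_triangle hwi (hc x' hx'S q' hq'S) (hc q' hq'S p hpS)
    have a4 := PT_adj_le (S := S) hwi hq'p hq'S hpS
    linarith only [hπadd, a3, a4, hwρ, a1, a2]
  refine ⟨p, hpl, q', hq'l, hue, ?_⟩
  obtain ⟨z, hz⟩ : ∃ z, z ∈ e₁.1 := by
    obtain ⟨⟨u, v⟩, huv⟩ := Sym2.mk_surjective e₁.1
    exact ⟨u, by rw [← huv]; simp⟩
  obtain ⟨m, hm⟩ : ∃ m, m ∈ e₂.1 := by
    obtain ⟨⟨u, v⟩, huv⟩ := Sym2.mk_surjective e₂.1
    exact ⟨u, by rw [← huv]; simp⟩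
  have hzπ : z ∈ π₁.support := mem_supp_of_pe he₁π hz
  have hmπ : m ∈ π₂.support := mem_supp_of_pe he₂π hm
  have hzS : z ∈ S := hπ1.1 z hzπ
  have hmS' : m ∈ S := hπ2.1 m hmπ
  refine ⟨e₁, he₁L, z, hz, e₂, he₂R, m, hm, ?_⟩
  have a1 := (geo_split hwi hπ1 hzπ).2.2
  have a2 := (geo_split hwi hπ2 hmπ).2.2
  have a3 := PT_triangle hwi (hc x' hx'S z hzS) (hc z hzS y hyS)
  have a4 := PT_triangle hwi (hc z hzS m hmS') (hc m hmS' y hyS)
  have a5 := (Tile z hzS m hmS').trans (T0le z hzS m hmS')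
  have a6 := PT_nonneg (S := S) (x := p) (y := m) hwi
  linarith only [hπadd, a1, a2, a3, a4, a5, a6]

/-- The merge vertex has a predecessor on the first lane. -/
theorem exists_pred {w : V → V → ℝ} (hw : Adm w) {l : latt.Walk x y} (hl : Geo w S l)
    (hc : ∀ a ∈ S, ∀ b ∈ S, Conn S a b) {p : V}
    (hp : p ∈ l.support) (hpx : p ≠ x) : ∃ q ∈ l.support, UE w S x y q p := by
  obtain ⟨g1, g2, g3⟩ := geo_split hw hl hp
  have hxS : x ∈ S := hl.1 x l.start_mem_support
  have hpS : p ∈ S := hl.1 p hp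
  obtain ⟨q, ρ, hqp, hρ⟩ : ∃ (q : V) (ρ : latt.Walk x q) (h : latt.Adj q p),
      l.takeUntil p hp = ρ.concat h := by
    cases h : l.takeUntil p hp with
    | nil => exact absurd rfl hpx
    | cons h₀ p₀ =>
      obtain ⟨u, q, h', hh⟩ := Walk.exists_cons_eq_concat h₀ p₀
      exact ⟨u, q, h', hh⟩
  have hρs : ∀ u ∈ ρ.support, u ∈ (l.takeUntil p hp).support := fun u hu => by
    rw [hρ, Walk.support_concat, List.mem_append]; exact Or.inl hu
  have hρS : ∀ u ∈ ρ.support, u ∈ S := fun u hu => g1.1 u (hρs u hu)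
  have hqS : q ∈ S := hρS q ρ.end_mem_support
  refine ⟨q, l.support_takeUntil_subset_support hp (hρs q ρ.end_mem_support), hqp, hqS, hpS, ?_⟩
  have hwρ : ww w (l.takeUntil p hp) = ww w ρ + w q p := by
    rw [hρ, Walk.concat_eq_append, ww_append, ww_cons, ww_nil, add_zero]
  have a1 := PT_le hw ρ hρS
  have a2 := g1.2
  have a3 := PT_triangle hw (hc x hxS q hqS) (hc q hqS p hpS)
  have a4 := PT_adj_le (S := S) hw hqp hqS hpS
  linarith only [g3, a3, a4, hwρ, a1, a2]

end Vale.Agent.P158.C.Low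
end
end

section

section

/-! Counting part of the merge bound, deterministic statements: trees of geodesics with a fixed
target inside a finite domain. -/

namespace Vale.Agent.P158.C.MrgA

open SimpleGraph MeasureTheory Vale.Agent.P158.T1 Vale.Agent.P158.CL
open scoped ENNReal

variable {w : V → V → ℝ} {S A : Set V} {x y z p v s s' : V} {m : ℕ}

theorem ue_of_geo (hw : Adm w) {h : latt.Adj p x} {l₁ : latt.Walk s p} {l₂ : latt.Walk x y}
    (hg : Geo w S (l₁.append (Walk.cons h l₂))) : UE w S s y p x := by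
  obtain ⟨-, g2, g3⟩ := Low.geo_append hw hg
  have e : Walk.cons h l₂ = (Walk.cons h Walk.nil).append l₂ := rfl
  rw [e] at g2
  obtain ⟨g4, g5, g6⟩ := Low.geo_append hw g2
  have g7 := g4.2
  rw [ww_cons, ww_nil, add_zero] at g7
  refine ⟨h, g4.1 p (Walk.start_mem_support _), g5.1 x (Walk.start_mem_support _), ?_⟩
  rw [g7, ← g3, ← g6]
  ring

theorem geo_of_parts {l₁ : latt.Walk s x} {l₂ : latt.Walk x y} (h1 : Geo w S l₁)
    (h2 : Geo w S l₂) (h : PT w S s x + PT w S x y = PT w S s y) : Geo w S (l₁.append l₂) := by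
  refine ⟨fun u hu => ?_, by rw [ww_append, h1.2, h2.2, h]⟩
  rw [Walk.mem_support_append_iff] at hu
  rcases hu with hu | hu
  · exact h1.1 u hu
  · exact h2.1 u hu

theorem on_geo (hA : Att w S) (hs : s ∈ S) (hy : y ∈ S) (h : On w S s y x) :
    ∃ l : latt.Walk s y, Geo w S l ∧ x ∈ l.support := by
  obtain ⟨l₁, h1⟩ := exists_geo hA hs h.1
  obtain ⟨l₂, h2⟩ := exists_geo hA h.1 hy
  exact ⟨l₁.append l₂, geo_of_parts h1 h2 h.2, by
    rw [Walk.mem_support_append_iff]; exact Or.inl l₁.end_mem_support⟩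

theorem geo_on (hw : Adm w) {l : latt.Walk s y} (hl : Geo w S l) (hx : x ∈ l.support) :
    On w S s y x := ⟨hl.1 x hx, (Low.geo_split hw hl hx).2.2⟩

/-- The walk behind a used edge. -/
theorem ue_walk (hA : Att w S) (hs : s ∈ S)
    (hy : y ∈ S) (h : UE w S s y p x) :
    ∃ (l₁ : latt.Walk s p) (l₂ : latt.Walk x y), Geo w S (l₁.append (Walk.cons h.1 l₂)) := by
  obtain ⟨h0, hp, hx, h1⟩ := h
  obtain ⟨l₁, g1⟩ := exists_geo hA hs hp
  obtain ⟨l₂, g2⟩ := exists_geo hA hx hy
  refine ⟨l₁, l₂, fun u hu => ?_, ?_⟩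
  · rw [Walk.mem_support_append_iff, Walk.support_cons, List.mem_cons] at hu
    rcases hu with hu | rfl | hu
    · exact g1.1 u hu
    · exact hp
    · exact g2.1 u hu
  · rw [ww_append, ww_cons, g1.2, g2.2, ← h1]
    ring

theorem ue_on (hw : Adm w) (hA : Att w S) (hs : s ∈ S) (hy : y ∈ S) (h : UE w S s y p x) : On w S s y p ∧ On w S s y x := by
  obtain ⟨l₁, l₂, hg⟩ := ue_walk hA hs hy h
  constructor
  · exact geo_on hw hg (by rw [Walk.mem_support_append_iff]; exact Or.inl l₁.end_mem_support)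
  · exact geo_on hw hg (by
      rw [Walk.mem_support_append_iff, Walk.support_cons]
      exact Or.inr (List.mem_cons_of_mem _ l₂.start_mem_support))

/-- Out-degree one. -/
theorem ue_unique (hw : Adm w) (ht : TF w) (hA : Att w S) (hs : s ∈ S) (hs' : s' ∈ S) (hy : y ∈ S) {x' : V}
    (h : UE w S s y p x) (h' : UE w S s' y p x') : x = x' := by
  obtain ⟨l₁, l₂, hg⟩ := ue_walk hA hs hy h
  obtain ⟨l₁', l₂', hg'⟩ := ue_walk hA hs' hy h'
  have h1 := (Low.geo_append hw hg).2.1
  have h2 := (Low.geo_append hw hg').2.1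
  have h3 := congrArg (fun r : latt.Walk p y => r.getVert 1) (h1.unique hw ht h2)
  simpa using h3

theorem exists_out_edge (hw : Adm w) (hA : Att w S) (hs : s ∈ S) (hy : y ∈ S)
    (h : On w S s y x) (hxy : x ≠ y) : ∃ x', UE w S s y x x' := by
  obtain ⟨l₁, h1⟩ := exists_geo hA hs h.1
  obtain ⟨l₂, h2⟩ := exists_geo hA h.1 hy
  have hg := geo_of_parts h1 h2 h.2
  cases l₂ with
  | nil => exact absurd rfl hxy
  | cons h' q => exact ⟨_, ue_of_geo hw hg⟩

theorem exists_in_edge (hw : Adm w) (hA : Att w S) (hc : ∀ a ∈ S, ∀ b ∈ S, Conn S a b)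
    (hs : s ∈ S) (hy : y ∈ S) (h : On w S s y x) (hxs : x ≠ s) : ∃ q, UE w S s y q x := by
  obtain ⟨l, hl, hx⟩ := on_geo hA hs hy h
  obtain ⟨q, -, hq⟩ := Low.exists_pred hw hl hc hx hxs
  exact ⟨q, hq⟩

/-- The number of merge vertices in a box is at most the number of tree vertices on the ring
around it. -/
theorem count (hw : Adm w) (ht : TF w) (hS : TSet m S A y) {ρ : ℕ} (hρ : ρ + 1 ≤ m) :
    open Classical in
    ((Pe.bxF 0 ρ).filter fun x => MV w S A y x).card ≤
      ((Pe.bxF 0 (ρ + 1) \ Pe.bxF 0 ρ).filter fun x => TV w S A y x).card := by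
  classical
  have hA : Att w S := att_of_finite hw hS.fin hS.conn
  have hyS : y ∈ S := hS.hy.1
  have hyb : ∀ k ≤ m, y ∉ bx 0 k := fun k hk h => hS.hy.2 (bx_mono hk h)
  have hab : ∀ k ≤ m, ∀ s ∈ A, s ∉ bx 0 k := fun k hk s hs h => (hS.hA hs).2 (bx_mono hk h)
  set X := (Pe.bxF 0 ρ).filter fun x => TV w S A y x with hX
  set R := (Pe.bxF 0 (ρ + 1) \ Pe.bxF 0 ρ).filter fun x => TV w S A y x with hR
  have hTV : ∀ {s x : V}, s ∈ A → x ∈ bx 0 ρ → On w S s y x → TV w S A y x := by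
    intro s x hs hx h
    obtain ⟨x', hx'⟩ := exists_out_edge hw hA (hS.hA hs).1 hyS h (by
      rintro rfl; exact hyb ρ (by omega) hx)
    exact ⟨s, hs, x', hx'⟩
  let f : V → V := fun p => if h : ∃ x, ∃ s ∈ A, UE w S s y p x then h.choose else p
  have hf : ∀ {s p x : V}, s ∈ A → UE w S s y p x → f p = x := by
    intro s p x hs h
    have hex : ∃ x, ∃ s ∈ A, UE w S s y p x := ⟨x, s, hs, h⟩
    have h1 : f p = hex.choose := dif_pos hex
    obtain ⟨s', hs', h2⟩ := hex.choose_spec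
    rw [h1]
    exact ue_unique hw ht hA (hS.hA hs').1 (hS.hA hs).1 hyS h2 h
  set U := (X ∪ R).filter fun p => f p ∈ bx 0 ρ with hU
  have hdisj : Disjoint X R := by
    rw [Finset.disjoint_left]
    intro x hx hx'
    rw [hX, Finset.mem_filter] at hx
    rw [hR, Finset.mem_filter, Finset.mem_sdiff] at hx'
    exact hx'.1.2 hx.1
  have hUcard : U.card ≤ X.card + R.card := by
    rw [← Finset.card_union_of_disjoint hdisj]
    exact Finset.card_filter_le _ _
  have hXR : ∀ {s p x : V}, s ∈ A → UE w S s y p x → x ∈ bx 0 ρ → p ∈ U := by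
    intro s p x hs h hx
    have hp : p ∈ bx 0 (ρ + 1) := bx_adj h.1.symm hx
    have hT : TV w S A y p := ⟨s, hs, x, h⟩
    rw [hU, Finset.mem_filter, Finset.mem_union]
    refine ⟨?_, by rw [hf hs h]; exact hx⟩
    by_cases hpp : p ∈ bx 0 ρ
    · left
      rw [hX, Finset.mem_filter]
      exact ⟨Pe.mem_bxF.2 hpp, hT⟩
    · right
      rw [hR, Finset.mem_filter, Finset.mem_sdiff]
      exact ⟨⟨Pe.mem_bxF.2 hp, fun h' => hpp (Pe.mem_bxF.1 h')⟩, hT⟩
  have hmaps : ∀ p ∈ U, f p ∈ X := by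
    intro p hp
    rw [hU, Finset.mem_filter, Finset.mem_union] at hp
    obtain ⟨hp1, hp2⟩ := hp
    have hT : TV w S A y p := by
      rcases hp1 with h | h
      · exact (Finset.mem_filter.1 h).2
      · exact (Finset.mem_filter.1 h).2
    obtain ⟨s, hs, x, h⟩ := hT
    rw [hf hs h] at hp2 ⊢
    rw [hX, Finset.mem_filter]
    exact ⟨Pe.mem_bxF.2 hp2, hTV hs hp2 (ue_on hw hA (hS.hA hs).1 hyS h).2⟩
  have hfib := Finset.card_eq_sum_card_fiberwise hmaps
  have hlow : ∀ x ∈ X, (1 + if MV w S A y x then 1 else 0) ≤ (U.filter fun p => f p = x).card := by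
    intro x hx
    rw [hX, Finset.mem_filter] at hx
    obtain ⟨hx1, s, hs, x', hx'⟩ := hx
    rw [Pe.mem_bxF] at hx1
    split_ifs with hM
    · obtain ⟨s₁, hs₁, s₂, hs₂, p, p', hne, h1, h2⟩ := hM
      have : ({p, p'} : Finset V) ⊆ U.filter fun p => f p = x := by
        intro u hu
        rw [Finset.mem_insert, Finset.mem_singleton] at hu
        rw [Finset.mem_filter]
        rcases hu with rfl | rfl
        · exact ⟨hXR hs₁ h1 hx1, hf hs₁ h1⟩
        · exact ⟨hXR hs₂ h2 hx1, hf hs₂ h2⟩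
      calc 1 + 1 = ({p, p'} : Finset V).card := by rw [Finset.card_pair hne]
        _ ≤ _ := Finset.card_le_card this
    · obtain ⟨q, hq⟩ := exists_in_edge hw hA hS.conn (hS.hA hs).1 hyS
        (ue_on hw hA (hS.hA hs).1 hyS hx').1 (by
          rintro rfl; exact hab ρ (by omega) _ hs hx1)
      have : q ∈ U.filter fun p => f p = x := Finset.mem_filter.2 ⟨hXR hs hq hx1, hf hs hq⟩
      simpa only [add_zero, Finset.one_le_card, Finset.card_pos] using Finset.card_pos.2 ⟨q, this⟩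
  have hsum : X.card + ((Pe.bxF 0 ρ).filter fun x => MV w S A y x).card ≤ U.card := by
    rw [hfib]
    refine le_trans ?_ (Finset.sum_le_sum hlow)
    rw [Finset.sum_add_distrib, Finset.sum_const, smul_eq_mul, mul_one, Finset.sum_boole]
    refine Nat.add_le_add_left ?_ _
    rw [Nat.cast_id]
    refine Finset.card_le_card fun x hx => ?_
    rw [Finset.mem_filter] at hx
    rw [Finset.mem_filter, hX, Finset.mem_filter]
    refine ⟨⟨hx.1, ?_⟩, hx.2⟩
    obtain ⟨s₁, hs₁, s₂, hs₂, p, p', hne, h1, h2⟩ := hx.2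
    exact hTV hs₁ (Pe.mem_bxF.1 hx.1) (ue_on hw hA (hS.hA hs₁).1 hyS h1).2
  omega

/-! ### Traces -/

theorem rs_sh (w : V → V → ℝ) (z : V) (N : ℕ) : rs (sh z w) 0 N = rs w z N := by
  unfold rs
  refine Finset.sum_congr rfl fun k _ => ?_
  have h : ∀ j : ℤ, bd 0 N j + z = bd z N j := fun j => by
    rw [← bd_translate, zero_add]
  show w (bd 0 N (k : ℤ) + z) (bd 0 N ((k : ℤ) + 1) + z) = _
  rw [h, h]

/-- Two vertices of the boundary cycle are at distance at most its weight. -/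
theorem PT_le_rs (hw : Adm w) {N : ℕ} (hN : 0 < N) (hS : bx z N ⊆ S)
    (hx : x ∈ bB z N) (hy : y ∈ bB z N) : PT w S x y ≤ rs w z N := by
  obtain ⟨i, hi0, hi1, rfl⟩ := bd_surj hN hx 0
  obtain ⟨j, hj0, hj1, rfl⟩ := bd_surj hN hy 0
  rw [zero_add] at hi1 hj1
  obtain ⟨i, rfl⟩ : ∃ n : ℕ, i = n := ⟨i.toNat, by omega⟩
  obtain ⟨j, rfl⟩ : ∃ n : ℕ, j = n := ⟨j.toNat, by omega⟩
  have hadj : ∀ k : ℕ, latt.Adj (bd z N (k : ℤ)) (bd z N ((k + 1 : ℕ) : ℤ)) := fun k => by
    push_cast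
    exact bd_adj hN k
  have key : ∀ i j : ℕ, i ≤ j → j < 8 * N → PT w S (bd z N i) (bd z N j) ≤ rs w z N := by
    intro i j hij hj
    obtain ⟨n, rfl⟩ := Nat.exists_eq_add_of_le hij
    refine (PT_le_sum (r := fun k : ℕ => bd z N (k : ℤ)) hw hadj (i := i) n
      (fun k _ _ => hS (bd_mem_bx hN _))).trans ?_
    unfold rs
    refine (Finset.sum_le_sum_of_subset_of_nonneg (t := Finset.range (8 * N)) ?_
      fun k _ _ => (hw.pos _ _ (hadj k)).le).trans (le_of_eq ?_)
    · intro k hk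
      rw [Finset.mem_Ico] at hk
      rw [Finset.mem_range]
      omega
    · refine Finset.sum_congr rfl fun k _ => ?_
      push_cast
      rfl
  rcases le_total i j with h | h
  · exact key i j h (by omega)
  · rw [PT_comm hw]
    exact key j i h (by omega)

theorem LenE.sh {t : Env} {C₁ : ℝ} {K : ℕ} (hE : LenE C₁ K (shE z t)) {p : latt.Walk x y}
    (hp : p.IsPath) (hx : x ∈ bx z (K + 1)) (h : C₁ * K ≤ p.length) :
    rs (wt t) z (K + 1) < ww (wt t) p := by
  have hinj : Function.Injective (shHom (-z)) := fun a b hab => add_right_cancel (hab : a + -z = _)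
  have h1 := hE _ _ (p.map (shHom (-z))) (hp.map hinj) (by
    obtain ⟨h1, h2⟩ := hx
    show x + -z ∈ bx 0 (K + 1)
    constructor
    · simpa only [← sub_eq_add_neg, Prod.fst_sub, Prod.fst_zero, sub_zero, Nat.cast_add, Nat.cast_one] using h1
    · simpa only [← sub_eq_add_neg, Prod.snd_sub, Prod.snd_zero, sub_zero, Nat.cast_add, Nat.cast_one] using h2) (by rw [Walk.length_map]; exact h)
  rw [wt_shE, rs_sh, ww_map, sh_sh] at h1
  exact h1

/-- Geodesics inside `S` have few vertices in a block. -/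
theorem trace_le {t : Env} (hw : Adm (wt t)) {C₁ : ℝ} {K : ℕ} (hE : LenE C₁ K (shE z t))
    (hS : bx z (K + 1) ⊆ S) {l : latt.Walk x y} (hl : Geo (wt t) S l) (hx : x ∉ bx z (K + 1))
    (hy : y ∉ bx z (K + 1)) (F : Finset V) (hF : ∀ u ∈ F, u ∈ bx z K ∧ u ∈ l.support) :
    F.card ≤ ⌈C₁ * K⌉₊ := by
  classical
  rcases F.eq_empty_or_nonempty with rfl | ⟨x₀, hx₀⟩
  · simp
  set I := (Finset.range (l.length + 1)).filter fun i => l.getVert i ∈ bx z (K + 1) with hI
  have hmem : ∀ u ∈ F, ∃ i ∈ I, l.getVert i = u := by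
    intro u hu
    obtain ⟨h1, h2⟩ := hF u hu
    obtain ⟨i, hi, hi'⟩ := Walk.mem_support_iff_exists_getVert.1 h2
    refine ⟨i, ?_, hi⟩
    rw [hI, Finset.mem_filter, Finset.mem_range, hi]
    exact ⟨by omega, bx_mono (Nat.le_succ K) h1⟩
  have hne : I.Nonempty := by
    obtain ⟨i, hi, -⟩ := hmem x₀ hx₀
    exact ⟨i, hi⟩
  set a := I.min' hne with ha
  set b := I.max' hne with hb
  have haI := I.min'_mem hne
  have hbI := I.max'_mem hne
  have hmin : ∀ i ∈ I, a ≤ i := fun i hi => I.min'_le i hi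
  have hmax : ∀ i ∈ I, i ≤ b := fun i hi => I.le_max' i hi
  rw [← ha, hI, Finset.mem_filter, Finset.mem_range] at haI
  rw [← hb, hI, Finset.mem_filter, Finset.mem_range] at hbI
  obtain ⟨ha1, ha2⟩ := haI
  obtain ⟨hb1, hb2⟩ := hbI
  have hab : a ≤ b := hmin b (by rw [hI, Finset.mem_filter, Finset.mem_range]; exact ⟨hb1, hb2⟩)
  have ha0 : a ≠ 0 := by
    intro h
    rw [h, l.getVert_zero] at ha2
    exact hx ha2
  have hbl : b ≠ l.length := by
    intro h
    rw [h, l.getVert_length] at hb2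
    exact hy hb2
  have hba : l.getVert a ∈ bB z (K + 1) := by
    refine mem_bB_of_adj ha2 (y := l.getVert (a - 1)) (fun h => ?_) ?_
    · have := hmin (a - 1) (by rw [hI, Finset.mem_filter, Finset.mem_range]; exact ⟨by omega, h⟩)
      omega
    · have := l.adj_getVert_succ (i := a - 1) (by omega)
      rw [show a - 1 + 1 = a by omega] at this
      exact this.symm
  have hbb : l.getVert b ∈ bB z (K + 1) := by
    refine mem_bB_of_adj hb2 (y := l.getVert (b + 1)) (fun h => ?_)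
      (l.adj_getVert_succ (by omega))
    have := hmax (b + 1) (by rw [hI, Finset.mem_filter, Finset.mem_range]; exact ⟨by omega, h⟩)
    omega
  have hg : Geo (wt t) S ((l.drop a).take (b - a)) := (hl.drop hw a).take hw (b - a)
  have hend : (l.drop a).getVert (b - a) = l.getVert b := by
    rw [Walk.drop_getVert]
    congr 1
    omega
  have hlen : ((l.drop a).take (b - a)).length = b - a := by
    rw [Walk.take_length, Walk.drop_length]
    (clear * - hne ha1 hb1 hab; omega)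
  have hlt : ¬ C₁ * K ≤ ((b - a : ℕ) : ℝ) := by
    intro h
    have h4 := LenE.sh hE (hg.isPath hw) ha2 (by rw [hlen]; exact h)
    rw [hg.2, hend] at h4
    exact absurd (PT_le_rs hw (Nat.succ_pos K) hS hba hbb) (not_le.2 h4)
  rw [not_le] at hlt
  have hn : b - a < ⌈C₁ * K⌉₊ := Nat.lt_ceil.2 hlt
  have hsub : F ⊆ (Finset.Icc a b).image l.getVert := fun u hu => by
    obtain ⟨i, hi, rfl⟩ := hmem u hu
    exact Finset.mem_image_of_mem _ (Finset.mem_Icc.2 ⟨hmin i hi, hmax i hi⟩)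
  have h6 := (Finset.card_le_card hsub).trans Finset.card_image_le
  rw [Nat.card_Icc] at h6
  omega

/-- The head of a robust tree edge. -/
def RV (w : V → V → ℝ) (S A : Set V) (y : V) (h : ℝ) (v : V) : Prop :=
  ∃ s ∈ A, ∃ p, RobE w S s y p v h

/-- A block without two strands has few robust vertices. -/
theorem block {t : Env} (hw : Adm (wt t)) (ht : TF (wt t)) (hT : TSet m S A y) {C₁ h : ℝ}
    {K : ℕ} (hE : LenE C₁ K (shE z t)) (hz : bx z (K + 1) ⊆ bx 0 m)
    (hD : ¬ Dbl (wt t) S A y h z K) :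
    open Classical in
    ((Pe.bxF z K).filter fun v => RV (wt t) S A y h v).card ≤ ⌈C₁ * K⌉₊ := by
  classical
  have hA : Att (wt t) S := att_of_finite hw hT.fin hT.conn
  rcases Finset.eq_empty_or_nonempty ((Pe.bxF z K).filter fun v => RV (wt t) S A y h v) with
    he | ⟨v₀, hv₀⟩
  · rw [he]; simp only [Finset.card_empty, zero_le]
  rw [Finset.mem_filter, Pe.mem_bxF] at hv₀
  obtain ⟨hv₀, s₀, hs₀, p₀, hr₀⟩ := hv₀
  have hon := (ue_on hw hA (hT.hA hs₀).1 hT.hy.1 hr₀.1).2
  obtain ⟨l, hl, -⟩ := on_geo hA (hT.hA hs₀).1 hT.hy.1 hon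
  refine trace_le hw hE (hz.trans hT.box) hl (fun h => (hT.hA hs₀).2 (hz h))
    (fun h => hT.hy.2 (hz h)) _ fun v hv => ?_
  rw [Finset.mem_filter, Pe.mem_bxF] at hv
  obtain ⟨hv, s, hs, p, hr⟩ := hv
  refine ⟨hv, ?_⟩
  have h1 : On (wt t) S s₀ y v := by
    by_contra hcon
    exact hD ⟨s, hs, s₀, hs₀, p, v, v₀, hr, hv, hv₀, hon, hcon⟩
  obtain ⟨l', hl', hv'⟩ := on_geo hA (hT.hA hs₀).1 hT.hy.1 h1
  rwa [hl'.unique hw ht hl] at hv'

end Vale.Agent.P158.C.MrgA
end
end

section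

section

/-! Counting part of the merge bound, probabilistic statements: `TreeFStmt` and `MrgStmt` from
`WinStmt`, `EdgeStmt` and `LenStmt`. -/

namespace Vale.Agent.P158.C.MrgA

open SimpleGraph MeasureTheory Vale.Agent.P158.T1 Vale.Agent.P158.CL
open scoped ENNReal NNReal

variable {G : Measure ℝ} [IsProbabilityMeasure G] {S A : Set V} {x y z p v s s' : V} {m : ℕ}

/-! ### Measurability -/

theorem measurableSet_ue (S : Set V) (s y p x : V) :
    MeasurableSet {t : Env | UE (wt t) S s y p x} := by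
  have : {t : Env | UE (wt t) S s y p x} = {t : Env | latt.Adj p x ∧ p ∈ S ∧ x ∈ S} ∩
      {t : Env | PT (wt t) S s p + wt t p x + PT (wt t) S x y = PT (wt t) S s y} := by
    ext t
    simp only [UE, Set.mem_inter_iff, Set.mem_ofPred_eq]
    tauto
  rw [this]
  exact (MeasurableSet.const _).inter (measurableSet_eq_fun
    (((measurable_PT _ _ _).add (measurable_wt _ _)).add (measurable_PT _ _ _))
    (measurable_PT _ _ _))

theorem measurableSet_mv (S A : Set V) (y x : V) : MeasurableSet {t : Env | MV (wt t) S A y x} := by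
  have : {t : Env | MV (wt t) S A y x} = ⋃ s : V, ⋃ s' : V, ⋃ p : V, ⋃ p' : V,
      {_t : Env | s ∈ A ∧ s' ∈ A ∧ p ≠ p'} ∩ ({t : Env | UE (wt t) S s y p x} ∩
        {t : Env | UE (wt t) S s' y p' x}) := by
    ext t
    simp only [MV, Set.mem_iUnion, Set.mem_inter_iff, Set.mem_ofPred_eq]
    constructor
    · rintro ⟨s, hs, s', hs', p, p', h1, h2, h3⟩
      exact ⟨s, s', p, p', ⟨hs, hs', h1⟩, h2, h3⟩
    · rintro ⟨s, s', p, p', ⟨hs, hs', h1⟩, h2, h3⟩
      exact ⟨s, hs, s', hs', p, p', h1, h2, h3⟩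
  rw [this]
  exact MeasurableSet.iUnion fun s => MeasurableSet.iUnion fun s' => MeasurableSet.iUnion fun p =>
    MeasurableSet.iUnion fun p' => (MeasurableSet.const _).inter
      ((measurableSet_ue _ _ _ _ _).inter (measurableSet_ue _ _ _ _ _))

theorem measurableSet_tv (S A : Set V) (y x : V) : MeasurableSet {t : Env | TV (wt t) S A y x} := by
  have : {t : Env | TV (wt t) S A y x} = ⋃ s : V, ⋃ x' : V,
      {_t : Env | s ∈ A} ∩ {t : Env | UE (wt t) S s y x x'} := by
    ext t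
    simp only [TV, Set.mem_iUnion, Set.mem_inter_iff, Set.mem_ofPred_eq]
    constructor
    · rintro ⟨s, hs, x', h⟩
      exact ⟨s, x', hs, h⟩
    · rintro ⟨s, x', hs, h⟩
      exact ⟨s, hs, x', h⟩
  rw [this]
  exact MeasurableSet.iUnion fun s => MeasurableSet.iUnion fun x' =>
    (MeasurableSet.const _).inter (measurableSet_ue _ _ _ _ _)

theorem measurableSet_rob (S : Set V) (s y p v : V) (h : ℝ) :
    MeasurableSet {t : Env | RobE (wt t) S s y p v h} := by
  have : {t : Env | RobE (wt t) S s y p v h} = {t : Env | UE (wt t) S s y p v} ∩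
      ⋂ q : latt.Walk s y, {t : Env | ((∀ z ∈ q.support, z ∈ S) ∧ s(p, v) ∉ q.edges) →
        PT (wt t) S s y + h ≤ ww (wt t) q} := by
    ext t
    simp only [RobE, Set.mem_inter_iff, Set.mem_ofPred_eq, Set.mem_iInter]
    (clear * -; tauto)
  rw [this]
  refine (measurableSet_ue _ _ _ _ _).inter (MeasurableSet.iInter fun q => ?_)
  by_cases hq : (∀ z ∈ q.support, z ∈ S) ∧ s(p, v) ∉ q.edges
  · have h1 : {t : Env | ((∀ z ∈ q.support, z ∈ S) ∧ s(p, v) ∉ q.edges) →
        PT (wt t) S s y + h ≤ ww (wt t) q} = {t : Env | PT (wt t) S s y + h ≤ ww (wt t) q} := by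
      ext t
      exact ⟨fun h => h hq, fun h _ => h⟩
    rw [h1]
    exact measurableSet_le ((measurable_PT _ _ _).add measurable_const) (measurable_ww _)
  · have h1 : {t : Env | ((∀ z ∈ q.support, z ∈ S) ∧ s(p, v) ∉ q.edges) →
        PT (wt t) S s y + h ≤ ww (wt t) q} = Set.univ := by
      ext t
      exact ⟨fun _ => trivial, fun _ h => absurd h hq⟩
    rw [h1]
    exact MeasurableSet.univ

theorem measurableSet_rv (S A : Set V) (y : V) (h : ℝ) (v : V) :
    MeasurableSet {t : Env | RV (wt t) S A y h v} := by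
  have : {t : Env | RV (wt t) S A y h v} = ⋃ s : V, ⋃ p : V,
      {_t : Env | s ∈ A} ∩ {t : Env | RobE (wt t) S s y p v h} := by
    ext t
    simp only [RV, Set.mem_iUnion, Set.mem_inter_iff, Set.mem_ofPred_eq]
    constructor
    · rintro ⟨s, hs, x', h⟩
      exact ⟨s, x', hs, h⟩
    · rintro ⟨s, x', hs, h⟩
      exact ⟨s, hs, x', h⟩
  rw [this]
  exact MeasurableSet.iUnion fun s => MeasurableSet.iUnion fun x' =>
    (MeasurableSet.const _).inter (measurableSet_rob _ _ _ _ _ _)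

/-! ### Sums -/

theorem sum_ind {Ω : Type*} (F : Finset V) (E : V → Set Ω) (t : Ω) :
    open Classical in
    ∑ x ∈ F, (E x).indicator (fun _ => (1 : ℝ≥0∞)) t = ((F.filter fun x => t ∈ E x).card : ℝ≥0∞) := by
  classical
  simp only [Set.indicator_apply]
  rw [Finset.sum_boole]

theorem sum_measure_eq {Ω : Type*} [MeasurableSpace Ω] (μ : Measure Ω) (F : Finset V)
    (E : V → Set Ω) (hE : ∀ x ∈ F, MeasurableSet (E x)) :
    ∑ x ∈ F, μ (E x) = ∫⁻ t, ∑ x ∈ F, (E x).indicator (fun _ => (1 : ℝ≥0∞)) t ∂μ := by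
  rw [lintegral_finsetSum F fun x hx => measurable_const.indicator (hE x hx)]
  refine Finset.sum_congr rfl fun x hx => ?_
  rw [lintegral_indicator (hE x hx), setLIntegral_const, one_mul]

theorem sum_swap_le (f : V → ℝ≥0∞) (a K : ℕ) :
    ∑ z ∈ Pe.bxF 0 a, ∑ v ∈ Pe.bxF z K, f v ≤ (2 * K + 1) ^ 2 * ∑ v ∈ Pe.bxF 0 (a + K), f v := by
  classical
  rw [Finset.sum_comm' (s' := fun v => (Pe.bxF 0 a).filter fun z => v ∈ Pe.bxF z K)
    (t' := Pe.bxF 0 (a + K)), Finset.mul_sum]
  · refine Finset.sum_le_sum fun v _ => ?_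
    rw [Finset.sum_const, nsmul_eq_mul]
    refine mul_le_mul_left ?_ _
    have h1 : (Pe.bxF 0 a).filter (fun z => v ∈ Pe.bxF z K) ⊆ Pe.bxF v K := by
      intro z hz
      rw [Finset.mem_filter, Pe.mem_bxF, Pe.mem_bxF] at hz
      rw [Pe.mem_bxF]
      obtain ⟨-, h1, h2⟩ := hz
      exact ⟨by rw [abs_sub_comm]; exact h1, by rw [abs_sub_comm]; exact h2⟩
    have h2 := Finset.card_le_card h1
    rw [Pe.card_bxF] at h2
    exact_mod_cast h2
  · intro z v
    rw [Finset.mem_filter]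
    constructor
    · rintro ⟨h1, h2⟩
      refine ⟨⟨h1, h2⟩, ?_⟩
      rw [Pe.mem_bxF] at h1 h2 ⊢
      obtain ⟨a1, a2⟩ := h1
      obtain ⟨b1, b2⟩ := h2
      constructor
      · calc |v.1 - (0 : V).1| ≤ |v.1 - z.1| + |z.1 - (0 : V).1| := abs_sub_le _ _ _
          _ ≤ _ := by push_cast; linarith
      · calc |v.2 - (0 : V).2| ≤ |v.2 - z.2| + |z.2 - (0 : V).2| := abs_sub_le _ _ _
          _ ≤ _ := by push_cast; linarith only [a2, b2]
    · rintro ⟨⟨h1, h2⟩, -⟩
      exact ⟨h1, h2⟩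

theorem sum_swap_ge (f : V → ℝ≥0∞) (a K : ℕ) :
    (2 * K + 1) ^ 2 * ∑ v ∈ Pe.bxF 0 a, f v ≤ ∑ z ∈ Pe.bxF 0 (a + K), ∑ v ∈ Pe.bxF z K, f v := by
  classical
  have h1 : ∀ v ∈ Pe.bxF 0 a, ∀ z, z ∈ Pe.bxF v K → z ∈ Pe.bxF 0 (a + K) ∧ v ∈ Pe.bxF z K := by
    intro v hv z hz
    rw [Pe.mem_bxF] at hv hz
    obtain ⟨a1, a2⟩ := hv
    obtain ⟨b1, b2⟩ := hz
    rw [Pe.mem_bxF, Pe.mem_bxF]
    refine ⟨⟨?_, ?_⟩, ?_, ?_⟩
    · calc |z.1 - (0 : V).1| ≤ |z.1 - v.1| + |v.1 - (0 : V).1| := abs_sub_le _ _ _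
        _ ≤ _ := by push_cast; linarith only [a1, b1]
    · calc |z.2 - (0 : V).2| ≤ |z.2 - v.2| + |v.2 - (0 : V).2| := abs_sub_le _ _ _
        _ ≤ _ := by push_cast; linarith
    · rw [abs_sub_comm]; exact b1
    · rw [abs_sub_comm]; exact b2
  calc (2 * K + 1) ^ 2 * ∑ v ∈ Pe.bxF 0 a, f v = ∑ v ∈ Pe.bxF 0 a, ∑ _z ∈ Pe.bxF v K, f v := by
        rw [Finset.mul_sum]
        refine Finset.sum_congr rfl fun v _ => ?_
        rw [Finset.sum_const, Pe.card_bxF, nsmul_eq_mul]
        push_cast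
        rfl
    _ = ∑ z ∈ Pe.bxF 0 (a + K), ∑ v ∈ (Pe.bxF 0 a).filter (fun v => v ∈ Pe.bxF z K), f v := by
        refine Finset.sum_comm' fun v z => ?_
        rw [Finset.mem_filter]
        constructor
        · rintro ⟨h2, h3⟩
          exact ⟨⟨h2, (h1 v h2 z h3).2⟩, (h1 v h2 z h3).1⟩
        · rintro ⟨⟨h2, h3⟩, -⟩
          refine ⟨h2, ?_⟩
          rw [Pe.mem_bxF] at h3 ⊢
          exact ⟨by rw [abs_sub_comm]; exact h3.1, by rw [abs_sub_comm]; exact h3.2⟩
    _ ≤ _ := Finset.sum_le_sum fun z _ => Finset.sum_le_sum_of_subset fun v hv =>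
        (Finset.mem_filter.1 hv).2

theorem ae_good (h0 : G (Set.Iio 0) = 0) [NullSingletonClass G] (hU : UqStmt G) :
    ∀ᵐ t ∂PG G, Adm (wt t) ∧ TF (wt t) := by
  filter_upwards [ae_adm h0, hU] with t h1 h2
  exact ⟨h1, h2⟩

/-- Expected number of merge vertices and of tree vertices on the ring. -/
theorem sum_mv_le [NullSingletonClass G] (h0 : G (Set.Iio 0) = 0) (hU : UqStmt G)
    (hT : TSet m S A y) {ρ : ℕ} (hρ : ρ + 1 ≤ m) :
    ∑ x ∈ Pe.bxF 0 ρ, PG G {t | MV (wt t) S A y x} ≤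
      ∑ x ∈ Pe.bxF 0 (ρ + 1) \ Pe.bxF 0 ρ, PG G {t | TV (wt t) S A y x} := by
  classical
  rw [sum_measure_eq _ _ _ fun x _ => measurableSet_mv S A y x,
    sum_measure_eq _ _ _ fun x _ => measurableSet_tv S A y x]
  refine lintegral_mono_ae ?_
  filter_upwards [ae_good h0 hU] with t ht
  rw [sum_ind, sum_ind]
  exact_mod_cast count ht.1 ht.2 hT hρ

/-- Expected number of robust vertices in a block. -/
theorem sum_rv_le [NullSingletonClass G] (h0 : G (Set.Iio 0) = 0) (hU : UqStmt G)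
    (hT : TSet m S A y) {C₁ h : ℝ} {K : ℕ} (hz : bx z (K + 1) ⊆ bx 0 m) :
    ∑ v ∈ Pe.bxF z K, PG G {t | RV (wt t) S A y h v} ≤
      ⌈C₁ * K⌉₊ + (2 * K + 1) ^ 2 * (PG G {t | Dbl (wt t) S A y h z K} +
        PG G {t | ¬ LenE C₁ K t}) := by
  classical
  set B : Set Env := {t | Dbl (wt t) S A y h z K} ∪ {t | ¬ LenE C₁ K (shE z t)} with hB
  set B' := toMeasurable (PG G) B with hB'
  have hBm : MeasurableSet B' := measurableSet_toMeasurable _ _
  have h1 : PG G B' ≤ PG G {t | Dbl (wt t) S A y h z K} + PG G {t | ¬ LenE C₁ K t} := by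
    rw [hB', measure_toMeasurable]
    refine (measure_union_le _ _).trans (add_le_add le_rfl ?_)
    have h2 := Measure.le_map_apply (μ := PG G) (mp_sh (G := G) z).measurable.aemeasurable
      {t : Env | ¬ LenE C₁ K t}
    rw [(mp_sh (G := G) z).map_eq] at h2
    exact h2
  rw [sum_measure_eq _ _ _ fun x _ => measurableSet_rv S A y h x]
  calc ∫⁻ t, ∑ x ∈ Pe.bxF z K, ({t : Env | RV (wt t) S A y h x}).indicator
        (fun _ => (1 : ℝ≥0∞)) t ∂PG G
      ≤ ∫⁻ t, ((⌈C₁ * K⌉₊ : ℝ≥0∞) + B'.indicator (fun _ => ((2 * K + 1) ^ 2 : ℝ≥0∞)) t) ∂PG G := by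
        refine lintegral_mono_ae ?_
        filter_upwards [ae_good h0 hU] with t ht
        rw [sum_ind]
        by_cases htB : t ∈ B'
        · rw [Set.indicator_of_mem htB]
          refine le_trans ?_ le_add_self
          have h3 := Finset.card_filter_le (Pe.bxF z K) fun x =>
            t ∈ {t : Env | RV (wt t) S A y h x}
          rw [Pe.card_bxF] at h3
          exact_mod_cast h3
        · rw [Set.indicator_of_notMem htB, add_zero]
          have htB2 : t ∉ B := fun h => htB (subset_toMeasurable _ _ h)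
          rw [hB, Set.mem_union, not_or] at htB2
          have h3 := block ht.1 ht.2 hT (C₁ := C₁) (h := h) (K := K) (z := z)
            (by by_contra hcon; exact htB2.2 hcon) hz htB2.1
          exact_mod_cast h3
    _ = (⌈C₁ * K⌉₊ : ℝ≥0∞) + (2 * K + 1) ^ 2 * PG G B' := by
        rw [lintegral_add_left measurable_const, lintegral_const, measure_univ, mul_one,
          lintegral_indicator hBm, setLIntegral_const]
    _ ≤ _ := by gcongr

end Vale.Agent.P158.C.MrgA
end
end

section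

section

/-! The merge bound: `TreeFStmt` and `MrgStmt` from `WinStmt`, `EdgeStmt` and `LenStmt`. -/

namespace Vale.Agent.P158.C.MrgA

open SimpleGraph MeasureTheory Vale.Agent.P158.T1 Vale.Agent.P158.CL
open scoped ENNReal NNReal

variable {G : Measure ℝ} [IsProbabilityMeasure G] {S A : Set V} {x y z p v s s' : V} {m : ℕ}

theorem toReal_sum_measure (F : Finset V) (E : V → Set Env) :
    (∑ x ∈ F, PG G (E x)).toReal = ∑ x ∈ F, (PG G).real (E x) :=
  ENNReal.toReal_sum fun _ _ => measure_ne_top _ _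

theorem sum_ne_top (F : Finset V) (E : V → Set Env) : ∑ x ∈ F, PG G (E x) ≠ ∞ :=
  ENNReal.sum_ne_top.2 fun _ _ => measure_ne_top _ _

theorem sqK (K : ℕ) : ((2 * (K : ℝ≥0∞) + 1) ^ 2) = (((2 * K + 1) ^ 2 : ℕ) : ℝ≥0∞) := by
  push_cast
  rfl

theorem swapR_le (E : V → Set Env) (a K : ℕ) :
    ∑ z ∈ Pe.bxF 0 a, ∑ v ∈ Pe.bxF z K, (PG G).real (E v) ≤
      (2 * (K : ℝ) + 1) ^ 2 * ∑ v ∈ Pe.bxF 0 (a + K), (PG G).real (E v) := by
  have hb := sum_swap_le (fun v => PG G (E v)) a K
  rw [sqK] at hb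
  have h := ENNReal.toReal_mono (ENNReal.mul_ne_top (ENNReal.natCast_ne_top _)
    (sum_ne_top _ _)) hb
  rw [ENNReal.toReal_mul, ENNReal.toReal_natCast, toReal_sum_measure,
    ENNReal.toReal_sum fun _ _ => sum_ne_top _ _] at h
  simp only [toReal_sum_measure] at h
  push_cast at h
  exact h

theorem swapR_ge (E : V → Set Env) (a K : ℕ) :
    (2 * (K : ℝ) + 1) ^ 2 * ∑ v ∈ Pe.bxF 0 a, (PG G).real (E v) ≤
      ∑ z ∈ Pe.bxF 0 (a + K), ∑ v ∈ Pe.bxF z K, (PG G).real (E v) := by
  have h := ENNReal.toReal_mono (ENNReal.sum_ne_top.2 fun _ _ => sum_ne_top _ _)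
    (sum_swap_ge (fun v => PG G (E v)) a K)
  rw [sqK, ENNReal.toReal_mul, ENNReal.toReal_natCast, toReal_sum_measure,
    ENNReal.toReal_sum fun _ _ => sum_ne_top _ _] at h
  simp only [toReal_sum_measure] at h
  push_cast at h
  exact h

theorem sumR_mv_le [NullSingletonClass G] (h0 : G (Set.Iio 0) = 0) (hU : UqStmt G)
    (hT : TSet m S A y) {ρ : ℕ} (hρ : ρ + 1 ≤ m) :
    ∑ x ∈ Pe.bxF 0 ρ, (PG G).real {t | MV (wt t) S A y x} ≤
      ∑ x ∈ Pe.bxF 0 (ρ + 1) \ Pe.bxF 0 ρ, (PG G).real {t | TV (wt t) S A y x} := by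
  have h := ENNReal.toReal_mono (sum_ne_top _ _) (sum_mv_le h0 hU hT hρ)
  rwa [toReal_sum_measure, toReal_sum_measure] at h

theorem sumR_mv_le' [NullSingletonClass G] (h0 : G (Set.Iio 0) = 0) (hU : UqStmt G)
    (hT : TSet m S A y) {ρ : ℕ} (hρ : ρ + 1 ≤ m) :
    ∑ x ∈ Pe.bxF 0 ρ, (PG G).real {t | MV (wt t) S A y x} ≤ 8 * m := by
  refine (sumR_mv_le h0 hU hT hρ).trans ?_
  refine (Finset.sum_le_card_nsmul _ _ 1 fun x _ => measureReal_le_one).trans ?_
  rw [Pe.card_ring, nsmul_eq_mul, mul_one]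
  have : ((ρ : ℝ) + 1) ≤ m := by exact_mod_cast hρ
  push_cast
  linarith only [this]

theorem rings [NullSingletonClass G] (h0 : G (Set.Iio 0) = 0) (hU : UqStmt G)
    (hT : TSet m S A y) (k j : ℕ) (hj : k + j ≤ m) :
    j * ∑ x ∈ Pe.bxF 0 k, (PG G).real {t | MV (wt t) S A y x} ≤
      ∑ x ∈ Pe.bxF 0 (k + j), (PG G).real {t | TV (wt t) S A y x} := by
  classical
  induction j with
  | zero =>
    rw [Nat.cast_zero, zero_mul]
    exact Finset.sum_nonneg fun _ _ => measureReal_nonneg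
  | succ j ih =>
    have h1 := ih (by omega)
    have h2 := sumR_mv_le h0 hU hT (ρ := k + j) (by omega)
    have hsub : Pe.bxF 0 (k + j) ⊆ Pe.bxF (0 : V) (k + j + 1) := fun x hx =>
      Pe.mem_bxF.2 (bx_mono (Nat.le_succ _) (Pe.mem_bxF.1 hx))
    have h3 : ∑ x ∈ Pe.bxF 0 k, (PG G).real {t | MV (wt t) S A y x} ≤
        ∑ x ∈ Pe.bxF 0 (k + j), (PG G).real {t | MV (wt t) S A y x} :=
      Finset.sum_le_sum_of_subset_of_nonneg (fun x hx =>
        Pe.mem_bxF.2 (bx_mono (Nat.le_add_right _ _) (Pe.mem_bxF.1 hx)))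
        fun _ _ _ => measureReal_nonneg
    have h4 := Finset.sum_sdiff (f := fun x => (PG G).real {t | TV (wt t) S A y x}) hsub
    have e : k + (j + 1) = k + j + 1 := by ring
    rw [e, ← h4]
    push_cast
    (clear hsub h4 e; linarith)

theorem sumR_rv_le [NullSingletonClass G] (h0 : G (Set.Iio 0) = 0) (hU : UqStmt G)
    (hT : TSet m S A y) {C₁ h : ℝ} {K : ℕ} (hz : bx z (K + 1) ⊆ bx 0 m) :
    ∑ v ∈ Pe.bxF z K, (PG G).real {t | RV (wt t) S A y h v} ≤
      ⌈C₁ * K⌉₊ + (2 * (K : ℝ) + 1) ^ 2 * ((PG G).real {t | Dbl (wt t) S A y h z K} +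
        (PG G).real {t | ¬ LenE C₁ K t}) := by
  have h2 : PG G {t | Dbl (wt t) S A y h z K} + PG G {t | ¬ LenE C₁ K t} ≠ ∞ :=
    ENNReal.add_ne_top.2 ⟨measure_ne_top _ _, measure_ne_top _ _⟩
  have hb := sum_rv_le h0 hU hT (C₁ := C₁) (h := h) hz
  rw [sqK] at hb
  have h1 := ENNReal.toReal_mono (ENNReal.add_ne_top.2 ⟨ENNReal.natCast_ne_top _,
      ENNReal.mul_ne_top (ENNReal.natCast_ne_top _) h2⟩) hb
  rw [ENNReal.toReal_add (ENNReal.natCast_ne_top _)
    (ENNReal.mul_ne_top (ENNReal.natCast_ne_top _) h2), ENNReal.toReal_mul,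
    ENNReal.toReal_natCast, ENNReal.toReal_natCast, toReal_sum_measure,
    ENNReal.toReal_add (measure_ne_top _ _) (measure_ne_top _ _)] at h1
  push_cast at h1
  exact h1

/-- Real form of a bound. -/
theorem toReal_bound {a b : ℝ≥0∞} {ε : ℝ} {C : ℝ≥0} (hε : 0 ≤ ε) (hb : b ≠ ∞)
    (h : a ≤ ENNReal.ofReal ε + C * b) : a.toReal ≤ ε + C * b.toReal := by
  have h2 : (C : ℝ≥0∞) * b ≠ ∞ := ENNReal.mul_ne_top ENNReal.coe_ne_top hb
  have h1 := ENNReal.toReal_mono (ENNReal.add_ne_top.2 ⟨ENNReal.ofReal_ne_top, h2⟩) h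
  rwa [ENNReal.toReal_add ENNReal.ofReal_ne_top h2, ENNReal.toReal_ofReal hε,
    ENNReal.toReal_mul, ENNReal.coe_toReal] at h1

theorem tv_le {δ h : ℝ} {C : ℝ≥0} (hδ : 0 ≤ δ)
    (hE : ∀ p v : V, PG G {t | ∃ s ∈ A, UE (wt t) S s y p v} ≤
        ENNReal.ofReal δ + C * PG G {t | ∃ s ∈ A, RobE (wt t) S s y p v h}) (x : V) :
    (PG G).real {t | TV (wt t) S A y x} ≤
      9 * δ + C * ∑ v ∈ Pe.bxF x 1, (PG G).real {t | RV (wt t) S A y h v} := by
  classical
  have h1 : {t : Env | TV (wt t) S A y x} ⊆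
      ⋃ v ∈ Pe.bxF x 1, {t : Env | ∃ s ∈ A, UE (wt t) S s y x v} := by
    rintro t ⟨s, hs, v, hv⟩
    simp only [Set.mem_iUnion]
    refine ⟨v, Pe.mem_bxF.2 ?_, s, hs, hv⟩
    have := bx_adj (z := x) (r := 0) hv.1 (by constructor <;> simp)
    simpa using this
  calc (PG G).real {t | TV (wt t) S A y x}
      ≤ ∑ v ∈ Pe.bxF x 1, (PG G).real {t : Env | ∃ s ∈ A, UE (wt t) S s y x v} :=
        (measureReal_mono h1 (measure_ne_top _ _)).trans (measureReal_biUnion_finset_le _ _)
    _ ≤ ∑ v ∈ Pe.bxF x 1, (δ + C * (PG G).real {t | RV (wt t) S A y h v}) := by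
        refine Finset.sum_le_sum fun v _ => ?_
        refine (toReal_bound hδ (measure_ne_top _ _) (hE x v)).trans ?_
        have h2 : (PG G).real {t | ∃ s ∈ A, RobE (wt t) S s y x v h} ≤
            (PG G).real {t | RV (wt t) S A y h v} :=
          measureReal_mono fun t ⟨s, hs, hr⟩ => ⟨s, hs, x, hr⟩
        have h3 := mul_le_mul_of_nonneg_left h2 C.2
        linarith!
    _ = _ := by
        rw [Finset.sum_add_distrib, Finset.sum_const, Pe.card_bxF, ← Finset.mul_sum, nsmul_eq_mul]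
        (clear hδ hE h1; norm_num)

theorem arith3 {s L k D X c w : ℝ} (hk : 0 ≤ k) (h1 : s ≤ L + k * (D + X)) (h2 : D ≤ c + w)
    (h3 : X ≤ c) : s ≤ L + k * (2 * c) + k * w := by
  have h4 := mul_le_mul_of_nonneg_left (add_le_add h2 h3) hk
  have h5 : k * (c + w + c) = k * (2 * c) + k * w := by ring
  rw [h5] at h4
  linarith only [h1, h4]

theorem arith4 {m : ℝ} (hm : 1 ≤ m) : (2 * m + 1) ^ 2 ≤ 9 * m ^ 2 := by nlinarith only [hm]

theorem arith5 {η Ce : ℝ} (hη : 0 < η) (hCe : 0 ≤ Ce) :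
    Ce * (η / (4000 * (Ce + 1))) ≤ η / 4000 := by
  rw [mul_div_assoc', div_le_div_iff₀ (by positivity) (by norm_num)]
  linarith

theorem arith6 {C₁ K c : ℝ} (hc : 0 < c) (hK : 1 ≤ K) (h : (C₁ + 1) / (4 * c) ≤ K) :
    C₁ * K + 1 ≤ c * (2 * K + 1) ^ 2 := by
  have g2 : C₁ + 1 ≤ K * (4 * c) := by rwa [div_le_iff₀ (by positivity)] at h
  have g3 := mul_le_mul_of_nonneg_right g2 (by positivity : (0 : ℝ) ≤ K)
  have g4 : 0 ≤ c * K := by positivity
  linarith

theorem bx_sub_bx {a b n : ℕ} (hz : z ∈ bx 0 a) (h : a + b ≤ n) : bx z b ⊆ bx 0 n := by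
  intro x hx
  obtain ⟨a1, a2⟩ := hz
  obtain ⟨b1, b2⟩ := hx
  have h' : (a : ℤ) + b ≤ n := by exact_mod_cast h
  constructor
  · calc |x.1 - (0 : V).1| ≤ |x.1 - z.1| + |z.1 - (0 : V).1| := abs_sub_le _ _ _
      _ ≤ _ := by linarith only [h, a1, b1]
  · calc |x.2 - (0 : V).2| ≤ |x.2 - z.2| + |z.2 - (0 : V).2| := abs_sub_le _ _ _
      _ ≤ _ := by linarith only [h, a2, b2]

theorem blocks [NullSingletonClass G] (h0 : G (Set.Iio 0) = 0) (hU : UqStmt G)
    (hT : TSet m S A y) {C₁ h c : ℝ} {K r a : ℕ} {Cw : ℝ≥0} (hc : 0 ≤ c)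
    (hL : (PG G).real {t | ¬ LenE C₁ K t} ≤ c) (hKr : K ≤ r) (ha : a + K + r + 3 = m)
    (hW : ∀ z : V, bx z (r + 1) ⊆ bx 0 m → PG G {t | Dbl (wt t) S A y h z K} ≤
        ENNReal.ofReal c + Cw * PG G {t | ∃ x ∈ bx z r, MV (wt t) S A y x}) :
    (2 * (K : ℝ) + 1) ^ 2 * ∑ v ∈ Pe.bxF 0 (a + 1), (PG G).real {t | RV (wt t) S A y h v} ≤
      (2 * (m : ℝ) + 1) ^ 2 * (⌈C₁ * K⌉₊ + (2 * (K : ℝ) + 1) ^ 2 * (2 * c)) +
        (2 * (K : ℝ) + 1) ^ 2 * (Cw * ((2 * (r : ℝ) + 1) ^ 2 * (8 * m))) := by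
  have h1 := swapR_ge (G := G) (fun v => {t : Env | RV (wt t) S A y h v}) (a + 1) K
  refine h1.trans ?_
  have h2 : ∀ z ∈ Pe.bxF 0 (a + 1 + K), ∑ v ∈ Pe.bxF z K, (PG G).real {t | RV (wt t) S A y h v} ≤
      (⌈C₁ * K⌉₊ + (2 * (K : ℝ) + 1) ^ 2 * (2 * c)) + (2 * (K : ℝ) + 1) ^ 2 * (Cw *
        ∑ x ∈ Pe.bxF z r, (PG G).real {t | MV (wt t) S A y x}) := by
    intro z hz
    rw [Pe.mem_bxF] at hz
    have h3 := sumR_rv_le h0 hU hT (C₁ := C₁) (h := h) (K := K) (z := z)
      (bx_sub_bx hz (by omega))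
    have h4 := toReal_bound hc (measure_ne_top _ _) (hW z (bx_sub_bx hz (by omega)))
    have h5 : (PG G {t | ∃ x ∈ bx z r, MV (wt t) S A y x}).toReal ≤
        ∑ x ∈ Pe.bxF z r, (PG G).real {t | MV (wt t) S A y x} := by
      have h6 : {t : Env | ∃ x ∈ bx z r, MV (wt t) S A y x} ⊆
          ⋃ x ∈ Pe.bxF z r, {t : Env | MV (wt t) S A y x} := by
        rintro t ⟨x, hx, hm⟩
        simp only [Set.mem_iUnion]
        exact ⟨x, Pe.mem_bxF.2 hx, hm⟩
      exact (measureReal_mono (μ := PG G) h6 (measure_ne_top _ _)).trans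
        (measureReal_biUnion_finset_le _ _)
    have h7 := mul_le_mul_of_nonneg_left h5 Cw.2
    have h8 : (PG G).real {t | Dbl (wt t) S A y h z K} ≤
        c + Cw * ∑ x ∈ Pe.bxF z r, (PG G).real {t | MV (wt t) S A y x} :=
      h4.trans (add_le_add le_rfl h7)
    exact arith3 (by (clear * -; positivity)) h3 h8 hL
  refine (Finset.sum_le_sum h2).trans ?_
  rw [Finset.sum_add_distrib, Finset.sum_const, Pe.card_bxF, nsmul_eq_mul, ← Finset.mul_sum,
    ← Finset.mul_sum]
  have h3 := swapR_le (G := G) (fun v => {t : Env | MV (wt t) S A y v}) (a + 1 + K) r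
  have h4 := sumR_mv_le' h0 hU hT (ρ := a + 1 + K + r) (by omega)
  have h5 : (0 : ℝ) ≤ (2 * (r : ℝ) + 1) ^ 2 := by (clear * -; positivity)
  have h6 := h3.trans (mul_le_mul_of_nonneg_left h4 h5)
  have h7 : (((2 * (a + 1 + K) + 1) ^ 2 : ℕ) : ℝ) ≤ (2 * (m : ℝ) + 1) ^ 2 := by
    have : (2 * (a + 1 + K) + 1) ^ 2 ≤ (2 * m + 1) ^ 2 := Nat.pow_le_pow_left (by omega) 2
    exact_mod_cast this
  have h8 : (0 : ℝ) ≤ ⌈C₁ * K⌉₊ + (2 * (K : ℝ) + 1) ^ 2 * (2 * c) := by (clear * - hc; positivity)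
  have h9 := mul_le_mul_of_nonneg_right h7 h8
  have h10 : (0 : ℝ) ≤ (2 * (K : ℝ) + 1) ^ 2 := by (clear * -; positivity)
  have h11 := mul_le_mul_of_nonneg_left (mul_le_mul_of_nonneg_left h6 Cw.2) h10
  exact add_le_add h9 h11

theorem arith1 {η c Ce Cw m q M : ℝ} (hη : 0 < η) (hm : 1 ≤ m)
    (e6 : m / 4 * M ≤ 9 * m ^ 2 * (9 * (η / 2000)) + Ce * (9 * (27 * c * m ^ 2 + 8 * Cw * q * m)))
    (e7 : Ce * c ≤ η / 4000) (e8 : 1152 * Ce * (9 * Cw * q) ≤ m * η) : M ≤ η * m := by
  have g0 : (0 : ℝ) < m / 4 := by (clear * - hm; linarith)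
  refine le_of_mul_le_mul_left (e6.trans ?_) g0
  have g1 := mul_le_mul_of_nonneg_right e7 (by positivity : (0 : ℝ) ≤ 243 * m ^ 2)
  have g2 := mul_le_mul_of_nonneg_right e8 (by positivity : (0 : ℝ) ≤ m / 144)
  have g3 : 0 ≤ η * m ^ 2 := by positivity
  have g4 : 9 * m ^ 2 * (9 * (η / 2000)) + Ce * (9 * (27 * c * m ^ 2 + 8 * Cw * q * m)) =
    81 / 2000 * (η * m ^ 2) + Ce * c * (243 * m ^ 2) +
      1152 * Ce * (9 * Cw * q) * (m / 144) := by ring
  have g5 : m * η * (m / 144) = η * m ^ 2 / 144 := by ring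
  have g6 : η / 4000 * (243 * m ^ 2) = 243 / 4000 * (η * m ^ 2) := by ring
  have g7 : m / 4 * (η * m) = η * m ^ 2 / 4 := by ring
  rw [g4, g7]
  rw [g5] at g2
  rw [g6] at g1
  linarith only [g1, g2, g3]

theorem arith2 {L c k m R q Cw : ℝ} (hc : 0 ≤ c) (hm : 1 ≤ m) (hk : 0 < k)
    (e3 : k * R ≤ (2 * m + 1) ^ 2 * (L + k * (2 * c)) + k * (Cw * (q * (8 * m))))
    (e4 : L ≤ c * k) : R ≤ 27 * c * m ^ 2 + 8 * Cw * q * m := by
  have hmm : (2 * m + 1) ^ 2 ≤ 9 * m ^ 2 := by nlinarith only [hm]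
  have g1 : k * R ≤ k * (27 * c * m ^ 2 + 8 * Cw * q * m) := by
    refine e3.trans ?_
    have g2 : L + k * (2 * c) ≤ k * (3 * c) := by linarith only [e4]
    have g3 : (0 : ℝ) ≤ k * (3 * c) := by positivity
    have g4 := mul_le_mul_of_nonneg_left g2 (by positivity : (0 : ℝ) ≤ (2 * m + 1) ^ 2)
    have g5 := mul_le_mul_of_nonneg_right hmm g3
    have g6 := g4.trans g5
    have g7 : k * (27 * c * m ^ 2 + 8 * Cw * q * m) =
      9 * m ^ 2 * (k * (3 * c)) + k * (Cw * (q * (8 * m))) := by ring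
    rw [g7]
    linarith
  exact le_of_mul_le_mul_left g1 hk

/-- The expected number of merge vertices in a smaller box is small. -/
theorem treeF [NullSingletonClass G] (h0 : G (Set.Iio 0) = 0) (hU : UqStmt G)
    (hW : WinStmt G) (hE : EdgeStmt G) (hL : LenStmt G) : TreeFStmt G := by
  intro η hη
  obtain ⟨C₁, hC₁, hL⟩ := hL
  obtain ⟨h, Ce, hh, hE⟩ := hE (η / 2000) (by positivity)
  set c : ℝ := η / (4000 * (Ce + 1)) with hc
  have hCe : (0 : ℝ) ≤ Ce := Ce.2
  have hc0 : 0 < c := by positivity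
  obtain ⟨r₀, hL⟩ := hL c hc0
  obtain ⟨K₁, hK₁⟩ := exists_nat_ge ((C₁ + 1) / (4 * c))
  set K := max (max r₀ 1) K₁ with hK
  have hKr₀ : r₀ ≤ K := (le_max_left _ _).trans (le_max_left _ _)
  have hK1 : 1 ≤ K := (le_max_right _ _).trans (le_max_left _ _)
  have hKK : (C₁ + 1) / (4 * c) ≤ K := hK₁.trans (by exact_mod_cast le_max_right _ _)
  obtain ⟨r, Cw, hKr, hW⟩ := hW K h c hh hc0
  have hCw : (0 : ℝ) ≤ Cw := Cw.2
  obtain ⟨m₁, hm₁⟩ := exists_nat_ge (1152 * Ce * (9 * Cw * (2 * (r : ℝ) + 1) ^ 2) / η)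
  refine ⟨max (12 * (r + K + 3)) m₁, fun m hm S A y hT k hk => ?_⟩
  have hm1 : 12 * (r + K + 3) ≤ m := (le_max_left _ _).trans hm
  have hm2 : 1152 * Ce * (9 * Cw * (2 * (r : ℝ) + 1) ^ 2) / η ≤ m :=
    hm₁.trans (by exact_mod_cast (le_max_right _ _).trans hm)
  obtain ⟨a, ha⟩ : ∃ a, a + K + r + 3 = m := ⟨m - (K + r + 3), by (clear * - hm1; omega)⟩
  obtain ⟨j, hj⟩ : ∃ j, k + j = a := ⟨a - k, by omega⟩
  have hj4 : (m : ℝ) / 4 ≤ j := by
    have : m ≤ 4 * j := by (clear * - hk hm1 ha hj; omega)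
    have : (m : ℝ) ≤ 4 * j := by exact_mod_cast this
    linarith only [this]
  have hmpos : (1 : ℝ) ≤ m := by
    have : 1 ≤ m := by (clear * - hK1 hKr ha; omega)
    exact_mod_cast this
  have hKpos : (1 : ℝ) ≤ K := by exact_mod_cast hK1
  set M := ∑ x ∈ Pe.bxF 0 k, (PG G).real {t | MV (wt t) S A y x} with hM
  set R := ∑ v ∈ Pe.bxF 0 (a + 1), (PG G).real {t | RV (wt t) S A y h v} with hR
  have hM0 : 0 ≤ M := Finset.sum_nonneg fun _ _ => measureReal_nonneg
  -- rings
  have e1 := rings h0 hU hT k j (by omega)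
  rw [hj, ← hM] at e1
  -- edges
  have e2 : ∑ x ∈ Pe.bxF 0 a, (PG G).real {t | TV (wt t) S A y x} ≤
      (2 * (m : ℝ) + 1) ^ 2 * (9 * (η / 2000)) + Ce * (9 * R) := by
    have f1 : ∀ x ∈ Pe.bxF 0 a, (PG G).real {t | TV (wt t) S A y x} ≤ 9 * (η / 2000) +
        Ce * ∑ v ∈ Pe.bxF x 1, (PG G).real {t | RV (wt t) S A y h v} := fun x _ =>
      tv_le (by (clear * - hη; positivity)) (fun p v => hE S A y hT.fin hT.conn (fun s hs => (hT.hA hs).1)
        hT.hy.1 p v) x
    refine (Finset.sum_le_sum f1).trans ?_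
    rw [Finset.sum_add_distrib, Finset.sum_const, Pe.card_bxF, nsmul_eq_mul, ← Finset.mul_sum]
    have f2 := swapR_le (G := G) (fun v => {t : Env | RV (wt t) S A y h v}) a 1
    rw [← hR] at f2
    have f3 : (2 * ((1 : ℕ) : ℝ) + 1) ^ 2 * R = 9 * R := by norm_num
    rw [f3] at f2
    have f4 : (((2 * a + 1) ^ 2 : ℕ) : ℝ) ≤ (2 * (m : ℝ) + 1) ^ 2 := by
      have : (2 * a + 1) ^ 2 ≤ (2 * m + 1) ^ 2 := Nat.pow_le_pow_left (by (clear * - ha; omega)) 2
      exact_mod_cast this
    exact add_le_add (mul_le_mul_of_nonneg_right f4 (by positivity))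
      (mul_le_mul_of_nonneg_left f2 hCe)
  -- blocks
  have e3 := blocks h0 hU hT (C₁ := C₁) (h := h) hc0.le (K := K) (r := r) (a := a) (Cw := Cw)
    (by
      have := ENNReal.toReal_mono ENNReal.ofReal_ne_top (hL K hKr₀)
      rwa [ENNReal.toReal_ofReal hc0.le] at this) hKr ha (fun z hz => hW m S A y hT z hz)
  rw [← hR] at e3
  have e4 : (⌈C₁ * K⌉₊ : ℝ) ≤ c * (2 * (K : ℝ) + 1) ^ 2 := by
    have g1 : (⌈C₁ * K⌉₊ : ℝ) ≤ C₁ * K + 1 := (Nat.ceil_lt_add_one (by (clear * - hC₁; positivity))).le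
    exact g1.trans (arith6 hc0 hKpos hKK)
  have hmm : (2 * (m : ℝ) + 1) ^ 2 ≤ 9 * m ^ 2 := arith4 hmpos
  have e5 : R ≤ 27 * c * m ^ 2 + 8 * Cw * (2 * (r : ℝ) + 1) ^ 2 * m :=
    arith2 hc0.le hmpos (by (clear * -; positivity)) e3 e4
  have e6 : (m : ℝ) / 4 * M ≤ 9 * m ^ 2 * (9 * (η / 2000)) +
      Ce * (9 * (27 * c * m ^ 2 + 8 * Cw * (2 * (r : ℝ) + 1) ^ 2 * m)) := by
    have g1 := mul_le_mul_of_nonneg_right hj4 hM0
    have g2 := mul_le_mul_of_nonneg_right hmm (by positivity : (0 : ℝ) ≤ 9 * (η / 2000))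
    have g3 := mul_le_mul_of_nonneg_left e5 hCe
    (clear h0 hU hh hc hL hK hKr₀ hW hCw hm₁ hm2 hM; linarith)
  have e7 : Ce * c ≤ η / 4000 := arith5 hη hCe
  have e8 : 1152 * Ce * (9 * Cw * (2 * (r : ℝ) + 1) ^ 2) ≤ m * η := by
    rwa [div_le_iff₀ hη] at hm2
  have e9 : M ≤ η * m := arith1 hη hmpos e6 e7 e8
  have e10 : ∑ x ∈ Pe.bxF 0 k, PG G {t | MV (wt t) S A y x} = ENNReal.ofReal M := by
    rw [hM, ← toReal_sum_measure, ENNReal.ofReal_toReal (sum_ne_top _ _)]
  rw [e10]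
  exact ENNReal.ofReal_le_ofReal e9

/-- (4) The merge bound. -/
theorem mrg_of_tree (h : TreeFStmt G) : MrgStmt G := by
  intro ε hε
  obtain ⟨m₀, hm₀⟩ := h ε hε
  refine ⟨m₀ + 4, fun N hN y hy => ?_⟩
  have hT : TSet (N - 1) (bx 0 N) (bdy N) y := by
    have hout : ∀ x ∈ bdy N, x ∉ bx 0 (N - 1) := by
      rintro x ⟨h1, h2⟩ ⟨h3, h4⟩
      simp only [Prod.fst_zero, Prod.snd_zero, sub_zero] at h3 h4
      rcases h2 with h2 | h2 <;> omega
    refine ⟨bx_finite 0 N, bx_mono (Nat.sub_le _ _), fun x hx y hy => ?_,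
      fun x hx => ⟨hx.1, hout x hx⟩, hy.1, hout y hy⟩
    exact CLp.conn_bx hx hy
  have h1 := hm₀ (N - 1) (by omega) (bx 0 N) (bdy N) y hT (N / 2) (by omega)
  have h2 : ∑ p ∈ bxF 0 (N / 2), PG G {t | MrgB (wt t) N y p} ≤
      ∑ x ∈ Pe.bxF 0 (N / 2), PG G {t | MV (wt t) (bx 0 N) (bdy N) y x} := by
    have e : bxF 0 (N / 2) = Pe.bxF 0 (N / 2) := by
      ext x
      rw [mem_bxF, Pe.mem_bxF]
    rw [e]
    refine Finset.sum_le_sum fun x _ => measure_mono ?_
    rintro t ⟨a, a', q, q', ha, ha', h1, h2, h3, h4, h5, h6, h7, h8⟩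
    exact ⟨a, ha, a', ha', q, q', h3, ⟨h1, h4, h6, h7⟩, ⟨h2, h5, h6, h8⟩⟩
  refine h2.trans (h1.trans (ENNReal.ofReal_le_ofReal ?_))
  refine mul_le_mul_of_nonneg_left ?_ hε.le
  exact_mod_cast Nat.sub_le _ _

/-- (4) The merge bound from the window lemma, the one-edge inequality and the length bound. -/
theorem mrg [NullSingletonClass G] (h0 : G (Set.Iio 0) = 0) (hU : UqStmt G)
    (hW : WinStmt G) (hE : EdgeStmt G) (hL : LenStmt G) : MrgStmt G :=
  mrg_of_tree (treeF h0 hU hW hE hL)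

end Vale.Agent.P158.C.MrgA
end
end

section

section

/-! Resampling with two independent copies; typical weights; good windows for every atomless
law. -/

namespace Vale.Agent.P158.C.Low

open SimpleGraph Vale.Agent.P158.T1 MeasureTheory Filter
open scoped ENNReal NNReal

variable {G : Measure ℝ} [IsProbabilityMeasure G]

theorem measurable_mix (F : Finset latt.edgeSet) :
    Measurable fun q : Env × Env => mix F q.1 q.2 := by
  classical
  refine measurable_pi_lambda _ fun e => ?_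
  by_cases h : e ∈ F
  · simp only [mix, h, if_true]
    exact (measurable_pi_apply e).comp measurable_snd
  · simp only [mix, h, if_false]
    exact (measurable_pi_apply e).comp measurable_fst

/-- Mixing two independent environments gives an environment. -/
theorem mp_mix (F : Finset latt.edgeSet) :
    MeasurePreserving (fun q : Env × Env => mix F q.1 q.2) ((PG G).prod (PG G)) (PG G) := by
  classical
  refine ⟨measurable_mix F, ?_⟩
  refine Measure.eq_infinitePi _ fun s t ht => ?_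
  rw [Measure.map_apply (measurable_mix F) (MeasurableSet.pi s.countable_toSet fun i _ => ht i)]
  have e1 : (fun q : Env × Env => mix F q.1 q.2) ⁻¹' (Set.pi s t) =
      (Set.pi ((s \ F : Finset latt.edgeSet) : Set latt.edgeSet) t) ×ˢ
        (Set.pi ((s ∩ F : Finset latt.edgeSet) : Set latt.edgeSet) t) := by
    ext ⟨x, y⟩
    simp only [Set.mem_preimage, Set.mem_pi, Finset.mem_coe, Finset.mem_sdiff, Finset.mem_inter,
      Set.mem_prod]
    constructor
    · intro h
      refine ⟨fun i hi => ?_, fun i hi => ?_⟩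
      · have := h i hi.1
        rwa [mix_of_not_mem hi.2] at this
      · have := h i hi.1
        rwa [mix_of_mem hi.2] at this
    · rintro ⟨h1, h2⟩ i hi
      by_cases hF : i ∈ F
      · rw [mix_of_mem hF]; exact h2 i ⟨hi, hF⟩
      · rw [mix_of_not_mem hF]; exact h1 i ⟨hi, hF⟩
  rw [e1, Measure.prod_prod]
  unfold PG
  rw [Measure.infinitePi_pi _ fun i _ => ht _, Measure.infinitePi_pi _ fun i _ => ht _,
    mul_comm, ← Finset.prod_union (by
      rw [Finset.disjoint_left]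
      intro a ha hb
      exact (Finset.mem_sdiff.1 hb).2 (Finset.mem_inter.1 ha).2)]
  congr 1
  ext i
  simp only [Finset.mem_union, Finset.mem_inter, Finset.mem_sdiff]
  tauto

/-- Resampling inequality. -/
theorem resample (Λ : Finset latt.edgeSet) {θ : ℝ≥0∞} (hθ1 : θ ≤ 1) {J : ℝ → Set ℝ}
    (hJ : ∀ s, MeasurableSet (J s)) {T : Set ℝ} (hθ : ∀ s ∈ T, θ ≤ G (J s))
    {A C : Set Env} (hC : MeasurableSet C)
    (h : ∀ t ∈ A, ∀ t' : Env, (∀ e ∈ Λ, t e ∈ T → t' e ∈ J (t e)) →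
      ∃ F ⊆ Λ, mix F t t' ∈ C) :
    θ ^ Λ.card * PG G A ≤ 2 ^ Λ.card * PG G C := by
  classical
  set B : Set (Env × Env) := ⋃ F ∈ Λ.powerset, (fun q : Env × Env => mix F q.1 q.2) ⁻¹' C with hB
  have hBm : MeasurableSet B := Finset.measurableSet_biUnion _ fun F _ => measurable_mix F hC
  have h1 : ((PG G).prod (PG G)) B ≤ 2 ^ Λ.card * PG G C := by
    refine (measure_biUnion_finset_le _ _).trans ?_
    have : ∀ F ∈ Λ.powerset, ((PG G).prod (PG G))
        ((fun q : Env × Env => mix F q.1 q.2) ⁻¹' C) = PG G C := fun F _ =>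
      (mp_mix (G := G) F).measure_preimage hC.nullMeasurableSet
    rw [Finset.sum_congr rfl this, Finset.sum_const, Finset.card_powerset, nsmul_eq_mul]
    push_cast
    exact le_rfl
  refine le_trans ?_ h1
  rw [Measure.prod_apply hBm]
  have hmeas : Measurable fun t : Env => PG G (Prod.mk t ⁻¹' B) :=
    measurable_measure_prodMk_left hBm
  have hsub : A ⊆ {t | θ ^ Λ.card ≤ PG G (Prod.mk t ⁻¹' B)} := by
    intro t ht
    have hbox : Set.pi ((Λ.filter fun e => t e ∈ T : Finset latt.edgeSet) : Set latt.edgeSet)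
        (fun e => J (t e)) ⊆ Prod.mk t ⁻¹' B := by
      intro t' ht'
      have : ∀ e ∈ Λ, t e ∈ T → t' e ∈ J (t e) := fun e he heT =>
        ht' e (by simp [he, heT])
      obtain ⟨F, hF, hFC⟩ := h t ht t' this
      show (t, t') ∈ B
      rw [hB]
      simp only [Set.mem_iUnion, Finset.mem_powerset]
      exact ⟨F, hF, hFC⟩
    refine le_trans ?_ (measure_mono hbox)
    unfold PG
    rw [Measure.infinitePi_pi _ fun i _ => hJ _]
    calc θ ^ Λ.card ≤ θ ^ (Λ.filter fun e => t e ∈ T).card :=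
          pow_le_pow_right_of_le_one' hθ1 (Finset.card_filter_le _ _)
      _ = ∏ _e ∈ Λ.filter fun e => t e ∈ T, θ := by rw [Finset.prod_const]
      _ ≤ _ := Finset.prod_le_prod' fun e he => hθ _ (Finset.mem_filter.1 he).2
  calc θ ^ Λ.card * PG G A ≤ θ ^ Λ.card * PG G {t | θ ^ Λ.card ≤ PG G (Prod.mk t ⁻¹' B)} := by
        (clear hC hBm h1 hmeas; gcongr)
    _ ≤ _ := mul_meas_ge_le_lintegral hmeas _

/-! ### Typical weights -/

/-- Lowering window. -/
def Jw (η η' : ℝ) (s : ℝ) : Set ℝ := Set.Ioo (max 0 (s - η)) (s - η')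

theorem measurable_Jw (η η' : ℝ) : Measurable fun s => G (Jw η η' s) := by
  have hm : MeasurableSet {q : ℝ × ℝ | q.2 ∈ Jw η η' q.1} := by
    have : {q : ℝ × ℝ | q.2 ∈ Jw η η' q.1} =
        {q | max 0 (q.1 - η) < q.2} ∩ {q | q.2 < q.1 - η'} := by
      ext q; simp only [Jw, Set.mem_Ioo, sup_lt_iff, Set.mem_ofPred_eq, Set.mem_inter_iff]
    rw [this]
    refine MeasurableSet.inter ?_ ?_
    · exact measurableSet_lt (by fun_prop) (by fun_prop)
    · exact measurableSet_lt (by fun_prop) (by fun_prop)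
  exact measurable_measure_prodMk_left hm

omit [IsProbabilityMeasure G] in
theorem null_left [NullSingletonClass G] {c : Set ℝ} (h : ∀ s ∈ c, G (c ∩ Set.Iio s) = 0) :
    G c = 0 := by
  obtain ⟨T, hTc, hT, hTU⟩ := TopologicalSpace.isOpen_biUnion_countable c (fun s => Set.Iio s)
    fun s _ => isOpen_Iio
  have hsub : c ⊆ (⋃ s ∈ T, (c ∩ Set.Iio s)) ∪ (c \ ⋃ s ∈ c, Set.Iio s) := by
    intro x hx
    by_cases hxU : x ∈ ⋃ s ∈ c, Set.Iio s
    · left
      rw [← hTU] at hxU
      simp only [Set.mem_iUnion] at hxU ⊢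
      obtain ⟨s, hs, hxs⟩ := hxU
      exact ⟨s, hs, hx, hxs⟩
    · right
      exact ⟨hx, hxU⟩
  refine measure_mono_null hsub (measure_union_null ?_ ?_)
  · exact (measure_biUnion_null_iff hT).2 fun s hs => h s (hTc hs)
  · refine Set.Subsingleton.measure_zero ?_ G
    intro a ha b hb
    have key : ∀ a b, a ∈ c \ ⋃ s ∈ c, Set.Iio s → b ∈ c → b ≤ a := by
      intro a b ha hb
      by_contra hlt
      push Not at hlt
      exact ha.2 (by simp only [Set.mem_iUnion]; exact ⟨b, hb, hlt⟩)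
    exact le_antisymm (key b a hb ha.1) (key a b ha hb.1)

omit [IsProbabilityMeasure G] in
theorem null_zero [NullSingletonClass G] (hG : G (Set.Iio 0) = 0) : G (Set.Iic 0) = 0 := by
  rw [← Set.Iio_union_right, measure_union_null_iff]
  exact ⟨hG, measure_singleton _⟩

omit [IsProbabilityMeasure G] in
theorem null_flat [NullSingletonClass G] (hG : G (Set.Iio 0) = 0) {η : ℝ} (hη : 0 < η) :
    G {s | G (Set.Ioo (max 0 (s - η)) s) = 0} = 0 := by
  have hsub : {s | G (Set.Ioo (max 0 (s - η)) s) = 0} ⊆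
      ⋃ k : ℤ, ({s | G (Set.Ioo (max 0 (s - η)) s) = 0} ∩
        Set.Ico (k * (η / 2)) ((k + 1) * (η / 2))) := by
    intro s hs
    rw [Set.mem_iUnion]
    refine ⟨⌊s / (η / 2)⌋, hs, ?_, ?_⟩
    · have := Int.floor_le (s / (η / 2))
      rw [le_div_iff₀ (by positivity)] at this
      exact this
    · have := Int.lt_floor_add_one (s / (η / 2))
      rw [div_lt_iff₀ (by positivity)] at this
      exact this
  refine measure_mono_null hsub ?_
  rw [measure_iUnion_null_iff]
  intro k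
  refine null_left fun s hs => ?_
  have hsub2 : ({s | G (Set.Ioo (max 0 (s - η)) s) = 0} ∩
      Set.Ico (k * (η / 2)) ((k + 1) * (η / 2))) ∩ Set.Iio s ⊆
      Set.Ioo (max 0 (s - η)) s ∪ Set.Iic 0 := by
    rintro u ⟨⟨-, hu1, hu2⟩, hu3⟩
    by_cases hu0 : u ≤ 0
    · exact Or.inr hu0
    · left
      push Not at hu0
      refine ⟨max_lt hu0 ?_, hu3⟩
      have := hs.2.2
      linarith
  exact measure_mono_null hsub2 (measure_union_null hs.1 (null_zero hG))

/-- Typical weights can be lowered by an amount between `η'` and `η`. -/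
theorem exists_typ [NullSingletonClass G] (hG : G (Set.Iio 0) = 0) {η : ℝ} (hη : 0 < η)
    {ε : ℝ≥0∞} (hε : 0 < ε) : ∃ (η' : ℝ) (θ : ℝ≥0∞), 0 < η' ∧ 0 < θ ∧ θ ≤ 1 ∧
      MeasurableSet {s | θ ≤ G (Jw η η' s)} ∧ G {s | θ ≤ G (Jw η η' s)}ᶜ ≤ ε := by
  set f : ℕ → Set ℝ := fun n => {s | ((n : ℝ≥0∞) + 1)⁻¹ ≤ G (Jw η (1 / ((n : ℝ) + 1)) s)}ᶜ
    with hf
  have hfm : ∀ n : ℕ,
      MeasurableSet {s | ((n : ℝ≥0∞) + 1)⁻¹ ≤ G (Jw η (1 / ((n : ℝ) + 1)) s)} :=
    fun n => measurableSet_le measurable_const (measurable_Jw _ _)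
  have hanti : Antitone f := by
    intro n m hnm s hs hs'
    refine hs ?_
    have hs'' : ((n : ℝ≥0∞) + 1)⁻¹ ≤ G (Jw η (1 / ((n : ℝ) + 1)) s) := hs'
    show ((m : ℝ≥0∞) + 1)⁻¹ ≤ G (Jw η (1 / ((m : ℝ) + 1)) s)
    have hnm' : (n : ℝ) ≤ m := by exact_mod_cast hnm
    calc ((m : ℝ≥0∞) + 1)⁻¹ ≤ ((n : ℝ≥0∞) + 1)⁻¹ := by
          apply ENNReal.inv_le_inv.2
          (clear * - hnm; gcongr)
      _ ≤ G (Jw η (1 / ((n : ℝ) + 1)) s) := hs''
      _ ≤ G (Jw η (1 / ((m : ℝ) + 1)) s) := by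
          refine measure_mono fun u hu => ⟨hu.1, hu.2.trans_le ?_⟩
          have : 1 / ((m : ℝ) + 1) ≤ 1 / ((n : ℝ) + 1) :=
            one_div_le_one_div_of_le (by (clear * -; positivity)) (by linarith only [hnm'])
          linarith only [this]
  have hinter : (⋂ n, f n) ⊆ {s | G (Set.Ioo (max 0 (s - η)) s) = 0} := by
    intro s hs
    rw [Set.mem_iInter] at hs
    by_contra hne
    have hne' : 0 < G (Set.Ioo (max 0 (s - η)) s) := pos_iff_ne_zero.2 hne
    have hU : Set.Ioo (max 0 (s - η)) s = ⋃ n : ℕ, Jw η (1 / ((n : ℝ) + 1)) s := by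
      ext u
      simp only [Set.mem_iUnion, Jw, Set.mem_Ioo]
      constructor
      · rintro ⟨h1, h2⟩
        obtain ⟨n, hn⟩ := exists_nat_one_div_lt (sub_pos.2 h2)
        exact ⟨n, h1, by (clear * - hn; linarith)⟩
      · rintro ⟨n, h1, h2⟩
        have : (0 : ℝ) < 1 / ((n : ℝ) + 1) := by (clear * -; positivity)
        exact ⟨h1, by linarith only [h2, this]⟩
    have hmono : Monotone fun n : ℕ => Jw η (1 / ((n : ℝ) + 1)) s := by
      intro n m hnm u hu
      refine ⟨hu.1, hu.2.trans_le ?_⟩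
      have hnm' : (n : ℝ) ≤ m := by exact_mod_cast hnm
      have : 1 / ((m : ℝ) + 1) ≤ 1 / ((n : ℝ) + 1) :=
        one_div_le_one_div_of_le (by (clear * -; positivity)) (by linarith only [hnm'])
      show s - 1 / ((n : ℝ) + 1) ≤ s - 1 / ((m : ℝ) + 1)
      linarith only [this]
    have ht := tendsto_measure_iUnion_atTop (μ := G) hmono
    rw [← hU] at ht
    have hinv : Tendsto (fun n : ℕ => ((n : ℝ≥0∞) + 1)⁻¹) atTop (nhds 0) := by
      have h1 := ENNReal.tendsto_inv_nat_nhds_zero.comp (tendsto_add_atTop_nat 1)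
      refine h1.congr fun n => ?_
      simp
    have hev := (tendsto_order.1 ht).1 (G (Set.Ioo (max 0 (s - η)) s) / 2)
      (ENNReal.half_lt_self hne (measure_ne_top _ _))
    have hev2 := (tendsto_order.1 hinv).2 (G (Set.Ioo (max 0 (s - η)) s) / 2)
      (ENNReal.half_pos hne)
    obtain ⟨n, hn1, hn2⟩ := (hev.and hev2).exists
    exact hs n (hn2.le.trans hn1.le)
  have ht := tendsto_measure_iInter_atTop (μ := G)
    (fun n => ((hfm n).compl).nullMeasurableSet) hanti ⟨0, measure_ne_top _ _⟩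
  have h0 : G (⋂ n, f n) = 0 := measure_mono_null hinter (null_flat hG hη)
  rw [h0] at ht
  obtain ⟨n, hn⟩ := ((tendsto_order.1 ht).2 ε hε).exists
  refine ⟨1 / ((n : ℝ) + 1), ((n : ℝ≥0∞) + 1)⁻¹, by (clear * -; positivity), ?_, ?_, hfm n, hn.le⟩
  · exact ENNReal.inv_pos.2 (by finiteness)
  · exact ENNReal.inv_le_one.2 (by simp only [self_le_add_left])

/-! ### Peierls estimates for arbitrary sets of good weights -/

open Classical in
/-- Indicator. -/
noncomputable def ind (T : Set ℝ) (s : ℝ) : ℝ := if s ∈ T then 1 else 0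

theorem measurable_ind {T : Set ℝ} (hT : MeasurableSet T) : Measurable (ind T) :=
  Measurable.ite hT measurable_const measurable_const

theorem one_le_ind {T : Set ℝ} {s : ℝ} : 1 ≤ ind T s ↔ s ∈ T := by
  unfold ind
  split_ifs with h
  · simp [h]
  · simp only [h, iff_false, not_le]; norm_num

/-- Peierls estimate for annuli and an arbitrary set of good weights. -/
theorem peierls_set {T : Set ℝ} (hT : MeasurableSet T) (h : G Tᶜ ≤ 1 / 16) :
    ∃ C θ : ℝ, 0 < C ∧ 0 < θ ∧ θ < 1 ∧ ∀ (z : V) (r s : ℕ), r ≤ s →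
      PG G {t | ¬ AG 1 (fun e => ind T (t e)) z r s} ≤
        ENNReal.ofReal (C * (r + 1) * θ ^ (s - r)) := by
  have hm := measurable_ind hT
  have : IsProbabilityMeasure (G.map (ind T)) := Measure.isProbabilityMeasure_map hm.aemeasurable
  have h1 : (G.map (ind T)) (Set.Iio 1) ≤ 1 / 16 := by
    rw [Measure.map_apply hm measurableSet_Iio]
    refine le_trans (measure_mono ?_) h
    intro s hs hsT
    exact absurd (one_le_ind.2 hsT) (not_le.2 hs)
  obtain ⟨C, θ, hC, hθ0, hθ1, hP⟩ := Pe.peierls (G.map (ind T)) 1 h1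
  refine ⟨C, θ, hC, hθ0, hθ1, fun z r s hrs => ?_⟩
  have h2 : PG (G.map (ind T)) = (PG G).map (fun (t : Env) e => ind T (t e)) := by
    unfold PG
    exact (Measure.infinitePi_map_pi (μ := fun _ : latt.edgeSet => G) fun _ => hm).symm
  have h3 := hP z r s hrs
  have h4 : Measurable fun (t : Env) (e : latt.edgeSet) => ind T (t e) :=
    measurable_pi_lambda _ fun e => hm.comp (measurable_pi_apply e)
  rw [h2, Measure.map_apply h4 (measurable_AG 1 z r s).not.setOf] at h3
  exact h3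

/-- Number of typical edges of a crossing. -/
theorem card_typ {T : Set ℝ} {t : Env} {z x y : V} {r s n : ℕ}
    (h : AG 1 (fun e => ind T (t e)) z r s) (hs : r + 8 * n ≤ s) (p : latt.Walk x y)
    (hx : x ∈ bx z r) (hy : y ∉ bx z s) :
    ∃ Q : Finset latt.edgeSet, n ≤ Q.card ∧ ∀ e ∈ Q, e ∈ pe p ∧ e ∉ tE z r ∧ e ∈ tE z s ∧
      t e ∈ T := by
  classical
  refine ⟨hv 1 (fun e => ind T (t e)) z r s p, ?_, fun e he => ?_⟩
  · have := h x y p hx hy
    omega
  · unfold hv at he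
    rw [Finset.mem_filter] at he
    exact ⟨he.1, he.2.1, he.2.2.1, one_le_ind.1 he.2.2.2⟩

/-! ### Good windows without moments -/

/-- Tightness of sums over boundedly many edges. -/
theorem tight_sum (N : ℕ) {η : ℝ} (hη : 0 < η) :
    ∃ D : ℝ, 0 < D ∧ ∀ s : Finset latt.edgeSet, s.card ≤ N →
      PG G {t | D < ∑ e ∈ s, t e} ≤ ENNReal.ofReal η := by
  have hlim : Tendsto (fun n : ℕ => G (Set.Ioi (n : ℝ))) atTop (nhds 0) := by
    have hanti : Antitone fun n : ℕ => Set.Ioi (n : ℝ) := by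
      intro n m hnm
      exact Set.Ioi_subset_Ioi (by exact_mod_cast hnm)
    have h := tendsto_measure_iInter_atTop (μ := G)
      (fun n : ℕ => (measurableSet_Ioi (a := (n : ℝ))).nullMeasurableSet) hanti
      ⟨0, measure_ne_top _ _⟩
    have h0 : (⋂ n : ℕ, Set.Ioi (n : ℝ)) = ∅ := by
      ext x
      simp only [Set.mem_iInter, Set.mem_Ioi, Set.mem_empty_iff_false, iff_false, not_forall,
        not_lt]
      obtain ⟨n, hn⟩ := exists_nat_gt x
      exact ⟨n, hn.le⟩
    rwa [h0, measure_empty] at h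
  have hpos : 0 < ENNReal.ofReal (η / (N + 1)) := ENNReal.ofReal_pos.2 (by positivity)
  obtain ⟨n, hn⟩ := ((tendsto_order.1 hlim).2 _ hpos).exists
  refine ⟨(N + 1) * (n + 1), by (clear * -; positivity), fun s hs => ?_⟩
  have hsub : {t : Env | ((N : ℝ) + 1) * (n + 1) < ∑ e ∈ s, t e} ⊆
      ⋃ e ∈ s, (fun t : Env => t e) ⁻¹' (Set.Ioi (n : ℝ)) := by
    intro t ht
    by_contra hnot
    simp only [Set.mem_iUnion, Set.mem_preimage, Set.mem_Ioi, not_exists, not_lt] at hnot
    have h1 : ∑ e ∈ s, t e ≤ s.card * n := by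
      calc ∑ e ∈ s, t e ≤ ∑ _e ∈ s, (n : ℝ) := Finset.sum_le_sum fun e he => hnot e he
        _ = s.card * n := by rw [Finset.sum_const, nsmul_eq_mul]
    have h2 : (s.card : ℝ) ≤ N := by exact_mod_cast hs
    have h3 : ((N : ℝ) + 1) * (n + 1) < ∑ e ∈ s, t e := ht
    have h4 : (0 : ℝ) ≤ n := Nat.cast_nonneg n
    nlinarith only [h1, h3, h2]
  refine (measure_mono hsub).trans ((measure_biUnion_finset_le _ _).trans ?_)
  have h1 : ∀ e ∈ s, PG G ((fun t : Env => t e) ⁻¹' (Set.Ioi (n : ℝ))) ≤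
      ENNReal.ofReal (η / (N + 1)) := by
    intro e _
    have hmp : MeasurePreserving (fun t : Env => t e) (PG G) G :=
      measurePreserving_eval_infinitePi (fun _ : latt.edgeSet => G) e
    rw [hmp.measure_preimage measurableSet_Ioi.nullMeasurableSet]
    exact hn.le
  refine (Finset.sum_le_sum h1).trans ?_
  rw [Finset.sum_const, nsmul_eq_mul, ← ENNReal.ofReal_natCast,
    ← ENNReal.ofReal_mul (by (clear * -; positivity))]
  refine ENNReal.ofReal_le_ofReal ?_
  have h2 : (s.card : ℝ) ≤ N := by exact_mod_cast hs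
  rw [mul_div_assoc', div_le_iff₀ (by positivity)]
  nlinarith only [hη, h2]

/-- Good windows, for every atomless law. -/
theorem gw' [NullSingletonClass G] (hG : G (Set.Iio 0) = 0) : GWStmt G := by
  classical
  intro r η hη
  obtain ⟨β, hβ0, hβ⟩ := Pe.exists_level (G := G) hG (η := 1 / 16) (by norm_num)
  have hη3 : 0 < η / 3 := by positivity
  obtain ⟨D, hD, hD'⟩ := tight_sum (G := G) (4 * (2 * (r + 1) + 1) ^ 2) hη3
  refine ⟨D, hD, fun Λ => ?_⟩
  obtain ⟨C, θ, hC, hθ0, hθ1, hP⟩ := Pe.peierls G β hβ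
  -- choice of `R₀`
  have hlim : Tendsto (fun k : ℕ => C * ((r + 1 : ℕ) + 1) * θ ^ k) atTop (nhds 0) := by
    have := (tendsto_pow_atTop_nhds_zero_of_lt_one hθ0.le hθ1).const_mul (C * ((r + 1 : ℕ) + 1))
    simpa only [Nat.cast_add, Nat.cast_one, mul_zero] using this
  obtain ⟨k₀, hk₀⟩ := Filter.eventually_atTop.1 ((tendsto_order.1 hlim).2 (η / 3) hη3)
  obtain ⟨k₁, hk₁⟩ := exists_nat_gt (8 * Λ / β)
  refine ⟨r + 1 + max k₀ k₁, fun R hR => ?_⟩
  obtain ⟨M, hM, hM'⟩ := tight_sum (G := G) (4 * (2 * R + 1) ^ 2) hη3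
  refine ⟨M, hM, fun z => ?_⟩
  have hrR : r + 1 ≤ R := by omega
  have h1 : PG G {t | ¬ AG β t z (r + 1) R} ≤ ENNReal.ofReal (η / 3) := by
    refine (hP z (r + 1) R hrR).trans (ENNReal.ofReal_le_ofReal ?_)
    exact (hk₀ (R - (r + 1)) (by omega)).le
  have h2 := hD' (tF z (r + 1)) (Pe.card_tF_le z (r + 1))
  have h3 := hM' (tF z R) (Pe.card_tF_le z R)
  have h4 : PG G {t | ¬ ∀ e, 0 < t e} = 0 := ae_iff.1 (ae_pos G hG)
  have hsub : {t : Env | ¬ GW Λ D M t z r R} ⊆ (({t | ¬ AG β t z (r + 1) R} ∪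
      {t | D < ∑ e ∈ tF z (r + 1), t e}) ∪ {t | M < ∑ e ∈ tF z R, t e}) ∪
      {t | ¬ ∀ e, 0 < t e} := by
    intro t ht
    by_contra hnot
    simp only [Set.mem_union, Set.mem_ofPred_eq, not_or, not_not, not_lt] at hnot
    obtain ⟨⟨⟨a1, a2⟩, a3⟩, a4⟩ := hnot
    refine ht ⟨?_, a2, a3⟩
    intro x y p hx hy
    have b1 := a1 x y p hx hy
    have b2 := Pe.heavy_le_ww (β := β) a4 p (s := hv β t z (r + 1) R p)
      (Finset.filter_subset _ _) fun e he => (Finset.mem_filter.1 he).2.2.2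
    have b3 : (R : ℝ) ≤ (r + 1 : ℕ) + 8 * ((hv β t z (r + 1) R p).card : ℝ) := by
      exact_mod_cast b1
    have b4 : ((r + 1 + max k₀ k₁ : ℕ) : ℝ) ≤ R := by exact_mod_cast hR
    have b5 : (k₁ : ℝ) ≤ (max k₀ k₁ : ℕ) := by exact_mod_cast le_max_right _ _
    push_cast at b3 b4 b5
    rw [div_lt_iff₀ hβ0] at hk₁
    nlinarith only [hk₁, b2, hβ0, b3, b4, b5]
  calc PG G {t : Env | ¬ GW Λ D M t z r R} ≤ _ := measure_mono hsub
    _ ≤ ((ENNReal.ofReal (η / 3) + ENNReal.ofReal (η / 3)) + ENNReal.ofReal (η / 3)) + 0 := by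
        refine (measure_union_le _ _).trans (add_le_add ?_ h4.le)
        refine (measure_union_le _ _).trans (add_le_add ?_ h3)
        exact (measure_union_le _ _).trans (add_le_add h1 h2)
    _ = ENNReal.ofReal η := by
        rw [add_zero, ← ENNReal.ofReal_add (by positivity) (by positivity),
          ← ENNReal.ofReal_add (by positivity) (by positivity)]
        congr 1
        ring

end Vale.Agent.P158.C.Low
end
end

section

section

/-! Deterministic core of the window lemma. -/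

namespace Vale.Agent.P158.C.Low

open SimpleGraph Vale.Agent.P158.T1 Vale.Agent.P158.CL MeasureTheory Filter
open scoped ENNReal NNReal

/-- Good window for the lowering argument. -/
structure Win (K r₁ r₂ r : ℕ) (Λ K₂ K₃ M₁ M₂ : ℝ) (T : Set ℝ) (t : Env) (z : V) : Prop where
  g1 : GW Λ K₂ M₁ t z K r₁
  g2 : AG 1 (fun e => ind T (t e)) z r₁ r₂
  g3 : GW (2 * K₃ + 1) K₃ M₂ t z r₂ r

/-! ### Walks in boxes (copied from `T1/GadgetWalk.lean`, which cannot be imported here) -/

/-- Shortest walks between two vertices stay in every box containing them. -/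
theorem exists_short_walk (n : ℕ) (x y : V)
    (hn : (x.1 - y.1).natAbs + (x.2 - y.2).natAbs = n) :
    ∃ p : latt.Walk x y, p.length = n ∧ ∀ z ∈ p.support,
      min x.1 y.1 ≤ z.1 ∧ z.1 ≤ max x.1 y.1 ∧ min x.2 y.2 ≤ z.2 ∧ z.2 ≤ max x.2 y.2 := by
  induction n generalizing x with
  | zero =>
    have : x = y := by ext <;> omega
    subst this
    exact ⟨SimpleGraph.Walk.nil, rfl, by simp only [Walk.support_nil, List.mem_cons, List.not_mem_nil, or_false, min_self, max_self, forall_eq, Std.le_refl, and_self]⟩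
  | succ n ih =>
    obtain ⟨x', hadj, h1, h2⟩ : ∃ x' : V, latt.Adj x x' ∧
        (x'.1 - y.1).natAbs + (x'.2 - y.2).natAbs = n ∧
        (min x.1 y.1 ≤ x'.1 ∧ x'.1 ≤ max x.1 y.1 ∧ min x.2 y.2 ≤ x'.2 ∧
          x'.2 ≤ max x.2 y.2) := by
      obtain ⟨x1, x2⟩ := x
      simp only at hn ⊢
      rcases lt_trichotomy x1 y.1 with h | h | h
      · exact ⟨(x1 + 1, x2), adj_right _ _, by simp only; omega, by simp only; omega⟩
      · rcases lt_trichotomy x2 y.2 with h' | h' | h'
        · exact ⟨(x1, x2 + 1), adj_up _ _, by simp only; omega, by simp only; omega⟩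
        · omega
        · exact ⟨(x1, x2 - 1), adj_down _ _, by simp only; omega, by simp only; omega⟩
      · exact ⟨(x1 - 1, x2), adj_left _ _, by simp only; omega, by simp only; omega⟩
    obtain ⟨p, hp, hp'⟩ := ih x' h1
    refine ⟨SimpleGraph.Walk.cons hadj p, by simp [hp], ?_⟩
    intro z hz
    rw [SimpleGraph.Walk.support_cons, List.mem_cons] at hz
    rcases hz with rfl | hz
    · (clear * - h2; omega)
    · have := hp' z hz
      (clear * - h2 this; omega)

theorem exists_walk_bx {z x y : V} {s : ℕ} (hx : x ∈ bx z s) (hy : y ∈ bx z s) :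
    ∃ p : latt.Walk x y, p.length ≤ 4 * s ∧ ∀ u ∈ p.support, u ∈ bx z s := by
  obtain ⟨p, hp, hp'⟩ := exists_short_walk _ x y rfl
  rw [mem_bx, abs_le, abs_le] at hx hy
  refine ⟨p, by omega, fun u hu => ?_⟩
  have := hp' u hu
  rw [mem_bx, abs_le, abs_le]
  (clear * - hx hy this; omega)

/-- The weight of a path is at most the sum of the weights over any finite set containing its
edges. -/
theorem ww_path_le_sum {t : Env} (ht : ∀ e, 0 < t e) {x y : V} (p : latt.Walk x y)
    (hp : p.IsPath) (T : Finset latt.edgeSet) (hT : ∀ d ∈ p.darts, dE d ∈ T) :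
    ww (wt t) p ≤ ∑ e ∈ T, t e := by
  classical
  have h1 : ww (wt t) p = ((p.darts.map dE).map t).sum := by
    unfold ww
    rw [List.map_map]
    congr 1
    refine List.map_congr_left fun d _ => ?_
    simp only [Function.comp, dE, wt]
    rw [dif_pos d.adj]
    rfl
  have hnd : (p.darts.map dE).Nodup := by
    have h2 : p.edges.Nodup := hp.isTrail.edges_nodup
    have h3 : p.edges = (p.darts.map dE).map Subtype.val := by
      rw [List.map_map]; rfl
    rw [h3] at h2
    exact List.Nodup.of_map _ h2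
  rw [h1, ← List.sum_toFinset _ hnd]
  refine Finset.sum_le_sum_of_subset_of_nonneg ?_ fun e _ _ => (ht e).le
  intro e he
  rw [List.mem_toFinset, List.mem_map] at he
  obtain ⟨d, hd, rfl⟩ := he
  exact hT d hd

/-- Two points of a box are joined inside the box at cost at most the total weight of the edges
touching the box. -/
theorem exists_walk_sum {t : Env} (ht : ∀ e, 0 < t e) {z x y : V} {s : ℕ}
    (hx : x ∈ bx z s) (hy : y ∈ bx z s) :
    ∃ p : latt.Walk x y, (∀ u ∈ p.support, u ∈ bx z s) ∧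
      ww (wt t) p ≤ ∑ e ∈ tF z s, t e := by
  obtain ⟨p, -, hp⟩ := exists_walk_bx hx hy
  refine ⟨p.bypass, fun u hu => hp u (p.support_bypass_subset_support hu),
    ww_path_le_sum ht _ p.bypass_isPath _ fun d hd => ?_⟩
  rw [mem_tF]
  exact ⟨d.fst, by simp [dE, SimpleGraph.Dart.edge],
    hp _ (p.support_bypass_subset_support (SimpleGraph.Walk.dart_fst_mem_support_of_mem_darts _ hd))⟩

theorem ww_le_add_single {u₁ u₂ : Env} {g : latt.edgeSet} {η : ℝ} (h : ∀ e, e ≠ g → u₁ e = u₂ e)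
    (hg : u₁ g ≤ u₂ g + η) (hη : 0 ≤ η) {x y : V} {p : latt.Walk x y} (hp : p.IsPath) :
    ww (wt u₁) p ≤ ww (wt u₂) p + η := by
  classical
  rw [Pe.ww_eq_sum hp, Pe.ww_eq_sum hp]
  by_cases hgp : g ∈ pe p
  · rw [← Finset.add_sum_erase _ _ hgp, ← Finset.add_sum_erase _ (fun e => u₂ e) hgp]
    have : ∑ e ∈ (pe p).erase g, u₁ e = ∑ e ∈ (pe p).erase g, u₂ e :=
      Finset.sum_congr rfl fun e he => h e (Finset.mem_erase.1 he).1
    rw [this]
    linarith only [hg]
  · have : ∑ e ∈ pe p, u₁ e = ∑ e ∈ pe p, u₂ e :=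
      Finset.sum_congr rfl fun e he => h e fun h' => hgp (h' ▸ he)
    rw [this]
    linarith only [hη]

theorem mem_pe_reverse {x y : V} {p : latt.Walk x y} {e : latt.edgeSet} (h : e ∈ pe p.reverse) :
    e ∈ pe p := by
  rw [mem_pe] at h ⊢
  obtain ⟨d, hd, rfl⟩ := h
  rw [Walk.darts_reverse, List.mem_reverse, List.mem_map] at hd
  obtain ⟨d', hd', rfl⟩ := hd
  refine ⟨d', hd', ?_⟩
  apply Subtype.ext
  show d'.edge = d'.symm.edge
  rw [Dart.edge_symm]

/-- Passage times after lowering. -/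
theorem PT_mix_ge {t t' : Env} {S : Set V} {F : Finset latt.edgeSet} (ht : ∀ e, 0 < t e)
    (hF : ∀ e ∈ F, 0 < t' e ∧ t' e ≤ t e) (hA : Att (wt (mix F t t')) S) {a b : V}
    (ha : a ∈ S) (hb : b ∈ S) :
    PT (wt t) S a b - ∑ e ∈ F, (t e - t' e) ≤ PT (wt (mix F t t')) S a b := by
  obtain ⟨p, hp, hp'⟩ := hA a ha b hb
  have hw := adm_of_pos ht
  have hw' := adm_of_pos (mix_pos ht fun e he => (hF e he).1)
  have hpp : p.IsPath := Geo.isPath hw' ⟨hp, hp'⟩
  have a1 := ww_mix_ge (fun e he => (hF e he).2) hpp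
  have a2 := PT_le hw p hp
  linarith

/-- A minimal set which lowers a quantity. -/
theorem exists_minimal_set {α : Type*} [DecidableEq α] (f : Finset α → ℝ) (L₀ : Finset α)
    {η : ℝ} (h : f L₀ < f ∅) (hstep : ∀ L ⊆ L₀, ∀ g ∈ L, f (L.erase g) - η ≤ f L) :
    ∃ L ⊆ L₀, f L < f ∅ ∧ f ∅ - η ≤ f L := by
  classical
  obtain ⟨L, hL, hmin⟩ := (L₀.powerset.filter fun L => f L < f ∅).exists_min_image Finset.card
    ⟨L₀, by simp [h]⟩
  rw [Finset.mem_filter, Finset.mem_powerset] at hL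
  refine ⟨L, hL.1, hL.2, ?_⟩
  have hne : L.Nonempty := by
    rw [Finset.nonempty_iff_ne_empty]
    rintro rfl
    exact absurd hL.2 (lt_irrefl _)
  obtain ⟨g, hg⟩ := hne
  have h1 : f ∅ ≤ f (L.erase g) := by
    by_contra hlt
    push Not at hlt
    have := hmin (L.erase g) (by
      rw [Finset.mem_filter, Finset.mem_powerset]
      exact ⟨(Finset.erase_subset _ _).trans hL.1, hlt⟩)
    have h2 := Finset.card_erase_lt_of_mem hg
    omega
  linarith [hstep L hL.1 g hg]

theorem core {K r₁ r₂ r n m : ℕ} {Λ K₂ K₃ M₁ M₂ η η' h : ℝ} {T : Set ℝ} {t t' : Env} {z : V}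
    {S A : Set V} {y : V} (hT : TSet m S A y) (hz : bx z (r + 1) ⊆ bx 0 m)
    (ht : ∀ e, 0 < t e) (hU : Uq (wt t)) (hW : Win K r₁ r₂ r Λ K₂ K₃ M₁ M₂ T t z)
    (hKr : K + 1 ≤ r₁) (hr12 : r₁ + 8 * n ≤ r₂) (hr2 : r₂ + 1 ≤ r) (hη : 0 < η) (hηh : η < h)
    (hη' : 0 < η') (hn : 4 * K₂ + η < n * η') (hK₂ : 0 < K₂) (hΛ : 5 * K₂ + h ≤ Λ)
    (hD : Dbl (wt t) S A y h z K)
    (ht' : ∀ e ∈ tF z r₂, t e ∈ T → t' e ∈ Jw η η' (t e)) :
    ∃ F ⊆ tF z r₂, ∃ x ∈ bx z r, MV (wt (mix F t t')) S A y x := by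
  classical
  obtain ⟨s, hs, s', hs', p, v, v', ⟨⟨hpv, hpS, hvS, hue⟩, hrob⟩, hv, hv', ⟨hv'S, hon'⟩, hnon⟩ := hD
  have hw : Adm (wt t) := adm_of_pos ht
  have hA : Att (wt t) S := att_of_finite hw hT.fin hT.conn
  have hyS : y ∈ S := hT.hy.1
  have hsS : s ∈ S := (hT.hA hs).1
  have hs'S : s' ∈ S := (hT.hA hs').1
  have hr₂m : bx z r₂ ⊆ bx 0 m := (bx_mono (by omega)).trans hz
  have hyr₂ : y ∉ bx z r₂ := fun h => hT.hy.2 (hr₂m h)
  have hs'r₂ : s' ∉ bx z r₂ := fun h => (hT.hA hs').2 (hr₂m h)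
  have hvr₁ : v ∈ bx z r₁ := bx_mono (by omega) hv
  have hv'r₁ : v' ∈ bx z r₁ := bx_mono (by omega) hv'
  -- the lanes
  obtain ⟨l₀, hl₀S, hl₀⟩ := hA s hsS p hpS
  obtain ⟨l₂, hl₂S, hl₂⟩ := hA v hvS y hyS
  obtain ⟨k₁, hk₁S, hk₁⟩ := hA s' hs'S v' hv'S
  obtain ⟨k₂, hk₂S, hk₂⟩ := hA v' hv'S y hyS
  set l₁ : latt.Walk s v := l₀.concat hpv with hl₁def
  have hl₁S : ∀ u ∈ l₁.support, u ∈ S := by
    intro u hu
    rw [hl₁def, Walk.support_concat, List.mem_append, List.mem_singleton] at hu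
    rcases hu with hu | rfl
    · exact hl₀S u hu
    · exact hvS
  have hl₁w : ww (wt t) l₁ = PT (wt t) S s p + wt t p v := by
    rw [hl₁def, Walk.concat_eq_append, ww_append, ww_cons, ww_nil, hl₀, add_zero]
  have hl : Geo (wt t) S (l₁.append l₂) := by
    refine ⟨fun u hu => ?_, ?_⟩
    · rw [Walk.mem_support_append_iff] at hu
      rcases hu with hu | hu
      · exact hl₁S u hu
      · exact hl₂S u hu
    · rw [ww_append, hl₁w, hl₂, hue]
  have hk : Geo (wt t) S (k₁.append k₂) := by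
    refine ⟨fun u hu => ?_, ?_⟩
    · rw [Walk.mem_support_append_iff] at hu
      rcases hu with hu | hu
      · exact hk₁S u hu
      · exact hk₂S u hu
    · rw [ww_append, hk₁, hk₂, hon']
  have hgl₂ : Geo (wt t) S l₂ := ⟨hl₂S, hl₂⟩
  have hgk₁ : Geo (wt t) S k₁ := ⟨hk₁S, hk₁⟩
  have hlp : (l₁.append l₂).IsPath := hl.isPath hw
  have hvk : v ∉ (k₁.append k₂).support := fun hvk => hnon ⟨hvS, (geo_split hw hk hvk).2.2⟩
  -- distances in the window
  have hvv' : PT (wt t) S v v' ≤ K₂ := by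
    obtain ⟨q, hq, hq'⟩ := exists_walk_sum ht (bx_mono (Nat.le_succ K) hv)
      (bx_mono (Nat.le_succ K) hv')
    have h1 := PT_le (S := S) hw q fun u hu =>
      hT.box (hr₂m (bx_mono (by omega) (hq u hu)))
    exact h1.trans (hq'.trans hW.g1.near)
  have hfar : ∀ a b, a ∈ bx z K → b ∉ bx z r₁ → a ∈ S → b ∈ S → Λ ≤ PT (wt t) S a b :=
    fun a b ha hb haS hbS => le_PT (hT.conn a haS b hbS) fun q _ =>
      hW.g1.far a b q (bx_mono (Nat.le_succ K) ha) hb
  -- additivity
  obtain ⟨-, -, hladd⟩ := geo_append hw hl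
  -- the lowering sets
  obtain ⟨Q₁, hQ₁, hQ₁'⟩ := card_typ hW.g2 hr12 l₂ hvr₁ hyr₂
  obtain ⟨Q₂, hQ₂, hQ₂'⟩ := card_typ hW.g2 hr12 k₁.reverse hv'r₁ hs'r₂
  set R : Finset latt.edgeSet := (pe l₂).filter fun e => e ∈ tE z r₂ ∧ t e ∈ T with hRdef
  set L₀ : Finset latt.edgeSet := (pe k₁).filter fun e => e ∈ tE z r₂ ∧ e ∉ tE z r₁ ∧ t e ∈ T
    with hL₀def
  have hRmem : ∀ e ∈ R, e ∈ pe l₂ ∧ e ∈ tE z r₂ ∧ t e ∈ T := fun e he => Finset.mem_filter.1 he
  have hLmem : ∀ e ∈ L₀, e ∈ pe k₁ ∧ e ∈ tE z r₂ ∧ e ∉ tE z r₁ ∧ t e ∈ T :=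
    fun e he => Finset.mem_filter.1 he
  have hlow : ∀ e ∈ tE z r₂, t e ∈ T → 0 < t' e ∧ η' ≤ t e - t' e ∧ t e - t' e ≤ η := by
    intro e he heT
    obtain ⟨h1, h2⟩ := ht' e (mem_tF.2 he) heT
    have h3 := lt_of_le_of_lt (le_max_left 0 (t e - η)) h1
    have h4 := lt_of_le_of_lt (le_max_right 0 (t e - η)) h1
    exact ⟨h3, by linarith only [h2], by linarith only [h4]⟩
  have hlowR : ∀ e ∈ R, 0 < t' e ∧ t' e ≤ t e := fun e he => by
    obtain ⟨-, h2, h3⟩ := hRmem e he
    obtain ⟨a1, a2, a3⟩ := hlow e h2 h3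
    exact ⟨a1, by linarith only [hη', a2]⟩
  have hlowL : ∀ e ∈ L₀, 0 < t' e ∧ t' e ≤ t e := fun e he => by
    obtain ⟨-, h2, -, h3⟩ := hLmem e he
    obtain ⟨a1, a2, a3⟩ := hlow e h2 h3
    exact ⟨a1, by linarith only [hη', a2]⟩
  have hlowU : ∀ L ⊆ L₀, ∀ e ∈ R ∪ L, 0 < t' e ∧ t' e ≤ t e := fun L hL e he => by
    rcases Finset.mem_union.1 he with he | he
    · exact hlowR e he
    · exact hlowL e (hL he)
  have hsumR : 4 * K₂ + η < ∑ e ∈ R, (t e - t' e) := by
    have h1 : Q₁ ⊆ R := fun e he => by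
      obtain ⟨a1, -, a3, a4⟩ := hQ₁' e he
      exact Finset.mem_filter.2 ⟨a1, a3, a4⟩
    have h2 : (Q₁.card : ℝ) * η' ≤ ∑ e ∈ Q₁, (t e - t' e) := by
      rw [← nsmul_eq_mul, ← Finset.sum_const]
      exact Finset.sum_le_sum fun e he => (hlow e (hQ₁' e he).2.2.1 (hQ₁' e he).2.2.2).2.1
    have h3 : ∑ e ∈ Q₁, (t e - t' e) ≤ ∑ e ∈ R, (t e - t' e) :=
      Finset.sum_le_sum_of_subset_of_nonneg h1 fun e he _ => by linarith only [(hlowR e he).2]
    have h4 : (n : ℝ) ≤ Q₁.card := by exact_mod_cast hQ₁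
    nlinarith only [hn, h2, h3, hη', h4]
  have hsumL : 4 * K₂ + η < ∑ e ∈ L₀, (t e - t' e) := by
    have h1 : Q₂ ⊆ L₀ := fun e he => by
      obtain ⟨a1, a2, a3, a4⟩ := hQ₂' e he
      exact Finset.mem_filter.2 ⟨mem_pe_reverse a1, a3, a2, a4⟩
    have h2 : (Q₂.card : ℝ) * η' ≤ ∑ e ∈ Q₂, (t e - t' e) := by
      rw [← nsmul_eq_mul, ← Finset.sum_const]
      exact Finset.sum_le_sum fun e he => (hlow e (hQ₂' e he).2.2.1 (hQ₂' e he).2.2.2).2.1
    have h3 : ∑ e ∈ Q₂, (t e - t' e) ≤ ∑ e ∈ L₀, (t e - t' e) :=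
      Finset.sum_le_sum_of_subset_of_nonneg h1 fun e he _ => by linarith only [(hlowL e he).2]
    have h4 : (n : ℝ) ≤ Q₂.card := by exact_mod_cast hQ₂
    nlinarith only [hn, h2, h3, hη', h4]
  -- the left edges are off the first lane
  have hLl : ∀ e ∈ L₀, e ∉ pe (l₁.append l₂) := by
    intro e he hel
    obtain ⟨h1, h2, h3, -⟩ := hLmem e he
    obtain ⟨u, hu⟩ : ∃ u, u ∈ e.1 := by
      obtain ⟨⟨a, b⟩, hab⟩ := Sym2.mk_surjective e.1
      exact ⟨a, by rw [← hab]; simp⟩
    have hu₁ : u ∉ bx z r₁ := fun h => h3 ⟨u, hu, h⟩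
    have huk₁ : u ∈ k₁.support := mem_supp_of_pe h1 hu
    have hul : u ∈ (l₁.append l₂).support := mem_supp_of_pe hel hu
    have huS : u ∈ S := hk₁S u huk₁
    have huk : u ∈ (k₁.append k₂).support := by
      rw [Walk.mem_support_append_iff]; exact Or.inl huk₁
    obtain ⟨gk1, gk2, gk3⟩ := geo_split hw hgk₁ huk₁
    have g1 : Geo (wt t) S ((k₁.dropUntil u huk₁).append k₂) := by
      refine ⟨fun a ha => ?_, ?_⟩
      · rw [Walk.mem_support_append_iff] at ha
        rcases ha with ha | ha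
        · exact gk2.1 a ha
        · exact hk₂S a ha
      · rw [ww_append, gk2.2, hk₂]
        have a1 := (geo_split hw hk huk).2.2
        linarith only [hon', gk3, a1]
    obtain ⟨gl1, gl2, gl3⟩ := geo_split hw hl hul
    have heq := Geo.unique hw hU gl2 g1
    -- `v'` is on the first lane after `u`, `v` before `u`
    have hv'l : v' ∈ ((l₁.append l₂).dropUntil u hul).support := by
      rw [heq, Walk.mem_support_append_iff]; exact Or.inr k₂.start_mem_support
    have hvl : v ∈ (l₁.append l₂).support := by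
      rw [Walk.mem_support_append_iff]; exact Or.inl l₁.end_mem_support
    have hvl1 : v ∈ ((l₁.append l₂).takeUntil u hul).support := by
      rw [← Walk.take_spec (l₁.append l₂) hul, Walk.mem_support_append_iff] at hvl
      rcases hvl with hvl | hvl
      · exact hvl
      · exfalso
        rw [heq, Walk.mem_support_append_iff] at hvl
        apply hvk
        rw [Walk.mem_support_append_iff]
        rcases hvl with hvl | hvl
        · exact Or.inl (k₁.support_dropUntil_subset_support huk₁ hvl)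
        · exact Or.inr hvl
    have b1 := (geo_split hw gl1 hvl1).2.2
    have b2 := (geo_split hw gl2 hv'l).2.2
    have b3 := PT_triangle hw (hT.conn s hsS v hvS) (hT.conn v hvS v' hv'S)
    have b4 := PT_triangle hw (hT.conn s hsS v' hv'S) (hT.conn v' hv'S y hyS)
    have b5 := hfar v u hv hu₁ hvS huS
    have b6 := PT_nonneg (S := S) (x := u) (y := v') hw
    linarith only [hη, hηh, hK₂, hΛ, hvv', gl3, b1, b2, b3, b4, b5, b6]
  -- mixed environments
  have hAF : ∀ L ⊆ L₀, Att (wt (mix (R ∪ L) t t')) S := fun L hL =>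
    att_of_finite (adm_of_pos (mix_pos ht fun e he => (hlowU L hL e he).1)) hT.fin hT.conn
  -- minimal set
  obtain ⟨L, hLL₀, hmin1, hmin2⟩ := exists_minimal_set
    (fun L => PT (wt (mix (R ∪ L) t t')) S s' y) L₀ (η := η) (by
      simp only [Finset.union_empty]
      have hwi : Adm (wt (mix (R ∪ L₀) t t')) :=
        adm_of_pos (mix_pos ht fun e he => (hlowU L₀ le_rfl e he).1)
      have hwR : Adm (wt (mix R t t')) := adm_of_pos (mix_pos ht fun e he => (hlowR e he).1)
      have hAR : Att (wt (mix R t t')) S := att_of_finite hwR hT.fin hT.conn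
      have c1 := PT_mix_ge ht hlowR hAR hs'S hyS
      have c2 := PT_triangle hwi (hT.conn s' hs'S v' hv'S) (hT.conn v' hv'S y hyS)
      have c3 := PT_triangle hwi (hT.conn v' hv'S v hvS) (hT.conn v hvS y hyS)
      have c4 : PT (wt (mix (R ∪ L₀) t t')) S v' v ≤ K₂ := by
        have d1 := PT_mono_weight hwi (wt_mono (mix_le fun e he => (hlowU L₀ le_rfl e he).2))
          (hT.conn v' hv'S v hvS)
        rw [PT_comm hw (x := v') (y := v)] at d1
        exact d1.trans hvv'
      have c5 : PT (wt (mix (R ∪ L₀) t t')) S s' v' ≤ PT (wt t) S s' v' -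
          ∑ e ∈ L₀, (t e - t' e) := by
        have d1 := PT_le (S := S) hwi k₁ hk₁S
        have d2 : ww (wt (mix (R ∪ L₀) t t')) k₁ ≤ ww (wt (mix L₀ t t')) k₁ := by
          refine ww_mono (wt_mono fun e => ?_) k₁
          by_cases h : e ∈ L₀
          · rw [mix_of_mem h, mix_of_mem (Finset.mem_union_right R h)]
          · rw [mix_of_not_mem h]
            exact mix_le (fun e he => (hlowU L₀ le_rfl e he).2) e
        have d3 := ww_mix_eq (t := t) (t' := t') (hgk₁.isPath hw) fun e he => (hLmem e he).1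
        linarith only [hk₁, d1, d2, d3]
      have c6 : PT (wt (mix (R ∪ L₀) t t')) S v y ≤ PT (wt t) S v y -
          ∑ e ∈ R, (t e - t' e) := by
        have d1 := PT_le (S := S) hwi l₂ hl₂S
        have d2 : ww (wt (mix (R ∪ L₀) t t')) l₂ ≤ ww (wt (mix R t t')) l₂ :=
          ww_mono (wt_mono (mix_union_le fun e he => (hlowU L₀ le_rfl e he).2)) l₂
        have d3 := ww_mix_eq (t := t) (t' := t') (hgl₂.isPath hw) fun e he => (hRmem e he).1
        linarith only [hl₂, d1, d2, d3]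
      have c7 := PT_triangle hw (hT.conn v hvS v' hv'S) (hT.conn v' hv'S y hyS)
      linarith only [hη, hK₂, hon', hvv', hsumL, c1, c2, c3, c4, c5, c6, c7]) (by
      intro L hL g hg
      by_cases hgR : g ∈ R
      · have : R ∪ L.erase g = R ∪ L := by
          ext e
          simp only [Finset.mem_union, Finset.mem_erase]
          constructor
          · rintro (h | h)
            · exact Or.inl h
            · exact Or.inr h.2
          · rintro (h | h)
            · exact Or.inl h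
            · by_cases heg : e = g
              · exact Or.inl (heg ▸ hgR)
              · exact Or.inr ⟨heg, h⟩
        rw [this]
        linarith only [hη]
      · obtain ⟨π, hπS, hπ⟩ := hAF L hL s' hs'S y hyS
        have hwi : Adm (wt (mix (R ∪ L) t t')) :=
          adm_of_pos (mix_pos ht fun e he => (hlowU L hL e he).1)
        have hwe : Adm (wt (mix (R ∪ L.erase g) t t')) :=
          adm_of_pos (mix_pos ht fun e he =>
            (hlowU (L.erase g) ((Finset.erase_subset _ _).trans hL) e he).1)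
        have hπp : π.IsPath := Geo.isPath hwi ⟨hπS, hπ⟩
        obtain ⟨-, b2, -, b4⟩ := hLmem g (hL hg)
        have b5 := hlow g b2 b4
        have b6 : ww (wt (mix (R ∪ L.erase g) t t')) π ≤ ww (wt (mix (R ∪ L) t t')) π + η := by
          refine ww_le_add_single (g := g) (fun e he => ?_) ?_ hη.le hπp
          · by_cases heU : e ∈ R ∪ L
            · rw [mix_of_mem heU, mix_of_mem]
              rcases Finset.mem_union.1 heU with h | h
              · exact Finset.mem_union_left _ h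
              · exact Finset.mem_union_right _ (Finset.mem_erase.2 ⟨he, h⟩)
            · rw [mix_of_not_mem heU, mix_of_not_mem]
              intro h
              apply heU
              rcases Finset.mem_union.1 h with h | h
              · exact Finset.mem_union_left _ h
              · exact Finset.mem_union_right _ (Finset.mem_erase.1 h).2
          · rw [mix_of_mem (Finset.mem_union_right R hg), mix_of_not_mem]
            · linarith only [b5]
            · intro h
              rcases Finset.mem_union.1 h with h | h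
              · exact hgR h
              · exact absurd rfl (Finset.mem_erase.1 h).1
        have b7 := PT_le hwe π hπS
        linarith only [hπ, b6, b7])
  simp only [Finset.union_empty] at hmin1 hmin2
  have hwi : Adm (wt (mix (R ∪ L) t t')) :=
    adm_of_pos (mix_pos ht fun e he => (hlowU L hLL₀ e he).1)
  have hwR : Adm (wt (mix R t t')) := adm_of_pos (mix_pos ht fun e he => (hlowR e he).1)
  have hAR : Att (wt (mix R t t')) S := att_of_finite hwR hT.fin hT.conn
  have hend : ∀ e ∈ L, ∀ q ∈ e.1, q ∈ k₁.support ∧ q ∉ bx z r₁ := fun e he q hq =>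
    ⟨mem_supp_of_pe (hLmem e (hLL₀ he)).1 hq, fun h' => (hLmem e (hLL₀ he)).2.2.1 ⟨q, hq, h'⟩⟩
  have hfar' : ∀ e ∈ L, ∀ q ∈ e.1, Λ ≤ PT (wt t) S q v' := fun e he q hq => by
    have h1 := hfar v' q hv' (hend e he q hq).2 hv'S (hk₁S q (hend e he q hq).1)
    rwa [PT_comm hw] at h1
  have data : Data t t' S R L l₁ l₂ k₁ K₂ h η Λ := by
    refine ⟨ht, hlowU L hLL₀, hT.conn, hA, hAR, hAF L hLL₀, hl, hgk₁, fun e he => (hRmem e he).1,
      fun e he => (hLmem e (hLL₀ he)).1, fun e he => hLl e (hLL₀ he), hvv', hK₂, ?_, hfar', ?_,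
      hηh, hη.le, hsumR, by linarith only [hηh, hΛ], hmin1, hmin2⟩
    · have a1 := PT_triangle hw (hT.conn v hvS v' hv'S) (hT.conn v' hv'S y hyS)
      linarith only [hon', hvv', a1]
    · intro e he q hq e' he' a ha
      obtain ⟨hqk, hqr⟩ := hend e he q hq
      have hqS : q ∈ S := hk₁S q hqk
      have hqk' : q ∈ (k₁.append k₂).support := by
        rw [Walk.mem_support_append_iff]; exact Or.inl hqk
      have haS : a ∈ S := hl₂S a (mem_supp_of_pe (hRmem e' he').1 ha)
      -- the robustness inequality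
      have fact : PT (wt t) S s y + h ≤ PT (wt t) S s q + PT (wt t) S q y := by
        obtain ⟨g, hgS, hg⟩ := hA s hsS q hqS
        obtain ⟨c1, c2, c3⟩ := geo_split hw hk hqk'
        by_cases hcase : s(p, v) ∈ (g.append ((k₁.append k₂).dropUntil q hqk')).edges
        · rw [Walk.edges_append, List.mem_append] at hcase
          rcases hcase with hcase | hcase
          · have hvg : v ∈ g.support := Walk.snd_mem_support_of_mem_edges g hcase
            have d1 := (geo_split hw (⟨hgS, hg⟩ : Geo (wt t) S g) hvg).2.2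
            have d2 := (geo_split hw hgk₁ hqk).2.2
            have d3 := hfar' e he q hq
            have d4 := PT_triangle hw (hT.conn q hqS v hvS) (hT.conn v hvS v' hv'S)
            have d5 := PT_triangle hw (hT.conn v hvS v' hv'S) (hT.conn v' hv'S y hyS)
            rw [PT_comm hw (x := q) (y := v)] at d4
            linarith only [hη, hηh, hK₂, hΛ, hon', hvv', hladd, c3, d1, d2, d3, d4, d5]
          · exfalso
            have hv1 : v ∈ ((k₁.append k₂).dropUntil q hqk').support :=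
              Walk.snd_mem_support_of_mem_edges _ hcase
            exact hvk ((k₁.append k₂).support_dropUntil_subset_support hqk' hv1)
        · have d1 := hrob (g.append ((k₁.append k₂).dropUntil q hqk')) (fun u hu => by
            rw [Walk.mem_support_append_iff] at hu
            rcases hu with hu | hu
            · exact hgS u hu
            · exact c2.1 u hu) hcase
          rw [ww_append, hg, c2.2] at d1
          exact d1
      have f1 := (geo_split hw hk hqk').2.2
      have f2 := PT_triangle hw (hT.conn s' hs'S a haS) (hT.conn a haS y hyS)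
      have f3 := PT_mix_ge ht hlowR hAR haS hyS
      have f4 : PT (wt (mix R t t')) S s y ≤ PT (wt t) S s y - ∑ e ∈ R, (t e - t' e) := by
        have g1 := PT_le hwR (l₁.append l₂) hl.1
        have g2 := ww_mix_eq (t := t) (t' := t') hlp fun e (he : e ∈ R) =>
          mem_pe_append.2 (Or.inr (hRmem e he).1)
        rw [hl.2] at g2
        linarith only [g1, g2]
      linarith only [fact, f1, f2, f3, f4]
  obtain ⟨hgeo, a, hal, q', hq'l, hue', e₁, he₁, z₁, hz₁, e₂, he₂, z₂, hz₂, hloc⟩ := lowering data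
  -- location of the merge vertex
  have hz₁b : z₁ ∈ bx z (r₂ + 1) := by
    have := tE_subset_iE z r₂ (hLmem e₁ (hLL₀ he₁)).2.1
    exact this z₁ hz₁
  have hz₂b : z₂ ∈ bx z (r₂ + 1) := by
    have := tE_subset_iE z r₂ (hRmem e₂ he₂).2.1
    exact this z₂ hz₂
  have haS : a ∈ S := hl.1 a hal
  have hz₁S : z₁ ∈ S := hk₁S z₁ (hend e₁ he₁ z₁ hz₁).1
  have har : a ∈ bx z r := by
    by_contra har
    have c1 : PT (wt t) S z₁ z₂ ≤ K₃ := by
      obtain ⟨q, hq, hq'⟩ := exists_walk_sum ht hz₁b hz₂b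
      have h1 := PT_le (S := S) hw q fun u hu => hT.box (hz (bx_mono (by omega) (hq u hu)))
      exact h1.trans (hq'.trans hW.g3.near)
    obtain ⟨ρ, hρS, hρ⟩ := hAF L hLL₀ z₁ hz₁S a haS
    have hρp : ρ.IsPath := Geo.isPath hwi ⟨hρS, hρ⟩
    have c2 := ww_mix_ge (fun e he => (hlowU L hLL₀ e he).2) hρp
    have c3 := hW.g3.far z₁ a ρ hz₁b har
    have c4 : ∑ e ∈ R ∪ L, (t e - t' e) ≤ ∑ e ∈ tF z (r₂ + 1), t e := by
      calc ∑ e ∈ R ∪ L, (t e - t' e) ≤ ∑ e ∈ R ∪ L, t e :=
            Finset.sum_le_sum fun e he => by linarith only [(hlowU L hLL₀ e he).1]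
        _ ≤ _ := by
            refine Finset.sum_le_sum_of_subset_of_nonneg (fun e he => ?_) fun e _ _ => (ht e).le
            rw [mem_tF]
            refine tE_mono (Nat.le_succ r₂) ?_
            rcases Finset.mem_union.1 he with he | he
            · exact (hRmem e he).2.1
            · exact (hLmem e (hLL₀ he)).2.1
    have c5 := hW.g3.near
    linarith only [hloc, c1, hρ, c2, c3, c4, c5]
  have hams : a ≠ s := by
    rintro rfl
    exact (hT.hA hs).2 (hz (bx_mono (Nat.le_succ r) har))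
  obtain ⟨q, hql, hueq⟩ := exists_pred hwi hgeo hT.conn hal hams
  refine ⟨R ∪ L, ?_, a, har, s, hs, s', hs', q, q', ?_, hueq, hue'⟩
  · intro e he
    rw [mem_tF]
    rcases Finset.mem_union.1 he with he | he
    · exact (hRmem e he).2.1
    · exact (hLmem e (hLL₀ he)).2.1
  · rintro rfl
    exact hq'l hql

end Vale.Agent.P158.C.Low
end
end

section

section

/-! The window lemma `WinStmt` for every atomless law. -/

namespace Vale.Agent.P158.C.Low

open SimpleGraph Vale.Agent.P158.T1 Vale.Agent.P158.CL MeasureTheory Filter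
open scoped ENNReal NNReal

variable {G : Measure ℝ} [IsProbabilityMeasure G]

theorem measurable_MV (S A : Set V) (y x : V) : Measurable fun t : Env => MV (wt t) S A y x := by
  unfold MV
  refine Measurable.exists fun s => ?_
  refine Measurable.and measurable_const ?_
  refine Measurable.exists fun s' => ?_
  refine Measurable.and measurable_const ?_
  refine Measurable.exists fun p => Measurable.exists fun p' => ?_
  refine Measurable.and measurable_const ?_
  exact (LowEdge.measurable_UE S s y p x).and (LowEdge.measurable_UE S s' y p' x)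

theorem measurableSet_MVbx (S A : Set V) (y z : V) (r : ℕ) :
    MeasurableSet {t : Env | ∃ x ∈ bx z r, MV (wt t) S A y x} := by
  have : Measurable fun t : Env => ∃ x ∈ bx z r, MV (wt t) S A y x := by
    refine Measurable.exists fun x => ?_
    exact Measurable.and measurable_const (measurable_MV S A y x)
  exact measurableSet_setOfPred.2 this

/-- The window lemma for every atomless law. -/
theorem win [NullSingletonClass G] (hG : G (Set.Iio 0) = 0) : WinStmt G := by
  classical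
  intro K h ε hh hε
  have hε3 : 0 < ε / 3 := by positivity
  obtain ⟨η', θ, hη', hθ0, hθ1, hTm, hTc⟩ :=
    exists_typ (G := G) hG (η := h / 2) (by positivity) (ε := 1 / 16) (by norm_num)
  set T : Set ℝ := {s | θ ≤ G (Jw (h / 2) η' s)} with hT
  obtain ⟨Cp, θp, hCp, hθp0, hθp1, hP⟩ := peierls_set hTm hTc
  obtain ⟨K₂, hK₂, hW₁⟩ := gw' (G := G) hG K (ε / 3) hε3
  obtain ⟨R₀, hR₀⟩ := hW₁ (5 * K₂ + h)
  obtain ⟨M₁, hM₁, hM₁'⟩ := hR₀ (max R₀ (K + 1)) (le_max_left _ _)
  set r₁ := max R₀ (K + 1) with hr₁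
  obtain ⟨n, hn⟩ := exists_nat_gt ((4 * K₂ + h / 2) / η')
  have hn' : 4 * K₂ + h / 2 < n * η' := by
    rwa [div_lt_iff₀ hη'] at hn
  have hlim : Tendsto (fun k : ℕ => Cp * (r₁ + 1) * θp ^ k) atTop (nhds 0) := by
    have := (tendsto_pow_atTop_nhds_zero_of_lt_one hθp0.le hθp1).const_mul (Cp * (r₁ + 1))
    simpa only [mul_zero] using this
  obtain ⟨k₀, hk₀⟩ := Filter.eventually_atTop.1 ((tendsto_order.1 hlim).2 (ε / 3) hε3)
  set r₂ := r₁ + (8 * n + k₀) with hr₂
  obtain ⟨K₃, hK₃, hW₃⟩ := gw' (G := G) hG r₂ (ε / 3) hε3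
  obtain ⟨R₁, hR₁⟩ := hW₃ (2 * K₃ + 1)
  set r := max R₁ (r₂ + 1) with hr
  obtain ⟨M₂, hM₂, hM₂'⟩ := hR₁ r (le_max_left _ _)
  have hKr₁ : K + 1 ≤ r₁ := le_max_right _ _
  have hr₂r : r₂ + 1 ≤ r := le_max_right _ _
  set Nc : ℕ := 4 * (2 * r₂ + 1) ^ 2 with hNc
  have hθtop : θ ≠ ∞ := ne_top_of_le_ne_top ENNReal.one_ne_top hθ1
  have hCtop : (2 / θ) ^ Nc ≠ ∞ :=
    ENNReal.pow_ne_top (ENNReal.div_ne_top ENNReal.ofNat_ne_top hθ0.ne')
  refine ⟨r, ((2 / θ) ^ Nc).toNNReal, by omega, ?_⟩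
  intro m S A y hTS z hz
  rw [ENNReal.coe_toNNReal hCtop]
  set B₁ : Set Env := {t | ¬ GW (5 * K₂ + h) K₂ M₁ t z K r₁} with hB₁
  set B₂ : Set Env := {t | ¬ AG 1 (fun e => ind T (t e)) z r₁ r₂} with hB₂
  set B₃ : Set Env := {t | ¬ GW (2 * K₃ + 1) K₃ M₂ t z r₂ r} with hB₃
  set B₄ : Set Env := {t | ¬ ((∀ e, 0 < t e) ∧ Uq (wt t))} with hB₄
  set A' : Set Env := {t | Dbl (wt t) S A y h z K ∧ Win K r₁ r₂ r (5 * K₂ + h) K₂ K₃ M₁ M₂ T t z ∧
    (∀ e, 0 < t e) ∧ Uq (wt t)} with hA'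
  set Cs : Set Env := {t | ∃ x ∈ bx z r, MV (wt t) S A y x} with hCs
  have hsub : {t | Dbl (wt t) S A y h z K} ⊆ (B₁ ∪ B₂ ∪ B₃ ∪ B₄) ∪ A' := by
    intro t ht
    by_cases h1 : t ∈ B₁
    · exact Or.inl (Or.inl (Or.inl (Or.inl h1)))
    by_cases h2 : t ∈ B₂
    · exact Or.inl (Or.inl (Or.inl (Or.inr h2)))
    by_cases h3 : t ∈ B₃
    · exact Or.inl (Or.inl (Or.inr h3))
    by_cases h4 : t ∈ B₄
    · exact Or.inl (Or.inr h4)
    refine Or.inr ⟨ht, ⟨?_, ?_, ?_⟩, ?_⟩
    · simpa [hB₁] using h1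
    · simpa [hB₂] using h2
    · simpa [hB₃] using h3
    · have := h4
      simp only [hB₄, Set.mem_ofPred_eq, not_not] at this
      exact this
  have hb1 : PG G B₁ ≤ ENNReal.ofReal (ε / 3) := hM₁' z
  have hb2 : PG G B₂ ≤ ENNReal.ofReal (ε / 3) := by
    refine (hP z r₁ r₂ (by omega)).trans (ENNReal.ofReal_le_ofReal ?_)
    refine (hk₀ (r₂ - r₁) (by omega)).le
  have hb3 : PG G B₃ ≤ ENNReal.ofReal (ε / 3) := hM₂' z
  have hb4 : PG G B₄ = 0 := by
    have h1 : ∀ᵐ t ∂PG G, ∀ e, 0 < t e := ae_pos G hG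
    have h2 : ∀ᵐ t ∂PG G, Uq (wt t) := UqAE.uq_ae
    have h3 : ∀ᵐ t ∂PG G, (∀ e, 0 < t e) ∧ Uq (wt t) := by
      filter_upwards [h1, h2] with t ht ht' using ⟨ht, ht'⟩
    exact h3
  have hres : θ ^ (tF z r₂).card * PG G A' ≤ 2 ^ (tF z r₂).card * PG G Cs := by
    refine resample (tF z r₂) hθ1 (J := Jw (h / 2) η') (fun s => measurableSet_Ioo) (T := T)
      (fun s hs => hs) (measurableSet_MVbx S A y z r) ?_
    rintro t ⟨htD, htW, htp, htU⟩ t' ht'
    exact core (n := n) hTS hz htp htU htW hKr₁ (by omega) hr₂r (by positivity) (by linarith only [hh]) hη'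
      hn' hK₂ le_rfl htD ht'
  have hcard : (tF z r₂).card ≤ Nc := Pe.card_tF_le z r₂
  have hA'le : PG G A' ≤ (2 / θ) ^ Nc * PG G Cs := by
    have h0 : θ ^ (tF z r₂).card ≠ 0 := pow_ne_zero _ hθ0.ne'
    have h0' : θ ^ (tF z r₂).card ≠ ∞ := ENNReal.pow_ne_top hθtop
    have h1 : PG G A' ≤ (2 / θ) ^ (tF z r₂).card * PG G Cs := by
      have h2 : (2 / θ : ℝ≥0∞) ^ (tF z r₂).card * PG G Cs =
          (2 ^ (tF z r₂).card * PG G Cs) / θ ^ (tF z r₂).card := by
        rw [div_eq_mul_inv, mul_pow, ← ENNReal.inv_pow, div_eq_mul_inv]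
        ring
      rw [h2, ENNReal.le_div_iff_mul_le (Or.inl h0) (Or.inl h0'), mul_comm]
      exact hres
    refine h1.trans ?_
    have h3 : (1 : ℝ≥0∞) ≤ 2 / θ := by
      rw [div_eq_mul_inv]
      calc (1 : ℝ≥0∞) = 1 * 1 := (one_mul 1).symm
        _ ≤ 2 * θ⁻¹ := mul_le_mul' (by norm_num) (ENNReal.one_le_inv.2 hθ1)
    (clear hG h ε hh hε hε3 η' hη' hθ0 T hTm hTc hT Cp θp hCp hθp0 hθp1 hP K₂ hK₂ hW₁ hR₀ M₁ hM₁ hM₁' hr₁ hn hn' hlim hk₀ hr₂ K₃ hK₃ hW₃ hR₁ hr M₂ hM₂ hM₂' hKr₁ hr₂r hNc hθtop hCtop m hTS hz B₁ hB₁ B₂ hB₂ B₃ hB₃ B₄ hB₄ A' hA' hCs hsub hb1 hb2 hb3 hb4 hres h0 h0' h1; gcongr)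
  calc PG G {t | Dbl (wt t) S A y h z K} ≤ PG G ((B₁ ∪ B₂ ∪ B₃ ∪ B₄) ∪ A') := measure_mono hsub
    _ ≤ PG G (B₁ ∪ B₂ ∪ B₃ ∪ B₄) + PG G A' := measure_union_le _ _
    _ ≤ (PG G B₁ + PG G B₂ + PG G B₃ + PG G B₄) + PG G A' := by
        gcongr
        refine (measure_union_le _ _).trans ?_
        gcongr
        refine (measure_union_le _ _).trans ?_
        gcongr
        exact measure_union_le _ _
    _ ≤ (ENNReal.ofReal (ε / 3) + ENNReal.ofReal (ε / 3) + ENNReal.ofReal (ε / 3) + 0) +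
          (2 / θ) ^ Nc * PG G Cs := by
        gcongr
        exact hb4.le
    _ = ENNReal.ofReal ε + (2 / θ) ^ Nc * PG G Cs := by
        rw [add_zero, ← ENNReal.ofReal_add hε3.le hε3.le, ← ENNReal.ofReal_add (by positivity) hε3.le]
        congr 2
        ring

end Vale.Agent.P158.C.Low
end
end

section

section

/-! Lowering weights inside the support of an arbitrary law without atoms: the measure part. -/

namespace Vale.Agent.P158.C.S3m

open MeasureTheory Filter Vale.Agent.P158.T1 Vale.Agent.P158.T1.Pe Vale.Agent.P158.C.Low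
open scoped ENNReal

variable {G : Measure ℝ} [IsProbabilityMeasure G]

/-- The weight `s` can be lowered by an amount between `η'` and `η`. -/
def Cap (G : Measure ℝ) (η η' s : ℝ) : Prop := 0 < G (Set.Ioo (max (s - η) 0) (s - η'))

omit [IsProbabilityMeasure G] in
theorem Cap.mono {η₁ η₂ η₁' η₂' s : ℝ} (h1 : η₁ ≤ η₂) (h2 : η₂' ≤ η₁') (h : Cap G η₁ η₁' s) :
    Cap G η₂ η₂' s :=
  lt_of_lt_of_le h (measure_mono (Set.Ioo_subset_Ioo (max_le_max (by linarith) le_rfl)
    (by linarith only [h2])))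

/-- Resampling of a finite set of weights, simultaneously for all subsets. -/
theorem mix_aux (F₀ : Finset latt.edgeSet) : ∀ {p : Env → Prop}, (∀ᵐ t ∂PG G, p t) →
    ∀ᵐ t ∂PG G, ∀ lo hi : latt.edgeSet → ℝ, (∀ e ∈ F₀, 0 < G (Set.Ioo (lo e) (hi e))) →
      ∃ t' : Env, (∀ e ∈ F₀, lo e < t' e ∧ t' e < hi e) ∧ ∀ F ⊆ F₀, p (mix F t t') := by
  classical
  induction F₀ using Finset.induction_on with
  | empty =>
    intro p hp
    filter_upwards [hp] with t ht lo hi _
    refine ⟨t, by simp, fun F hF => ?_⟩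
    have h : mix F t t = t := by
      funext e
      unfold mix
      simp
    rw [h]
    exact ht
  | insert e F₁ he ih =>
    intro p hp
    have h1 : ∀ᵐ t ∂PG G, p t ∧ ∀ᵐ s ∂G, p (Function.update t e s) := hp.and (ae_update hp e)
    filter_upwards [ih h1] with t ht lo hi hlh
    obtain ⟨t', h2, h3⟩ := ht lo hi fun f hf => hlh f (Finset.mem_insert_of_mem hf)
    have h4 : ∀ᵐ s ∂G, ∀ F ∈ F₁.powerset, p (Function.update (mix F t t') e s) := by
      rw [Filter.eventually_all_finset]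
      exact fun F hF => (h3 F (Finset.mem_powerset.1 hF)).2
    obtain ⟨s, hs, hs'⟩ : ∃ s ∈ Set.Ioo (lo e) (hi e),
        ∀ F ∈ F₁.powerset, p (Function.update (mix F t t') e s) := by
      by_contra hcon
      push Not at hcon
      have : G (Set.Ioo (lo e) (hi e)) = 0 := by
        refine measure_mono_null ?_ (ae_iff.1 h4)
        intro s hs hs'
        obtain ⟨F, hF, hF'⟩ := hcon s hs
        exact hF' (hs' F hF)
      exact absurd this (hlh e (Finset.mem_insert_self _ _)).ne'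
    refine ⟨Function.update t' e s, fun f hf => ?_, fun F hF => ?_⟩
    · by_cases hfe : f = e
      · subst hfe
        rw [Function.update_self]
        exact hs
      · rw [Function.update_of_ne hfe]
        exact h2 f ((Finset.mem_insert.1 hf).resolve_left hfe)
    · by_cases heF : e ∈ F
      · have h5 : mix F t (Function.update t' e s)
            = Function.update (mix (F.erase e) t t') e s := by
          funext f
          by_cases hfe : f = e
          · subst hfe
            rw [mix_of_mem heF, Function.update_self, Function.update_self]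
          · rw [Function.update_of_ne hfe]
            by_cases hf : f ∈ F
            · rw [mix_of_mem hf, mix_of_mem (Finset.mem_erase.2 ⟨hfe, hf⟩),
                Function.update_of_ne hfe]
            · rw [mix_of_not_mem hf, mix_of_not_mem fun h => hf (Finset.mem_of_mem_erase h)]
        rw [h5]
        refine hs' _ (Finset.mem_powerset.2 fun f hf => ?_)
        exact (Finset.mem_insert.1 (hF (Finset.mem_of_mem_erase hf))).resolve_left
          (Finset.ne_of_mem_erase hf)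
      · have h5 : mix F t (Function.update t' e s) = mix F t t' := by
          funext f
          by_cases hf : f ∈ F
          · rw [mix_of_mem hf, mix_of_mem hf, Function.update_of_ne]
            exact fun h => heF (h ▸ hf)
          · rw [mix_of_not_mem hf, mix_of_not_mem hf]
        rw [h5]
        refine (h3 F fun f hf => ?_).1
        exact (Finset.mem_insert.1 (hF hf)).resolve_left fun h => heF (h ▸ hf)

/-- **Resampling with two copies.** Almost surely, for all windows of positive mass on a finite set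
of edges there are new weights in these windows for which all mixtures are good. -/
theorem ae_mix {p : Env → Prop} (hp : ∀ᵐ t ∂PG G, p t) :
    ∀ᵐ t ∂PG G, ∀ (F₀ : Finset latt.edgeSet) (lo hi : latt.edgeSet → ℝ),
      (∀ e ∈ F₀, 0 < G (Set.Ioo (lo e) (hi e))) →
      ∃ t' : Env, (∀ e ∈ F₀, lo e < t' e ∧ t' e < hi e) ∧ ∀ F ⊆ F₀, p (mix F t t') :=
  ae_all_iff.2 fun F₀ => mix_aux F₀ hp

/-! ### Weights that can be lowered -/

omit [IsProbabilityMeasure G] in
/-- For a law without atoms almost every point has mass just below it. -/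
theorem null_left [NullSingletonClass G] (η : ℝ) (hη : 0 < η) :
    G {s | G (Set.Ioo (s - η) s) = 0} = 0 := by
  have hq : ∀ q : ℚ, G {s | (q : ℝ) < s ∧ G (Set.Ioo (q : ℝ) s) = 0} = 0 := by
    intro q
    have hcov : {s | (q : ℝ) < s ∧ G (Set.Ioo (q : ℝ) s) = 0} ⊆
        (⋃ r ∈ {r : ℚ | G (Set.Ioo (q : ℝ) (r : ℝ)) = 0}, Set.Ioo (q : ℝ) (r : ℝ)) ∪
          {s | ((q : ℝ) < s ∧ G (Set.Ioo (q : ℝ) s) = 0) ∧
            ∀ r : ℚ, G (Set.Ioo (q : ℝ) (r : ℝ)) = 0 → (r : ℝ) ≤ s} := by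
      intro s hs
      by_cases h : ∀ r : ℚ, G (Set.Ioo (q : ℝ) (r : ℝ)) = 0 → (r : ℝ) ≤ s
      · exact Or.inr ⟨hs, h⟩
      · push Not at h
        obtain ⟨r, hr1, hr2⟩ := h
        exact Or.inl (Set.mem_iUnion₂.2 ⟨r, hr1, hs.1, hr2⟩)
    refine measure_mono_null hcov (measure_union_null ?_ ?_)
    · exact (measure_biUnion_null_iff (Set.to_countable _)).2 fun r hr => hr
    · refine Set.Subsingleton.measure_zero ?_ G
      rintro a ⟨ha1, ha2⟩ b ⟨hb1, hb2⟩
      by_contra hne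
      rcases lt_or_gt_of_ne hne with h | h
      · obtain ⟨r, hr1, hr2⟩ := exists_rat_btwn h
        have h0 : G (Set.Ioo (q : ℝ) (r : ℝ)) = 0 :=
          measure_mono_null (Set.Ioo_subset_Ioo le_rfl hr2.le) hb1.2
        exact absurd (ha2 r h0) (not_le.2 hr1)
      · obtain ⟨r, hr1, hr2⟩ := exists_rat_btwn h
        have h0 : G (Set.Ioo (q : ℝ) (r : ℝ)) = 0 :=
          measure_mono_null (Set.Ioo_subset_Ioo le_rfl hr2.le) ha1.2
        exact absurd (hb2 r h0) (not_le.2 hr1)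
  have hcov : {s | G (Set.Ioo (s - η) s) = 0} ⊆
      ⋃ q : ℚ, {s | (q : ℝ) < s ∧ G (Set.Ioo (q : ℝ) s) = 0} := by
    intro s hs
    obtain ⟨q, hq1, hq2⟩ := exists_rat_btwn (show s - η < s by linarith)
    exact Set.mem_iUnion.2 ⟨q, hq2, measure_mono_null (Set.Ioo_subset_Ioo hq1.le le_rfl) hs⟩
  exact measure_mono_null hcov (measure_iUnion_null hq)

omit [IsProbabilityMeasure G] in
/-- The same with positive weights only. -/
theorem null_left_pos [NullSingletonClass G] (hG : G (Set.Iio 0) = 0) (η : ℝ) (hη : 0 < η) :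
    G {s | G (Set.Ioo (max (s - η) 0) s) = 0} = 0 := by
  refine measure_mono_null ?_ (null_left (G := G) η hη)
  intro s hs
  have hcov : Set.Ioo (s - η) s ⊆ (Set.Iio 0 ∪ {0}) ∪ Set.Ioo (max (s - η) 0) s := by
    intro a ha
    rcases le_or_gt a 0 with h | h
    · left
      rcases h.lt_or_eq with h | h
      · exact Or.inl h
      · exact Or.inr h
    · exact Or.inr ⟨max_lt ha.1 h, ha.2⟩
  exact measure_mono_null hcov (measure_union_null (measure_union_null hG (measure_singleton 0)) hs)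

omit [IsProbabilityMeasure G] in
theorem exists_cap {η s : ℝ} (hs : 0 < G (Set.Ioo (max (s - η) 0) s)) :
    ∃ n : ℕ, Cap G η (η / ((n : ℝ) + 2)) s := by
  by_contra h
  push Not at h
  have hcov : Set.Ioo (max (s - η) 0) s ⊆
      ⋃ n : ℕ, Set.Ioo (max (s - η) 0) (s - η / ((n : ℝ) + 2)) := by
    intro a ha
    obtain ⟨n, hn⟩ := exists_nat_gt (η / (s - a))
    have ha2 : 0 < s - a := by linarith only [ha.2]
    refine Set.mem_iUnion.2 ⟨n, ha.1, ?_⟩
    rw [div_lt_iff₀ ha2] at hn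
    have h2 : (0 : ℝ) < (n : ℝ) + 2 := by (clear * -; positivity)
    have h3 : η / ((n : ℝ) + 2) < s - a := by
      rw [div_lt_iff₀ h2]
      linarith
    linarith only [h3]
  have : G (Set.Ioo (max (s - η) 0) s) = 0 := measure_mono_null hcov
    (measure_iUnion_null fun n => by
      have := h n
      unfold Cap at this
      exact le_antisymm (not_lt.1 this) bot_le)
  exact hs.ne' this

/-- Every edge can be lowered by a small amount. -/
theorem ae_cap_edge [NullSingletonClass G] (hG : G (Set.Iio 0) = 0) :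
    ∀ᵐ t ∂PG G, ∀ (e : latt.edgeSet) (η : ℝ), 0 < η →
      ∃ η', 0 < η' ∧ η' < η ∧ Cap G η η' (t e) := by
  have h1 : ∀ᵐ t ∂PG G, ∀ (e : latt.edgeSet) (m : ℕ),
      0 < G (Set.Ioo (max (t e - 1 / ((m : ℝ) + 1)) 0) (t e)) := by
    rw [ae_all_iff]
    intro e
    rw [ae_all_iff]
    intro m
    have h2 : ∀ᵐ s ∂G, 0 < G (Set.Ioo (max (s - 1 / ((m : ℝ) + 1)) 0) s) := by
      rw [ae_iff]
      simpa only [one_div, pos_iff_ne_zero, ne_eq, Decidable.not_not] using     null_left_pos (G := G) hG (1 / ((m : ℝ) + 1)) (by positivity)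
    exact (measurePreserving_eval_infinitePi (fun _ : latt.edgeSet => G) e).quasiMeasurePreserving.ae
      h2
  filter_upwards [h1] with t ht e η hη
  obtain ⟨m, hm⟩ := exists_nat_one_div_lt hη
  have hm0 : (0 : ℝ) < 1 / ((m : ℝ) + 1) := by positivity
  obtain ⟨n, hn⟩ := exists_cap (ht e m)
  refine ⟨1 / ((m : ℝ) + 1) / ((n : ℝ) + 2), by positivity, ?_, hn.mono hm.le le_rfl⟩
  refine lt_of_le_of_lt (div_le_self hm0.le ?_) hm
  have : (0 : ℝ) ≤ n := Nat.cast_nonneg n
  linarith only []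

/-! ### Paths with few good edges -/

omit [IsProbabilityMeasure G] in
theorem lintegral_ind {B : Set ℝ} (hB : MeasurableSet B) :
    ∫⁻ u, B.indicator (fun _ => (1 : ℝ≥0∞)) u ∂G = G B := by
  rw [lintegral_indicator_const hB, one_mul]

/-- The probability that all edges of a set are bad. -/
theorem all_bad {B : Set ℝ} (hB : MeasurableSet B) (s : Finset latt.edgeSet) :
    PG G {t | ∀ e ∈ s, t e ∈ B} ≤ (G B) ^ s.card := by
  classical
  have hm : Measurable (fun u : ℝ => B.indicator (fun _ => (1 : ℝ≥0∞)) u) :=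
    measurable_const.indicator hB
  have h1 := lintegral_prod_PG (G := G) s hm
  rw [lintegral_ind hB] at h1
  rw [← h1]
  have hset : MeasurableSet {t : Env | ∀ e ∈ s, t e ∈ B} := by
    have : {t : Env | ∀ e ∈ s, t e ∈ B} = ⋂ e ∈ s, (fun t : Env => t e) ⁻¹' B := by
      ext t; simp only [Subtype.forall, Set.mem_ofPred_eq, Set.iInter_coe_set, Set.mem_iInter, Set.mem_preimage]
    rw [this]
    exact Finset.measurableSet_biInter s fun e _ => measurable_pi_apply e hB
  rw [← lintegral_indicator_one hset]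
  refine lintegral_mono fun t => ?_
  by_cases ht : ∀ e ∈ s, t e ∈ B
  · rw [Set.indicator_of_mem (show t ∈ {t : Env | ∀ e ∈ s, t e ∈ B} from ht)]
    rw [Finset.prod_eq_one fun e he => Set.indicator_of_mem (ht e he) _]
    simp
  · rw [Set.indicator_of_notMem (show t ∉ {t : Env | ∀ e ∈ s, t e ∈ B} from ht)]
    exact bot_le

theorem path_bad {B : Set ℝ} (hB : MeasurableSet B) (hB' : G B ≤ 1 / 8) (x : V) (ℓ : ℕ) :
    PG G {t | ∃ (y : V) (p : latt.Walk x y), p.IsPath ∧ p.length = ℓ ∧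
      ∀ e ∈ pe p, t e ∈ B} ≤ (1 / 2) ^ ℓ := by
  classical
  have hsub : {t : Env | ∃ (y : V) (p : latt.Walk x y), p.IsPath ∧ p.length = ℓ ∧
      ∀ e ∈ pe p, t e ∈ B} ⊆ ⋃ q ∈ (WL ℓ x).filter fun q => (pe q.2).card = ℓ,
        {t | ∀ e ∈ pe q.2, t e ∈ B} := by
    rintro t ⟨y, p, hp, hl, ht⟩
    rw [Set.mem_iUnion₂]
    refine ⟨⟨y, p⟩, ?_, ht⟩
    rw [Finset.mem_filter]
    refine ⟨?_, by rw [card_pe hp, hl]⟩
    have := mem_WL p
    rwa [hl] at this
  calc _ ≤ _ := measure_mono hsub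
    _ ≤ ∑ q ∈ (WL ℓ x).filter fun q => (pe q.2).card = ℓ,
        PG G {t | ∀ e ∈ pe q.2, t e ∈ B} := measure_biUnion_finset_le _ _
    _ ≤ ∑ _q ∈ (WL ℓ x).filter fun q => (pe q.2).card = ℓ, (1 / 8 : ℝ≥0∞) ^ ℓ := by
        refine Finset.sum_le_sum fun q hq => ?_
        refine (all_bad hB _).trans ?_
        rw [(Finset.mem_filter.1 hq).2]
        (clear * - hB'; gcongr)
    _ = (((WL ℓ x).filter fun q => (pe q.2).card = ℓ).card : ℝ≥0∞) * (1 / 8) ^ ℓ := by
        rw [Finset.sum_const, nsmul_eq_mul]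
    _ ≤ ((4 ^ ℓ : ℕ) : ℝ≥0∞) * (1 / 8) ^ ℓ := by
        gcongr
        exact (Finset.card_filter_le _ _).trans (card_WL ℓ x)
    _ = (1 / 2) ^ ℓ := by
        push_cast
        rw [← mul_pow]
        congr 1
        rw [show (8 : ℝ≥0∞) = 4 * 2 by norm_num, one_div, ENNReal.mul_inv (Or.inl (by norm_num))
          (Or.inl (by norm_num)), ← mul_assoc, ENNReal.mul_inv_cancel (by norm_num) (by norm_num),
          one_mul, one_div]

/-- Almost surely all long paths contain a good edge. -/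
theorem ae_good_edge {B : Set ℝ} (hB : MeasurableSet B) (hB' : G B ≤ 1 / 8) (x : V) :
    ∀ᵐ t ∂PG G, ∃ ℓ : ℕ, ∀ (y : V) (p : latt.Walk x y), p.IsPath → p.length = ℓ →
      ∃ e ∈ pe p, t e ∉ B := by
  rw [ae_iff]
  refine le_antisymm ?_ bot_le
  have h0 : ∀ ℓ : ℕ, PG G {t | ¬ ∃ ℓ : ℕ, ∀ (y : V) (p : latt.Walk x y), p.IsPath →
      p.length = ℓ → ∃ e ∈ pe p, t e ∉ B} ≤ (1 / 2) ^ ℓ := by
    intro ℓ
    refine (measure_mono ?_).trans (path_bad hB hB' x ℓ)
    intro t ht
    have ht' : ¬ ∃ ℓ : ℕ, ∀ (y : V) (p : latt.Walk x y), p.IsPath →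
      p.length = ℓ → ∃ e ∈ pe p, t e ∉ B := ht
    push Not at ht'
    obtain ⟨y, p, hp, hl, hlt⟩ := ht' ℓ
    exact ⟨y, p, hp, hl, hlt⟩
  refine ge_of_tendsto' (x := atTop (α := ℕ)) ?_ h0
  exact ENNReal.tendsto_pow_atTop_nhds_zero_of_lt_one (by
    rw [one_div, ENNReal.inv_lt_one]; norm_num)

/-- The initial segment of an infinite path. -/
theorem exists_walk_of_ray (u : ℕ → V) (hu : ∀ k, latt.Adj (u k) (u (k + 1)))
    (hinj : Function.Injective u) (N ℓ : ℕ) :
    ∃ p : latt.Walk (u N) (u (N + ℓ)), p.IsPath ∧ p.length = ℓ ∧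
      (∀ z ∈ p.support, ∃ k, N ≤ k ∧ k ≤ N + ℓ ∧ z = u k) ∧
      ∀ e ∈ pe p, ∃ k, N ≤ k ∧ e = ⟨s(u k, u (k + 1)), hu k⟩ := by
  induction ℓ with
  | zero =>
    refine ⟨SimpleGraph.Walk.nil, SimpleGraph.Walk.IsPath.nil, rfl, ?_, ?_⟩
    · intro z hz
      rw [SimpleGraph.Walk.support_nil, List.mem_singleton] at hz
      exact ⟨N, le_rfl, le_rfl, hz⟩
    · intro e he
      simp [pe] at he
  | succ ℓ ih =>
    obtain ⟨p, h1, h2, h3, h4⟩ := ih
    refine ⟨p.concat (hu (N + ℓ)), ?_, ?_, ?_, ?_⟩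
    · refine h1.concat ?_ (hu (N + ℓ))
      intro hmem
      obtain ⟨k, hk1, hk2, hk3⟩ := h3 _ hmem
      have := hinj hk3
      omega
    · rw [SimpleGraph.Walk.length_concat, h2]
    · intro z hz
      rw [SimpleGraph.Walk.support_concat, List.mem_append, List.mem_singleton] at hz
      rcases hz with hz | hz
      · obtain ⟨k, hk1, hk2, hk3⟩ := h3 z hz
        exact ⟨k, hk1, by omega, hk3⟩
      · exact ⟨N + (ℓ + 1), by omega, le_rfl, hz⟩
    · intro e he
      rw [SimpleGraph.Walk.concat_eq_append, mem_pe_append] at he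
      rcases he with he | he
      · exact h4 e he
      · rw [mem_pe_cons] at he
        rcases he with he | he
        · exact ⟨N + ℓ, by omega, he⟩
        · simp [pe] at he

/-- Almost surely every infinite path has good edges beyond every index. -/
theorem ae_ray_good {B : Set ℝ} (hB : MeasurableSet B) (hB' : G B ≤ 1 / 8) :
    ∀ᵐ t ∂PG G, ∀ u : ℕ → V, (∀ k, latt.Adj (u k) (u (k + 1))) → Function.Injective u →
      ∀ N, ∃ k, N ≤ k ∧ wt t (u k) (u (k + 1)) ∉ B := by
  have h1 : ∀ᵐ t ∂PG G, ∀ x : V, ∃ ℓ : ℕ, ∀ (y : V) (p : latt.Walk x y), p.IsPath →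
      p.length = ℓ → ∃ e ∈ pe p, t e ∉ B := ae_all_iff.2 fun x => ae_good_edge hB hB' x
  filter_upwards [h1] with t ht u hu hinj N
  obtain ⟨ℓ, hℓ⟩ := ht (u N)
  obtain ⟨p, p1, p2, -, p4⟩ := exists_walk_of_ray u hu hinj N ℓ
  obtain ⟨e, he, heB⟩ := hℓ _ p p1 p2
  obtain ⟨k, hk, rfl⟩ := p4 e he
  refine ⟨k, hk, ?_⟩
  rw [wt_mk t (hu k)]
  exact heB

theorem measurable_cap (η η' : ℝ) : MeasurableSet {s | ¬ Cap G η η' s} := by
  have h1 : MeasurableSet {q : ℝ × ℝ | max (q.1 - η) 0 < q.2 ∧ q.2 < q.1 - η'} := by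
    have a1 : Measurable fun q : ℝ × ℝ => max (q.1 - η) 0 := by fun_prop
    have a2 : Measurable fun q : ℝ × ℝ => q.1 - η' := by fun_prop
    exact (measurableSet_lt a1 measurable_snd).inter (measurableSet_lt measurable_snd a2)
  have h2 := measurable_measure_prodMk_left (ν := G) h1
  have h3 : {s | ¬ Cap G η η' s} = (fun s => G (Prod.mk s ⁻¹'
      {q : ℝ × ℝ | max (q.1 - η) 0 < q.2 ∧ q.2 < q.1 - η'})) ⁻¹' {0} := by
    ext s
    simp only [Cap, Set.mem_ofPred_eq, not_lt, nonpos_iff_eq_zero, Set.mem_preimage,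
      Set.mem_singleton_iff]
    rfl
  rw [h3]
  exact h2 (measurableSet_singleton 0)

/-- The mass of the weights that cannot be lowered is small. -/
theorem exists_small [NullSingletonClass G] (hG : G (Set.Iio 0) = 0) {η : ℝ} (hη : 0 < η) :
    ∃ η', 0 < η' ∧ η' < η ∧ G {s | ¬ Cap G η η' s} ≤ 1 / 8 := by
  set f : ℕ → Set ℝ := fun n => {s | ¬ Cap G η (η / ((n : ℝ) + 2)) s} with hf
  have hanti : Antitone f := by
    intro m n hmn s hs hcap
    refine hs (hcap.mono le_rfl ?_)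
    have : (m : ℝ) ≤ n := by exact_mod_cast hmn
    exact div_le_div_of_nonneg_left hη.le (by (clear * -; positivity)) (by linarith only [this])
  have hinter : G (⋂ n, f n) = 0 := by
    refine measure_mono_null ?_ (null_left_pos (G := G) hG η hη)
    intro s hs
    by_contra hpos
    obtain ⟨n, hn⟩ := exists_cap (pos_iff_ne_zero.2 hpos)
    exact (Set.mem_iInter.1 hs n) hn
  have htend : Tendsto (fun n => G (f n)) atTop (nhds 0) := by
    rw [← hinter]
    exact tendsto_measure_iInter_atTop (fun n => (measurable_cap _ _).nullMeasurableSet) hanti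
      ⟨0, measure_ne_top _ _⟩
  have h8 : (0 : ℝ≥0∞) < 1 / 8 := by
    rw [one_div]
    exact ENNReal.inv_pos.2 (by norm_num)
  obtain ⟨n, hn⟩ := (htend.eventually (gt_mem_nhds h8)).exists
  refine ⟨η / ((n : ℝ) + 2), by positivity, ?_, hn.le⟩
  have : (0 : ℝ) ≤ n := Nat.cast_nonneg n
  rw [div_lt_iff₀ (by positivity)]
  nlinarith only [hη]

/-- **Capacity of infinite paths.** Almost surely every infinite path has, beyond every index,
edges which can be lowered by an amount between `η'` and `η`. -/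
theorem ae_cap [NullSingletonClass G] (hG : G (Set.Iio 0) = 0) :
    ∀ᵐ t ∂PG G, ∀ η : ℝ, 0 < η → ∃ η', 0 < η' ∧ η' < η ∧
      ∀ u : ℕ → V, (∀ k, latt.Adj (u k) (u (k + 1))) → Function.Injective u →
        ∀ N, ∃ k, N ≤ k ∧ Cap G η η' (wt t (u k) (u (k + 1))) := by
  have h1 : ∀ m : ℕ, ∃ η', 0 < η' ∧ η' < 1 / ((m : ℝ) + 1) ∧
      G {s | ¬ Cap G (1 / ((m : ℝ) + 1)) η' s} ≤ 1 / 8 := fun m =>
    exists_small hG (by positivity)
  choose g g1 g2 g3 using h1
  have h2 : ∀ᵐ t ∂PG G, ∀ m : ℕ, ∀ u : ℕ → V, (∀ k, latt.Adj (u k) (u (k + 1))) →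
      Function.Injective u → ∀ N, ∃ k, N ≤ k ∧
        wt t (u k) (u (k + 1)) ∉ {s | ¬ Cap G (1 / ((m : ℝ) + 1)) (g m) s} :=
    ae_all_iff.2 fun m => ae_ray_good (measurable_cap _ _) (g3 m)
  filter_upwards [h2] with t ht η hη
  obtain ⟨m, hm⟩ := exists_nat_one_div_lt hη
  refine ⟨g m, g1 m, (g2 m).trans hm, fun u hu hinj N => ?_⟩
  obtain ⟨k, hk, hcap⟩ := ht m u hu hinj N
  refine ⟨k, hk, ?_⟩
  have hcap' : Cap G (1 / ((m : ℝ) + 1)) (g m) (wt t (u k) (u (k + 1))) := by
    by_contra h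
    exact hcap h
  exact hcap'.mono hm.le le_rfl

/-- A property that holds beyond every index holds for arbitrarily many indices. -/
theorem exists_finset {p : ℕ → Prop} (h : ∀ N, ∃ k, N ≤ k ∧ p k) {η' : ℝ} (hη' : 0 < η')
    (K : ℝ) (N : ℕ) : ∃ I : Finset ℕ, (∀ k ∈ I, N ≤ k ∧ p k) ∧ K ≤ η' * I.card := by
  classical
  have h1 : ∀ n : ℕ, ∃ I : Finset ℕ, (∀ k ∈ I, N ≤ k ∧ p k) ∧ I.card = n := by
    intro n
    induction n with
    | zero => exact ⟨∅, by simp, rfl⟩
    | succ n ih =>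
      obtain ⟨I, hI, hc⟩ := ih
      obtain ⟨k, hk, hpk⟩ := h (I.sup id + 1 + N)
      have hkI : k ∉ I := by
        intro hmem
        have : id k ≤ I.sup id := Finset.le_sup hmem
        simp only [id] at this
        omega
      refine ⟨insert k I, fun j hj => ?_, by rw [Finset.card_insert_of_notMem hkI, hc]⟩
      rcases Finset.mem_insert.1 hj with rfl | hj
      · exact ⟨by omega, hpk⟩
      · exact hI j hj
  obtain ⟨n, hn⟩ := exists_nat_gt (K / η')
  obtain ⟨I, hI, hc⟩ := h1 n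
  refine ⟨I, hI, ?_⟩
  rw [hc]
  rw [div_lt_iff₀ hη'] at hn
  linarith only [hn]

end Vale.Agent.P158.C.S3m
end
end

section

section

/-! The truncated environment: basic bounds, locality, translations, measurability, uniqueness
(T1-T4 and T10 of `TrPlan`). -/

namespace Vale.Agent.P158.C.TrB

open SimpleGraph Filter MeasureTheory Vale.Agent.P158.T1 Vale.Agent.P158.C
open scoped ENNReal

theorem le_tl {M : ℝ} (hM : 0 < M) (t : Env) (e : latt.edgeSet) : M ≤ tl M t e := by
  unfold tl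
  have := le_max_left (1 : ℝ) (cs M t e : ℝ)
  nlinarith

theorem tr_basic : TrBasicStmt := by
  intro M t hM ht e
  have h1 := le_tl hM t e
  have h2 := ht e
  have h3 : t e / (1 + t e) < 1 := by rw [div_lt_one (by linarith)]; linarith
  have h4 : 0 < t e / (1 + t e) := by positivity
  unfold Tr
  refine ⟨fun h => by rw [if_pos (by linarith only [h1, h])], fun h => ?_, ?_, ?_, ?_⟩
  · split_ifs
    · exact h
    · linarith only [h1, h4]
  · split_ifs with h
    · exact le_rfl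
    · linarith only [h3, h]
  · split_ifs
    · exact h2
    · linarith only [hM, h1, h4]
  · split_ifs with h
    · exact h
    · linarith only [h3]

theorem LC_congr {M : ℝ} {t t' : Env} (h : ∀ e, t e ≤ M ↔ t' e ≤ M) (K : Set V) :
    LC M t K ↔ LC M t' K := by
  unfold LC
  simp only [h]

theorem Circ_congr {M : ℝ} {t t' : Env} (h : ∀ e, t e ≤ M ↔ t' e ≤ M) (e : latt.edgeSet) (n : ℕ) :
    Circ M t e n ↔ Circ M t' e n := by
  unfold Circ
  simp only [LC_congr h]

theorem cs_congr {M : ℝ} {t t' : Env} (h : ∀ e, t e ≤ M ↔ t' e ≤ M) (e : latt.edgeSet) :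
    cs M t e = cs M t' e := by
  unfold cs
  congr 1
  ext n
  exact Circ_congr h e n

theorem tr_loc : TrLocStmt := by
  intro M t t' h e he
  have h1 : tl M t e = tl M t' e := by unfold tl; rw [cs_congr h e]
  unfold Tr
  rw [h1, he]

/-! ### Translations -/

theorem shE_apply (u : V) (t : Env) (e : latt.edgeSet) :
    shE u t e = t ((shIso u).mapEdgeSet e) := rfl

theorem coe_map (u : V) (e : latt.edgeSet) :
    ((shIso u).mapEdgeSet e : Sym2 V) = Sym2.map (fun x => x + u) (e : Sym2 V) := rfl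

theorem circ_sh {M : ℝ} {u : V} {t : Env} {e : latt.edgeSet} {n : ℕ} (h : Circ M (shE u t) e n) :
    Circ M t ((shIso u).mapEdgeSet e) n := by
  classical
  obtain ⟨K, h1, h2, h3, h4⟩ := h
  have hmem : ∀ z, z ∈ K.image (fun x => x + u) ↔ z - u ∈ K := by
    intro z
    rw [Finset.mem_image]
    constructor
    · rintro ⟨a, ha, rfl⟩
      simpa using ha
    · intro hz
      exact ⟨z - u, hz, by simp⟩
  refine ⟨K.image (fun x => x + u), h1, Finset.card_image_le.trans h2, ?_, ?_⟩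
  · intro x hx y hy
    rw [Finset.mem_coe, hmem] at hx hy
    obtain ⟨p, hp, hpK, hpe⟩ := h3 (x - u) hx (y - u) hy
    have ex : (shHom u) (x - u) = x := sub_add_cancel x u
    have ey : (shHom u) (y - u) = y := sub_add_cancel y u
    refine ⟨(p.map (shHom u)).copy ex ey, ?_, ?_, ?_⟩
    · rw [Walk.isPath_copy]
      exact Walk.map_isPath_of_injective (fun a b hab => add_right_cancel hab) hp
    · intro z hz
      rw [Walk.support_copy, Walk.support_map, List.mem_map] at hz
      obtain ⟨b, hb, rfl⟩ := hz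
      rw [Finset.mem_coe, hmem]
      change b + u - u ∈ K
      rw [add_sub_cancel_right]
      exact hpK b hb
    · intro f hf
      rw [Walk.edges_copy, Walk.edges_map, List.mem_map] at hf
      obtain ⟨g, hg, hgf⟩ := hf
      have hgE : g ∈ latt.edgeSet := p.edges_subset_edgeSet hg
      have := hpe ⟨g, hgE⟩ hg
      rw [shE_apply] at this
      have e1 : (shIso u).mapEdgeSet ⟨g, hgE⟩ = f := by
        apply Subtype.ext
        rw [coe_map, ← hgf]
        rfl
      rwa [e1] at this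
  · intro x hx
    rw [coe_map, Sym2.mem_map] at hx
    obtain ⟨a, ha, rfl⟩ := hx
    obtain ⟨m, hm⟩ := h4 a ha
    refine ⟨m, fun y hy p => ?_⟩
    have hy' : y - u ∉ bx a m := by
      intro hh
      apply hy
      rw [mem_bx] at hh ⊢
      have e1 : y.1 - (a + u).1 = (y - u).1 - a.1 := by
        rw [Prod.fst_add, Prod.fst_sub]; ring
      have e2 : y.2 - (a + u).2 = (y - u).2 - a.2 := by
        rw [Prod.snd_add, Prod.snd_sub]; ring
      rw [e1, e2]
      exact hh
    have ea : (shHom (-u)) (a + u) = a := by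
      change a + u + -u = a
      simp
    have ey : (shHom (-u)) y = y - u := by
      change y + -u = y - u
      rw [sub_eq_add_neg]
    obtain ⟨z, hz, hzK⟩ := hm (y - u) hy' ((p.map (shHom (-u))).copy ea ey)
    rw [Walk.support_copy, Walk.support_map, List.mem_map] at hz
    obtain ⟨b, hb, rfl⟩ := hz
    refine ⟨b, hb, ?_⟩
    rw [Finset.mem_coe, hmem]
    change b + -u ∈ K at hzK
    rwa [← sub_eq_add_neg] at hzK

theorem map_neg (u : V) (e : latt.edgeSet) :
    (shIso (-u)).mapEdgeSet ((shIso u).mapEdgeSet e) = e := by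
  apply Subtype.ext
  rw [coe_map, coe_map, Sym2.map_map]
  have : (fun x : V => x + -u) ∘ (fun x => x + u) = id := by
    funext x
    simp
  rw [this, Sym2.map_id]
  rfl

theorem shE_neg (u : V) (t : Env) : shE (-u) (shE u t) = t := by
  funext e
  rw [shE_apply, shE_apply]
  have := map_neg (-u) e
  rw [neg_neg] at this
  rw [this]

theorem circ_sh_iff {M : ℝ} {u : V} {t : Env} {e : latt.edgeSet} {n : ℕ} :
    Circ M (shE u t) e n ↔ Circ M t ((shIso u).mapEdgeSet e) n := by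
  refine ⟨circ_sh, fun h => ?_⟩
  rw [← shE_neg u t] at h
  have := circ_sh h
  rwa [map_neg] at this

theorem tr_sh : TrShStmt := by
  intro M u t
  funext e
  have h1 : cs M (shE u t) e = cs M t ((shIso u).mapEdgeSet e) := by
    unfold cs
    congr 1
    ext n
    exact circ_sh_iff
  have h2 : tl M (shE u t) e = tl M t ((shIso u).mapEdgeSet e) := by
    unfold tl; rw [h1]
  rw [shE_apply]
  unfold Tr
  rw [h2, shE_apply]

/-! ### Measurability -/

theorem measurable_LC (M : ℝ) (K : Finset V) : MeasurableSet {t : Env | LC M t K} := by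
  have e : {t : Env | LC M t K} = ⋂ x : V, ⋂ y : V, ⋂ _ : x ∈ K, ⋂ _ : y ∈ K,
      ⋃ p : latt.Walk x y, ⋃ _ : (p.IsPath ∧ ∀ z ∈ p.support, z ∈ K),
        ⋂ f : latt.edgeSet, ⋂ _ : (f : Sym2 V) ∈ p.edges, {t : Env | t f ≤ M} := by
    ext t
    simp only [LC, Finset.mem_coe, Set.mem_ofPred_eq, Set.mem_iInter, Set.mem_iUnion]
    constructor
    · intro H x y hx hy
      obtain ⟨p, h1, h2, h3⟩ := H x hx y hy
      exact ⟨p, ⟨h1, h2⟩, h3⟩
    · intro H x hx y hy
      obtain ⟨p, ⟨h1, h2⟩, h3⟩ := H x y hx hy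
      exact ⟨p, h1, h2, h3⟩
  rw [e]
  refine MeasurableSet.iInter fun x => MeasurableSet.iInter fun y => MeasurableSet.iInter fun _ =>
    MeasurableSet.iInter fun _ => MeasurableSet.iUnion fun p => MeasurableSet.iUnion fun _ =>
      MeasurableSet.iInter fun f => MeasurableSet.iInter fun _ => ?_
  exact measurableSet_le (measurable_pi_apply f) measurable_const

theorem measurable_Circ (M : ℝ) (e : latt.edgeSet) (n : ℕ) :
    MeasurableSet {t : Env | Circ M t e n} := by
  have h : {t : Env | Circ M t e n} = ⋃ K : Finset V,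
      ⋃ _ : (1 ≤ n ∧ K.card ≤ n ∧ ∀ x ∈ (e : Sym2 V), Sep K x), {t : Env | LC M t K} := by
    ext t
    simp only [Circ, Set.mem_iUnion, Set.mem_ofPred_eq]
    constructor
    · rintro ⟨K, h1, h2, h3, h4⟩
      exact ⟨K, ⟨h1, h2, h4⟩, h3⟩
    · rintro ⟨K, ⟨h1, h2, h4⟩, h3⟩
      exact ⟨K, h1, h2, h3, h4⟩
  rw [h]
  exact MeasurableSet.iUnion fun K => MeasurableSet.iUnion fun _ => measurable_LC M K

theorem measurable_cs (M : ℝ) (e : latt.edgeSet) : Measurable fun t : Env => cs M t e := by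
  refine measurable_to_countable' fun n => ?_
  have h : (fun t : Env => cs M t e) ⁻¹' {n} =
      ({t : Env | Circ M t e n} ∩ ⋂ m : ℕ, ⋂ _ : m < n, {t : Env | Circ M t e m}ᶜ) ∪
        ({_t : Env | n = 0} ∩ ⋂ m : ℕ, {t : Env | Circ M t e m}ᶜ) := by
    ext t
    simp only [Set.mem_preimage, Set.mem_singleton_iff, Set.mem_union, Set.mem_inter_iff,
      Set.mem_iInter, Set.mem_compl_iff, Set.mem_ofPred_eq]
    constructor
    · intro hn
      by_cases hne : ∃ m, Circ M t e m
      · left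
        have h1 : sInf {n | Circ M t e n} ∈ {n | Circ M t e n} := Nat.sInf_mem hne
        rw [← hn]
        refine ⟨h1, fun m hm => ?_⟩
        exact Nat.notMem_of_lt_sInf hm
      · right
        push Not at hne
        refine ⟨?_, hne⟩
        rw [← hn]
        unfold cs
        rw [Nat.sInf_eq_zero]
        right
        ext m
        simp [hne m]
    · rintro (⟨h1, h2⟩ | ⟨h1, h2⟩)
      · unfold cs
        refine le_antisymm (Nat.sInf_le h1) ?_
        by_contra hlt
        push Not at hlt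
        have h3 : Circ M t e (sInf {n | Circ M t e n}) :=
          Nat.sInf_mem (s := {n | Circ M t e n}) ⟨n, h1⟩
        exact h2 _ hlt h3
      · unfold cs
        rw [h1, Nat.sInf_eq_zero]
        right
        ext m
        simp [h2 m]
  rw [h]
  refine MeasurableSet.union ?_ ?_
  · exact (measurable_Circ M e n).inter (MeasurableSet.iInter fun m => MeasurableSet.iInter fun _ =>
      (measurable_Circ M e m).compl)
  · exact (MeasurableSet.const _).inter (MeasurableSet.iInter fun m => (measurable_Circ M e m).compl)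

theorem measurable_tl (M : ℝ) (e : latt.edgeSet) : Measurable fun t : Env => tl M t e := by
  unfold tl
  have : Measurable fun t : Env => (cs M t e : ℝ) :=
    (measurable_from_top (f := fun n : ℕ => (n : ℝ))).comp (measurable_cs M e)
  exact measurable_const.mul (measurable_const.max this)

theorem tr_meas : TrMeasStmt := by
  intro M
  refine measurable_pi_lambda _ fun e => ?_
  unfold Tr
  have h1 : Measurable fun t : Env => t e := measurable_pi_apply e
  refine Measurable.ite (measurableSet_le h1 ((measurable_tl M e).add_const 1)) h1 ?_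
  exact (measurable_tl M e).add (h1.div (measurable_const.add h1))

/-! ### Uniqueness -/

theorem ww_strict {w w' : V → V → ℝ} {e : Sym2 V}
    (hout : ∀ x y, latt.Adj x y → s(x, y) ≠ e → w x y = w' x y)
    (hin : ∀ x y, latt.Adj x y → s(x, y) = e → w x y < w' x y) {x y : V} (p : latt.Walk x y) :
    (e ∉ p.edges → ww w p = ww w' p) ∧ (p.IsPath → e ∈ p.edges → ww w p < ww w' p) := by
  induction p with
  | nil => exact ⟨fun _ => rfl, fun _ h => by simp at h⟩
  | @cons a b c h p ih =>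
    rw [Walk.edges_cons, List.mem_cons, ww_cons, ww_cons]
    constructor
    · intro hne
      rw [not_or] at hne
      rw [ih.1 hne.2, hout _ _ h (fun h' => hne.1 h'.symm)]
    · intro hp he
      rw [Walk.cons_isPath_iff] at hp
      by_cases hab : s(a, b) = e
      · have h1 : e ∉ p.edges := by
          rw [← hab]
          exact fun hh => hp.2 (p.fst_mem_support_of_mem_edges hh)
        rw [ih.1 h1]
        have := hin _ _ h hab
        linarith only [this]
      · have h1 := ih.2 hp.1 (he.resolve_left fun h' => hab h'.symm)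
        rw [hout _ _ h hab]
        linarith

theorem wt_edge (t : Env) {x y : V} (h : latt.Adj x y) : wt t x y = t ⟨s(x, y), h⟩ := by
  unfold wt
  rw [dif_pos h]

/-- Two environments that agree off `e` and have the same light pattern. -/
theorem tr_pair {M : ℝ} {t : Env} {e : latt.edgeSet} {s₀ s₁ : ℝ}
    (hpat : s₀ ≤ M ↔ s₁ ≤ M) :
    (∀ f, f ≠ e → Tr M (Function.update t e s₀) f = Tr M (Function.update t e s₁) f) ∧
      tl M (Function.update t e s₀) e = tl M (Function.update t e s₁) e := by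
  have hp : ∀ f, Function.update t e s₀ f ≤ M ↔ Function.update t e s₁ f ≤ M := by
    intro f
    by_cases hf : f = e
    · subst hf
      rw [Function.update_self, Function.update_self]
      exact hpat
    · rw [Function.update_of_ne hf, Function.update_of_ne hf]
  refine ⟨fun f hf => tr_loc M _ _ hp f ?_, ?_⟩
  · rw [Function.update_of_ne hf, Function.update_of_ne hf]
  · unfold tl
    rw [cs_congr hp e]

variable {G : Measure ℝ} [IsProbabilityMeasure G]

theorem null_piece [NullSingletonClass G] {M : ℝ} {x y : V}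
    {p q : latt.Walk x y} (hp : p.IsPath) {e : latt.edgeSet} (he : (e : Sym2 V) ∈ p.edges)
    (hq : (e : Sym2 V) ∉ q.edges) {B : Set Env} (hB : MeasurableSet B)
    (h : ∀ (t : Env) (s₀ s₁ : ℝ), s₀ < s₁ → Function.update t e s₀ ∈ B →
      Function.update t e s₁ ∈ B → (s₀ ≤ M ↔ s₁ ≤ M) ∧
        Tr M (Function.update t e s₀) e < Tr M (Function.update t e s₁) e) :
    PG G ({t | ww (wt (Tr M t)) p = ww (wt (Tr M t)) q} ∩ B) = 0 := by
  have hm : MeasurableSet {t : Env | ww (wt (Tr M t)) p = ww (wt (Tr M t)) q} :=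
    measurableSet_eq_fun ((measurable_ww p).comp (tr_meas M)) ((measurable_ww q).comp (tr_meas M))
  refine null_of_section (hm.inter hB) e fun t s₀ s₁ hlt h0 h1 => ?_
  obtain ⟨a1, a2⟩ := h t s₀ s₁ hlt h0.2 h1.2
  obtain ⟨b1, -⟩ := tr_pair (t := t) (e := e) a1
  have key := fun r : latt.Walk x y => ww_strict (w := wt (Tr M (Function.update t e s₀)))
    (w' := wt (Tr M (Function.update t e s₁))) (e := (e : Sym2 V))
    (fun a b hab hne => by
      rw [wt_edge _ hab, wt_edge _ hab]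
      exact b1 _ fun hh => hne (congrArg Subtype.val hh))
    (fun a b hab heq => by
      rw [wt_edge _ hab, wt_edge _ hab]
      have : (⟨s(a, b), hab⟩ : latt.edgeSet) = e := Subtype.ext heq
      rw [this]
      exact a2) r
  have k1 := (key p).2 hp he
  have k2 := (key q).1 hq
  have e0 : ww (wt (Tr M (Function.update t e s₀))) p =
      ww (wt (Tr M (Function.update t e s₀))) q := h0.1
  have e1 : ww (wt (Tr M (Function.update t e s₁))) p =
      ww (wt (Tr M (Function.update t e s₁))) q := h1.1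
  linarith

theorem null_pair [NullSingletonClass G] {M : ℝ} (hM : 0 < M) {x y : V}
    {p q : latt.Walk x y} (hp : p.IsPath) {e : latt.edgeSet} (he : (e : Sym2 V) ∈ p.edges)
    (hq : (e : Sym2 V) ∉ q.edges) :
    PG G {t | ww (wt (Tr M t)) p = ww (wt (Tr M t)) q} = 0 := by
  have m0 : Measurable fun t : Env => t e := measurable_pi_apply e
  have c1 : PG G ({t | ww (wt (Tr M t)) p = ww (wt (Tr M t)) q} ∩ {t | t e ≤ M}) = 0 := by
    refine null_piece hp he hq (measurableSet_le m0 measurable_const) fun t s₀ s₁ hlt h0 h1 => ?_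
    rw [Set.mem_ofPred_eq, Function.update_self] at h0 h1
    refine ⟨⟨fun _ => h1, fun _ => h0⟩, ?_⟩
    have l0 := le_tl hM (Function.update t e s₀) e
    have l1 := le_tl hM (Function.update t e s₁) e
    unfold Tr
    rw [Function.update_self, Function.update_self, if_pos (by linarith), if_pos (by linarith)]
    exact hlt
  have c2 : PG G ({t | ww (wt (Tr M t)) p = ww (wt (Tr M t)) q} ∩
      {t | M < t e ∧ t e ≤ tl M t e + 1}) = 0 := by
    refine null_piece hp he hq ((measurableSet_lt measurable_const m0).inter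
      (measurableSet_le m0 ((measurable_tl M e).add_const 1))) fun t s₀ s₁ hlt h0 h1 => ?_
    rw [Set.mem_ofPred_eq, Function.update_self] at h0 h1
    refine ⟨⟨fun hh => absurd hh (not_le.2 h0.1), fun hh => absurd hh (not_le.2 h1.1)⟩, ?_⟩
    unfold Tr
    rw [Function.update_self, Function.update_self, if_pos h0.2, if_pos h1.2]
    exact hlt
  have c3 : PG G ({t | ww (wt (Tr M t)) p = ww (wt (Tr M t)) q} ∩
      {t | tl M t e + 1 < t e}) = 0 := by
    refine null_piece hp he hq (measurableSet_lt ((measurable_tl M e).add_const 1) m0)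
      fun t s₀ s₁ hlt h0 h1 => ?_
    rw [Set.mem_ofPred_eq, Function.update_self] at h0 h1
    have l0 := le_tl hM (Function.update t e s₀) e
    have l1 := le_tl hM (Function.update t e s₁) e
    have hpat : s₀ ≤ M ↔ s₁ ≤ M :=
      ⟨fun hh => absurd hh (not_le.2 (by linarith)), fun hh => absurd hh (not_le.2 (by linarith))⟩
    refine ⟨hpat, ?_⟩
    obtain ⟨-, hl⟩ := tr_pair (t := t) (e := e) hpat
    unfold Tr
    rw [Function.update_self, Function.update_self, if_neg (not_le.2 h0), if_neg (not_le.2 h1), hl]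
    have hs0 : 0 < s₀ := by linarith
    have : s₀ / (1 + s₀) < s₁ / (1 + s₁) := by
      rw [div_lt_div_iff₀ (by linarith only [hM, h0, l0]) (by linarith only [hM, hlt, h0, l0])]
      nlinarith only [hlt]
    linarith only [this]
  have hsub : {t | ww (wt (Tr M t)) p = ww (wt (Tr M t)) q} ⊆
      ({t | ww (wt (Tr M t)) p = ww (wt (Tr M t)) q} ∩ {t | t e ≤ M}) ∪
      (({t | ww (wt (Tr M t)) p = ww (wt (Tr M t)) q} ∩ {t | M < t e ∧ t e ≤ tl M t e + 1}) ∪
      ({t | ww (wt (Tr M t)) p = ww (wt (Tr M t)) q} ∩ {t | tl M t e + 1 < t e})) := by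
    intro t ht
    rcases le_or_gt (t e) M with h1 | h1
    · exact Or.inl ⟨ht, h1⟩
    · rcases le_or_gt (t e) (tl M t e + 1) with h2 | h2
      · exact Or.inr (Or.inl ⟨ht, h1, h2⟩)
      · exact Or.inr (Or.inr ⟨ht, h2⟩)
  exact measure_mono_null hsub (measure_union_null c1 (measure_union_null c2 c3))

/-- (T10) -/
theorem tr_uq [NullSingletonClass G] : TrUqStmt G := by
  intro M hM
  unfold Uq
  rw [ae_all_iff]
  intro x
  rw [ae_all_iff]
  intro y
  rw [ae_all_iff]
  intro p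
  rw [ae_all_iff]
  intro q
  by_cases hne : p = q
  · exact Eventually.of_forall fun _ _ _ _ => hne
  by_cases hp : p.IsPath
  swap
  · exact Eventually.of_forall fun _ h _ _ => absurd h hp
  by_cases hq : q.IsPath
  swap
  · exact Eventually.of_forall fun _ _ h _ => absurd h hq
  have h0 : PG G {t : Env | ww (wt (Tr M t)) p = ww (wt (Tr M t)) q} = 0 := by
    rcases CL.exists_edge_diff p q hp hq hne with ⟨e, he, he'⟩ | ⟨e, he, he'⟩
    · exact null_pair hM hp (e := ⟨e, p.edges_subset_edgeSet he⟩) he he'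
    · have := null_pair (G := G) hM hq (p := q) (q := p) (e := ⟨e, q.edges_subset_edgeSet he⟩) he he'
      simpa only [eq_comm] using this
  have h1 : ∀ᵐ t ∂PG G, ¬ ww (wt (Tr M t)) p = ww (wt (Tr M t)) q := by
    rw [ae_iff]
    simpa only [Decidable.not_not] using h0
  filter_upwards [h1] with t ht _ _ h
  exact absurd h ht

end Vale.Agent.P158.C.TrB
end
end

section

section

/-! Relabelling of the weights: a law `Gt` of labels and a decoding `phi` with
`PG G = (PG Gt).map (phi ∘ ·)` such that the labels `≥ β` are decoded into `[β, M]`.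
Raising to labels `≥ β` then never produces weights above `M`. -/

namespace Vale.Agent.P158.C.Rlb

open MeasureTheory Function Set Vale.Agent.P158.T1
open scoped ENNReal

set_option linter.unusedVariables false
set_option linter.unusedSectionVars false

/-- Encoding of a weight. -/
noncomputable def psi (α β M s : ℝ) : ℝ :=
  if s ≤ α then s
  else if s < β then (s + α) / 2
  else if s ≤ M then s
  else (α + β) / 2 + (β - α) / 2 * ((s - M) / (1 + (s - M)))

/-- Decoding of a label. -/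
noncomputable def phi (α β M s : ℝ) : ℝ :=
  if s ≤ α then s
  else if s < (α + β) / 2 then 2 * s - α
  else if s < β then M + (s - (α + β) / 2) / (β - s)
  else min s M

variable {α β M : ℝ}

theorem phi_psi (h1 : α < β) (h2 : β ≤ M) (s : ℝ) : phi α β M (psi α β M s) = s := by
  unfold psi
  by_cases a1 : s ≤ α
  · rw [if_pos a1]
    unfold phi
    rw [if_pos a1]
  rw [if_neg a1]
  push Not at a1
  by_cases a2 : s < β
  · rw [if_pos a2]
    unfold phi
    rw [if_neg (by linarith), if_pos (by linarith only [a2])]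
    ring
  rw [if_neg a2]
  push Not at a2
  by_cases a3 : s ≤ M
  · rw [if_pos a3]
    unfold phi
    rw [if_neg (by linarith), if_neg (by linarith), if_neg (by linarith), min_eq_left a3]
  rw [if_neg a3]
  push Not at a3
  set u := s - M with hu
  have hu0 : 0 < u := by linarith
  have hs : s = M + u := by rw [hu]; ring
  have b1 : 0 < u / (1 + u) := by positivity
  have b2 : u / (1 + u) < 1 := by rw [div_lt_one (by positivity)]; linarith only []
  have b3 : 0 < (β - α) / 2 := by linarith only [h1]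
  have b4 : 0 < (β - α) / 2 * (u / (1 + u)) := mul_pos b3 b1
  have b5 : (β - α) / 2 * (u / (1 + u)) < (β - α) / 2 := by nlinarith only [h1, b2]
  unfold phi
  rw [if_neg (by linarith only [b4, b5]), if_neg (by linarith only [b4]), if_pos (by linarith only [b5]), hs]
  congr 1
  have b6 : β - ((α + β) / 2 + (β - α) / 2 * (u / (1 + u))) = (β - α) / 2 * (1 / (1 + u)) := by
    field_simp
    ring
  have b7 : (α + β) / 2 + (β - α) / 2 * (u / (1 + u)) - (α + β) / 2 =
      (β - α) / 2 * (u / (1 + u)) := by ring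
  have b8 : β - α ≠ 0 := by linarith only [b4, b5]
  rw [b6, b7]
  field_simp

theorem measurable_psi : Measurable (psi α β M) := by
  unfold psi
  refine Measurable.ite measurableSet_Iic measurable_id
    (Measurable.ite measurableSet_Iio (by fun_prop)
      (Measurable.ite measurableSet_Iic measurable_id (by fun_prop)))

theorem measurable_phi : Measurable (phi α β M) := by
  unfold phi
  refine Measurable.ite measurableSet_Iic measurable_id
    (Measurable.ite measurableSet_Iio (by fun_prop)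
      (Measurable.ite measurableSet_Iio (by fun_prop) (by fun_prop)))

theorem phi_of_le {s : ℝ} (h : s ≤ α) : phi α β M s = s := by unfold phi; rw [if_pos h]

theorem phi_of_ge (h1 : α < β) (h2 : β ≤ M) {s : ℝ} (h : β ≤ s) :
    β ≤ phi α β M s ∧ phi α β M s ≤ M := by
  unfold phi
  rw [if_neg (by linarith), if_neg (by linarith only [h1, h]), if_neg (by linarith)]
  exact ⟨le_min h h2, min_le_right _ _⟩

theorem lt_phi (h1 : α < β) (h2 : β ≤ M) {s : ℝ} (h : α < s) : α < phi α β M s := by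
  unfold phi
  rw [if_neg (by linarith)]
  split_ifs with a1 a2
  · linarith only [h]
  · have : 0 ≤ (s - (α + β) / 2) / (β - s) := div_nonneg (by linarith) (by linarith only [a2])
    linarith only [h2, h, a2, this]
  · exact lt_min h (by linarith only [h1, h2])

theorem phi_pos (h0 : 0 ≤ α) (h1 : α < β) (h2 : β ≤ M) {s : ℝ} (h : 0 < s) :
    0 < phi α β M s := by
  by_cases hs : s ≤ α
  · rw [phi_of_le hs]; exact h
  · push Not at hs
    linarith [lt_phi h1 h2 hs]

theorem lt_psi (h1 : α < β) {s : ℝ} (h : α < s) : α < psi α β M s := by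
  unfold psi
  rw [if_neg (by linarith)]
  split_ifs with a1 a2
  · linarith only [h]
  · linarith
  · push Not at a2
    have : 0 ≤ (s - M) / (1 + (s - M)) := div_nonneg (by linarith) (by linarith)
    nlinarith only [h1, this]

theorem psi_of_le {s : ℝ} (h : s ≤ α) : psi α β M s = s := by unfold psi; rw [if_pos h]

theorem psi_ge_iff (h1 : α < β) (h2 : β ≤ M) {s : ℝ} :
    β ≤ psi α β M s ↔ β ≤ s ∧ s ≤ M := by
  constructor
  · intro h
    unfold psi at h
    split_ifs at h with a1 a2 a3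
    · linarith
    · linarith only [a1, a2, h]
    · exact ⟨by linarith, a3⟩
    · push Not at a3
      have hu0 : 0 < s - M := by linarith only [a3]
      have b2 : (s - M) / (1 + (s - M)) < 1 := by rw [div_lt_one (by positivity)]; linarith only []
      nlinarith only [h, h1, b2]
  · rintro ⟨h3, h4⟩
    unfold psi
    rw [if_neg (by linarith), if_neg (by linarith), if_pos h4]
    exact h3

/-- The law of the labels. -/
noncomputable def Gt (G : Measure ℝ) (α β M : ℝ) : Measure ℝ := G.map (psi α β M)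

variable {G : Measure ℝ} [IsProbabilityMeasure G]

instance : IsProbabilityMeasure (Gt G α β M) :=
  Measure.isProbabilityMeasure_map measurable_psi.aemeasurable

theorem Gt_map (h1 : α < β) (h2 : β ≤ M) : (Gt G α β M).map (phi α β M) = G := by
  unfold Gt
  rw [Measure.map_map measurable_phi measurable_psi]
  have : phi α β M ∘ psi α β M = id := funext fun s => phi_psi h1 h2 s
  rw [this, Measure.map_id]

theorem Gt_Iic (h1 : α < β) : Gt G α β M (Iic α) = G (Iic α) := by
  unfold Gt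
  rw [Measure.map_apply measurable_psi measurableSet_Iic]
  congr 1
  ext s
  simp only [mem_preimage, mem_Iic]
  constructor
  · intro h
    by_contra hlt
    push Not at hlt
    linarith [lt_psi (M := M) h1 hlt]
  · intro h
    rw [psi_of_le h]; exact h

theorem Gt_Iic_zero (h0 : 0 ≤ α) (h1 : α < β) : Gt G α β M (Iic 0) = G (Iic 0) := by
  unfold Gt
  rw [Measure.map_apply measurable_psi measurableSet_Iic]
  congr 1
  ext s
  simp only [mem_preimage, mem_Iic]
  constructor
  · intro h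
    by_contra hlt
    push Not at hlt
    by_cases hs : s ≤ α
    · rw [psi_of_le hs] at h
      linarith
    · push Not at hs
      linarith only [h0, h, lt_psi (M := M) h1 hs]
  · intro h
    rw [psi_of_le (by linarith)]; exact h

theorem Gt_Ici (h1 : α < β) (h2 : β ≤ M) : Gt G α β M (Ici β) = G (Icc β M) := by
  unfold Gt
  rw [Measure.map_apply measurable_psi measurableSet_Ici]
  congr 1
  ext s
  simp only [mem_preimage, mem_Ici, mem_Icc]
  exact psi_ge_iff h1 h2

/-- Parameters of the raising for the labels. -/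
theorem rp_Gt {ε : ℝ} (h0 : 0 ≤ α) (h1 : α < β) (h2 : β ≤ M) (hlo : G (Iic α) ≠ 0)
    (hhi : G (Icc β M) ≠ 0) (hε0 : 0 ≤ ε) (hε1 : ε ≤ 1) (hpos : G (Iic 0) = 0) :
    RP (Gt G α β M) α β ε where
  prob := inferInstance
  lt := h1
  lo := by rw [Gt_Iic h1]; exact hlo
  hi := by rw [Gt_Ici h1 h2]; exact hhi
  nonneg := hε0
  le_one := hε1
  pos := by rw [Gt_Iic_zero h0 h1]; exact hpos

/-- Decoding of an environment of labels. -/
noncomputable def dec (α β M : ℝ) (t : Env) : Env := fun e => phi α β M (t e)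

theorem measurable_dec : Measurable (dec α β M) :=
  measurable_pi_lambda _ fun e => measurable_phi.comp (measurable_pi_apply e)

/-- The environment is the decoding of an i.i.d. environment of labels. -/
theorem map_dec (h1 : α < β) (h2 : β ≤ M) : (PG (Gt G α β M)).map (dec α β M) = PG G := by
  classical
  refine Measure.eq_infinitePi _ fun s t ht => ?_
  rw [Measure.map_apply measurable_dec (MeasurableSet.pi s.countable_toSet fun i _ => ht i)]
  have e1 : dec α β M ⁻¹' (Set.pi s t) = Set.pi s fun e => phi α β M ⁻¹' (t e) := by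
    ext x
    simp only [mem_preimage, mem_pi, SetLike.mem_coe, dec, Subtype.forall]
  rw [e1]
  unfold PG
  rw [Measure.infinitePi_pi _ fun i _ => measurable_phi (ht i)]
  refine Finset.prod_congr rfl fun e _ => ?_
  rw [← Measure.map_apply measurable_phi (ht e), Gt_map h1 h2]

theorem dec_pos (h0 : 0 ≤ α) (h1 : α < β) (h2 : β ≤ M) {t : Env} (h : ∀ e, 0 < t e)
    (e : latt.edgeSet) : 0 < dec α β M t e := phi_pos h0 h1 h2 (h e)

/-- Lowering labels is lowering weights, without crossing the level `M`. -/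
theorem dec_rch (h1 : α < β) (h2 : β ≤ M) {D : Finset latt.edgeSet} {t' t : Env}
    (h : Rch α β D t' t) : Rch α β D (dec α β M t') (dec α β M t) ∧
      ∀ e, dec α β M t e ≤ M ↔ dec α β M t' e ≤ M := by
  have key : ∀ e ∈ D, dec α β M t e = dec α β M t' e ∨ (β ≤ dec α β M t' e ∧
      dec α β M t' e ≤ M ∧ 0 < dec α β M t e ∧ dec α β M t e ≤ α) := by
    intro e he
    rcases h.2 e he with h3 | ⟨h3, h4, h5⟩
    · left
      unfold dec
      rw [h3]
    · right
      have h6 := phi_of_ge h1 h2 h3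
      unfold dec
      rw [phi_of_le h5]
      exact ⟨h6.1, h6.2, h4, h5⟩
  refine ⟨⟨fun e he => by unfold dec; rw [h.1 e he], fun e he => ?_⟩, fun e => ?_⟩
  · rcases key e he with h3 | h3
    · exact Or.inl h3
    · exact Or.inr ⟨h3.1, h3.2.2⟩
  · by_cases he : e ∈ D
    · rcases key e he with h3 | h3
      · rw [h3]
      · exact ⟨fun _ => h3.2.1, fun _ => h3.2.2.2.trans (h1.le.trans h2)⟩
    · have : dec α β M t e = dec α β M t' e := by unfold dec; rw [h.1 e he]
      rw [this]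

end Vale.Agent.P158.C.Rlb
end
end

section

section

/-! (T9) Light circuits: almost sure existence, integrability of the truncation level. -/

namespace Vale.Agent.P158.C.Crc

open Filter MeasureTheory Vale.Agent.P158.T1 Vale.Agent.P158.C
open scoped ENNReal

/-- The bound on the number of vertices. -/
def NN (k : ℕ) : ℕ := (3 * 4 ^ (k + 1) + 1) ^ 2

theorem NN_le (k : ℕ) : NN (k + 1) ≤ 16 ^ (k + 3) := by
  have h : 3 * 4 ^ (k + 1 + 1) + 1 ≤ 4 ^ (k + 3) := by
    have : 1 ≤ 4 ^ (k + 2) := Nat.one_le_pow _ _ (by norm_num)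
    calc 3 * 4 ^ (k + 1 + 1) + 1 ≤ 3 * 4 ^ (k + 2) + 4 ^ (k + 2) := by
          rw [show k + 1 + 1 = k + 2 by rfl]; omega
      _ = 4 ^ (k + 3) := by ring
  calc NN (k + 1) ≤ (4 ^ (k + 3)) ^ 2 := Nat.pow_le_pow_left h 2
    _ = 16 ^ (k + 3) := by rw [← pow_mul, mul_comm, pow_mul]; norm_num

theorem NN_ge (k : ℕ) : k + 1 ≤ NN k := by
  unfold NN
  have h : k + 1 < 4 ^ (k + 1) := Nat.lt_pow_self (by norm_num)
  nlinarith

/-- The four crossings around the edge. -/
def Gd (M : ℝ) (x : V) (k : ℕ) (t : Env) : Prop :=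
  Ann M t (x.1 - 4 ^ (k + 1) - 2) (x.2 - 4 ^ (k + 1) - 2) (4 ^ (k + 1))

theorem circ_of_gd (hX : RectCrossStmt) {M : ℝ} {t : Env} {x : V} {k : ℕ} (h : Gd M x k t)
    (e : latt.edgeSet) (he : ∀ y ∈ (e : Sym2 V), (x.1 - 1 ≤ y.1 ∧ y.1 ≤ x.1 + 1) ∧
      x.2 - 1 ≤ y.2 ∧ y.2 ≤ x.2 + 1) : Circ M t e (NN k) := by
  have h4 : (4 : ℤ) ≤ 4 ^ (k + 1) := by
    have : (1 : ℤ) ≤ 4 ^ k := one_le_pow₀ (by norm_num)
    rw [pow_succ]; omega
  have := circ_of_ann hX (by omega) h e (fun y hy => by have := he y hy; omega)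
  have e1 : (3 * (4 : ℤ) ^ (k + 1) + 1).toNat = 3 * 4 ^ (k + 1) + 1 := by
    have : (3 * (4 : ℤ) ^ (k + 1) + 1) = ((3 * 4 ^ (k + 1) + 1 : ℕ) : ℤ) := by push_cast; ring
    rw [this, Int.toNat_natCast]
  rw [e1] at this
  exact this

theorem cs_le {M : ℝ} {t : Env} {e : latt.edgeSet} {n : ℕ} (h : Circ M t e n) : cs M t e ≤ n :=
  Nat.sInf_le h

theorem edge_near (e : latt.edgeSet) : ∃ x : V, ∀ y ∈ (e : Sym2 V),
    (x.1 - 1 ≤ y.1 ∧ y.1 ≤ x.1 + 1) ∧ x.2 - 1 ≤ y.2 ∧ y.2 ≤ x.2 + 1 := by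
  obtain ⟨e, he⟩ := e
  induction e with
  | _ x x' =>
    refine ⟨x, fun y hy => ?_⟩
    simp only [Sym2.mem_iff] at hy
    rcases hy with rfl | rfl
    · omega
    · exact adj_coords he

theorem gd_prob (G : Measure ℝ) [IsProbabilityMeasure G] {M : ℝ} {δ : ℝ≥0∞} (h : ∀ k : ℕ, ∀ a c : ℤ,
    PG G {t | ¬ HC M t a (a + 3 * 4 ^ (k + 1)) c (c + 4 ^ (k + 1))} ≤ δ ^ (2 ^ k) ∧
    PG G {t | ¬ VC M t a (a + 4 ^ (k + 1)) c (c + 3 * 4 ^ (k + 1))} ≤ δ ^ (2 ^ k))
    (x : V) (k : ℕ) : PG G {t | ¬ Gd M x k t} ≤ 4 * δ ^ (2 ^ k) := by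
  obtain ⟨a, ha⟩ : ∃ a : ℤ, a = x.1 - 4 ^ (k + 1) - 2 := ⟨_, rfl⟩
  obtain ⟨c, hc⟩ : ∃ c : ℤ, c = x.2 - 4 ^ (k + 1) - 2 := ⟨_, rfl⟩
  have hsub : {t | ¬ Gd M x k t} ⊆
      (({t | ¬ HC M t a (a + 3 * 4 ^ (k + 1)) c (c + 4 ^ (k + 1))} ∪
      {t | ¬ HC M t a (a + 3 * 4 ^ (k + 1)) (c + 2 * 4 ^ (k + 1))
        (c + 2 * 4 ^ (k + 1) + 4 ^ (k + 1))}) ∪
      {t | ¬ VC M t a (a + 4 ^ (k + 1)) c (c + 3 * 4 ^ (k + 1))}) ∪
      {t | ¬ VC M t (a + 2 * 4 ^ (k + 1)) (a + 2 * 4 ^ (k + 1) + 4 ^ (k + 1)) c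
        (c + 3 * 4 ^ (k + 1))} := by
    intro t ht
    by_contra hcon
    simp only [Set.mem_union, Set.mem_setOf_eq, not_or, not_not] at hcon
    obtain ⟨⟨⟨h1, h2⟩, h3⟩, h4⟩ := hcon
    refine ht ?_
    unfold Gd
    rw [← ha, ← hc]
    exact ⟨h1, h2, h3, h4⟩
  calc PG G {t | ¬ Gd M x k t} ≤ δ ^ (2 ^ k) + δ ^ (2 ^ k) + δ ^ (2 ^ k) + δ ^ (2 ^ k) :=
        (measure_mono hsub).trans ((measure_union_le _ _).trans (add_le_add
          ((measure_union_le _ _).trans (add_le_add ((measure_union_le _ _).trans (add_le_add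
            (h k _ _).1 (h k _ _).1)) (h k _ _).2)) (h k _ _).2))
    _ = 4 * δ ^ (2 ^ k) := by ring

theorem small_pow {δ : ℝ≥0∞} (hδ : δ ≤ 1) (k : ℕ) : δ ^ (2 ^ k) ≤ δ ^ (k + 1) :=
  pow_le_pow_right_of_le_one' hδ (Nat.lt_two_pow_self)

/-- pointwise bound of the truncation level -/
theorem tl_le {M : ℝ} (hM : 0 < M) {t : Env} {e : latt.edgeSet} {B : ℕ → Set Env}
    (hB : ∀ k, t ∉ B k → Circ M t e (NN k)) :
    ENNReal.ofReal (tl M t e) ≤ ENNReal.ofReal M *
      ((NN 0 : ℝ≥0∞) + ∑' k, (B k).indicator (fun _ => (NN (k + 1) : ℝ≥0∞)) t) := by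
  classical
  unfold tl
  rw [ENNReal.ofReal_mul hM.le]
  gcongr
  have e1 : ENNReal.ofReal (max 1 (cs M t e : ℝ)) = ((max 1 (cs M t e) : ℕ) : ℝ≥0∞) := by
    rw [← ENNReal.ofReal_natCast]
    push_cast
    rfl
  rw [e1]
  have term : ∀ k, t ∈ B k → (NN (k + 1) : ℝ≥0∞) ≤
      ∑' k, (B k).indicator (fun _ => (NN (k + 1) : ℝ≥0∞)) t := by
    intro k hk
    refine le_trans (le_of_eq ?_) (ENNReal.le_tsum k)
    rw [Set.indicator_of_mem hk]
  by_cases h : ∃ k, t ∉ B k
  · obtain ⟨k, hk, hmin⟩ : ∃ k, t ∉ B k ∧ ∀ j < k, t ∈ B j :=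
      ⟨Nat.find h, Nat.find_spec h, fun j hj => not_not.1 (Nat.find_min h hj)⟩
    have hle : max 1 (cs M t e) ≤ NN k :=
      max_le (le_trans (by omega) (NN_ge k)) (cs_le (hB k hk))
    cases k with
    | zero =>
      refine le_trans ?_ le_self_add
      exact_mod_cast hle
    | succ j =>
      refine le_trans ?_ (le_trans (term j (hmin j (by omega))) le_add_self)
      exact_mod_cast hle
  · push Not at h
    refine le_trans ?_ (le_trans (term (cs M t e) (h _)) le_add_self)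
    have := NN_ge (cs M t e + 1)
    have hle : max 1 (cs M t e) ≤ NN (cs M t e + 1) := by omega
    exact_mod_cast hle

/-- (T9) -/
theorem circ (G : Measure ℝ) [IsProbabilityMeasure G] (hX : RectCrossStmt)
    (hR : RenormStmt G) : CircStmt G := by
  obtain ⟨δ, hδdef⟩ : ∃ δ : ℝ≥0∞, δ = 16⁻¹ * 2⁻¹ := ⟨_, rfl⟩
  have hδ0 : 0 < δ := by
    rw [hδdef]; exact ENNReal.mul_pos (by simp) (by simp)
  have hδ16 : 16 * δ = 2⁻¹ := by
    rw [hδdef, ← mul_assoc, ENNReal.mul_inv_cancel (by norm_num) (by norm_num), one_mul]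
  have hδhalf : δ ≤ 2⁻¹ := by
    rw [← hδ16]
    calc δ = 1 * δ := (one_mul _).symm
      _ ≤ 16 * δ := by gcongr; norm_num
  have hδ1 : δ ≤ 1 := hδhalf.trans (by
    rw [ENNReal.inv_le_one]; norm_num)
  obtain ⟨M₀, hM₀, hM⟩ := hR δ hδ0
  refine ⟨M₀, hM₀, fun M hMM => ?_⟩
  have hMpos : 0 < M := lt_of_lt_of_le hM₀ hMM
  have hp := hM M hMM
  have hprob := gd_prob G hp
  constructor
  · rw [ae_all_iff]
    intro e
    obtain ⟨x, hx⟩ := edge_near e
    rw [ae_iff]
    have hb : ∀ k : ℕ, PG G {t | ¬ ∃ n, Circ M t e n} ≤ 4 * (2⁻¹ : ℝ≥0∞) ^ (k + 1) := by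
      intro k
      calc PG G {t | ¬ ∃ n, Circ M t e n} ≤ PG G {t | ¬ Gd M x k t} :=
            measure_mono fun t ht hg => ht ⟨_, circ_of_gd hX hg e hx⟩
        _ ≤ 4 * δ ^ (2 ^ k) := hprob x k
        _ ≤ 4 * δ ^ (k + 1) := mul_le_mul_right (small_pow hδ1 k) 4
        _ ≤ 4 * (2⁻¹ : ℝ≥0∞) ^ (k + 1) := by (clear * - hδhalf; gcongr)
    have hlim : Tendsto (fun k : ℕ => 4 * (2⁻¹ : ℝ≥0∞) ^ (k + 1)) atTop (nhds 0) := by
      have h1 : Tendsto (fun k : ℕ => (2⁻¹ : ℝ≥0∞) ^ k) atTop (nhds 0) :=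
        ENNReal.tendsto_pow_atTop_nhds_zero_of_lt_one (by
          rw [ENNReal.inv_lt_one]; norm_num)
      have h2 := ENNReal.Tendsto.const_mul (a := 4) ((tendsto_add_atTop_iff_nat 1).2 h1)
        (Or.inr (by norm_num))
      rwa [mul_zero] at h2
    exact le_antisymm (ge_of_tendsto' hlim hb) zero_le
  · refine ⟨ENNReal.ofReal M * ((NN 0 : ℝ≥0∞) + ∑' k, (NN (k + 1) : ℝ≥0∞) * (4 * δ ^ (2 ^ k))),
      ?_, fun e => ?_⟩
    · refine ENNReal.mul_ne_top ENNReal.ofReal_ne_top (ENNReal.add_ne_top.2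
        ⟨ENNReal.natCast_ne_top _, ?_⟩)
      have hle : ∀ k, (NN (k + 1) : ℝ≥0∞) * (4 * δ ^ (2 ^ k)) ≤
          (16 ^ 3 * 4 * δ) * (2⁻¹ : ℝ≥0∞) ^ k := by
        intro k
        have h1 : (NN (k + 1) : ℝ≥0∞) ≤ 16 ^ (k + 3) := by exact_mod_cast NN_le k
        calc (NN (k + 1) : ℝ≥0∞) * (4 * δ ^ (2 ^ k)) ≤ 16 ^ (k + 3) * (4 * δ ^ (k + 1)) := by
              exact mul_le_mul' h1 (mul_le_mul_right (small_pow hδ1 k) 4)
          _ = (16 ^ 3 * 4 * δ) * (16 * δ) ^ k := by ring
          _ = (16 ^ 3 * 4 * δ) * (2⁻¹ : ℝ≥0∞) ^ k := by rw [hδ16]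
      refine ne_top_of_le_ne_top ?_ (ENNReal.tsum_le_tsum hle)
      rw [ENNReal.tsum_mul_left, ENNReal.tsum_geometric]
      refine ENNReal.mul_ne_top (ENNReal.mul_ne_top (by norm_num)
        (ne_top_of_le_ne_top ENNReal.one_ne_top hδ1)) ?_
      rw [ENNReal.one_sub_inv_two, inv_inv]
      norm_num
    · obtain ⟨x, hx⟩ := edge_near e
      have hBm : ∀ k, MeasurableSet (toMeasurable (PG G) {t | ¬ Gd M x k t}) := fun k =>
        measurableSet_toMeasurable _ _
      calc ∫⁻ t, ENNReal.ofReal (tl M t e) ∂PG G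
          ≤ ∫⁻ t, ENNReal.ofReal M * ((NN 0 : ℝ≥0∞) + ∑' k,
            (toMeasurable (PG G) {t | ¬ Gd M x k t}).indicator
              (fun _ => (NN (k + 1) : ℝ≥0∞)) t) ∂PG G := by
            refine lintegral_mono fun t => tl_le hMpos (fun k hk => ?_)
            refine circ_of_gd hX ?_ e hx
            by_contra hcon
            exact hk (subset_toMeasurable _ _ hcon)
        _ = ENNReal.ofReal M * ((NN 0 : ℝ≥0∞) + ∑' k, (NN (k + 1) : ℝ≥0∞) *
            PG G {t | ¬ Gd M x k t}) := by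
            rw [lintegral_const_mul, lintegral_add_left measurable_const, lintegral_const,
              measure_univ, mul_one, lintegral_tsum]
            · congr 2
              refine tsum_congr fun k => ?_
              rw [lintegral_indicator_const (hBm k), measure_toMeasurable]
            · exact fun k => (measurable_const.indicator (hBm k)).aemeasurable
            · exact measurable_const.add (Measurable.ennreal_tsum fun k =>
                measurable_const.indicator (hBm k))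
        _ ≤ ENNReal.ofReal M * ((NN 0 : ℝ≥0∞) + ∑' k, (NN (k + 1) : ℝ≥0∞) *
            (4 * δ ^ (2 ^ k))) := by
            gcongr with k
            exact hprob x k

end Vale.Agent.P158.C.Crc
end
end

section

section

/-! (T8) Renormalisation of light crossings. -/

namespace Vale.Agent.P158.C.Renorm

open SimpleGraph MeasureTheory ProbabilityTheory Vale.Agent.P158.T1
open scoped ENNReal

/-- Rectangles. -/
def Rc (a b c d : ℤ) : Set V := {v | (a ≤ v.1 ∧ v.1 ≤ b) ∧ c ≤ v.2 ∧ v.2 ≤ d}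

/-- Light connection inside `S`. -/
def LCn (M : ℝ) (t : Env) (S : Set V) (x y : V) : Prop :=
  ∃ p : latt.Walk x y, (∀ v ∈ p.support, v ∈ S) ∧
    ∀ e : latt.edgeSet, (e : Sym2 V) ∈ p.edges → t e ≤ M

variable {M : ℝ} {t t' : Env} {S S' : Set V} {x y z : V}

theorem LCn.trans (h1 : LCn M t S x y) (h2 : LCn M t S y z) : LCn M t S x z := by
  obtain ⟨p, hp, hp'⟩ := h1
  obtain ⟨q, hq, hq'⟩ := h2
  refine ⟨p.append q, fun v hv => ?_, fun e he => ?_⟩
  · rw [Walk.mem_support_append_iff] at hv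
    exact hv.elim (hp v) (hq v)
  · rw [Walk.edges_append, List.mem_append] at he
    exact he.elim (hp' e) (hq' e)

theorem LCn.symm (h : LCn M t S x y) : LCn M t S y x := by
  obtain ⟨p, hp, hp'⟩ := h
  exact ⟨p.reverse, fun v hv => hp v (by simpa using hv), fun e he => hp' e (by simpa using he)⟩

theorem lcn_start (p : latt.Walk x y) (hp : ∀ v ∈ p.support, v ∈ S)
    (hp' : ∀ e : latt.edgeSet, (e : Sym2 V) ∈ p.edges → t e ≤ M) (hz : z ∈ p.support) :
    LCn M t S x z := by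
  classical
  exact ⟨p.takeUntil z hz, fun v hv => hp v (p.support_takeUntil_subset_support hz hv),
    fun e he => hp' e (p.edges_takeUntil_subset_edges hz he)⟩

theorem lcn_end (p : latt.Walk x y) (hp : ∀ v ∈ p.support, v ∈ S)
    (hp' : ∀ e : latt.edgeSet, (e : Sym2 V) ∈ p.edges → t e ≤ M) (hz : z ∈ p.support) :
    LCn M t S z y := by
  classical
  exact ⟨p.dropUntil z hz, fun v hv => hp v (p.support_dropUntil_subset_support hz hv),
    fun e he => hp' e (p.edges_dropUntil_subset_edges hz he)⟩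

theorem lcn_mem (p : latt.Walk x y) (hp : ∀ v ∈ p.support, v ∈ S)
    (hp' : ∀ e : latt.edgeSet, (e : Sym2 V) ∈ p.edges → t e ≤ M) {z z' : V} (hz : z ∈ p.support)
    (hz' : z' ∈ p.support) : LCn M t S z z' :=
  (lcn_start p hp hp' hz).symm.trans (lcn_start p hp hp' hz')

/-- Last crossing of a level. -/
theorem exists_cut (f : V → ℤ) (hf : ∀ x y, latt.Adj x y → f y ≤ f x + 1) (n : ℤ) {x y : V}
    (p : latt.Walk x y) (h : ∃ v ∈ p.support, f v ≤ n) (hy : n ≤ f y) :
    ∃ u, f u = n ∧ ∃ p' : latt.Walk u y, (∀ v ∈ p'.support, v ∈ p.support ∧ n ≤ f v) ∧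
      ∀ e ∈ p'.edges, e ∈ p.edges := by
  induction p with
  | @nil a =>
    obtain ⟨v, hv, hvn⟩ := h
    have : v = a := by simpa using hv
    subst this
    refine ⟨v, le_antisymm hvn hy, Walk.nil, fun u hu => ?_, fun e he => by simp at he⟩
    have : u = v := by simpa using hu
    subst this
    exact ⟨by simp, hy⟩
  | @cons a b c hab q ih =>
    by_cases hq : ∃ v ∈ q.support, f v ≤ n
    · obtain ⟨u, hu, p', h1, h2⟩ := ih hq hy
      exact ⟨u, hu, p', fun v hv => ⟨by simp [(h1 v hv).1], (h1 v hv).2⟩,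
        fun e he => by simp [h2 e he]⟩
    · push Not at hq
      obtain ⟨v, hv, hvn⟩ := h
      have hva : v = a := by
        rcases (by simpa using hv : v = a ∨ v ∈ q.support) with h | h
        · exact h
        · exact absurd hvn (not_le.2 (hq v h))
      subst hva
      have h1 := hq b q.start_mem_support
      have h2 := hf v b hab
      have h3 : f v = n := by omega
      refine ⟨v, h3, Walk.cons hab q, fun u hu => ⟨hu, ?_⟩, fun e he => he⟩
      rcases (by simpa using hu : u = v ∨ u ∈ q.support) with h | h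
      · rw [h]; exact h3.ge
      · exact (hq u h).le

theorem f1 : ∀ x y : V, latt.Adj x y → y.1 ≤ x.1 + 1 := fun x y h => by
  have := adj_cases h; omega

theorem f2 : ∀ x y : V, latt.Adj x y → -y.1 ≤ -x.1 + 1 := fun x y h => by
  have := adj_cases h; omega

theorem f3 : ∀ x y : V, latt.Adj x y → y.2 ≤ x.2 + 1 := fun x y h => by
  have := adj_cases h; omega

theorem f4 : ∀ x y : V, latt.Adj x y → -y.2 ≤ -x.2 + 1 := fun x y h => by
  have := adj_cases h; omega

/-- Gluing two horizontal crossings with a vertical crossing of the overlap. -/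
theorem HC_glue {a a' b b' c d : ℤ} (h1 : a ≤ a') (h2 : a' < b) (h3 : b ≤ b') (hcd : c < d)
    (H1 : HC M t a b c d) (H2 : HC M t a' b' c d) (H3 : VC M t a' b c d) :
    HC M t a b' c d := by
  obtain ⟨y₁, y₂, p, hp, hp'⟩ := H1
  obtain ⟨y₃, y₄, q, hq, hq'⟩ := H2
  obtain ⟨x₁, x₂, r, hr, hr'⟩ := H3
  have hsub1 : ∀ v : V, ((a ≤ v.1 ∧ v.1 ≤ b) ∧ c ≤ v.2 ∧ v.2 ≤ d) → v ∈ Rc a b' c d :=
    fun v hv => ⟨⟨hv.1.1, hv.1.2.trans h3⟩, hv.2⟩
  have hsub2 : ∀ v : V, ((a' ≤ v.1 ∧ v.1 ≤ b') ∧ c ≤ v.2 ∧ v.2 ≤ d) → v ∈ Rc a b' c d :=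
    fun v hv => ⟨⟨h1.trans hv.1.1, hv.1.2⟩, hv.2⟩
  have hsub3 : ∀ v : V, ((a' ≤ v.1 ∧ v.1 ≤ b) ∧ c ≤ v.2 ∧ v.2 ≤ d) → v ∈ Rc a b' c d :=
    fun v hv => ⟨⟨h1.trans hv.1.1, hv.1.2.trans h3⟩, hv.2⟩
  have hr1 := hr _ r.start_mem_support
  have hr2 := hr _ r.end_mem_support
  -- the first crossing meets the vertical one
  have m1 : ∃ v, v ∈ p.support ∧ v ∈ r.support := by
    obtain ⟨u, hu, p', hs, -⟩ := exists_cut (fun v : V => v.1) f1 a' p
      ⟨_, p.start_mem_support, h1⟩ (by show a' ≤ b; omega)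
    obtain ⟨u1, u2⟩ := u
    have hu' : u1 = a' := hu
    subst hu'
    have e1 := hp _ (hs _ p'.start_mem_support).1
    have e2 := hp _ p.end_mem_support
    obtain ⟨v, hv, hv'⟩ := RectCross.rectCross u1 b c d h2 hcd u2 y₂ x₁ x₂ e1.2.1 e1.2.2 e2.2.1
      e2.2.2 hr1.1.1 hr1.1.2 hr2.1.1 hr2.1.2 p' r
      (fun v hv => ⟨⟨(hs v hv).2, (hp v (hs v hv).1).1.2⟩, (hp v (hs v hv).1).2⟩) hr
    exact ⟨v, (hs v hv).1, hv'⟩
  have m2 : ∃ v, v ∈ q.support ∧ v ∈ r.support := by
    obtain ⟨u, hu, q', hs, -⟩ := exists_cut (fun v : V => -v.1) f2 (-b) q.reverse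
      ⟨(b', y₄), by simp, by show -b' ≤ -b; omega⟩ (by show -b ≤ -a'; omega)
    obtain ⟨u1, u2⟩ := u
    have hu' : u1 = b := by have : -u1 = -b := hu; omega
    subst hu'
    have hs' : ∀ v ∈ q'.support, v ∈ q.support ∧ v.1 ≤ u1 := fun v hv => by
      have := hs v hv
      exact ⟨by simpa using this.1, by have := this.2; omega⟩
    have e1 := hq _ (hs' _ q'.start_mem_support).1
    have e2 := hq _ q.start_mem_support
    obtain ⟨v, hv, hv'⟩ := RectCross.rectCross a' u1 c d h2 hcd y₃ u2 x₁ x₂ e2.2.1 e2.2.2 e1.2.1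
      e1.2.2 hr1.1.1 hr1.1.2 hr2.1.1 hr2.1.2 q'.reverse r
      (fun v hv => by
        have hv' : v ∈ q'.support := by simpa using hv
        exact ⟨⟨(hq v (hs' v hv').1).1.1, (hs' v hv').2⟩, (hq v (hs' v hv').1).2⟩) hr
    exact ⟨v, (hs' v (by simpa using hv)).1, hv'⟩
  obtain ⟨z1, hz1, hz1'⟩ := m1
  obtain ⟨z2, hz2, hz2'⟩ := m2
  have c1 := lcn_start (S := Rc a b' c d) p (fun v hv => hsub1 v (hp v hv)) hp' hz1
  have c2 := lcn_mem (S := Rc a b' c d) r (fun v hv => hsub3 v (hr v hv)) hr' hz1' hz2'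
  have c3 := lcn_end (S := Rc a b' c d) q (fun v hv => hsub2 v (hq v hv)) hq' hz2
  obtain ⟨w, hw, hw'⟩ := (c1.trans c2).trans c3
  exact ⟨y₁, y₄, w, hw, hw'⟩

/-- Vertical crossings of lower and wider rectangles. -/
theorem VC_mono {a b c d a₁ b₁ c₁ d₁ : ℤ} (h1 : a₁ ≤ a) (h2 : b ≤ b₁) (h3 : c ≤ c₁)
    (h4 : c₁ ≤ d₁) (h5 : d₁ ≤ d) (H : VC M t a b c d) : VC M t a₁ b₁ c₁ d₁ := by
  obtain ⟨x₁, x₂, p, hp, hp'⟩ := H
  obtain ⟨u, hu, p', hs, he⟩ := exists_cut (fun v : V => v.2) f3 c₁ p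
    ⟨_, p.start_mem_support, h3⟩ (by show c₁ ≤ d; omega)
  obtain ⟨u', hu', q, hs', he'⟩ := exists_cut (fun v : V => -v.2) f4 (-d₁) p'.reverse
    ⟨(x₂, d), by simp, by show -d ≤ -d₁; omega⟩ (by show -d₁ ≤ -u.2; rw [hu]; omega)
  obtain ⟨u1, u2⟩ := u
  obtain ⟨v1, v2⟩ := u'
  have e1 : u2 = c₁ := hu
  have e2 : v2 = d₁ := by have : -v2 = -d₁ := hu'; omega
  subst e1 e2
  refine ⟨u1, v1, q.reverse, fun v hv => ?_, fun e hh => ?_⟩
  · have g1 := hs' v (by simpa using hv)
    have g2 := hs v (by simpa using g1.1)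
    have g3 := hp v g2.1
    have g4 := g1.2
    have g5 := g2.2
    refine ⟨⟨by omega, by omega⟩, by omega, by omega⟩
  · exact hp' e (he _ (by simpa using he' _ (by simpa using hh)))

theorem HC_mono {a b c d c₁ d₁ : ℤ} (h1 : c₁ ≤ c) (h2 : d ≤ d₁)
    (H : HC M t a b c d) : HC M t a b c₁ d₁ := by
  obtain ⟨y₁, y₂, p, hp, hp'⟩ := H
  exact ⟨y₁, y₂, p, fun v hv => ⟨(hp v hv).1, h1.trans (hp v hv).2.1, (hp v hv).2.2.trans h2⟩, hp'⟩

/-- A row of horizontal and vertical crossings. -/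
theorem row {a c L : ℤ} (hL : 0 < L)
    (H : ∀ i ∈ ({0, 2, 4, 6, 8, 9} : Finset ℤ), HC M t (a + i * L) (a + i * L + 3 * L) c (c + L))
    (H' : ∀ i ∈ ({2, 4, 6, 8, 9} : Finset ℤ), VC M t (a + i * L) (a + i * L + L) (c - L)
      (c - L + 3 * L)) : HC M t a (a + 12 * L) c (c + L) := by
  have h0 := H 0 (by simp only [Finset.mem_insert, OfNat.zero_ne_ofNat, Finset.mem_singleton, or_self, or_false])
  have h2 := H 2 (by simp only [Finset.mem_insert, OfNat.ofNat_ne_zero, OfNat.ofNat_eq_ofNat, Nat.reduceEqDiff, Finset.mem_singleton, or_self, or_false, or_true])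
  have h4 := H 4 (by simp only [Finset.mem_insert, OfNat.ofNat_ne_zero, OfNat.ofNat_eq_ofNat, Nat.reduceEqDiff, Finset.mem_singleton, or_self, or_false, or_true])
  have h6 := H 6 (by simp only [Finset.mem_insert, OfNat.ofNat_ne_zero, OfNat.ofNat_eq_ofNat, Nat.reduceEqDiff, Finset.mem_singleton, or_self, or_false, or_true])
  have h8 := H 8 (by simp only [Finset.mem_insert, OfNat.ofNat_ne_zero, OfNat.ofNat_eq_ofNat, Nat.reduceEqDiff, Finset.mem_singleton, or_false, or_true])
  have h9 := H 9 (by simp only [Finset.mem_insert, OfNat.ofNat_ne_zero, OfNat.ofNat_eq_ofNat, Nat.reduceEqDiff, Nat.succ_ne_self, Finset.mem_singleton, or_true])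
  have v2 := H' 2 (by simp only [Finset.mem_insert, OfNat.ofNat_eq_ofNat, Nat.reduceEqDiff, Finset.mem_singleton, or_self, or_false])
  have v4 := H' 4 (by simp only [Finset.mem_insert, OfNat.ofNat_eq_ofNat, Nat.reduceEqDiff, Finset.mem_singleton, or_self, or_false, or_true])
  have v6 := H' 6 (by simp only [Finset.mem_insert, OfNat.ofNat_eq_ofNat, Nat.reduceEqDiff, Finset.mem_singleton, or_self, or_false, or_true])
  have v8 := H' 8 (by simp only [Finset.mem_insert, OfNat.ofNat_eq_ofNat, Nat.reduceEqDiff, Finset.mem_singleton, or_false, or_true])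
  have v9 := H' 9 (by simp only [Finset.mem_insert, OfNat.ofNat_eq_ofNat, Nat.reduceEqDiff, Nat.succ_ne_self, Finset.mem_singleton, or_true])
  have g2 : HC M t (a + 0 * L) (a + 2 * L + 3 * L) c (c + L) :=
    HC_glue (by omega) (by omega) (by omega) (by omega) h0 h2
      (VC_mono (by omega) (by omega) (by omega) (by omega) (by omega) v2)
  have g4 : HC M t (a + 0 * L) (a + 4 * L + 3 * L) c (c + L) :=
    HC_glue (by omega) (by omega) (by omega) (by omega) g2 h4
      (VC_mono (by (clear * -; omega)) (by omega) (by omega) (by omega) (by omega) v4)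
  have g6 : HC M t (a + 0 * L) (a + 6 * L + 3 * L) c (c + L) :=
    HC_glue (by omega) (by omega) (by omega) (by omega) g4 h6
      (VC_mono (by omega) (by omega) (by omega) (by omega) (by omega) v6)
  have g8 : HC M t (a + 0 * L) (a + 8 * L + 3 * L) c (c + L) :=
    HC_glue (by omega) (by omega) (by omega) (by omega) g6 h8
      (VC_mono (by omega) (by omega) (by omega) (by omega) (by omega) v8)
  have g9 : HC M t (a + 0 * L) (a + 9 * L + 3 * L) c (c + L) :=
    HC_glue (by omega) (by omega) (by omega) (by omega) g8 h9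
      (VC_mono (by omega) (by omega) (by omega) (by omega) (by omega) v9)
  have e1 : a + 0 * L = a := by ring
  have e2 : a + 9 * L + 3 * L = a + 12 * L := by ring
  rwa [e1, e2] at g9

/-! ### Events of finitely many edges -/

/-- The event depends only on the light pattern of the edges in `F`. -/
def DepL (M : ℝ) (F : Finset latt.edgeSet) (A : Set Env) : Prop :=
  ∀ t t' : Env, (∀ e ∈ F, t e ≤ M ↔ t' e ≤ M) → t ∈ A → t' ∈ A

theorem DepL.compl {F : Finset latt.edgeSet} {A : Set Env} (h : DepL M F A) : DepL M F Aᶜ :=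
  fun t t' ht hA hA' => hA (h t' t (fun e he => (ht e he).symm) hA')

theorem DepL.measurable {F : Finset latt.edgeSet} {A : Set Env} (h : DepL M F A) :
    MeasurableSet A := by
  classical
  have e1 : A = ⋃ S ∈ F.powerset.filter (fun S => ∃ t ∈ A, ∀ e ∈ F, (t e ≤ M ↔ e ∈ S)),
      {t : Env | ∀ e ∈ F, (t e ≤ M ↔ e ∈ S)} := by
    ext t
    simp only [Set.mem_iUnion, Finset.mem_filter, Finset.mem_powerset, exists_prop,
      Set.mem_ofPred_eq]
    constructor
    · intro ht
      refine ⟨F.filter fun e => t e ≤ M, ⟨Finset.filter_subset _ _, t, ht, ?_⟩, ?_⟩ <;>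
        · intro e he; simp [he]
    · rintro ⟨S, ⟨-, t', ht', h1⟩, h2⟩
      exact h t' t (fun e he => (h1 e he).trans (h2 e he).symm) ht'
  rw [e1]
  refine Finset.measurableSet_biUnion _ fun S _ => ?_
  have e2 : {t : Env | ∀ e ∈ F, (t e ≤ M ↔ e ∈ S)} =
      ⋂ e ∈ F, {t : Env | (t e ≤ M ↔ e ∈ S)} := by
    ext t; simp only [Subtype.forall, Set.mem_ofPred_eq, Set.iInter_coe_set, Set.mem_iInter]
  rw [e2]
  refine Finset.measurableSet_biInter _ fun e _ => ?_
  have hm : MeasurableSet {t : Env | t e ≤ M} :=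
    measurableSet_le (measurable_pi_apply e) measurable_const
  by_cases he : e ∈ S
  · simpa only [he, iff_true, measurableSet_setOfPred] using hm
  · have : {t : Env | (t e ≤ M ↔ e ∈ S)} = {t : Env | t e ≤ M}ᶜ := by
      ext t; simp only [he, iff_false, not_le, Set.mem_ofPred_eq, Set.mem_compl_iff]
    rw [this]
    exact hm.compl

variable {G : Measure ℝ} [IsProbabilityMeasure G]

/-- Events of disjoint sets of edges are independent. -/
theorem DepL.indep {F F' : Finset latt.edgeSet} {A B : Set Env} (hA : DepL M F A)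
    (hB : DepL M F' B) (h : Disjoint F F') : PG G (A ∩ B) = PG G A * PG G B := by
  classical
  have hi : iIndepFun (fun (e : latt.edgeSet) (t : Env) => t e) (PG G) :=
    iIndepFun_infinitePi (X := fun _ s => s) (by fun_prop)
  have key := hi.indepFun_finset F F' h (fun e => by fun_prop)
  have hg : ∀ (F : Finset latt.edgeSet) (A : Set Env), DepL M F A →
      ∃ A' : Set (∀ _ : F, ℝ), MeasurableSet A' ∧
        A = (fun (t : Env) (i : F) => t i) ⁻¹' A' := by
    intro F A hA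
    let f : (∀ _ : F, ℝ) → Env := fun h e => if he : e ∈ F then h ⟨e, he⟩ else 0
    have hf : Measurable f := by
      refine measurable_pi_lambda _ fun e => ?_
      by_cases he : e ∈ F
      · have : (fun h : (∀ _ : F, ℝ) => f h e) = fun h => h ⟨e, he⟩ := by
          funext h; simp only [f, dif_pos he]
        rw [this]
        exact measurable_pi_apply _
      · have : (fun h : (∀ _ : F, ℝ) => f h e) = fun _ => 0 := by
          funext h; simp only [f, dif_neg he]
        rw [this]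
        exact measurable_const
    refine ⟨f ⁻¹' A, hf hA.measurable, ?_⟩
    ext t
    have hagree : ∀ e ∈ F, (t e ≤ M ↔ f (fun i : F => t i) e ≤ M) := by
      intro e he
      simp only [f, dif_pos he]
    exact ⟨fun ht => hA t _ hagree ht, fun ht => hA _ t (fun e he => (hagree e he).symm) ht⟩
  obtain ⟨A', hA', rfl⟩ := hg F A hA
  obtain ⟨B', hB', rfl⟩ := hg F' B hB
  exact key.measure_inter_preimage_eq_mul _ _ hA' hB'

/-- Edges with both ends in a rectangle. -/
theorem edR_finite (a b c d : ℤ) : {e : latt.edgeSet | ∀ v ∈ (e : Sym2 V), v ∈ Rc a b c d}.Finite := by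
  set r : ℕ := (|a| + |b| + |c| + |d|).toNat with hr
  refine (tE_finite 0 r).subset fun e he => ?_
  obtain ⟨v, hv⟩ := Erg.exists_mem e
  refine ⟨v, hv, ?_⟩
  have h1 := he v hv
  obtain ⟨⟨h1, h2⟩, h3, h4⟩ := h1
  rw [mem_bx]
  have hr' : (r : ℤ) = |a| + |b| + |c| + |d| := by
    rw [hr]; exact Int.toNat_of_nonneg (by (clear * -; positivity))
  rw [hr']
  simp only [Prod.fst_zero, Prod.snd_zero, sub_zero]
  have e1 := abs_le.1 (le_refl |a|)
  have e2 := abs_le.1 (le_refl |b|)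
  have e3 := abs_le.1 (le_refl |c|)
  have e4 := abs_le.1 (le_refl |d|)
  have e5 := abs_nonneg a
  have e6 := abs_nonneg b
  have e7 := abs_nonneg c
  have e8 := abs_nonneg d
  constructor <;> rw [abs_le] <;> constructor <;> linarith only [h1, e1, e2, e3, e4, h2, h3, h4]

/-- Edges with both ends in a rectangle. -/
noncomputable def edR (a b c d : ℤ) : Finset latt.edgeSet := (edR_finite a b c d).toFinset

theorem mem_edR {a b c d : ℤ} {e : latt.edgeSet} :
    e ∈ edR a b c d ↔ ∀ v ∈ (e : Sym2 V), v ∈ Rc a b c d :=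
  (edR_finite a b c d).mem_toFinset

theorem mem_of_edge {p : latt.Walk x y} (hp : ∀ v ∈ p.support, v ∈ S) {e : Sym2 V}
    (he : e ∈ p.edges) : ∀ v ∈ e, v ∈ S := by
  intro v hv
  induction e with
  | _ a b =>
    rcases Sym2.mem_iff.1 hv with rfl | rfl
    · exact hp _ (p.fst_mem_support_of_mem_edges he)
    · exact hp _ (p.snd_mem_support_of_mem_edges he)

theorem dep_HC (a b c d : ℤ) : DepL M (edR a b c d) {t | HC M t a b c d} := by
  rintro t t' h ⟨y₁, y₂, p, hp, hp'⟩
  exact ⟨y₁, y₂, p, hp, fun e he => (h e (mem_edR.2 (mem_of_edge (S := Rc a b c d) hp he))).1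
    (hp' e he)⟩

/-- Reflection in the diagonal. -/
def swp : latt ≃g latt where
  toEquiv := Equiv.prodComm ℤ ℤ
  map_rel_iff' := by
    intro x y
    show |x.2 - y.2| + |x.1 - y.1| = 1 ↔ |x.1 - y.1| + |x.2 - y.2| = 1
    rw [add_comm]

theorem VC_of_HC {a b c d : ℤ} (h : HC M (isoE swp t) c d a b) : VC M t a b c d := by
  obtain ⟨y₁, y₂, p, hp, hp'⟩ := h
  have k1 : ∀ v ∈ (p.map swp.toHom).support, (a ≤ v.1 ∧ v.1 ≤ b) ∧ c ≤ v.2 ∧ v.2 ≤ d := by
    intro v hv
    rw [Walk.support_map, List.mem_map] at hv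
    obtain ⟨u, hu, rfl⟩ := hv
    have := hp u hu
    exact ⟨this.2, this.1⟩
  have k2 : ∀ e : latt.edgeSet, (e : Sym2 V) ∈ (p.map swp.toHom).edges → t e ≤ M := by
    intro e he
    rw [Walk.edges_map, List.mem_map] at he
    obtain ⟨e', he', h2⟩ := he
    have h3 : e' ∈ latt.edgeSet := p.edges_subset_edgeSet he'
    have h4 := hp' ⟨e', h3⟩ he'
    have h5 : swp.mapEdgeSet ⟨e', h3⟩ = e := Subtype.ext h2
    have h6 : isoE swp t ⟨e', h3⟩ = t e := by
      show t (swp.mapEdgeSet ⟨e', h3⟩) = t e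
      rw [h5]
    rwa [h6] at h4
  exact ⟨y₁, y₂, p.map swp.toHom, k1, k2⟩

theorem prob_VC_le (a b c d : ℤ) : PG G {t | ¬ VC M t a b c d} ≤ PG G {t | ¬ HC M t c d a b} := by
  have hmp : MeasurePreserving (isoE swp) (PG G) (PG G) := mp_iso swp
  have hm : MeasurableSet {t : Env | ¬ HC M t c d a b} := (dep_HC c d a b).compl.measurable
  rw [← hmp.measure_preimage hm.nullMeasurableSet]
  exact measure_mono fun t ht h => ht (VC_of_HC h)

theorem row_bound {q : ℝ≥0∞} {L : ℤ} (hL : 0 < L)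
    (hq : ∀ a c : ℤ, PG G {t | ¬ HC M t a (a + 3 * L) c (c + L)} ≤ q) (a c : ℤ) :
    PG G {t | ¬ HC M t a (a + 12 * L) c (c + L)} ≤ 11 * q := by
  have hv : ∀ a c : ℤ, PG G {t | ¬ VC M t a (a + L) c (c + 3 * L)} ≤ q := fun a c =>
    (prob_VC_le a (a + L) c (c + 3 * L)).trans (hq c a)
  have hsub : {t : Env | ¬ HC M t a (a + 12 * L) c (c + L)} ⊆
      (⋃ i ∈ ({0, 2, 4, 6, 8, 9} : Finset ℤ), {t | ¬ HC M t (a + i * L) (a + i * L + 3 * L) c
        (c + L)}) ∪ ⋃ i ∈ ({2, 4, 6, 8, 9} : Finset ℤ), {t | ¬ VC M t (a + i * L) (a + i * L + L)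
        (c - L) (c - L + 3 * L)} := by
    intro t ht
    by_contra hcon
    simp only [Set.mem_union, Set.mem_iUnion, not_or, not_exists, Set.mem_ofPred_eq,
      not_not] at hcon
    exact ht (row hL (fun i hi => hcon.1 i hi) (fun i hi => hcon.2 i hi))
  refine (measure_mono hsub).trans ((measure_union_le _ _).trans ?_)
  have h1 : PG G (⋃ i ∈ ({0, 2, 4, 6, 8, 9} : Finset ℤ), {t | ¬ HC M t (a + i * L)
      (a + i * L + 3 * L) c (c + L)}) ≤ 6 * q := by
    refine (measure_biUnion_finset_le _ _).trans ?_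
    refine (Finset.sum_le_sum fun i _ => hq _ _).trans ?_
    rw [Finset.sum_const, nsmul_eq_mul]
    norm_num
  have h2 : PG G (⋃ i ∈ ({2, 4, 6, 8, 9} : Finset ℤ), {t | ¬ VC M t (a + i * L)
      (a + i * L + L) (c - L) (c - L + 3 * L)}) ≤ 5 * q := by
    refine (measure_biUnion_finset_le _ _).trans ?_
    refine (Finset.sum_le_sum fun i _ => hv _ _).trans ?_
    rw [Finset.sum_const, nsmul_eq_mul]
    norm_num
  refine (add_le_add h1 h2).trans ?_
  rw [← add_mul]
  norm_num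

theorem step_bound {q : ℝ≥0∞} {L : ℤ} (hL : 0 < L)
    (hq : ∀ a c : ℤ, PG G {t | ¬ HC M t a (a + 3 * L) c (c + L)} ≤ q) (a c : ℤ) :
    PG G {t | ¬ HC M t a (a + 3 * (4 * L)) c (c + 4 * L)} ≤ (11 * q) * (11 * q) := by
  have hsub : {t : Env | ¬ HC M t a (a + 3 * (4 * L)) c (c + 4 * L)} ⊆
      {t | HC M t a (a + 12 * L) c (c + L)}ᶜ ∩
        {t | HC M t a (a + 12 * L) (c + 2 * L) (c + 2 * L + L)}ᶜ := by
    intro t ht
    have e : a + 3 * (4 * L) = a + 12 * L := by ring
    rw [Set.mem_ofPred_eq, e] at ht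
    exact ⟨fun h => ht (HC_mono (by omega) (by omega) h),
      fun h => ht (HC_mono (by omega) (by omega) h)⟩
  refine (measure_mono hsub).trans ?_
  rw [(dep_HC a (a + 12 * L) c (c + L)).compl.indep
    (dep_HC a (a + 12 * L) (c + 2 * L) (c + 2 * L + L)).compl]
  · exact mul_le_mul' (row_bound hL hq a c) (row_bound hL hq a (c + 2 * L))
  · rw [Finset.disjoint_left]
    intro e h1 h2
    rw [mem_edR] at h1 h2
    obtain ⟨v, hv⟩ := Erg.exists_mem e
    have e1 := (h1 v hv).2.2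
    have e2 := (h2 v hv).2.1
    omega

/-- The edge to the right of a vertex. -/
def hE (x y : ℤ) : latt.edgeSet := ⟨s(((x, y) : V), (x + 1, y)), adj_right x y⟩

theorem exists_hwalk_edges (x y : ℤ) (n : ℕ) : ∃ p : latt.Walk ((x, y) : V) (x + n, y),
    (∀ v ∈ p.support, v.2 = y ∧ x ≤ v.1 ∧ v.1 ≤ x + n) ∧
      ∀ e : latt.edgeSet, (e : Sym2 V) ∈ p.edges → ∃ i ∈ Finset.range n, e = hE (x + i) y := by
  induction n with
  | zero =>
    refine ⟨Walk.nil.copy rfl (by simp), fun v hv => ?_, fun e he => by simp at he⟩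
    have : v = (x, y) := by simpa using hv
    subst this
    simp
  | succ n ih =>
    obtain ⟨p, hp, hpe⟩ := ih
    have e0 : x + ((n + 1 : ℕ) : ℤ) = x + n + 1 := by push_cast; ring
    have hadj : latt.Adj ((x + n, y) : V) (x + ((n + 1 : ℕ) : ℤ), y) := by
      rw [e0]; exact adj_right (x + n) y
    refine ⟨p.append (Walk.cons hadj Walk.nil), fun v hv => ?_, fun e he => ?_⟩
    · rw [Walk.mem_support_append_iff] at hv
      rcases hv with hv | hv
      · have := hp v hv
        push_cast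
        omega
      · have hv' : v = (x + n, y) ∨ v = (x + ((n + 1 : ℕ) : ℤ), y) := by simpa only [Nat.cast_add, Nat.cast_one, Int.natCast_add, Int.cast_ofNat_Int, Walk.support_cons,     Walk.support_nil, List.mem_cons, List.not_mem_nil, or_false] using hv
        rcases hv' with rfl | rfl
        · simp only [le_add_iff_nonneg_right, Nat.cast_nonneg, Nat.cast_add, Nat.cast_one, add_le_add_iff_left, zero_le_one, and_self]
        · refine ⟨rfl, ?_, ?_⟩ <;> push_cast <;> omega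
    · rw [Walk.edges_append, List.mem_append] at he
      rcases he with he | he
      · obtain ⟨i, hi, h⟩ := hpe e he
        exact ⟨i, Finset.mem_range.2 (by have := Finset.mem_range.1 hi; omega), h⟩
      · refine ⟨n, Finset.mem_range.2 (by omega), Subtype.ext ?_⟩
        have h1 : (e : Sym2 V) = s(((x + n, y) : V), (x + ((n + 1 : ℕ) : ℤ), y)) := by
          simpa only [Nat.cast_add, Nat.cast_one, Int.natCast_add, Int.cast_ofNat_Int, Walk.edges_cons, Walk.edges_nil,     List.mem_cons, List.not_mem_nil, or_false] using he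
        rw [h1, e0]
        rfl

/-- Straight crossings. -/
theorem HC_straight {a c d : ℤ} (n : ℕ) (hcd : c ≤ d)
    (h : ∀ i ∈ Finset.range n, t (hE (a + i) c) ≤ M) : HC M t a (a + n) c d := by
  obtain ⟨p, hp, hpe⟩ := exists_hwalk_edges a c n
  refine ⟨c, c, p, fun v hv => ?_, fun e he => ?_⟩
  · have := hp v hv
    exact ⟨⟨this.2.1, this.2.2⟩, this.1.ge, this.1.le.trans hcd⟩
  · obtain ⟨i, hi, rfl⟩ := hpe e he
    exact h i hi

theorem prob_heavy (M : ℝ) (e : latt.edgeSet) : PG G {t : Env | M < t e} = G (Set.Ioi M) := by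
  have h := (measurePreserving_eval_infinitePi (fun _ : latt.edgeSet => G) e)
  exact h.measure_preimage (measurableSet_Ioi (a := M)).nullMeasurableSet

theorem base_bound (M : ℝ) (a c : ℤ) :
    PG G {t | ¬ HC M t a (a + 3 * 4 ^ (0 + 1)) c (c + 4 ^ (0 + 1))} ≤ 12 * G (Set.Ioi M) := by
  have hsub : {t : Env | ¬ HC M t a (a + 3 * 4 ^ (0 + 1)) c (c + 4 ^ (0 + 1))} ⊆
      ⋃ i ∈ Finset.range 12, {t | M < t (hE (a + (i : ℕ)) c)} := by
    intro t ht
    by_contra hcon
    simp only [Set.mem_iUnion, not_exists, Set.mem_ofPred_eq, not_lt] at hcon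
    have := HC_straight (d := c + 4 ^ (0 + 1)) 12 (by norm_num) hcon
    norm_num at this
    norm_num at ht
    exact ht this
  refine (measure_mono hsub).trans ((measure_biUnion_finset_le _ _).trans ?_)
  simp only [prob_heavy]
  rw [Finset.sum_const, nsmul_eq_mul]
  (clear * -; norm_num)

theorem exists_heavy (G : Measure ℝ) [IsProbabilityMeasure G] {ε : ℝ≥0∞} (hε : 0 < ε) :
    ∃ M₀ : ℝ, 0 < M₀ ∧ ∀ M ≥ M₀, G (Set.Ioi M) ≤ ε := by
  have h1 : Filter.Tendsto (fun M => G (Set.Iic M)) Filter.atTop (nhds 1) := by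
    simpa only [measure_univ] using tendsto_measure_Iic_atTop G
  have h2 : Filter.Tendsto (fun M => 1 - G (Set.Iic M)) Filter.atTop (nhds (1 - 1)) :=
    ENNReal.Tendsto.sub tendsto_const_nhds h1 (Or.inl ENNReal.one_ne_top)
  rw [tsub_self] at h2
  have h3 := h2.eventually (gt_mem_nhds hε)
  obtain ⟨M₀, hM₀⟩ := Filter.eventually_atTop.1 (h3.and (Filter.eventually_gt_atTop 0))
  refine ⟨M₀, (hM₀ M₀ le_rfl).2, fun M hM => ?_⟩
  have h4 := (hM₀ M hM).1
  have h5 : G (Set.Ioi M) = 1 - G (Set.Iic M) := by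
    rw [← Set.compl_Iic, prob_compl_eq_one_sub measurableSet_Iic]
  rw [h5]
  exact h4.le

/-- (T8). -/
theorem renorm (G : Measure ℝ) [IsProbabilityMeasure G] : RenormStmt G := by
  intro δ hδ
  set x : ℝ≥0∞ := min δ 1 with hx
  have hx0 : 0 < x := lt_min hδ one_pos
  have hx1 : x ≤ 1 := min_le_right _ _
  have h121 : (11 : ℝ≥0∞) * 11 * 121⁻¹ = 1 := by
    have : (11 : ℝ≥0∞) * 11 = 121 := by norm_num
    rw [this]
    exact ENNReal.mul_inv_cancel (by norm_num) (by norm_num)
  obtain ⟨M₀, hM₀, hM⟩ := exists_heavy G (ε := x * 121⁻¹ * 12⁻¹)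
    (ENNReal.mul_pos (ENNReal.mul_pos hx0.ne' (by norm_num)).ne' (by norm_num))
  refine ⟨M₀, hM₀, fun M hMM k => ?_⟩
  have key : ∀ a c : ℤ, PG G {t | ¬ HC M t a (a + 3 * 4 ^ (k + 1)) c (c + 4 ^ (k + 1))} ≤
      x ^ (2 ^ k) * 121⁻¹ := by
    induction k with
    | zero =>
      intro a c
      refine (base_bound M a c).trans ?_
      have h1 := hM M hMM
      calc 12 * G (Set.Ioi M) ≤ 12 * (x * 121⁻¹ * 12⁻¹) := by (clear * - h1; gcongr)
        _ = x * 121⁻¹ * (12 * 12⁻¹) := by ring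
        _ = x * 121⁻¹ := by
            rw [ENNReal.mul_inv_cancel (by norm_num) (by norm_num), mul_one]
        _ = _ := by simp
    | succ k ih =>
      intro a c
      have h1 := step_bound (G := G) (M := M) (q := x ^ (2 ^ k) * 121⁻¹) (L := 4 ^ (k + 1))
        (by positivity) ih a c
      have e1 : (4 : ℤ) ^ (k + 1 + 1) = 4 * 4 ^ (k + 1) := by ring
      rw [e1]
      refine h1.trans (le_of_eq ?_)
      calc 11 * (x ^ 2 ^ k * 121⁻¹) * (11 * (x ^ 2 ^ k * 121⁻¹))
          = (x ^ 2 ^ k * x ^ 2 ^ k) * 121⁻¹ * (11 * 11 * 121⁻¹) := by ring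
        _ = x ^ 2 ^ (k + 1) * 121⁻¹ := by
            rw [h121, mul_one, ← pow_add]
            congr 2
            rw [pow_succ]; ring
  have key' : ∀ a c : ℤ, PG G {t | ¬ HC M t a (a + 3 * 4 ^ (k + 1)) c (c + 4 ^ (k + 1))} ≤
      δ ^ (2 ^ k) := by
    intro a c
    refine (key a c).trans ?_
    calc x ^ (2 ^ k) * 121⁻¹ ≤ x ^ (2 ^ k) * 1 := by
          gcongr
          exact ENNReal.inv_le_one.2 (by norm_num)
      _ = x ^ (2 ^ k) := mul_one _
      _ ≤ δ ^ (2 ^ k) := by
          gcongr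
          exact min_le_left _ _
  exact fun a c => ⟨key' a c, (prob_VC_le _ _ _ _).trans (key' c a)⟩

end Vale.Agent.P158.C.Renorm
end
end

section

section

end
end

section

section

/-! Peierls estimates of Plan C': finite balls, annuli, long paths. -/

namespace Vale.Agent.P158.C.PathP

open Filter MeasureTheory Vale.Agent.P158.T1 Vale.Agent.P158.T1.Pe
open scoped ENNReal

variable {G : Measure ℝ} [IsProbabilityMeasure G] {β : ℝ}

/-- (3a) -/
theorem fb [NullSingletonClass G] (hG : G (Set.Iio 0) = 0) : FBStmt G := by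
  obtain ⟨β, hβ0, hβ⟩ := exists_level (G := G) hG (η := 1 / 16) (by norm_num)
  exact ae_FB hG hβ0 hβ

/-- (3d) -/
theorem ag (hβ : G (Set.Iio β) ≤ 1 / 16) : AGStmt G β := by
  intro δ hδ
  obtain ⟨C, θ, hC, hθ0, hθ1, hP⟩ := peierls G β hβ
  have hlim : Tendsto (fun r : ℕ => C * (((r : ℝ) + 1) * θ ^ r)) atTop (nhds 0) := by
    have h1 := tendsto_self_mul_const_pow_of_lt_one hθ0.le hθ1
    have h2 := tendsto_pow_atTop_nhds_zero_of_lt_one hθ0.le hθ1
    have h3 := (h1.add h2).const_mul C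
    simp only [add_zero, mul_zero] at h3
    refine h3.congr fun r => ?_
    ring
  obtain ⟨r₀, hr₀⟩ := (hlim.eventually (gt_mem_nhds hδ)).exists_forall_of_atTop
  refine ⟨r₀, fun r hr => ⟨measurableSet_setOfPred.2 (measurable_AG β 0 r (2 * r)), ?_⟩⟩
  refine (hP 0 r (2 * r) (by omega)).trans (ENNReal.ofReal_le_ofReal ?_)
  have h4 := (hr₀ r hr).le
  have e : 2 * r - r = r := by omega
  rw [e]
  calc _ = C * (((r : ℝ) + 1) * θ ^ r) := by ring
    _ ≤ δ := h4

/-- A long path contains a path of prescribed length from the same starting point. -/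
theorem sum_heavy (hβ0 : 0 < β) {t : Env} (ht : ∀ e, 0 < t e) (D s : Finset latt.edgeSet) :
    β * (nh β t s - D.card : ℝ) ≤ ∑ e ∈ s.filter (fun e => e ∉ D), t e := by
  classical
  have h1 : ∑ e ∈ (s.filter fun e => e ∉ D).filter (fun e => β ≤ t e), t e ≤
      ∑ e ∈ s.filter (fun e => e ∉ D), t e :=
    Finset.sum_le_sum_of_subset_of_nonneg (Finset.filter_subset _ _) fun e _ _ => (ht e).le
  have h2 : β * (((s.filter fun e => e ∉ D).filter (fun e => β ≤ t e)).card : ℝ) ≤
      ∑ e ∈ (s.filter fun e => e ∉ D).filter (fun e => β ≤ t e), t e := by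
    rw [mul_comm, ← nsmul_eq_mul]
    exact Finset.card_nsmul_le_sum _ _ _ fun e he => (Finset.mem_filter.1 he).2
  have h3 : nh β t s ≤ ((s.filter fun e => e ∉ D).filter (fun e => β ≤ t e)).card + D.card := by
    unfold nh
    have : s.filter (fun e => β ≤ t e) ⊆
        ((s.filter fun e => e ∉ D).filter (fun e => β ≤ t e)) ∪ D := by
      intro e he
      rw [Finset.mem_filter] at he
      rw [Finset.mem_union, Finset.mem_filter, Finset.mem_filter]
      by_cases hD : e ∈ D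
      · exact Or.inr hD
      · exact Or.inl ⟨⟨he.1, hD⟩, he.2⟩
    exact (Finset.card_le_card this).trans (Finset.card_union_le _ _)
  have h4 : (nh β t s : ℝ) - D.card ≤
      (((s.filter fun e => e ∉ D).filter (fun e => β ≤ t e)).card : ℝ) := by
    have : (nh β t s : ℝ) ≤
      (((s.filter fun e => e ∉ D).filter (fun e => β ≤ t e)).card : ℝ) + D.card := by
      exact_mod_cast h3
    linarith only [this]
  exact (mul_le_mul_of_nonneg_left h4 hβ0.le).trans (h2.trans h1)

/-- Peierls for all long paths that start in a finite set. -/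
theorem tail_box (hβ : G (Set.Iio β) ≤ 1 / 16) (z : V) (N ℓ : ℕ) :
    PG G {t | ∃ (x y : V) (p : latt.Walk x y), x ∈ bx z N ∧ p.IsPath ∧ ℓ ≤ p.length ∧
      8 * nh β t (pe p) < p.length} ≤
    ENNReal.ofReal ((2 * N + 1) ^ 2 * (8 * (3 / 4) ^ ℓ)) := by
  have hsub : {t : Env | ∃ (x y : V) (p : latt.Walk x y), x ∈ bx z N ∧ p.IsPath ∧
      ℓ ≤ p.length ∧ 8 * nh β t (pe p) < p.length} ⊆ ⋃ x ∈ Pe.bxF z N,
        {t | ∃ (y : V) (p : latt.Walk x y), p.IsPath ∧ ℓ ≤ p.length ∧
          8 * nh β t (pe p) < p.length} := by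
    rintro t ⟨x, y, p, hx, hp, hl, hlt⟩
    rw [Set.mem_iUnion₂]
    exact ⟨x, Pe.mem_bxF.2 hx, y, p, hp, hl, hlt⟩
  calc _ ≤ _ := measure_mono hsub
    _ ≤ ∑ x ∈ Pe.bxF z N, PG G {t | ∃ (y : V) (p : latt.Walk x y), p.IsPath ∧ ℓ ≤ p.length ∧
          8 * nh β t (pe p) < p.length} := measure_biUnion_finset_le _ _
    _ ≤ ∑ _x ∈ Pe.bxF z N, ENNReal.ofReal (8 * (3 / 4) ^ ℓ) :=
        Finset.sum_le_sum fun x _ => peierls_tail hβ x ℓ
    _ = _ := by
        rw [Finset.sum_const, Pe.card_bxF, nsmul_eq_mul, ← ENNReal.ofReal_natCast,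
          ← ENNReal.ofReal_mul (by (clear * -; positivity))]
        congr 1
        push_cast
        ring

/-- The bound of `tail_box` tends to zero, for lengths proportional to the radius. -/
theorem tail_lim {c : ℝ} (hc : 1 ≤ c) {δ : ℝ} (hδ : 0 < δ) :
    ∃ N₀ : ℕ, ∀ N ≥ N₀, (2 * (N : ℝ) + 1) ^ 2 * (8 * (3 / 4) ^ ⌈c * N⌉₊) ≤ δ := by
  have hlim : Tendsto (fun N : ℕ => (2 * (N : ℝ) + 1) ^ 2 * (8 * (3 / 4 : ℝ) ^ N)) atTop
      (nhds 0) := by
    have h1 := tendsto_self_mul_const_pow_of_lt_one (r := (3 / 4 : ℝ)) (by (clear * -; norm_num)) (by norm_num)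
    have h2 := tendsto_pow_const_mul_const_pow_of_abs_lt_one 2 (r := (3 / 4 : ℝ))
      (by rw [abs_of_pos] <;> norm_num)
    have h3 := tendsto_pow_atTop_nhds_zero_of_lt_one (r := (3 / 4 : ℝ)) (by norm_num)
      (by norm_num)
    have h4 := ((h2.const_mul 32).add (h1.const_mul 32)).add (h3.const_mul 8)
    simp only [mul_zero, add_zero] at h4
    refine h4.congr fun N => ?_
    ring
  obtain ⟨N₀, hN₀⟩ := (hlim.eventually (gt_mem_nhds hδ)).exists_forall_of_atTop
  refine ⟨N₀, fun N hN => le_trans ?_ (hN₀ N hN).le⟩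
  refine mul_le_mul_of_nonneg_left (mul_le_mul_of_nonneg_left ?_ (by norm_num)) (by positivity)
  refine pow_le_pow_of_le_one (by norm_num) (by norm_num) ?_
  have h5 : (N : ℝ) ≤ c * N := by
    have : (0 : ℝ) ≤ N := Nat.cast_nonneg N
    nlinarith only [hc]
  exact_mod_cast h5.trans (Nat.le_ceil _)

end Vale.Agent.P158.C.PathP
end
end

section

section

/-! From environments to the heavy potential: one lowering step inside a box. -/

namespace Vale.Agent.P158.C.Brg

open MeasureTheory Vale.Agent.P158.T1 Vale.Agent.P158.C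
open scoped ENNReal

set_option linter.unusedSectionVars false

variable {m : ℕ} [NeZero m]

/-- Passage times in `S` between the points `b i`. -/
noncomputable def bT (b : ZMod m → V) (S : Set V) (t : Env) (i j : ZMod m) : ℝ :=
  PT (wt t) S (b i) (b j)

/-- The potential of the environment `t`: mass of the heavy components of the pairs whose
passage time in `S` increases when the box `bx z r` is removed. -/
noncomputable def pot (b : ZMod m → V) (S : Set V) (z : V) (r : ℕ) (g : ℝ) (t : Env) : ℝ :=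
  mu (bT b (S \ bx z r) t) (heavy (bT b S t) (bT b (S \ bx z r) t) g)

/-- Hypotheses on the domain: finite, connected, also after removing the box. -/
structure Dom (b : ZMod m → V) (S : Set V) (z : V) (r : ℕ) : Prop where
  fin : S.Finite
  conn : ∀ x ∈ S, ∀ y ∈ S, Conn S x y
  conn' : ∀ x ∈ S \ bx z r, ∀ y ∈ S \ bx z r, Conn (S \ bx z r) x y
  mem : ∀ i, b i ∈ S \ bx z r
  kal : ∀ t : Env, (∀ e, 0 < t e) → Kal (bT b S t) ∧ Kal (bT b (S \ bx z r) t)

variable {b : ZMod m → V} {S : Set V} {z : V} {r : ℕ} {α β : ℝ}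

theorem Rch.pos {D : Finset latt.edgeSet} {t' t : Env} (h : Rch α β D t' t)
    (ht' : ∀ e, 0 < t' e) (e : latt.edgeSet) : 0 < t e := by
  by_cases he : e ∈ D
  · rcases h.2 e he with h1 | h1
    · rw [h1]; exact ht' e
    · exact h1.2.1
  · rw [h.1 e he]; exact ht' e

theorem Rch.le {D : Finset latt.edgeSet} {t' t : Env} (hαβ : α < β) (h : Rch α β D t' t)
    (e : latt.edgeSet) : t e ≤ t' e := by
  by_cases he : e ∈ D
  · rcases h.2 e he with h1 | h1
    · rw [h1]
    · linarith [h1.1, h1.2.2]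
  · rw [h.1 e he]

theorem bT_congr {t' t : Env} (h : Rch α β (tF z r) t' t) (i j : ZMod m) :
    bT b (S \ bx z r) t i j = bT b (S \ bx z r) t' i j := by
  refine PT_congr fun e he => h.1 e fun hD => ?_
  obtain ⟨x, hx, hx'⟩ := mem_tF.1 hD
  exact (he x hx).2 hx'

theorem bT_le_W (hd : Dom b S z r) {t : Env} (ht : ∀ e, 0 < t e) (i j : ZMod m) :
    bT b S t i j ≤ bT b (S \ bx z r) t i j :=
  PT_mono (adm_of_pos ht) Set.sdiff_subset (hd.conn' _ (hd.mem i) _ (hd.mem j))

theorem bT_mono (hd : Dom b S z r) (hαβ : α < β) {D : Finset latt.edgeSet} {t' t : Env}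
    (h : Rch α β D t' t) (ht' : ∀ e, 0 < t' e) (i j : ZMod m) :
    bT b S t i j ≤ bT b S t' i j := by
  refine le_PT (hd.conn _ (hd.mem i).1 _ (hd.mem j).1) fun p hp => ?_
  refine (PT_le (adm_of_pos (Rch.pos h ht')) p hp).trans ?_
  exact ww_mono (fun x y hxy => wt_mono (fun e => Rch.le hαβ h e) x y hxy) p

/-- The heavy edges of `D` on a walk. -/
noncomputable def hQ (β : ℝ) (D : Finset latt.edgeSet) (t : Env) {x y : V}
    (p : latt.Walk x y) : Finset latt.edgeSet := by
  classical exact (pe p).filter fun e => e ∈ D ∧ β ≤ t e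

theorem mem_hQ {D : Finset latt.edgeSet} {t : Env} {x y : V} {p : latt.Walk x y}
    {e : latt.edgeSet} : e ∈ hQ β D t p ↔ e ∈ pe p ∧ e ∈ D ∧ β ≤ t e := by
  classical
  simp only [hQ, Finset.mem_filter]

theorem pot_nonneg (hd : Dom b S z r) {g : ℝ} {t : Env} (ht : ∀ e, 0 < t e) :
    0 ≤ pot b S z r g t := by
  have hK := hd.kal t ht
  exact mu_nonneg hK.2 hK.1 fun p hp => heavy_sub hp

/-- The potential never decreases when edges near the box are lowered. -/
theorem pot_mono (hd : Dom b S z r) (hαβ : α < β) {g : ℝ} (hg : 0 < g) {t' t : Env}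
    (ht' : ∀ e, 0 < t' e) (ht : Rch α β (tF z r) t' t) :
    pot b S z r g t' ≤ pot b S z r g t := by
  have htp := Rch.pos ht ht'
  have hWW : bT b (S \ bx z r) t = bT b (S \ bx z r) t' := by
    funext i j; exact bT_congr ht i j
  have hK' := hd.kal t' ht'
  have hK := hd.kal t htp
  have key := heavy_step (W := bT b (S \ bx z r) t') (T := bT b S t') (T' := bT b S t)
    hK'.2 hK'.1 hK.1 (bT_le_W hd ht') (fun i j => bT_mono hd hαβ ht ht' i j) hg le_rfl ∅
    (by simp only [Finset.notMem_empty, sub_nonneg, IsEmpty.forall_iff, implies_true]) (by simp)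
  unfold pot
  rw [hWW]
  simpa only [ge_iff_le, Finset.filter_empty, Finset.card_empty, CharP.cast_eq_zero, zero_sub, mul_neg,     zero_mul, neg_zero, add_zero] using key

/-! ### Measurability -/

theorem measurable_bT (S : Set V) (i j : ZMod m) : Measurable fun t : Env => bT b S t i j :=
  measurable_PT S (b i) (b j)

theorem measurableSet_Ex (S S' : Set V) (E : Set (ZMod m × ZMod m)) :
    MeasurableSet {t : Env | Ex (bT b S t) (bT b S' t) = E} := by
  have : {t : Env | Ex (bT b S t) (bT b S' t) = E} =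
      ⋂ p : ZMod m × ZMod m, {t | bT b S t p.1 p.2 < bT b S' t p.1 p.2 ↔ p ∈ E} := by
    ext t
    simp only [Set.mem_iInter, Set.mem_ofPred_eq]
    rw [Set.ext_iff]
    rfl
  rw [this]
  refine MeasurableSet.iInter fun p => ?_
  by_cases hp : p ∈ E
  · simp only [hp, iff_true]
    exact measurableSet_lt (measurable_bT S _ _) (measurable_bT S' _ _)
  · simp only [hp, iff_false, not_lt]
    exact measurableSet_le (measurable_bT S' _ _) (measurable_bT S _ _)

/-- Events that depend on `{T < W}` and on the environment. -/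
theorem measurableSet_of_Ex (S S' : Set V) {P : Set (ZMod m × ZMod m) → Env → Prop}
    (hP : ∀ E, MeasurableSet {t | P E t}) :
    MeasurableSet {t : Env | P (Ex (bT b S t) (bT b S' t)) t} := by
  have : {t : Env | P (Ex (bT b S t) (bT b S' t)) t} =
      ⋃ E : Set (ZMod m × ZMod m), {t | Ex (bT b S t) (bT b S' t) = E} ∩ {t | P E t} := by
    ext t
    simp only [Set.mem_iUnion, Set.mem_inter_iff, Set.mem_ofPred_eq, exists_eq_left']
  rw [this]
  exact MeasurableSet.iUnion fun E => (measurableSet_Ex S S' E).inter (hP E)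

theorem measurableSet_heavy (S S' : Set V) (g : ℝ) (p : ZMod m × ZMod m) :
    MeasurableSet {t : Env | p ∈ heavy (bT b S t) (bT b S' t) g} := by
  simp only [mem_heavy]
  refine measurableSet_of_Ex (b := b) S S' (P := fun E t => ∃ q : ZMod m × ZMod m, Cn E p q ∧
    g ≤ bT b S' t q.1 q.2 - bT b S t q.1 q.2) fun E => ?_
  have : {t : Env | ∃ q : ZMod m × ZMod m, Cn E p q ∧
      g ≤ bT b S' t q.1 q.2 - bT b S t q.1 q.2} = ⋃ q : ZMod m × ZMod m,
        {t | Cn E p q} ∩ {t | g ≤ bT b S' t q.1 q.2 - bT b S t q.1 q.2} := by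
    ext t
    simp only [Set.mem_iUnion, Set.mem_inter_iff, Set.mem_ofPred_eq]
  rw [this]
  exact MeasurableSet.iUnion fun q => (MeasurableSet.const _).inter
    (measurableSet_le measurable_const ((measurable_bT S' _ _).sub (measurable_bT S _ _)))

theorem measurable_pot (S : Set V) (z : V) (r : ℕ) (g : ℝ) :
    Measurable fun t : Env => pot b S z r g t := by
  classical
  have : (fun t : Env => pot b S z r g t) = fun t => ∑ p : ZMod m × ZMod m,
      {t : Env | p ∈ heavy (bT b S t) (bT b (S \ bx z r) t) g}.indicator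
        (fun t => cell (bT b (S \ bx z r) t) p.1 p.2) t := by
    funext t
    unfold pot mu
    have h1 : heavy (bT b S t) (bT b (S \ bx z r) t) g = Finset.univ.filter fun p =>
        p ∈ heavy (bT b S t) (bT b (S \ bx z r) t) g := by
      ext p; simp
    rw [h1, Finset.sum_filter]
    refine Finset.sum_congr rfl fun p _ => ?_
    by_cases hp : p ∈ heavy (bT b S t) (bT b (S \ bx z r) t) g
    · simp [hp]
    · simp [hp]
  rw [this]
  refine Finset.measurable_sum _ fun p _ => ?_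
  refine Measurable.indicator ?_ (measurableSet_heavy S (S \ bx z r) g p)
  unfold cell
  exact (((measurable_bT _ _ _).add (measurable_bT _ _ _)).sub (measurable_bT _ _ _)).sub
    (measurable_bT _ _ _)

theorem measurableSet_hQ (β : ℝ) (D : Finset latt.edgeSet) {x y : V} (p : latt.Walk x y)
    (N : ℕ) : MeasurableSet {t : Env | N ≤ (hQ β D t p).card} := by
  classical
  have h1 : Measurable fun t : Env => (hQ β D t p).card := by
    unfold hQ
    simp only [Finset.card_filter]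
    refine Finset.measurable_sum _ fun e _ => ?_
    by_cases h : e ∈ D
    · simp only [h, true_and]
      exact Measurable.ite (measurableSet_le measurable_const (measurable_pi_apply e))
        measurable_const measurable_const
    · simp only [h, false_and, if_false]
      exact measurable_const
  exact h1 measurableSet_Ici

end Vale.Agent.P158.C.Brg
end
end

section

section

/-! Measurability of the mass of the heavy components. -/

namespace Vale.Agent.P158.C.MH

open Vale.Agent.P158.T1 Vale.Agent.P158.C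

theorem measHeavy : MeasHeavyStmt := by
  intro z N s _ g
  have : NeZero (8 * N) := inferInstance
  exact Brg.measurable_pot (b := fun x : ZMod (8 * N) => bd z N (x.val : ℤ)) (bx z N) 0 s g

end Vale.Agent.P158.C.MH
end
end

section

section

/-! Plan C', statement (5): bigeodesics with slack meet all bigeodesics. -/

namespace Vale.Agent.P158.C.S3f

open Filter T1 SimpleGraph MeasureTheory

variable {w : V → V → ℝ}

theorem isPath_of_geo (hw : Adm w) {x y : V} {p : latt.Walk x y} (hp : ww w p = T w x y) :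
    p.IsPath := by
  by_contra h
  have h1 := ww_bypass_lt hw p h
  have h2 := T_le hw p.bypass
  linarith

theorem uniq_of_uq (hw : Adm w) (h : Uq w) : Uniq w := fun x y p q hp hq =>
  h x y p q (isPath_of_geo hw hp) (isPath_of_geo hw hq) (hp.trans hq.symm)

theorem isBd_bB : IsBd (bB 0) := fun _ _ hx _ hxy hy => mem_bB_of_adj hx hy hxy

theorem Crs.rev {S : Set V} {a c b d : V} (h : Crs S a c b d) : Crs S a c d b := by
  intro p q hp hq
  obtain ⟨z, h1, h2⟩ := h p q.reverse hp (by simpa only [Walk.support_reverse, List.mem_reverse, Prod.forall] using hq)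
  exact ⟨z, h1, by simpa [Walk.support_reverse] using h2⟩

theorem cross3 (hX : CrossStmt) : Cross3 (bB 0) := by
  intro N a ha b hb c hc d hd hab hac had hbc hbd hcd
  rcases Nat.eq_zero_or_pos N with rfl | hN
  · exfalso
    apply hab
    have h0 : ∀ x ∈ bB 0 0, x = 0 := by
      rintro x ⟨⟨h1, h2⟩, -⟩
      simp only [Prod.fst_zero, sub_zero, Nat.cast_zero, abs_nonpos_iff, Prod.snd_zero] at h1 h2
      exact Prod.ext h1 h2
    rw [h0 a ha, h0 b hb]
  · obtain ⟨ka, -, -, rfl⟩ := bd_surj hN ha 0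
    obtain ⟨kb, b1, b2, rfl⟩ := bd_surj hN hb ka
    obtain ⟨kc, c1, c2, rfl⟩ := bd_surj hN hc ka
    obtain ⟨kd, d1, d2, rfl⟩ := bd_surj hN hd ka
    have nab : ka ≠ kb := fun h => hab (by rw [h])
    have nac : ka ≠ kc := fun h => hac (by rw [h])
    have nad : ka ≠ kd := fun h => had (by rw [h])
    have nbc : kb ≠ kc := fun h => hbc (by rw [h])
    have nbd : kb ≠ kd := fun h => hbd (by rw [h])
    have ncd : kc ≠ kd := fun h => hcd (by rw [h])
    have key : ∀ j k l : ℤ, ka < j → j < k → k < l → l < ka + 8 * N →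
        Crs (bx 0 N) (bd 0 N ka) (bd 0 N k) (bd 0 N j) (bd 0 N l) :=
      fun j k l h1 h2 h3 h4 => fun p q hp hq => hX 0 N hN ka j k l h1 h2 h3 h4 p q hp hq
    rcases lt_or_gt_of_ne nbc with h1 | h1 <;> rcases lt_or_gt_of_ne nbd with h2 | h2 <;>
      rcases lt_or_gt_of_ne ncd with h3 | h3
    · exact Or.inl (key kb kc kd (by omega) h1 h3 d2)
    · exact Or.inr (Or.inr (key kb kd kc (by omega) h2 h3 c2))
    · omega
    · exact Or.inr (Or.inl (key kd kb kc (by omega) h2 h1 c2).rev)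
    · exact Or.inr (Or.inl (key kc kb kd (by omega) h1 h2 d2))
    · omega
    · exact Or.inr (Or.inr (key kc kd kb (by omega) h3 h2 b2).rev)
    · exact Or.inl (key kd kc kb (by omega) h3 h1 b2).rev

variable {G : Measure ℝ} [IsProbabilityMeasure G]

end Vale.Agent.P158.C.S3f
end
end

section

section

/-! Many lines in different components, with probability close to one. -/

namespace Vale.Agent.P158.C.Lin

open Filter Vale.Agent.P158.T1 MeasureTheory SimpleGraph CL
open scoped ENNReal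

/-! ### Measurability -/

theorem measurable_Lin (h : ℝ) (z : V) (N r s : ℕ) (p : ZMod (8 * N) × ZMod (8 * N)) :
    Measurable fun t : Env => Lin h (wt t) z N r s p := by
  unfold Lin On WN TN bT
  refine (mle measurable_const ((measurable_PT _ _ _).sub (measurable_PT _ _ _))).and ?_
  refine Measurable.exists fun v => (mconst _).and ((mconst _).and ?_)
  exact measurableSet_setOfPred.1 (measurableSet_eq_fun
    ((measurable_PT _ _ _).add (measurable_PT _ _ _)) (measurable_PT _ _ _))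

theorem measurableSet_Many (h : ℝ) (n : ℕ) (z : V) (N r s : ℕ) (hN : 0 < N) :
    MeasurableSet {t : Env | Many h n (wt t) z N r s} := by
  have : NeZero (8 * N) := ⟨by omega⟩
  refine Brg.measurableSet_of_Ex (b := fun i : ZMod (8 * N) => bd z N (i.val : ℤ)) (bx z N)
    (bx z N \ bx 0 s) (P := fun E t => ∃ I : Finset (ZMod (8 * N) × ZMod (8 * N)), n ≤ I.card ∧
      (∀ p ∈ I, Lin h (wt t) z N r s p) ∧ ∀ p ∈ I, ∀ q ∈ I, Cn E p q → p = q) fun E => ?_
  rw [measurableSet_setOfPred]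
  exact Measurable.exists fun I => (mconst _).and ((Measurable.forall fun p =>
    (mconst _).imp (measurable_Lin h z N r s p)).and (mconst _))

/-! ### The count -/

section Prob
variable {G : Measure ℝ} [IsProbabilityMeasure G]

/-- All boxes containing `bx 0 m` have many lines. -/
def Ebig (h : ℝ) (n r s m : ℕ) : Set Env :=
  {t | ∀ (N : ℕ) (z : V), 0 < N → bx 0 m ⊆ bx z N → Many h n (wt t) z N r s}

theorem measurableSet_Ebig (h : ℝ) (n r s m : ℕ) : MeasurableSet (Ebig h n r s m) := by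
  unfold Ebig
  rw [measurableSet_setOfPred]
  refine Measurable.forall fun N => Measurable.forall fun z => ?_
  by_cases hN : 0 < N
  · exact (mconst _).imp ((mconst _).imp
      (measurableSet_setOfPred.1 (measurableSet_Many h n z N r s hN)))
  · simp only [hN, false_imp_iff]
    exact mconst _

theorem Ebig_mono (h : ℝ) (n r s : ℕ) : Monotone (Ebig h n r s) :=
  fun _ _ hm _ ht N z hN hz => ht N z hN ((bx_mono hm).trans hz)

/-- The deterministic part: enough translates in the slack event. -/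
theorem exists_Ebig {t : Env} (hw : Adm (wt t)) (hU : Uq (wt t)) (hf : FB (wt t))
    (hNB : ∀ p, ¬ Br (wt t) p) (hS : S3 (wt t)) {h : ℝ} (hh : 0 < h) {C₁ : ℝ} {r s n : ℕ}
    (hrs : r ≤ s) (hL0 : 0 < ⌈C₁ * r⌉₊) (hE : LenE C₁ r t)
    (hn : ((n * ⌈C₁ * r⌉₊ : ℕ) : ℝ) ≤
      ∑ x ∈ Erg.bF 0 r, (SE h).indicator (1 : Env → ℝ) (shE x t)) :
    ∃ m, t ∈ Ebig h n r s m := by
  classical
  set X := (Erg.bF 0 r).filter fun x => shE x t ∈ SE h with hX
  have hcard : ∑ x ∈ Erg.bF 0 r, (SE h).indicator (1 : Env → ℝ) (shE x t) = X.card := by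
    rw [hX, Finset.card_filter]
    push_cast
    refine Finset.sum_congr rfl fun x _ => ?_
    by_cases hx : shE x t ∈ SE h
    · rw [Set.indicator_of_mem hx, if_pos hx]; rfl
    · rw [Set.indicator_of_notMem hx, if_neg hx]
  rw [hcard] at hn
  obtain ⟨N₀, hN₀⟩ := LinB.many_of_points hw hU hf (nb_of_br hw hNB) hh
    (fun v hv hs v' hv' => by
      obtain ⟨i, j, hij⟩ := hS h v v' hh hv hs hv'
      exact ⟨j, i, hij.symm⟩) hrs hL0 X (fun x hx => by
      rw [hX, Finset.mem_filter, Erg.mem_bF] at hx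
      refine ⟨hx.1, mem_SE_sh hw (fun u => ?_) hx.2⟩
      rw [wt_shE]
      exact att_sh hw hf u) (fun v hv F hF => LinB.trace_le hw hE hv F hF)
    (by exact_mod_cast hn)
  exact ⟨N₀, fun N z _ hz => hN₀ N z hz⟩

theorem many_aux (hadm : ∀ᵐ t ∂PG G, Adm (wt t)) (hU : UqStmt G) (hFB : FBStmt G)
    (hNB : ∀ᵐ t ∂PG G, ∀ p, ¬ Br (wt t) p) (hS3 : S3Stmt G) (hLen : LenStmt G) {h : ℝ}
    (hh : 0 < h) (hpos : PG G (SE h) ≠ 0) :
    ∃ c : ℝ, 0 < c ∧ ∀ δ : ℝ, 0 < δ → ∃ r₀ : ℕ, ∀ r ≥ r₀, ∀ s ≥ r, ∃ m : ℕ,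
      PG G (Ebig h ⌈c * r⌉₊ r s m)ᶜ ≤ ENNReal.ofReal δ := by
  obtain ⟨C₁, hC₁, hLen⟩ := hLen
  set d := (PG G).real (SE h) with hd
  have hd0 : 0 < d := by
    rw [hd, measureReal_def]
    exact ENNReal.toReal_pos hpos (measure_ne_top _ _)
  refine ⟨d / (C₁ + 1), by (clear * - hd0 hC₁; positivity), fun δ hδ => ?_⟩
  obtain ⟨r₁, hr₁⟩ := hLen (δ / 4) (by (clear * - hδ; positivity))
  have hη : 0 < min (d / 2) (δ / 4) := lt_min (by positivity) (by positivity)
  obtain ⟨r₂, hr₂⟩ := Erg.erg_lower (G := G) (measurableSet_SE h) hη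
  obtain ⟨r₃, hr₃⟩ := exists_nat_ge ((C₁ + 1) / d)
  refine ⟨max (max r₁ r₂) (max r₃ 1), fun r hr s hs => ?_⟩
  have g1 : r₁ ≤ r := ((le_max_left _ _).trans (le_max_left _ _)).trans hr
  have g2 : r₂ ≤ r := ((le_max_right _ _).trans (le_max_left _ _)).trans hr
  have g3 : r₃ ≤ r := ((le_max_left _ _).trans (le_max_right _ _)).trans hr
  have g4 : 1 ≤ r := ((le_max_right _ _).trans (le_max_right _ _)).trans hr
  have hr1 : (1 : ℝ) ≤ r := by exact_mod_cast g4
  set n := ⌈d / (C₁ + 1) * r⌉₊ with hn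
  set L := ⌈C₁ * r⌉₊ with hL
  -- arithmetic
  have harith : ((n * L : ℕ) : ℝ) ≤ (d - min (d / 2) (δ / 4)) * (2 * r + 1) ^ 2 := by
    have h1 : (n : ℝ) ≤ d / (C₁ + 1) * r + 1 := (Nat.ceil_lt_add_one (by (clear * - hd0 hC₁ g4; positivity))).le
    have h2 : (L : ℝ) ≤ (C₁ + 1) * r := by
      have := (Nat.ceil_lt_add_one (a := C₁ * r) (by positivity)).le
      linarith only [hr1, this]
    have h3 : (C₁ + 1) ≤ d * r := by
      have h4 : (C₁ + 1) / d ≤ r := hr₃.trans (by exact_mod_cast g3)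
      rw [div_le_iff₀ hd0] at h4
      linarith only [h4]
    push_cast
    calc (n : ℝ) * L ≤ (d / (C₁ + 1) * r + 1) * ((C₁ + 1) * r) :=
          mul_le_mul h1 h2 (by (clear * - hC₁ g4; positivity)) (by (clear * - hd0 hC₁ g4; positivity))
      _ = d * r ^ 2 + (C₁ + 1) * r := by (clear * - hC₁ hd0 g4; field_simp)
      _ ≤ d * r ^ 2 + d * r * r := by nlinarith only [h3]
      _ = d / 2 * (2 * r) ^ 2 := by ring
      _ ≤ d / 2 * (2 * r + 1) ^ 2 := by
          refine mul_le_mul_of_nonneg_left ?_ (by positivity)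
          nlinarith only [hr1]
      _ ≤ _ := by
          refine mul_le_mul_of_nonneg_right ?_ (by (clear * - g4; positivity))
          linarith only [min_le_left (d / 2) (δ / 4)]
  -- the two bad events
  set B₁ : Set Env := {t | ¬ LenE C₁ r t} with hB₁
  set B₂ : Set Env := {t | ∑ x ∈ Erg.bF 0 r, (SE h).indicator (1 : Env → ℝ) (shE x t) <
    (d - min (d / 2) (δ / 4)) * (2 * r + 1) ^ 2} with hB₂
  have hb₁ : PG G B₁ ≤ ENNReal.ofReal (δ / 4) := hr₁ r g1
  have hb₂ : PG G B₂ ≤ ENNReal.ofReal (δ / 4) := by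
    rw [← ofReal_measureReal]
    exact ENNReal.ofReal_le_ofReal ((hr₂ r g2 0).trans (min_le_right _ _))
  have hcov : ∀ᵐ t ∂PG G, t ∉ B₁ ∪ B₂ → ∃ m, t ∈ Ebig h n r s m := by
    filter_upwards [hadm, hU, hFB, hNB, hS3] with t e1 e2 e3 e4 e5 ht
    rw [Set.mem_union, not_or] at ht
    have e6 : LenE C₁ r t := not_not.1 ht.1
    have e7 : ¬ (∑ x ∈ Erg.bF 0 r, (SE h).indicator (1 : Env → ℝ) (shE x t) <
      (d - min (d / 2) (δ / 4)) * (2 * r + 1) ^ 2) := ht.2
    rw [not_lt] at e7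
    exact exists_Ebig e1 e2 e3 e4 e5 hh hs (Nat.ceil_pos.2 (by (clear * - hC₁ g4; positivity))) e6 (harith.trans e7)
  have hunion : PG G (⋂ m, (Ebig h n r s m)ᶜ) ≤ ENNReal.ofReal (δ / 2) := by
    have h1 : (⋂ m, (Ebig h n r s m)ᶜ) ⊆
        (B₁ ∪ B₂) ∪ {t | ¬ (t ∉ B₁ ∪ B₂ → ∃ m, t ∈ Ebig h n r s m)} := by
      intro t ht
      by_cases hB : t ∈ B₁ ∪ B₂
      · exact Or.inl hB
      · right
        intro hc
        obtain ⟨m, hm⟩ := hc hB
        exact (Set.mem_iInter.1 ht m) hm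
    calc PG G (⋂ m, (Ebig h n r s m)ᶜ)
        ≤ PG G (B₁ ∪ B₂) + PG G {t | ¬ (t ∉ B₁ ∪ B₂ → ∃ m, t ∈ Ebig h n r s m)} :=
          (measure_mono h1).trans (measure_union_le _ _)
      _ = PG G (B₁ ∪ B₂) := by rw [ae_iff.1 hcov, add_zero]
      _ ≤ PG G B₁ + PG G B₂ := measure_union_le _ _
      _ ≤ ENNReal.ofReal (δ / 4) + ENNReal.ofReal (δ / 4) := add_le_add hb₁ hb₂
      _ = ENNReal.ofReal (δ / 2) := by
          rw [← ENNReal.ofReal_add (by (clear * - hδ; positivity)) (by positivity)]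
          congr 1; ring
  have hlim : Tendsto (fun m => PG G (Ebig h n r s m)ᶜ) atTop
      (nhds (PG G (⋂ m, (Ebig h n r s m)ᶜ))) :=
    tendsto_measure_iInter_atTop
      (fun m => (measurableSet_Ebig h n r s m).compl.nullMeasurableSet)
      (fun i j hij => Set.compl_subset_compl.2 (Ebig_mono h n r s hij))
      ⟨0, measure_ne_top _ _⟩
  have hlt : PG G (⋂ m, (Ebig h n r s m)ᶜ) < ENNReal.ofReal δ :=
    hunion.trans_lt ((ENNReal.ofReal_lt_ofReal_iff hδ).2 (by linarith only [hδ]))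
  obtain ⟨m, hm⟩ := (hlim.eventually_lt_const hlt).exists
  exact ⟨m, hm.le⟩

theorem bx_sub_far {m N : ℕ} {z : V} (h : 2 * m ≤ N) (hz : z ∈ bx 0 (N / 2)) :
    bx 0 m ⊆ bx z N := by
  rintro x ⟨h1, h2⟩
  obtain ⟨h3, h4⟩ := hz
  simp only [Prod.fst_zero, Prod.snd_zero, sub_zero] at h1 h2 h3 h4
  rw [abs_le] at h1 h2 h3 h4
  rw [mem_bx, abs_le, abs_le]
  refine ⟨⟨by omega, by omega⟩, by omega, by omega⟩

/-- (7b) Many lines. -/
theorem many (hadm : ∀ᵐ t ∂PG G, Adm (wt t)) (hU : UqStmt G) (hFB : FBStmt G)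
    (hNB : ∀ᵐ t ∂PG G, ∀ p, ¬ Br (wt t) p) (hS3 : S3Stmt G) (hLen : LenStmt G) :
    ManyStmt G := by
  intro h hh
  by_cases h0 : PG G (SE h) = 0
  · left
    filter_upwards [hadm, hFB, measure_eq_zero_iff_ae_notMem.1 h0] with t hw hf ht hex
    exact ht ((mem_SE_iff hw (att_of_fb hw hf fun _ _ _ _ => conn_univ _ _) h).2 hex)
  · right
    obtain ⟨c, hc, H⟩ := many_aux hadm hU hFB hNB hS3 hLen hh h0
    refine ⟨c, hc, fun δ hδ => ?_⟩
    obtain ⟨r₀, hr₀⟩ := H δ hδ
    refine ⟨r₀, fun r hr => ?_⟩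
    obtain ⟨m, hm⟩ := hr₀ r hr (2 * r) (by omega)
    refine ⟨2 * m + 1, fun N hN z hz => ⟨measurableSet_Many h _ z N r (2 * r) (by omega), ?_⟩⟩
    refine le_trans (measure_mono ?_) hm
    intro t ht hE
    exact ht (hE N z (by (clear * - hN; omega)) (bx_sub_far (by omega) (bx_mono (by omega) hz)))

end Prob

end Vale.Agent.P158.C.Lin
end
end

section

section

/-! Plan C': `SlackStmt` for every atomless law, and no branching from `MrgStmt`. -/

namespace Vale.Agent.P158.C

open Filter MeasureTheory Vale.Agent.P158.T1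

variable {G : Measure ℝ} [IsProbabilityMeasure G]

theorem isBi_shw {w : V → V → ℝ} (hw : Adm w) (u : V) (v : ℤ → V) :
    IsBi (sh u w) v ↔ IsBi w (fun i => v i + u) :=
  forall_congr' fun _ => IsRay_sh hw u _

/-- No bigeodesics through `0` means no bigeodesics. -/
theorem no_bi_of_zero [NullSingletonClass G] (hG : G (Set.Iio 0) = 0)
    (h : ∀ᵐ t ∂PG G, ∀ v : ℤ → V, IsBi (wt t) v → v 0 ≠ 0) :
    ∀ᵐ t ∂PG G, ∀ v : ℤ → V, ¬ IsBi (wt t) v := by
  filter_upwards [ae_adm hG, ae_shift h] with t hw ht v hv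
  have h1 := ht (v 0) (fun i => v i - v 0)
  rw [wt_shE] at h1
  refine h1 ?_ (by simp)
  rw [isBi_shw hw]
  simpa using hv

theorem slack [NullSingletonClass G] (hG : G (Set.Iio 0) = 0) : SlackStmt G := by
  by_cases hc : ∃ η : ℝ, 0 < η ∧
      ¬ ∀ᵐ t ∂PG G, ¬ ∃ v : ℤ → V, IsBi (wt t) v ∧ v 0 = 0 ∧ SL η (wt t) v
  · obtain ⟨η, hη, hc⟩ := hc
    exact ⟨η, hη, fun h => absurd h hc⟩
  · push Not at hc
    refine ⟨1, one_pos, fun _ => no_bi_of_zero hG ?_⟩
    have := robust_gen hG (fun _ => True) fun η hη => by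
      filter_upwards [hc η hη] with t ht v hv hv0 _ hs
      exact ht v hv hv0 hs
    filter_upwards [this] with t ht v hv hv0
    exact ht v hv hv0 trivial

theorem nb [NullSingletonClass G] (hG : G (Set.Iio 0) = 0) (hFB : FBStmt G) (hM : MrgStmt G) :
    ∀ᵐ t ∂PG G, ∀ p, ¬ Br (wt t) p :=
  nb_of_merge hG hFB hM

end Vale.Agent.P158.C
end
end

section

section

/-! Composition of the modules of Plan C'. -/

namespace Vale.Agent.P158.C.Fin

open SimpleGraph MeasureTheory Filter Vale.Agent.P158.T1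
open scoped ENNReal

variable {G : Measure ℝ} [IsProbabilityMeasure G]

omit [IsProbabilityMeasure G] in
theorem Iic_zero [NullSingletonClass G] (hG : G (Set.Iio 0) = 0) : G (Set.Iic 0) = 0 := by
  rw [← Set.Iio_union_right, measure_union_null_iff]
  exact ⟨hG, measure_singleton _⟩

/-- Levels for every atomless law. -/
theorem exists_levels [NullSingletonClass G] (hG : G (Set.Iio 0) = 0) {η : ℝ} (h0 : 0 < η)
    (h1 : η < 1) : ∃ α β : ℝ, 0 < α ∧ α < β ∧ G (Set.Iic α) = ENNReal.ofReal (η / 2) ∧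
      G (Set.Iic β) = ENNReal.ofReal η := by
  obtain ⟨β, -, -, hβ, -⟩ := LowEdge.exists_quantile (G := G) h0 h1
  obtain ⟨α, -, -, hα, -⟩ := LowEdge.exists_quantile (G := G) (δ := η / 2) (by positivity)
    (by linarith only [h1])
  refine ⟨α, β, ?_, ?_, hα, hβ⟩
  · by_contra hc
    have : G (Set.Iic α) ≤ G (Set.Iic 0) := measure_mono (Set.Iic_subset_Iic.2 (not_lt.1 hc))
    rw [Iic_zero hG, hα] at this
    have h2 : (0 : ℝ≥0∞) < ENNReal.ofReal (η / 2) := ENNReal.ofReal_pos.2 (by positivity)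
    exact absurd this (not_le.2 h2)
  · by_contra hc
    have : G (Set.Iic β) ≤ G (Set.Iic α) := measure_mono (Set.Iic_subset_Iic.2 (not_lt.1 hc))
    rw [hα, hβ, ENNReal.ofReal_le_ofReal_iff (by positivity)] at this
    linarith only [h0, this]

theorem rp_levels [NullSingletonClass G] (hG : G (Set.Iio 0) = 0) {η : ℝ} (h0 : 0 < η)
    (h1 : η < 1) {α β : ℝ} (hαβ : α < β) (hα : G (Set.Iic α) = ENNReal.ofReal (η / 2))
    (hβ : G (Set.Iic β) = ENNReal.ofReal η) : RP G α β 0 where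
  prob := inferInstance
  lt := hαβ
  lo := by
    rw [hα]
    exact (ENNReal.ofReal_pos.2 (by (clear * - h0; positivity))).ne'
  hi := by
    intro h
    have h2 : (1 : ℝ≥0∞) ≤ G (Set.Iic β) + G (Set.Ici β) := by
      rw [← measure_univ (μ := G)]
      refine (measure_mono ?_).trans (measure_union_le _ _)
      intro x _
      exact (le_total x β).imp id id
    rw [h, add_zero, hβ, ← ENNReal.ofReal_one, ENNReal.ofReal_le_ofReal_iff h0.le] at h2
    linarith only [h1, h2]
  nonneg := le_rfl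
  le_one := zero_le_one
  pos := Iic_zero hG

/-- Every atomless law with finite mean, given `MrgStmt` and `S3Stmt`. -/
theorem fin [NullSingletonClass G] (hG : G (Set.Iio 0) = 0)
    (hmean : ∫⁻ s, ENNReal.ofReal s ∂G ≠ ∞) (hM : MrgStmt G)
    (hS3 : FBStmt G → (∀ᵐ t ∂PG G, ∀ p, ¬ Br (wt t) p) → S3Stmt G) :
    ∀ᵐ t ∂PG G, ∀ v : ℤ → V, ¬ IsBi (wt t) v := by
  obtain ⟨α, β, hα, hαβ, hlo, hhi⟩ := exists_levels (G := G) hG (η := 1 / 16) (by norm_num)
    (by norm_num)
  have hrp : RP G α β 0 := rp_levels hG (by norm_num) (by norm_num) hαβ hlo hhi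
  have hβ : G (Set.Iio β) ≤ 1 / 16 := by
    refine (measure_mono Set.Iio_subset_Iic_self).trans ?_
    rw [hhi, ENNReal.ofReal_div_of_pos (by norm_num)]
    simp
  have hFB : FBStmt G := PathP.fb hG
  have hNB := nb hG hFB hM
  have hS := hS3 hFB hNB
  have hadm : ∀ᵐ t ∂PG G, Adm (wt t) := ae_adm hG
  have hMany : ManyStmt G := Lin.many hadm UqAE.uq_ae hFB hNB hS (GoodLen.len_of hG hmean)
  obtain ⟨h, hh, hs⟩ := slack (G := G) hG
  exact hs (Main.no_slack G hG hα hαβ (Ring.kal Cross.cross) Ring.ringConn GainDet.gainDet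
    MH.measHeavy (GoodLen.good_of hG hmean) (PathP.ag hβ) hMany
    (UpAv.up hG (UpDet.upDet Cross.cross)) (Lv.levels hrp) hh)

/-- Transfer to independent edge weights on a probability space. -/
theorem transfer [NullSingletonClass G] (hG : G (Set.Iio 0) = 0)
    (h : ∀ᵐ t ∂PG G, ∀ v : ℤ → V, ¬ IsBi (wt t) v)
    (Ω : Type*) [MeasurableSpace Ω] (P : Measure Ω) [IsProbabilityMeasure P]
    (t : latt.edgeSet → Ω → ℝ) (ht : ∀ e, Measurable (t e)) (hlaw : ∀ e, P.map (t e) = G)
    (hind : ProbabilityTheory.iIndepFun t P) :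
    ∀ᵐ ω ∂P, ∀ v : ℤ → V, ¬ IsBigeodesic (fun e => t e ω) v := by
  have hmap : P.map (fun ω e => t e ω) = PG G := by
    have h1 := hind.map_fun_eq_infinitePi_map ht
    rw [h1]
    unfold PG
    simp only [hlaw]
  have h2 : ∀ᵐ τ ∂(P.map (fun ω e => t e ω)), (Adm (wt τ) ∧ ∀ v : ℤ → V, ¬ IsBi (wt τ) v) := by
    rw [hmap]
    exact (ae_adm hG).and h
  have h3 := ae_of_ae_map (measurable_pi_lambda _ ht).aemeasurable h2
  filter_upwards [h3] with ω ⟨h4, h5⟩ v hv
  exact h5 v (hv.isBi h4)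

end Vale.Agent.P158.C.Fin
end
end

section

section

/-! (S3) for laws without atoms, deterministic part: lowering finitely many edges of two disjoint
bigeodesics creates a branch point. -/

namespace Vale.Agent.P158.C.S3g

open Filter T1 SimpleGraph MeasureTheory Low S3f

variable {t t' : Env} {v v' : ℤ → V} {P P' : ℤ → ℝ}

theorem pe_copy {x y x' y' : V} (p : latt.Walk x y) (hx : x = x') (hy : y = y') :
    pe (p.copy hx hy) = pe p := by
  subst hx hy
  rfl

/-- A segment of a bigeodesic as a walk, with its edges. -/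
theorem exists_seg' {w : V → V → ℝ} (hv : ∀ k, latt.Adj (v k) (v (k + 1))) (hP : PosF w v P)
    {i j : ℤ} (hij : i ≤ j) : ∃ p : latt.Walk (v i) (v j), ww w p = P j - P i ∧
      (∀ z ∈ p.support, ∃ k, i ≤ k ∧ k ≤ j ∧ z = v k) ∧
      ∀ (e : latt.edgeSet) (k : ℤ), i ≤ k → k < j → e.1 = s(v k, v (k + 1)) → e ∈ pe p := by
  obtain ⟨n, rfl⟩ := Int.le.dest hij
  clear hij
  induction n with
  | zero =>
    refine ⟨(Walk.nil : latt.Walk (v i) (v i)).copy rfl (by simp), ?_, ?_, ?_⟩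
    · simp [ww]
    · intro z hz
      simp at hz
      exact ⟨i, le_rfl, by simp, hz⟩
    · intro e k h1 h2
      exfalso
      simp only [Nat.cast_zero, add_zero] at h2
      omega
  | succ n ih =>
    obtain ⟨p, hp, hp', hp''⟩ := ih
    have h := hv (i + n)
    refine ⟨(p.append (Walk.cons h Walk.nil)).copy rfl (by push_cast; rw [add_assoc]), ?_, ?_, ?_⟩
    · have e : ww w ((p.append (Walk.cons h Walk.nil)).copy rfl
          (by push_cast; rw [add_assoc] : v (i + n + 1) = v (i + ((n + 1 : ℕ) : ℤ)))) =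
          ww w (p.append (Walk.cons h Walk.nil)) := by
        unfold ww; rw [Walk.darts_copy]
      rw [e, ww_append, hp, ww_cons, ww_nil]
      have := hP (i + n)
      have e2 : i + ((n + 1 : ℕ) : ℤ) = i + n + 1 := by push_cast; ring
      rw [e2, this]
      ring
    · intro z hz
      rw [Walk.support_copy, Walk.mem_support_append_iff] at hz
      rcases hz with hz | hz
      · obtain ⟨k, h1, h2, h3⟩ := hp' z hz
        exact ⟨k, h1, by push_cast; omega, h3⟩
      · simp at hz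
        rcases hz with rfl | rfl
        · exact ⟨i + n, by omega, by push_cast; omega, rfl⟩
        · exact ⟨i + n + 1, by omega, by push_cast; omega, rfl⟩
    · intro e k h1 h2 he
      rw [pe_copy, mem_pe_append, mem_pe_cons]
      rcases lt_or_eq_of_le (show k ≤ i + n by push_cast at h2; omega) with h3 | h3
      · exact Or.inl (hp'' e k h1 h3 he)
      · subst h3
        exact Or.inr (Or.inl (Subtype.ext he))

/-- Lowering data. -/
structure LD (t t' : Env) (v v' : ℤ → V) (P P' : ℤ → ℝ) (R F : Finset latt.edgeSet)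
    (i0 j0 j1 : ℤ) (K h η : ℝ) : Prop where
  ht : ∀ e, 0 < t e
  ht' : ∀ e ∈ R ∪ F, 0 < t' e ∧ t' e ≤ t e
  hf0 : FB (wt t)
  hf : ∀ S ⊆ R ∪ F, FB (wt (mix S t t'))
  hv : IsBi (wt t) v
  hv' : IsBi (wt t) v'
  hP : PosF (wt t) v P
  hP' : PosF (wt t) v' P'
  hO : Ord (wt t) v v' P P'
  hdis : ∀ i j, v i ≠ v' j
  hR : ∀ e ∈ R, ∃ k, i0 ≤ k ∧ e.1 = s(v k, v (k + 1))
  hF : ∀ e ∈ F, ∃ k, k + 1 ≤ j1 ∧ e.1 = s(v' k, v' (k + 1))
  hj : j1 ≤ j0
  hK : T (wt t) (v i0) (v' j0) ≤ K
  hK0 : 0 < K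
  hd : h ≤ bR (wt t) (rv v) (rvP P) (v' j0) + bR (wt t) (rv v') (rvP P') (v i0) - P i0 - P' j0
  h1 : ∀ e : latt.edgeSet, e.1 = s(v i0, v (i0 + 1)) → e ∈ R ∧ h ≤ t e - t' e
  hη : η < h
  hη0 : 0 ≤ η
  hs : ∀ e ∈ F, t e - t' e ≤ η
  hD : 4 * K + η < ∑ e ∈ R, (t e - t' e)
  hDF : 2 * K < ∑ e ∈ F, (t e - t' e)
  hΛ : 5 * K + η ≤ P' j0 - P' j1

variable {R F : Finset latt.edgeSet} {i0 j0 j1 : ℤ} {K h η : ℝ}

theorem att_of (ht : ∀ e, 0 < t e) (hf : FB (wt t)) : Att (wt t) Set.univ :=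
  att_of_fb (adm_of_pos ht) hf fun a _ b _ => conn_univ a b

/-- Positions of the lowered edges are bounded. -/
theorem exists_N (R F : Finset latt.edgeSet) (v v' : ℤ → V) (i0 j0 j1 : ℤ)
    (hR : ∀ e ∈ R, ∃ k, i0 ≤ k ∧ e.1 = s(v k, v (k + 1)))
    (hF : ∀ e ∈ F, ∃ k, k + 1 ≤ j1 ∧ e.1 = s(v' k, v' (k + 1))) :
    ∃ N : ℤ, (∀ e ∈ R, ∃ k, i0 ≤ k ∧ k < N ∧ e.1 = s(v k, v (k + 1))) ∧
      (∀ e ∈ F, ∃ k, -N ≤ k ∧ k + 1 ≤ j1 ∧ e.1 = s(v' k, v' (k + 1))) ∧
      i0 ≤ N ∧ -N ≤ i0 ∧ j0 ≤ N ∧ -N ≤ j0 := by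
  classical
  choose! f hf using hR
  choose! g hg using hF
  obtain ⟨A, hA⟩ := (R.finite_toSet.image f).bddAbove
  obtain ⟨B, hB⟩ := (F.finite_toSet.image g).bddBelow
  refine ⟨|A| + |B| + |i0| + |j0| + 1, fun e he => ?_, fun e he => ?_, ?_, ?_, ?_, ?_⟩
  · have h1 := hA ⟨e, he, rfl⟩
    refine ⟨f e, (hf e he).1, ?_, (hf e he).2⟩
    have := le_abs_self A
    have := abs_nonneg B
    have := abs_nonneg i0
    have := abs_nonneg j0
    omega
  · have h1 := hB ⟨e, he, rfl⟩
    refine ⟨g e, ?_, (hg e he).1, (hg e he).2⟩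
    have := abs_nonneg A
    have := neg_abs_le B
    have := abs_nonneg i0
    have := abs_nonneg j0
    omega
  all_goals
    have := abs_nonneg A
    have := abs_nonneg B
    have := abs_nonneg i0
    have := abs_nonneg j0
    have := le_abs_self i0
    have := le_abs_self j0
    have := neg_abs_le i0
    have := neg_abs_le j0
    omega

theorem mix_union_erase (t t' : Env) (R L : Finset latt.edgeSet) {e : latt.edgeSet}
    (he : e ∈ L) : mix {e} (mix (R ∪ L.erase e) t t') t' = mix (R ∪ L) t t' := by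
  classical
  funext f
  by_cases h : f = e
  · subst h
    rw [mix_of_mem (Finset.mem_singleton_self _), mix_of_mem (Finset.mem_union_right R he)]
  · rw [mix_of_not_mem (by simpa using h)]
    by_cases h' : f ∈ R ∪ L
    · rw [mix_of_mem h', mix_of_mem]
      rw [Finset.mem_union] at h' ⊢
      rcases h' with h' | h'
      · exact Or.inl h'
      · exact Or.inr (Finset.mem_erase.2 ⟨h, h'⟩)
    · rw [mix_of_not_mem h', mix_of_not_mem]
      rw [Finset.mem_union, not_or] at h' ⊢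
      exact ⟨h'.1, fun hh => h'.2 (Finset.mem_of_mem_erase hh)⟩


section

variable (d : LD t t' v v' P P' R F i0 j0 j1 K h η)
include d

theorem LD.pos {S : Finset latt.edgeSet} (hS : S ⊆ R ∪ F) (e : latt.edgeSet) :
    0 < mix S t t' e := mix_pos d.ht (fun e he => (d.ht' e (hS he)).1) e

theorem LD.adm {S : Finset latt.edgeSet} (hS : S ⊆ R ∪ F) : Adm (wt (mix S t t')) :=
  adm_of_pos (d.pos hS)

theorem LD.att {S : Finset latt.edgeSet} (hS : S ⊆ R ∪ F) :
    Att (wt (mix S t t')) Set.univ := att_of (d.pos hS) (d.hf S hS)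

omit d in
theorem LD.sub {L : Finset latt.edgeSet} (hL : L ⊆ F) : R ∪ L ⊆ R ∪ F :=
  Finset.union_subset_union_right hL

/-- A minimal set of left edges. -/
theorem LD.exists_min {x y : V}
    (hF : T (wt (mix (R ∪ F) t t')) x y < T (wt (mix R t t')) x y) :
    ∃ L ⊆ F, T (wt (mix (R ∪ L) t t')) x y < T (wt (mix R t t')) x y ∧
      T (wt (mix R t t')) x y - η ≤ T (wt (mix (R ∪ L) t t')) x y := by
  classical
  obtain ⟨L, hLm, hmin⟩ := (F.powerset.filter fun L =>
    T (wt (mix (R ∪ L) t t')) x y < T (wt (mix R t t')) x y).exists_min_image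
      Finset.card ⟨F, by simp [hF]⟩
  rw [Finset.mem_filter, Finset.mem_powerset] at hLm
  obtain ⟨hLF, hL⟩ := hLm
  refine ⟨L, hLF, hL, ?_⟩
  obtain ⟨e, he⟩ : L.Nonempty := by
    rw [Finset.nonempty_iff_ne_empty]
    rintro rfl
    rw [Finset.union_empty] at hL
    exact lt_irrefl _ hL
  have h1 : T (wt (mix R t t')) x y ≤ T (wt (mix (R ∪ L.erase e) t t')) x y := by
    by_contra hcon
    push Not at hcon
    have := hmin (L.erase e) (by
      rw [Finset.mem_filter, Finset.mem_powerset]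
      exact ⟨(Finset.erase_subset _ _).trans hLF, hcon⟩)
    rw [Finset.card_erase_of_mem he] at this
    have hpos : 0 < L.card := Finset.card_pos.2 ⟨e, he⟩
    omega
  obtain ⟨p, -, hp⟩ := d.att (LD.sub hLF) x (Set.mem_univ _) y (Set.mem_univ _)
  have hpp : p.IsPath := isPath_of_geo (d.adm (LD.sub hLF)) hp
  have hsub : R ∪ L.erase e ⊆ R ∪ F := LD.sub ((Finset.erase_subset _ _).trans hLF)
  by_cases heR : e ∈ R
  · -- impossible, but harmless
    have h2 : mix (R ∪ L.erase e) t t' = mix (R ∪ L) t t' := by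
      funext f
      by_cases h : f ∈ R ∪ L
      · rw [mix_of_mem h, mix_of_mem]
        rw [Finset.mem_union] at h ⊢
        rcases h with h | h
        · exact Or.inl h
        · by_cases hfe : f = e
          · exact Or.inl (hfe ▸ heR)
          · exact Or.inr (Finset.mem_erase.2 ⟨hfe, h⟩)
      · rw [mix_of_not_mem h, mix_of_not_mem]
        rw [Finset.mem_union, not_or] at h ⊢
        exact ⟨h.1, fun hh => h.2 (Finset.mem_of_mem_erase hh)⟩
    rw [h2] at h1
    linarith only [hL, h1]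
  · have heq : mix (R ∪ L.erase e) t t' e = t e := by
      rw [mix_of_not_mem]
      simp [heR]
    have h3 := ww_mix_ge (F := {e}) (t := mix (R ∪ L.erase e) t t') (t' := t') (by
      intro f hf
      rw [Finset.mem_singleton] at hf
      subst hf
      rw [heq]
      exact (d.ht' f (Finset.mem_union_right R (hLF he))).2) hpp
    rw [mix_union_erase t t' R L he, Finset.sum_singleton, heq] at h3
    have h4 := T_le (d.adm hsub) p
    have h5 := d.hs e (hLF he)
    have h6 : ww (wt (mix (R ∪ L) t t')) p = T (wt (mix (R ∪ L) t t')) x y := hp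
    linarith only [h1, h3, h4, h5, h6]

/-- The merge vertices stay in a finite set. -/
theorem LD.ball : ∃ B : Set V, B.Finite ∧ ∀ L ⊆ F, ∀ p : V,
    (∃ e ∈ L, ∃ z ∈ e.1, ∃ e' ∈ R, ∃ m ∈ e'.1,
      T (wt (mix (R ∪ L) t t')) z p ≤ T (wt t) z m) → p ∈ B := by
  classical
  have hfin : ∀ e : Sym2 V, {z : V | z ∈ e}.Finite := by
    intro e
    induction e using Sym2.ind with
    | _ a b =>
      refine (Set.toFinite {a, b}).subset fun z hz => ?_
      simpa using hz
  have hball : ∀ L ⊆ F, ∀ (z : V) (c : ℝ), {p | T (wt (mix (R ∪ L) t t')) z p ≤ c}.Finite := by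
    intro L hL z c
    refine (d.hf _ (LD.sub hL) (T (wt (mix (R ∪ L) t t')) 0 z + c)).subset fun p hp => ?_
    have h1 := T_triangle (d.adm (LD.sub hL)) 0 z p
    have h2 : T (wt (mix (R ∪ L) t t')) z p ≤ c := hp
    show T (wt (mix (R ∪ L) t t')) 0 p ≤ _
    linarith only [h1, h2]
  refine ⟨⋃ L ∈ {L : Finset latt.edgeSet | L ⊆ F}, ⋃ e ∈ (L : Set latt.edgeSet),
    ⋃ z ∈ {z : V | z ∈ e.1}, ⋃ e' ∈ (R : Set latt.edgeSet), ⋃ m ∈ {m : V | m ∈ e'.1},
      {p | T (wt (mix (R ∪ L) t t')) z p ≤ T (wt t) z m}, ?_, ?_⟩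
  · refine Set.Finite.biUnion ?_ fun L hL => ?_
    · refine (F.powerset.finite_toSet).subset fun L hL => ?_
      simpa only [Finset.coe_powerset, Set.mem_preimage, Set.mem_powerset_iff, SetLike.coe_subset_coe,     Set.mem_ofPred_eq] using hL
    · refine Set.Finite.biUnion L.finite_toSet fun e _ => ?_
      refine Set.Finite.biUnion (hfin _) fun z _ => ?_
      refine Set.Finite.biUnion R.finite_toSet fun e' _ => ?_
      exact Set.Finite.biUnion (hfin _) fun m _ => hball L hL z _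
  · rintro L hL p ⟨e, he, z, hz, e', he', m, hm, hp⟩
    simp only [Set.mem_iUnion]
    exact ⟨L, hL, e, he, z, hz, e', he', m, hm, hp⟩

end

/-- The walks for a given `n`. -/
structure Wk (t : Env) (v v' : ℤ → V) (P P' : ℤ → ℝ) (R F : Finset latt.edgeSet) (i0 j0 j1 n : ℤ)
    (l₁ : latt.Walk (v (-n)) (v i0)) (l₂ : latt.Walk (v i0) (v n))
    (l' : latt.Walk (v' (-n)) (v' j0)) : Prop where
  w1 : ww (wt t) l₁ = P i0 - P (-n)
  w2 : ww (wt t) l₂ = P n - P i0
  w' : ww (wt t) l' = P' j0 - P' (-n)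
  s1 : ∀ z ∈ l₁.support, ∃ k, z = v k
  s2 : ∀ z ∈ l₂.support, ∃ k, z = v k
  hR : ∀ e ∈ R, e ∈ pe l₂
  hF : ∀ e ∈ F, e ∈ pe l'
  n1 : i0 ≤ n
  n2 : -n ≤ i0
  n3 : j0 ≤ n
  n4 : -n ≤ j0
  n5 : ∀ e ∈ R, ∃ k, i0 ≤ k ∧ k < n ∧ e.1 = s(v k, v (k + 1))
  n6 : ∀ e ∈ F, ∃ k, -n ≤ k ∧ k + 1 ≤ j1 ∧ e.1 = s(v' k, v' (k + 1))

section

variable (d : LD t t' v v' P P' R F i0 j0 j1 K h η)
include d

theorem LD.exists_wk : ∃ N : ℤ, ∀ n : ℤ, N ≤ n → ∃ (l₁ : latt.Walk (v (-n)) (v i0))
    (l₂ : latt.Walk (v i0) (v n)) (l' : latt.Walk (v' (-n)) (v' j0)),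
    Wk t v v' P P' R F i0 j0 j1 n l₁ l₂ l' := by
  obtain ⟨N, hN1, hN2, hN3, hN4, hN5, hN6⟩ := exists_N R F v v' i0 j0 j1 d.hR d.hF
  refine ⟨N, fun n hn => ?_⟩
  obtain ⟨l₁, a1, a2, -⟩ := exists_seg' (isBi_adj d.hv) d.hP (show -n ≤ i0 by omega)
  obtain ⟨l₂, b1, b2, b3⟩ := exists_seg' (isBi_adj d.hv) d.hP (show i0 ≤ n by omega)
  obtain ⟨l', c1, -, c3⟩ := exists_seg' (isBi_adj d.hv') d.hP' (show -n ≤ j0 by omega)
  have hj := d.hj
  refine ⟨l₁, l₂, l', a1, b1, c1, ?_, ?_, ?_, ?_, by omega, by omega, by omega, by omega, ?_, ?_⟩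
  · intro z hz
    obtain ⟨k, -, -, hk⟩ := a2 z hz
    exact ⟨k, hk⟩
  · intro z hz
    obtain ⟨k, -, -, hk⟩ := b2 z hz
    exact ⟨k, hk⟩
  · intro e he
    obtain ⟨k, h1, h2, h3⟩ := hN1 e he
    exact b3 e k h1 (by omega) h3
  · intro e he
    obtain ⟨k, h1, h2, h3⟩ := hN2 e he
    exact c3 e k (by omega) (by omega) h3
  · intro e he
    obtain ⟨k, h1, h2, h3⟩ := hN1 e he
    exact ⟨k, h1, by omega, h3⟩
  · intro e he
    obtain ⟨k, h1, h2, h3⟩ := hN2 e he
    exact ⟨k, by omega, h2, h3⟩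

variable {n : ℤ} {l₁ : latt.Walk (v (-n)) (v i0)} {l₂ : latt.Walk (v i0) (v n)}
  {l' : latt.Walk (v' (-n)) (v' j0)} (W : Wk t v v' P P' R F i0 j0 j1 n l₁ l₂ l')
include W

/-- All the left edges are enough. -/
theorem LD.full : T (wt (mix (R ∪ F) t t')) (v' (-n)) (v n) <
    T (wt (mix R t t')) (v' (-n)) (v n) := by
  classical
  have hw : Adm (wt t) := adm_of_pos d.ht
  have hsR : R ⊆ R ∪ F := Finset.subset_union_left
  have hw0 := d.adm hsR
  have hwi := d.adm (Finset.Subset.refl (R ∪ F))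
  have n1 := W.n1
  have n2 := W.n2
  have n3 := W.n3
  have n4 := W.n4
  have T2 : T (wt t) (v i0) (v n) = P n - P i0 := isBi_T d.hv d.hP n1
  have T' : T (wt t) (v' (-n)) (v' j0) = P' j0 - P' (-n) := isBi_T d.hv' d.hP' n4
  have p2 : l₂.IsPath := isPath_of_geo hw (by rw [W.w2, T2])
  have p' : l'.IsPath := isPath_of_geo hw (by rw [W.w', T'])
  have htU : ∀ e ∈ R ∪ F, t' e ≤ t e := fun e he => (d.ht' e he).2
  -- lower bound
  have a1 : T (wt t) (v' (-n)) (v n) - ∑ e ∈ R, (t e - t' e) ≤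
      T (wt (mix R t t')) (v' (-n)) (v n) := by
    obtain ⟨p, -, hp⟩ := d.att hsR _ (Set.mem_univ (v' (-n))) _ (Set.mem_univ (v n))
    have hpp : p.IsPath := isPath_of_geo hw0 hp
    have b1 := ww_mix_ge (F := R) (t := t) (t' := t') (fun e he => htU e (hsR he)) hpp
    have b2 := T_le hw p
    have b3 : ww (wt (mix R t t')) p = T (wt (mix R t t')) (v' (-n)) (v n) := hp
    linarith only [b1, b2, b3]
  have a2 := d.hO i0 n (-n) j0 n1 n4
  -- upper bound
  have a3 := T_triangle hwi (v' (-n)) (v' j0) (v n)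
  have a4 := T_triangle hwi (v' j0) (v i0) (v n)
  have a5 : T (wt (mix (R ∪ F) t t')) (v' j0) (v i0) ≤ K := by
    have b1 := PT_mono_weight (S := Set.univ) hwi (wt_mono (mix_le htU))
      (conn_univ (v' j0) (v i0))
    have b2 := d.hK
    rw [T_comm hw] at b2
    exact b1.trans b2
  have a6 : T (wt (mix (R ∪ F) t t')) (v' (-n)) (v' j0) ≤
      (P' j0 - P' (-n)) - ∑ e ∈ F, (t e - t' e) := by
    have b1 := T_le hwi l'
    have b2 : ww (wt (mix (R ∪ F) t t')) l' ≤ ww (wt (mix F t t')) l' := by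
      refine ww_mono (wt_mono fun e => ?_) l'
      by_cases hh : e ∈ F
      · rw [mix_of_mem hh, mix_of_mem (Finset.mem_union_right R hh)]
      · rw [mix_of_not_mem hh]
        exact mix_le htU e
    have b3 := ww_mix_eq (t := t) (t' := t') p' W.hF
    rw [W.w'] at b3
    linarith only [b1, b2, b3]
  have a7 : T (wt (mix (R ∪ F) t t')) (v i0) (v n) ≤
      (P n - P i0) - ∑ e ∈ R, (t e - t' e) := by
    have b1 := T_le hwi l₂
    have b2 : ww (wt (mix (R ∪ F) t t')) l₂ ≤ ww (wt (mix R t t')) l₂ :=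
      ww_mono (wt_mono (mix_union_le htU)) l₂
    have b3 := ww_mix_eq (t := t) (t' := t') p2 W.hR
    rw [W.w2] at b3
    linarith only [b1, b2, b3]
  have a8 := d.hDF
  have a9 := d.hK
  linarith only [a1, a2, a3, a4, a5, a6, a7, a8, a9]

theorem LD.data {L : Finset latt.edgeSet} (hL : L ⊆ F)
    (h1 : T (wt (mix (R ∪ L) t t')) (v' (-n)) (v n) < T (wt (mix R t t')) (v' (-n)) (v n))
    (h2 : T (wt (mix R t t')) (v' (-n)) (v n) - η ≤ T (wt (mix (R ∪ L) t t')) (v' (-n)) (v n)) :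
    Data t t' Set.univ R L l₁ l₂ l' K h η (P' j0 - P' j1) := by
  classical
  have hw : Adm (wt t) := adm_of_pos d.ht
  have hsR : R ⊆ R ∪ F := Finset.subset_union_left
  have hw0 := d.adm hsR
  have n1 := W.n1
  have n2 := W.n2
  have n3 := W.n3
  have n4 := W.n4
  have T1 : T (wt t) (v (-n)) (v i0) = P i0 - P (-n) := isBi_T d.hv d.hP n2
  have T2 : T (wt t) (v i0) (v n) = P n - P i0 := isBi_T d.hv d.hP n1
  have T3 : T (wt t) (v (-n)) (v n) = P n - P (-n) := isBi_T d.hv d.hP (by omega)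
  have T' : T (wt t) (v' (-n)) (v' j0) = P' j0 - P' (-n) := isBi_T d.hv' d.hP' n4
  have le0 : ∀ a b, latt.Adj a b → wt (mix R t t') a b ≤ wt t a b :=
    wt_mono (mix_le fun e he => (d.ht' e (hsR he)).2)
  have T0le : ∀ a b, T (wt (mix R t t')) a b ≤ T (wt t) a b := fun a b =>
    PT_mono_weight (S := Set.univ) hw0 le0 (conn_univ a b)
  have hj := d.hj
  refine ⟨d.ht, fun e he => d.ht' e (LD.sub hL he), fun a _ b _ => conn_univ a b,
    att_of d.ht d.hf0, d.att hsR, d.att (LD.sub hL), ⟨fun z _ => Set.mem_univ z, ?_⟩,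
    ⟨fun z _ => Set.mem_univ z, ?_⟩, W.hR, fun e he => W.hF e (hL he), ?_, d.hK, d.hK0, ?_, ?_,
    ?_, d.hη, d.hη0, d.hD, d.hΛ, h1, h2⟩
  · rw [ww_append, W.w1, W.w2]
    exact (show P i0 - P (-n) + (P n - P i0) = P n - P (-n) by ring).trans T3.symm
  · rw [W.w']
    exact T'.symm
  · intro e he he'
    obtain ⟨k, -, -, hk⟩ := W.n6 e (hL he)
    have hz : v' k ∈ (l₁.append l₂).support := mem_supp_of_pe he' (by rw [hk]; simp)
    rw [Walk.mem_support_append_iff] at hz
    rcases hz with hz | hz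
    · obtain ⟨i, hi⟩ := W.s1 _ hz
      exact d.hdis i k hi.symm
    · obtain ⟨i, hi⟩ := W.s2 _ hz
      exact d.hdis i k hi.symm
  · have a1 := d.hO i0 n (-n) j0 n1 n4
    have a2 := d.hK
    show T (wt t) (v' (-n)) (v' j0) + T (wt t) (v i0) (v n) ≤ T (wt t) (v' (-n)) (v n) + K
    linarith only [T2, T', a1, a2]
  · intro e he z hz
    obtain ⟨k, -, k2, hk⟩ := W.n6 e (hL he)
    have hmono := fun (a b : ℤ) (hab : a ≤ b) =>
      PosF.mono hw (isBi_adj d.hv') d.hP' hab
    rw [hk, Sym2.mem_iff] at hz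
    rcases hz with rfl | rfl
    · have b1 : T (wt t) (v' k) (v' j0) = P' j0 - P' k := isBi_T d.hv' d.hP' (by omega)
      have b2 := hmono k j1 (by omega)
      show P' j0 - P' j1 ≤ T (wt t) (v' k) (v' j0)
      linarith only [b1, b2]
    · have b1 : T (wt t) (v' (k + 1)) (v' j0) = P' j0 - P' (k + 1) :=
        isBi_T d.hv' d.hP' (by omega)
      have b2 := hmono (k + 1) j1 (by omega)
      show P' j0 - P' j1 ≤ T (wt t) (v' (k + 1)) (v' j0)
      linarith only [b1, b2]
  · -- the height inequality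
    have key : ∀ k a : ℤ, -n ≤ k → k ≤ j0 → i0 ≤ a → a ≤ n →
        T (wt (mix R t t')) (v (-n)) (v n) + T (wt t) (v' (-n)) (v' k) + h ≤
          T (wt t) (v (-n)) (v' k) + T (wt t) (v' (-n)) (v a) +
            T (wt (mix R t t')) (v a) (v n) := by
      intro k a k1 k2 a1 a2
      have c1 := T_triangle hw0 (v (-n)) (v a) (v n)
      have c2 : T (wt t) (v' (-n)) (v' k) = P' k - P' (-n) := isBi_T d.hv' d.hP' k1
      rcases eq_or_lt_of_le a1 with rfl | a1
      · have c3 := (T0le (v (-n)) (v i0)).trans_eq T1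
        have c4 := bR_le hw (isBi_rv hw d.hv) (posF_rv hw d.hP) (v' k) n
        have c5 := bR_le hw (isBi_rv hw d.hv') (posF_rv hw d.hP') (v i0) n
        have c6 := bR_lip hw (isBi_rv hw d.hv) (posF_rv hw d.hP) (v' j0) (v' k)
        have c7 : T (wt t) (v' k) (v' j0) = P' j0 - P' k := isBi_T d.hv' d.hP' k2
        have c8 := d.hd
        simp only [S3f.rv, rvP, sub_neg_eq_add] at c4 c5
        rw [T_comm hw] at c4 c5 c6
        have e1 : bR (wt t) (fun n => v (-n)) (fun n => -P (-n)) (v' k) =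
          bR (wt t) (S3f.rv v) (rvP P) (v' k) := rfl
        have e2 : bR (wt t) (fun n => v' (-n)) (fun n => -P' (-n)) (v i0) =
          bR (wt t) (S3f.rv v') (rvP P') (v i0) := rfl
        linarith only [c2, c1, c3, c6, c7, c8, c4, c5]
      · have b1 : latt.Adj (v i0) (v (i0 + 1)) := isBi_adj d.hv i0
        obtain ⟨b2, b3⟩ := d.h1 ⟨s(v i0, v (i0 + 1)), b1⟩ rfl
        have c3 := T_triangle hw0 (v (-n)) (v i0) (v a)
        have c4 := T_triangle hw0 (v i0) (v (i0 + 1)) (v a)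
        have c5 := (T0le (v (-n)) (v i0)).trans_eq T1
        have c6 := T_adj_le hw0 b1
        rw [wt_mk _ b1, mix_of_mem b2] at c6
        have c7 := T0le (v (i0 + 1)) (v a)
        have c8 : T (wt t) (v (i0 + 1)) (v a) = P a - P (i0 + 1) :=
          isBi_T d.hv d.hP (by (clear * - a1; omega))
        have c9 := d.hP i0
        rw [wt_mk _ b1] at c9
        have c10 := d.hO (-n) a (-n) k (by omega) k1
        linarith only [c1, c2, b3, c3, c4, c5, c6, c7, c8, c9, c10]
    intro e he q hq e' he' m hm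
    obtain ⟨k, k0, k1, hk⟩ := W.n6 e (hL he)
    obtain ⟨a, a0, a1, ha⟩ := W.n5 e' he'
    rw [hk, Sym2.mem_iff] at hq
    rw [ha, Sym2.mem_iff] at hm
    rcases hq with rfl | rfl <;> rcases hm with rfl | rfl
    · exact key k a k0 (by omega) a0 (by omega)
    · exact key k (a + 1) k0 (by omega) (by omega) (by omega)
    · exact key (k + 1) a (by omega) (by omega) a0 (by omega)
    · exact key (k + 1) (a + 1) (by omega) (by omega) (by omega) (by omega)

end

/-- Lowering creates a branch point. -/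
theorem LD.br (d : LD t t' v v' P P' R F i0 j0 j1 K h η) :
    ∃ L ⊆ F, ∃ p, Br (wt (mix (R ∪ L) t t')) p := by
  classical
  obtain ⟨B, hBf, hB⟩ := d.ball
  obtain ⟨N, hN⟩ := d.exists_wk
  have hw : Adm (wt t) := adm_of_pos d.ht
  obtain ⟨M, hM⟩ := exists_out hw d.hv hBf
  set Q : ℕ → Finset latt.edgeSet → V → Fin 4 → Fin 4 → Prop := fun n L p i i' =>
    p + Pe.stp i ≠ p + Pe.stp i' ∧
    UE (wt (mix (R ∪ L) t t')) Set.univ (v (-(n : ℤ))) (v n) (p + Pe.stp i) p ∧
    UE (wt (mix (R ∪ L) t t')) Set.univ (v' (-(n : ℤ))) (v n) (p + Pe.stp i') p with hQ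
  have H : ∀ᶠ n : ℕ in atTop, ∃ L ∈ F.powerset, ∃ p ∈ B, ∃ i i', Q n L p i i' := by
    filter_upwards [eventually_ge_atTop (max N M).toNat] with n hn
    have hnN : N ≤ n := by have := le_max_left N M; omega
    have hnM : M ≤ n := by have := le_max_right N M; omega
    obtain ⟨l₁, l₂, l', W⟩ := hN n hnN
    obtain ⟨L, hLF, h1, h2⟩ := d.exists_min (d.full W)
    obtain ⟨hg, p, hp, q', hq', hue, hloc⟩ := lowering (d.data W hLF h1 h2)
    have hpB : p ∈ B := hB L hLF p hloc
    have hpx : p ≠ v (-(n : ℤ)) := by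
      rintro rfl
      exact hM (-(n : ℤ)) (Or.inl (by (clear * - hnM; omega))) hpB
    obtain ⟨q, hq, hue'⟩ := exists_pred (d.adm (LD.sub hLF)) hg
      (fun a _ b _ => conn_univ a b) hp hpx
    obtain ⟨i, hi⟩ := Pe.exists_stp hue'.1.symm
    obtain ⟨i', hi'⟩ := Pe.exists_stp hue.1.symm
    refine ⟨L, Finset.mem_powerset.2 hLF, p, hpB, i, i', ?_, ?_, ?_⟩
    · rw [← hi, ← hi']
      rintro rfl
      exact hq' hq
    · rw [← hi]; exact hue'
    · rw [← hi']; exact hue
  have H2 : ∃ L ∈ F.powerset, ∃ p ∈ B, ∃ i i', ∃ᶠ n : ℕ in atTop, Q n L p i i' := by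
    by_contra hcon
    push Not at hcon
    have h3 : ∀ᶠ n : ℕ in atTop, ∀ L ∈ F.powerset, ∀ p ∈ B, ∀ i i', ¬ Q n L p i i' := by
      rw [Filter.eventually_all_finset]
      intro L hL
      rw [Filter.eventually_all_finite hBf]
      intro p hp
      rw [Filter.eventually_all]
      intro i
      rw [Filter.eventually_all]
      intro i'
      exact hcon L hL p hp i i'
    obtain ⟨n, ⟨L, hL, p, hp, i, i', hq⟩, hn⟩ := (H.and h3).exists
    exact hn L hL p hp i i' hq
  obtain ⟨L, hL, p, -, i, i', hfreq⟩ := H2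
  rw [Finset.mem_powerset] at hL
  obtain ⟨n0, hne, hue0, hue0'⟩ := hfreq.exists
  refine ⟨L, hL, p, p + Pe.stp i, p + Pe.stp i', hue0.1, hue0'.1, hne, fun E hE => ?_⟩
  obtain ⟨A, hA⟩ := exists_out hw d.hv hE
  obtain ⟨A', hA'⟩ := exists_out hw d.hv' hE
  obtain ⟨n, ⟨-, hue, hue'⟩, hn⟩ :=
    (hfreq.and_eventually (eventually_ge_atTop (max A A').toNat)).exists
  have hnA : A ≤ n := by have := le_max_left A A'; omega
  have hnA' : A' ≤ n := by have := le_max_right A A'; omega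
  exact ⟨v (-(n : ℤ)), v' (-(n : ℤ)), v n, hA _ (Or.inl (by omega)), hA' _ (Or.inl (by omega)),
    hA _ (Or.inr (by omega)), hue.2.2.2.symm, hue'.2.2.2.symm⟩

end Vale.Agent.P158.C.S3g
end
end

section

section

/-! (S3) for all laws without atoms. -/

namespace Vale.Agent.P158.C.S3g

open Filter T1 SimpleGraph MeasureTheory Low S3f S3m

variable {G : Measure ℝ} [IsProbabilityMeasure G] {t : Env} {v v' : ℤ → V} {P P' : ℤ → ℝ}

theorem sym_inj {w : V → V → ℝ} (hw : Adm w) (hv : IsBi w v) {a b : ℤ}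
    (h : (s(v a, v (a + 1)) : Sym2 V) = s(v b, v (b + 1))) : a = b := by
  have inj := isBi_inj hw hv
  rw [Sym2.eq_iff] at h
  rcases h with ⟨h, -⟩ | ⟨h1, h2⟩
  · exact inj h
  · have a1 := inj h1
    have a2 := inj h2
    omega

omit [IsProbabilityMeasure G] in
/-- A positive discrepancy on the left is impossible. -/
theorem no_disc (ht : ∀ e, 0 < t e) (hf : FB (wt t))
    (hmix : ∀ (F₀ : Finset latt.edgeSet) (lo hi : latt.edgeSet → ℝ),
      (∀ e ∈ F₀, 0 < G (Set.Ioo (lo e) (hi e))) →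
      ∃ t' : Env, (∀ e ∈ F₀, lo e < t' e ∧ t' e < hi e) ∧
        ∀ F ⊆ F₀, FB (wt (mix F t t')) ∧ ∀ p, ¬ Br (wt (mix F t t')) p)
    (hce : ∀ (e : latt.edgeSet) (η : ℝ), 0 < η → ∃ η', 0 < η' ∧ η' < η ∧ Cap G η η' (t e))
    (hcf : ∀ η : ℝ, 0 < η → ∃ η', 0 < η' ∧ η' < η ∧ ∀ u : ℕ → V,
      (∀ k, latt.Adj (u k) (u (k + 1))) → Function.Injective u →
        ∀ N, ∃ k, N ≤ k ∧ Cap G η η' (wt t (u k) (u (k + 1))))
    (hv : IsBi (wt t) v) (hv' : IsBi (wt t) v') (hP : PosF (wt t) v P)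
    (hP' : PosF (wt t) v' P') (hO : Ord (wt t) v v' P P') (hdis : ∀ i j, v i ≠ v' j)
    {i0 j0 : ℤ}
    (hd : 0 < bR (wt t) (rv v) (rvP P) (v' j0) + bR (wt t) (rv v') (rvP P') (v i0) -
      P i0 - P' j0) : False := by
  classical
  have hw : Adm (wt t) := adm_of_pos ht
  set d := bR (wt t) (rv v) (rvP P) (v' j0) + bR (wt t) (rv v') (rvP P') (v i0) -
      P i0 - P' j0 with hddef
  set K := T (wt t) (v i0) (v' j0) + 1 with hKdef
  have hK0 : 0 < K := by
    have := T_nonneg hw (v i0) (v' j0)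
    rw [hKdef]; linarith only [this]
  -- right edges
  set eR : ℕ → latt.edgeSet := fun k => ⟨s(v (i0 + k), v (i0 + k + 1)), isBi_adj hv _⟩ with heR
  obtain ⟨η₁, hη₁, -, hc₁⟩ := hce (eR 0) 1 one_pos
  set h := min d η₁ with hh
  have hh0 : 0 < h := lt_min hd hη₁
  set η := h / 2 with hηdef
  have hη0 : 0 < η := by rw [hηdef]; linarith only [hh0]
  obtain ⟨η₂, hη₂, -, hc₂⟩ := hcf 1 one_pos
  obtain ⟨I, hI, hI'⟩ := exists_finset (hc₂ (fun k : ℕ => v (i0 + k))
    (fun k => by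
      have := isBi_adj hv (i0 + k)
      push_cast
      rwa [← add_assoc])
    (fun a b hab => by
      have := isBi_inj hw hv hab
      omega)) hη₂ (4 * K + η) 1
  -- left edges
  obtain ⟨N, hN⟩ := exists_far hw hf hv' (5 * K + η + |P' 0 - P' j0|)
  obtain ⟨j1, hj1, hj2, hj3⟩ : ∃ j1 : ℤ, j1 ≤ j0 ∧ j1 ≤ 0 ∧ j1 ≤ -N :=
    ⟨min j0 (min 0 (-N)), by omega, by omega, by omega⟩
  have hΛ : 5 * K + η ≤ P' j0 - P' j1 := by
    have a1 := hN j1 (Or.inl hj3)
    rw [T_comm hw, isBi_T hv' hP' hj2] at a1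
    have a2 := le_abs_self (P' 0 - P' j0)
    linarith only [a1, a2]
  set eF : ℕ → latt.edgeSet := fun k => ⟨s(v' (j1 - k - 1), v' (j1 - k - 1 + 1)),
    isBi_adj hv' _⟩ with heF
  obtain ⟨η₃, hη₃, -, hc₃⟩ := hcf η hη0
  have hadj' : ∀ k : ℕ, latt.Adj (v' (j1 - k)) (v' (j1 - ((k + 1 : ℕ) : ℤ))) := by
    intro k
    have := (isBi_adj hv' (j1 - k - 1)).symm
    have e1 : j1 - (k : ℤ) - 1 + 1 = j1 - k := by ring
    have e2 : j1 - (((k + 1 : ℕ)) : ℤ) = j1 - k - 1 := by push_cast; ring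
    rw [e1] at this
    rw [e2]
    exact this
  obtain ⟨J, hJ, hJ'⟩ := exists_finset (hc₃ (fun k : ℕ => v' (j1 - k)) hadj'
    (fun a b hab => by
      have := isBi_inj hw hv' hab
      omega)) hη₃ (2 * K + 1) 0
  -- the capacities in terms of edges
  have hIc : ∀ k ∈ I, 1 ≤ k ∧ Cap G 1 η₂ (t (eR k)) := by
    intro k hk
    refine ⟨(hI k hk).1, ?_⟩
    have h1 := (hI k hk).2
    have hadj : latt.Adj (v (i0 + (k : ℤ))) (v (i0 + k + 1)) := isBi_adj hv _
    have e : v (i0 + ((k + 1 : ℕ) : ℤ)) = v (i0 + k + 1) := by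
      congr 1; push_cast; ring
    simp only [e] at h1
    rwa [wt_mk t hadj] at h1
  have hJc : ∀ k ∈ J, Cap G η η₃ (t (eF k)) := by
    intro k hk
    have h1 := (hJ k hk).2
    have hadj : latt.Adj (v' (j1 - (k : ℤ) - 1)) (v' (j1 - k - 1 + 1)) := isBi_adj hv' _
    have e : v' (j1 - ((k + 1 : ℕ) : ℤ)) = v' (j1 - k - 1) := by
      congr 1; push_cast; ring
    have e' : v' (j1 - (k : ℤ)) = v' (j1 - k - 1 + 1) := by
      congr 1; ring
    simp only [e, e'] at h1
    rw [hw.symm, wt_mk t hadj] at h1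
    exact h1
  set R : Finset latt.edgeSet := insert (eR 0) (I.image eR) with hR
  set F : Finset latt.edgeSet := J.image eF with hF
  have hRF : ∀ e ∈ R, e ∉ F := by
    have key : ∀ k k' : ℕ, eR k ≠ eF k' := by
      intro k k' hkk
      have h1 : (s(v (i0 + k), v (i0 + k + 1)) : Sym2 V) =
        s(v' (j1 - k' - 1), v' (j1 - k' - 1 + 1)) := congrArg Subtype.val hkk
      rw [Sym2.eq_iff] at h1
      rcases h1 with ⟨h1, -⟩ | ⟨h1, -⟩
      · exact hdis _ _ h1
      · exact hdis _ _ h1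
    intro e he he'
    rw [hF, Finset.mem_image] at he'
    obtain ⟨k', -, rfl⟩ := he'
    rw [hR, Finset.mem_insert, Finset.mem_image] at he
    rcases he with he | ⟨k, -, he⟩
    · exact key 0 k' he.symm
    · exact key k k' he
  have hinjR : Function.Injective eR := by
    intro a b hab
    have h1 : (s(v (i0 + a), v (i0 + a + 1)) : Sym2 V) = s(v (i0 + b), v (i0 + b + 1)) :=
      congrArg Subtype.val hab
    have := sym_inj hw hv h1
    omega
  have hinjF : Function.Injective eF := by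
    intro a b hab
    have h1 : (s(v' (j1 - a - 1), v' (j1 - a - 1 + 1)) : Sym2 V) =
      s(v' (j1 - b - 1), v' (j1 - b - 1 + 1)) := congrArg Subtype.val hab
    have := sym_inj hw hv' h1
    omega
  have h0I : eR 0 ∉ I.image eR := by
    rw [Finset.mem_image]
    rintro ⟨k, hk, hk'⟩
    have := hinjR hk'
    have := (hIc k hk).1
    omega
  -- windows
  obtain ⟨t', hwin, hgood⟩ := hmix (R ∪ F)
    (fun e => if e ∈ F then max (t e - η) 0 else max (t e - 1) 0)
    (fun e => if e ∈ F then t e - η₃ else if e = eR 0 then t e - η₁ else t e - η₂) (by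
      intro e he
      by_cases heF' : e ∈ F
      · simp only [if_pos heF']
        rw [hF, Finset.mem_image] at heF'
        obtain ⟨k, hk, rfl⟩ := heF'
        exact hJc k hk
      · simp only [if_neg heF']
        have heR' : e ∈ R := by
          rw [Finset.mem_union] at he
          exact he.resolve_right heF'
        rw [hR, Finset.mem_insert, Finset.mem_image] at heR'
        by_cases h0 : e = eR 0
        · simp only [if_pos h0]
          rw [h0]
          exact hc₁
        · simp only [if_neg h0]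
          obtain ⟨k, hk, rfl⟩ := heR'.resolve_left h0
          exact (hIc k hk).2)
  have wF : ∀ e ∈ F, 0 < t' e ∧ t e - t' e ≤ η ∧ η₃ ≤ t e - t' e := by
    intro e he
    have h1 := hwin e (Finset.mem_union_right R he)
    simp only [if_pos he] at h1
    have h2 := le_max_left (t e - η) 0
    have h3 := le_max_right (t e - η) 0
    exact ⟨by linarith only [h1, h3], by linarith only [h1, h2], by linarith only [h1]⟩
  have w0 : 0 < t' (eR 0) ∧ η₁ ≤ t (eR 0) - t' (eR 0) := by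
    have h0 : eR 0 ∈ R := Finset.mem_insert_self _ _
    have h1 := hwin (eR 0) (Finset.mem_union_left F h0)
    simp only [if_neg (hRF _ h0), if_true] at h1
    have h3 := le_max_right (t (eR 0) - 1) 0
    exact ⟨by linarith only [h1, h3], by linarith only [h1]⟩
  have wR : ∀ e ∈ I.image eR, 0 < t' e ∧ η₂ ≤ t e - t' e := by
    intro e he
    have h0 : e ∈ R := Finset.mem_insert_of_mem he
    have h1 := hwin e (Finset.mem_union_left F h0)
    have hne : e ≠ eR 0 := fun h => h0I (h ▸ he)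
    simp only [if_neg (hRF _ h0), if_neg hne] at h1
    have h3 := le_max_right (t e - 1) 0
    exact ⟨by linarith only [h1, h3], by linarith only [h1]⟩
  have hlow : ∀ e ∈ R ∪ F, 0 < t' e ∧ t' e ≤ t e := by
    intro e he
    rw [Finset.mem_union, hR, Finset.mem_insert] at he
    rcases he with (rfl | he) | he
    · exact ⟨w0.1, by linarith only [hη₁, w0]⟩
    · exact ⟨(wR e he).1, by linarith only [hη₂, (wR e he).2]⟩
    · exact ⟨(wF e he).1, by linarith only [hη₃, (wF e he).2.2]⟩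
  have hD : 4 * K + η < ∑ e ∈ R, (t e - t' e) := by
    rw [hR, Finset.sum_insert h0I]
    have h1 : η₂ * I.card ≤ ∑ e ∈ I.image eR, (t e - t' e) := by
      rw [← Finset.card_image_of_injective I hinjR]
      calc η₂ * (I.image eR).card = ∑ _e ∈ I.image eR, η₂ := by
            rw [Finset.sum_const, nsmul_eq_mul, mul_comm]
        _ ≤ _ := Finset.sum_le_sum fun e he => (wR e he).2
    linarith only [hη₁, hI', w0, h1]
  have hDF : 2 * K < ∑ e ∈ F, (t e - t' e) := by
    have h1 : η₃ * J.card ≤ ∑ e ∈ F, (t e - t' e) := by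
      rw [hF, ← Finset.card_image_of_injective J hinjF]
      calc η₃ * (J.image eF).card = ∑ _e ∈ J.image eF, η₃ := by
            rw [Finset.sum_const, nsmul_eq_mul, mul_comm]
        _ ≤ _ := Finset.sum_le_sum fun e he => (wF e he).2.2
    linarith only [hJ', h1]
  have ld : LD t t' v v' P P' R F i0 j0 j1 K h η := by
    refine ⟨ht, hlow, hf, fun S hS => (hgood S hS).1, hv, hv', hP, hP', hO, hdis, ?_, ?_, hj1,
      ?_, hK0, min_le_left _ _, ?_, ?_, hη0.le, fun e he => (wF e he).2.1, hD, hDF, hΛ⟩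
    · intro e he
      rw [hR, Finset.mem_insert, Finset.mem_image] at he
      rcases he with rfl | ⟨k, -, rfl⟩
      · exact ⟨i0 + ((0 : ℕ) : ℤ), by simp, rfl⟩
      · exact ⟨i0 + k, by (clear * -; omega), rfl⟩
    · intro e he
      rw [hF, Finset.mem_image] at he
      obtain ⟨k, -, rfl⟩ := he
      exact ⟨j1 - k - 1, by omega, rfl⟩
    · rw [hKdef]; linarith only []
    · intro e he
      have h1 : e = eR 0 := by
        refine Subtype.ext ?_
        rw [he]
        simp [heR]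
      subst h1
      exact ⟨Finset.mem_insert_self _ _, (min_le_right _ _).trans w0.2⟩
    · rw [hηdef]; linarith only [hh0]
  obtain ⟨L, hL, p, hp⟩ := ld.br
  exact (hgood _ (LD.sub hL)).2 p hp

/-- (S3): almost surely a slack bigeodesic meets every other bigeodesic. -/
theorem ae_S3 [NullSingletonClass G] (hG : G (Set.Iio 0) = 0)
    (hFB : ∀ᵐ t ∂PG G, FB (wt t)) (hU : ∀ᵐ t ∂PG G, Uniq (wt t))
    (hNB : ∀ᵐ t ∂PG G, ∀ p, ¬ Br (wt t) p) {bd : ℕ → Set V} (hbd : IsBd bd) (hX : Cross3 bd) :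
    ∀ᵐ t ∂PG G, ∀ h : ℝ, 0 < h → ∀ v v' : ℤ → V, IsBi (wt t) v → IsBi (wt t) v' →
      SlkH h (wt t) v → ∃ i j, v i = v' j := by
  filter_upwards [ae_pos G hG, hFB, hU, ae_mix (hFB.and hNB), ae_cap_edge (G := G) hG,
    ae_cap (G := G) hG] with t ht hf hu hmix hce hcf h hh v v' hv hv' hS
  have hw := adm_of_pos ht
  by_contra hcon
  push Not at hcon
  -- a version for ordered pairs
  have key : ∀ (v v' : ℤ → V) (P P' : ℤ → ℝ), IsBi (wt t) v → IsBi (wt t) v' →
      PosF (wt t) v P → PosF (wt t) v' P' → Ord (wt t) v v' P P' → (∀ i j, v i ≠ v' j) →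
      ∀ i j, dR (wt t) (rv v) (rv v') (rvP P) (rvP P') i j ≤ 0 := by
    intro v v' P P' hv hv' hP hP' hO hdis i j
    by_contra hpos
    push Not at hpos
    refine no_disc ht hf hmix hce hcf hv hv' hP hP' hO hdis (i0 := -i) (j0 := -j) ?_
    unfold dR at hpos
    simp only [S3f.rv, rvP] at hpos ⊢
    linarith only [hpos]
  have fin : ∀ (v' : ℤ → V) (P P' : ℤ → ℝ), IsBi (wt t) v' → PosF (wt t) v P →
      PosF (wt t) v' P' → Ord (wt t) v v' P P' → (∀ i j, v i ≠ v' j) → False := by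
    intro v' P P' hv' hP hP' hO hdis
    refine S3_i hh hw hf hu hv hv' hP hP' hS hO hdis ?_ (key v v' P P' hv hv' hP hP' hO hdis)
    intro i j
    have := key (rv v) (rv v') (rvP P) (rvP P') (isBi_rv hw hv) (isBi_rv hw hv')
      (posF_rv hw hP) (posF_rv hw hP') (ord_rv hw hO) (fun i j => hdis _ _) i j
    rwa [rv_rv, rv_rv, rvP_rvP, rvP_rvP] at this
  obtain ⟨P, hP⟩ := exists_posF (wt t) v
  obtain ⟨P', hP'⟩ := exists_posF (wt t) v'
  rcases ord_or hw hf hv hv' hP hP' hcon hbd hX with hO | hO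
  · exact fin v' P P' hv' hP hP' hO hcon
  · exact fin (rv v') P (rvP P') (isBi_rv hw hv') hP (posF_rv hw hP') hO fun i j => hcon _ _

/-- (5) for all laws without atoms. -/
theorem s3gen [NullSingletonClass G] (hG : G (Set.Iio 0) = 0) (hX : CrossStmt)
    (hU : UqStmt G) (hF : FBStmt G) (hNB : ∀ᵐ t ∂PG G, ∀ p, ¬ Br (wt t) p) : S3Stmt G := by
  have hU' : ∀ᵐ t ∂PG G, Uniq (wt t) := by
    filter_upwards [ae_pos G hG, hU] with t ht h
    exact uniq_of_uq (adm_of_pos ht) h
  filter_upwards [ae_S3 hG hF hU' hNB isBd_bB (cross3 hX)] with t ht h v v' hh hv hS hv'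
  exact ht h hh v v' hv hv' hS

end Vale.Agent.P158.C.S3g
end
end

section

section

/-! No bigeodesics for every atomless law with finite mean. -/

namespace Vale.Agent.P158.C.Fin

open SimpleGraph MeasureTheory Filter Vale.Agent.P158.T1
open scoped ENNReal

theorem no_bigeodesics (G : Measure ℝ) [IsProbabilityMeasure G] (hG : G (Set.Iio 0) = 0)
    (hatom : ∀ x, G {x} = 0) (hmean : Integrable (fun s : ℝ => s) G)
    (Ω : Type*) [MeasurableSpace Ω] (P : Measure Ω) [IsProbabilityMeasure P]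
    (t : latt.edgeSet → Ω → ℝ) (ht : ∀ e, Measurable (t e)) (hlaw : ∀ e, P.map (t e) = G)
    (hind : ProbabilityTheory.iIndepFun t P) :
    ∀ᵐ ω ∂P, ∀ v : ℤ → V, ¬ IsBigeodesic (fun e => t e ω) v := by
  have : NullSingletonClass G := ⟨hatom⟩
  have hmean' : ∫⁻ s, ENNReal.ofReal s ∂G ≠ ∞ := by
    refine ne_of_lt (lt_of_le_of_lt (lintegral_mono fun s => ?_) hmean.2)
    rw [← ofReal_norm]
    exact ENNReal.ofReal_le_ofReal (le_abs_self s)
  have hM : MrgStmt G := MrgA.mrg hG UqAE.uq_ae (Low.win hG) (LowEdge.edge hG)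
    (GoodLen.len_of hG hmean')
  refine transfer hG (fin hG hmean' hM fun hFB hNB => ?_) Ω P t ht hlaw hind
  exact S3g.s3gen hG Cross.cross UqAE.uq_ae hFB hNB

end Vale.Agent.P158.C.Fin
end
end

section

section

/-! Growth in a box for the passage times of a field `F : Env → Env` (truncated or relabelled
weights): heavy edges and lowering refer to `t`, passage times to `F t`. -/

namespace Vale.Agent.P158.C.Brg

open MeasureTheory Vale.Agent.P158.T1 Vale.Agent.P158.C
open scoped ENNReal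

set_option linter.unusedSectionVars false

variable {m : ℕ} [NeZero m] {b : ZMod m → V} {S : Set V} {z : V} {r : ℕ} {α β : ℝ}

/-- Compatibility of a field with lowering edges near the box. -/
structure FldR (F : Env → Env) (α β : ℝ) (D : Finset latt.edgeSet) : Prop where
  meas : Measurable F
  pos : ∀ t : Env, (∀ e, 0 < t e) → ∀ e, 0 < F t e
  rch : ∀ t' t : Env, (∀ e, 0 < t' e) → Rch α β D t' t → Rch α β D (F t') (F t)
  low : ∀ t : Env, (∀ e, 0 < t e) → ∀ e ∈ D, t e ≤ α → F t e ≤ α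
  high : ∀ t : Env, (∀ e, 0 < t e) → ∀ e ∈ D, β ≤ t e → β ≤ F t e

theorem bT_gainF {F : Env → Env} {D : Finset latt.edgeSet} (hF : FldR F α β D) (hαβ : α < β)
    {t' t : Env} (h : Rch α β D t' t) (ht' : ∀ e, 0 < t' e) {i j : ZMod m}
    (p : latt.Walk (b i) (b j)) (hp : ∀ x ∈ p.support, x ∈ S)
    (hpo : ww (wt (F t')) p = bT b S (F t') i j) {M : ℕ} (hM : M ≤ cnt α (hQ β D t' p) t) :
    bT b S (F t) i j + M * (β - α) ≤ bT b S (F t') i j := by
  classical
  have htp := Rch.pos h ht'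
  have hR := hF.rch t' t ht' h
  have h1 := ww_gain (t := F t) (t' := F t') (Rch.le hαβ hR) (g := β - α) p
    ((hQ β D t' p).filter fun e => t e ≤ α)
    (fun e he => (mem_hQ.1 (Finset.mem_filter.1 he).1).1)
    (fun e he => by
      have h0 := mem_hQ.1 (Finset.mem_filter.1 he).1
      have h2 := hF.low t htp e h0.2.1 (Finset.mem_filter.1 he).2
      have h3 := hF.high t' ht' e h0.2.1 h0.2.2
      linarith only [h2, h3])
  have h2 : (M : ℝ) ≤ (((hQ β D t' p).filter fun e => t e ≤ α).card : ℝ) := by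
    have : cnt α (hQ β D t' p) t = ((hQ β D t' p).filter fun e => t e ≤ α).card := by
      unfold cnt
      congr 1
    rw [← this]
    exact_mod_cast hM
  have h3 : bT b S (F t) i j ≤ ww (wt (F t)) p :=
    PT_le (adm_of_pos (hF.pos t htp)) p hp
  have h4 : (M : ℝ) * (β - α) ≤
      (((hQ β D t' p).filter fun e => t e ≤ α).card : ℝ) * (β - α) :=
    mul_le_mul_of_nonneg_right h2 (by linarith only [hαβ])
  linarith only [hpo, h1, h3, h4]

/-- A family of `n` slack pairs of the field in different components, each with an optimal walk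
that has at least `N` edges near the box whose label is at least `β`. -/
def FamF (b : ZMod m → V) (S : Set V) (z : V) (r : ℕ) (β h : ℝ) (N n : ℕ) (F : Env → Env)
    (t : Env) : Prop :=
  ∃ I : Finset (ZMod m × ZMod m), n ≤ I.card ∧
    (∀ p ∈ I, h ≤ bT b (S \ bx z r) (F t) p.1 p.2 - bT b S (F t) p.1 p.2) ∧
    (∀ p ∈ I, ∀ q ∈ I, Cn (Ex (bT b S (F t)) (bT b (S \ bx z r) (F t))) p q → p = q) ∧
    ∀ p ∈ I, ∃ w : latt.Walk (b p.1) (b p.2), (∀ x ∈ w.support, x ∈ S) ∧
      ww (wt (F t)) w = bT b S (F t) p.1 p.2 ∧ N ≤ (hQ β (tF z r) t w).card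

theorem pot_stepF {F : Env → Env} (hF : FldR F α β (tF z r)) (hd : Dom b S z r) (hαβ : α < β)
    {h g : ℝ} (hh : 0 < h) (hg : 0 < g) {t' : Env} (ht' : ∀ e, 0 < t' e) {M N n : ℕ}
    (hgM : g ≤ M * (β - α)) (hFam : FamF b S z r β h N n F t') :
    ∃ Q : Fin n → Finset latt.edgeSet,
      (∀ i, Q i ⊆ tF z r ∧ N ≤ (Q i).card ∧ ∀ e ∈ Q i, β ≤ t' e) ∧
      ∀ t, Rch α β (tF z r) t' t → (1 - h / g) * pot b S z r g (F t') +
        h * ∑ i, ({t | M ≤ cnt α (Q i) t}.indicator 1 t : ℝ) ≤ pot b S z r g (F t) := by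
  classical
  obtain ⟨I, hn, hI, hdist, hw⟩ := hFam
  choose w hwS hwo hwN using hw
  let e : Fin n → ZMod m × ZMod m := fun i => (I.equivFin.symm ⟨i.1, lt_of_lt_of_le i.2 hn⟩).1
  have heI : ∀ i, e i ∈ I := fun i => (I.equivFin.symm ⟨i.1, lt_of_lt_of_le i.2 hn⟩).2
  have hinj : Function.Injective e := by
    intro i j hij
    have h1 := I.equivFin.symm.injective (Subtype.ext hij)
    have h2 := congrArg Fin.val h1
    exact Fin.ext h2
  refine ⟨fun i => hQ β (tF z r) t' (w (e i) (heI i)), fun i => ⟨fun x hx => (mem_hQ.1 hx).2.1,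
    hwN _ (heI i), fun x hx => (mem_hQ.1 hx).2.2⟩, ?_⟩
  intro t ht
  have hR := hF.rch t' t ht' ht
  have hp' := hF.pos t' ht'
  have htp := Rch.pos hR hp'
  have hWW : bT b (S \ bx z r) (F t) = bT b (S \ bx z r) (F t') := by
    funext i j; exact bT_congr hR i j
  have hTW := bT_le_W hd hp'
  have hTT := fun i j => bT_mono hd hαβ hR hp' i j
  have hK' := hd.kal (F t') hp'
  have hK := hd.kal (F t) htp
  have key := heavy_step (W := bT b (S \ bx z r) (F t')) (T := bT b S (F t'))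
    (T' := bT b S (F t)) hK'.2 hK'.1 hK.1 hTW hTT hg hh.le I (fun p hp => ⟨hI p hp, by
      have := hI p hp
      show bT b S (F t') p.1 p.2 < bT b (S \ bx z r) (F t') p.1 p.2
      linarith⟩) hdist
  unfold pot
  rw [hWW]
  refine le_trans ?_ key
  have hcount : ∑ i, ({t | M ≤ cnt α (hQ β (tF z r) t' (w (e i) (heI i))) t}.indicator 1 t : ℝ) ≤
      ((I.filter fun p => g ≤ bT b (S \ bx z r) (F t') p.1 p.2 -
        bT b S (F t) p.1 p.2).card : ℝ) := by
    have h1 : ∑ i, ({t | M ≤ cnt α (hQ β (tF z r) t' (w (e i) (heI i))) t}.indicator 1 t : ℝ) =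
        ((Finset.univ.filter fun i =>
          M ≤ cnt α (hQ β (tF z r) t' (w (e i) (heI i))) t).card : ℝ) := by
      rw [Finset.card_filter, Nat.cast_sum]
      refine Finset.sum_congr rfl fun i _ => ?_
      by_cases hi : M ≤ cnt α (hQ β (tF z r) t' (w (e i) (heI i))) t
      · simp only [Set.mem_ofPred_eq, hi, Set.indicator_of_mem, Pi.one_apply, ↓reduceIte, Nat.cast_one]
      · simp only [Set.mem_ofPred_eq, hi, not_false_eq_true, Set.indicator_of_notMem, ↓reduceIte, CharP.cast_eq_zero]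
    rw [h1]
    have h2 : ((Finset.univ.filter fun i =>
        M ≤ cnt α (hQ β (tF z r) t' (w (e i) (heI i))) t).image e) ⊆
        I.filter fun p => g ≤ bT b (S \ bx z r) (F t') p.1 p.2 - bT b S (F t) p.1 p.2 := by
      intro p hp
      obtain ⟨i, hi, rfl⟩ := Finset.mem_image.1 hp
      have hi' := (Finset.mem_filter.1 hi).2
      refine Finset.mem_filter.2 ⟨heI i, ?_⟩
      have h3 := bT_gainF hF hαβ ht ht' (w (e i) (heI i)) (hwS _ (heI i)) (hwo _ (heI i)) hi'
      have h4 := hI _ (heI i)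
      linarith only [hh, hgM, h3, h4]
    have h3 := Finset.card_le_card h2
    rw [Finset.card_image_of_injective _ hinj] at h3
    exact_mod_cast h3
  have h5 := mul_le_mul_of_nonneg_left hcount hh.le
  have h6 : (1 - h / g) * mu (bT b (S \ bx z r) (F t'))
      (heavy (bT b S (F t')) (bT b (S \ bx z r) (F t')) g) = mu (bT b (S \ bx z r) (F t'))
      (heavy (bT b S (F t')) (bT b (S \ bx z r) (F t')) g) - h * (mu (bT b (S \ bx z r) (F t'))
      (heavy (bT b S (F t')) (bT b (S \ bx z r) (F t')) g) / g) := by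
    field_simp
  rw [h6, mul_sub]
  (clear hd hg N hdist hwN hR hp' htp hWW hTW hTT hK' hK key h6; linarith)

theorem measurableSet_FamF (S : Set V) (z : V) (r : ℕ) (β h : ℝ) (N n : ℕ) {F : Env → Env}
    (hF : Measurable F) : MeasurableSet {t : Env | FamF b S z r β h N n F t} := by
  have h0 : {t : Env | FamF b S z r β h N n F t} = ⋃ E : Set (ZMod m × ZMod m),
      (F ⁻¹' {t | Ex (bT b S t) (bT b (S \ bx z r) t) = E}) ∩
      {t | ∃ I : Finset (ZMod m × ZMod m), n ≤ I.card ∧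
        (∀ p ∈ I, h ≤ bT b (S \ bx z r) (F t) p.1 p.2 - bT b S (F t) p.1 p.2) ∧
        (∀ p ∈ I, ∀ q ∈ I, Cn E p q → p = q) ∧
        ∀ p ∈ I, ∃ w : latt.Walk (b p.1) (b p.2), (∀ x ∈ w.support, x ∈ S) ∧
          ww (wt (F t)) w = bT b S (F t) p.1 p.2 ∧ N ≤ (hQ β (tF z r) t w).card} := by
    ext t
    simp only [Set.mem_iUnion, Set.mem_inter_iff, Set.mem_preimage, Set.mem_ofPred_eq,
      exists_eq_left', FamF]
  rw [h0]
  refine MeasurableSet.iUnion fun E => (hF (measurableSet_Ex S (S \ bx z r) E)).inter ?_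
  rw [measurableSet_setOfPred]
  refine Measurable.exists fun I => (mconst _).and (Measurable.and ?_ ((mconst _).and ?_))
  · refine Measurable.forall fun p => (mconst _).imp ?_
    exact mle measurable_const (((measurable_bT _ _ _).comp hF).sub
      ((measurable_bT _ _ _).comp hF))
  · refine Measurable.forall fun p => (mconst _).imp (Measurable.exists fun w =>
      (mconst _).and (Measurable.and ?_ ?_))
    · exact measurableSet_setOfPred.1 (measurableSet_eq_fun ((measurable_ww w).comp hF)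
        ((measurable_bT _ _ _).comp hF))
    · exact measurableSet_setOfPred.1 (measurableSet_hQ β _ w N)

end Vale.Agent.P158.C.Brg
end
end

section

section

/-! Many lines: the box is centred at `0`, the window at `z`. -/

namespace Vale.Agent.P158.C.Lin

open Filter Vale.Agent.P158.T1 MeasureTheory SimpleGraph CL
open scoped ENNReal

variable {w : V → V → ℝ}

/-- Translation of restricted passage times. -/
theorem PT_sh' (hw : Adm w) (S : Set V) (u x y : V) :
    PT (sh u w) S x y = PT w (trs u S) (x + u) (y + u) := by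
  by_cases hc : Conn S x y
  · exact PT_sh hw hc u
  · have hc' : ¬ Conn (trs u S) (x + u) (y + u) := fun h => hc (by
      have := h.sh (-u)
      rwa [trs_trs, add_neg_cancel_right, add_neg_cancel_right] at this)
    have e1 : IsEmpty {p : latt.Walk x y // ∀ z ∈ p.support, z ∈ S} :=
      ⟨fun p => hc ⟨p.1, p.2⟩⟩
    have e2 : IsEmpty {p : latt.Walk (x + u) (y + u) // ∀ z ∈ p.support, z ∈ trs u S} :=
      ⟨fun p => hc' ⟨p.1, p.2⟩⟩
    unfold PT
    rw [Real.iInf_of_isEmpty, Real.iInf_of_isEmpty]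

/-- Boundary passage times of the box `bx 0 N`. -/
noncomputable def T0 (w : V → V → ℝ) (N : ℕ) (i j : ZMod (8 * N)) : ℝ :=
  PT w (bx 0 N) (bd 0 N (i.val : ℤ)) (bd 0 N (j.val : ℤ))

/-- Boundary passage times of the box `bx 0 N` without the window `bx z s`. -/
noncomputable def W0 (w : V → V → ℝ) (N : ℕ) (z : V) (s : ℕ) (i j : ZMod (8 * N)) : ℝ :=
  PT w (bx 0 N \ bx z s) (bd 0 N (i.val : ℤ)) (bd 0 N (j.val : ℤ))

/-- At least `n` pairs of boundary vertices of `bx 0 N` in different components, which lose at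
least `h` when the window `bx z s` is removed and have a geodesic through `bx z r`. -/
def ManyW (h : ℝ) (n : ℕ) (w : V → V → ℝ) (N : ℕ) (z : V) (r s : ℕ) : Prop :=
  ∃ I : Finset (ZMod (8 * N) × ZMod (8 * N)), n ≤ I.card ∧
    (∀ p ∈ I, h ≤ W0 w N z s p.1 p.2 - T0 w N p.1 p.2 ∧
      ∃ v ∈ bx z r, On w (bx 0 N) (bd 0 N (p.1.val : ℤ)) (bd 0 N (p.2.val : ℤ)) v) ∧
    ∀ p ∈ I, ∀ q ∈ I, Cn (Ex (T0 w N) (W0 w N z s)) p q → p = q

theorem trs_bx (z c : V) (N : ℕ) : trs z (bx c N) = bx (c + z) N := by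
  ext x
  show x - z ∈ bx c N ↔ x ∈ bx (c + z) N
  rw [mem_bx, mem_bx]
  have e1 : (x - z).1 - c.1 = x.1 - (c + z).1 := by
    rw [Prod.fst_sub, Prod.fst_add]; ring
  have e2 : (x - z).2 - c.2 = x.2 - (c + z).2 := by
    rw [Prod.snd_sub, Prod.snd_add]; ring
  rw [e1, e2]

theorem TN_sh (hw : Adm w) (z : V) (N : ℕ) : TN (sh z w) (-z) N = T0 w N := by
  funext i j
  unfold TN bT T0
  rw [PT_sh' hw, trs_bx, ← bd_translate, ← bd_translate, neg_add_cancel]

theorem WN_sh (hw : Adm w) (z : V) (N s : ℕ) : WN (sh z w) (-z) N s = W0 w N z s := by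
  funext i j
  unfold WN bT W0
  have e : trs z (bx (-z) N \ bx 0 s) = bx 0 N \ bx z s := by
    have h1 : trs z (bx (-z) N \ bx 0 s) = trs z (bx (-z) N) \ trs z (bx 0 s) := rfl
    rw [h1, trs_bx, trs_bx, neg_add_cancel, zero_add]
  rw [PT_sh' hw, e, ← bd_translate, ← bd_translate, neg_add_cancel]

theorem On_sh (hw : Adm w) (z : V) (N : ℕ) (i j : ℤ) (v : V) :
    On (sh z w) (bx (-z) N) (bd (-z) N i) (bd (-z) N j) v ↔
      On w (bx 0 N) (bd 0 N i) (bd 0 N j) (v + z) := by
  unfold On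
  rw [PT_sh' hw, PT_sh' hw, PT_sh' hw, trs_bx, ← bd_translate, ← bd_translate, neg_add_cancel]
  have : v ∈ bx (-z) N ↔ v + z ∈ bx 0 N := by
    have h1 := trs_bx z (-z) N
    rw [neg_add_cancel] at h1
    rw [← h1]
    show v ∈ bx (-z) N ↔ v + z - z ∈ bx (-z) N
    rw [add_sub_cancel_right]
  rw [this]

theorem manyW_of_many (hw : Adm w) {h : ℝ} {n N r s : ℕ} {z : V}
    (H : Many h n (sh z w) (-z) N r s) : ManyW h n w N z r s := by
  obtain ⟨I, h1, h2, h3⟩ := H
  refine ⟨I, h1, fun p hp => ?_, ?_⟩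
  · obtain ⟨h4, v, hv, hon⟩ := h2 p hp
    rw [TN_sh hw, WN_sh hw] at h4
    refine ⟨h4, v + z, ?_, (On_sh hw z N _ _ v).1 hon⟩
    have h5 := trs_bx z 0 r
    rw [zero_add] at h5
    rw [← h5]
    show v + z - z ∈ bx 0 r
    rwa [add_sub_cancel_right]
  · rw [TN_sh hw, WN_sh hw] at h3
    exact h3

theorem measurableSet_ManyW (h : ℝ) (n N : ℕ) (z : V) (r s : ℕ) (hN : 0 < N) :
    MeasurableSet {t : Env | ManyW h n (wt t) N z r s} := by
  have : NeZero (8 * N) := ⟨by omega⟩
  refine Brg.measurableSet_of_Ex (b := fun i : ZMod (8 * N) => bd 0 N (i.val : ℤ)) (bx 0 N)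
    (bx 0 N \ bx z s) (P := fun E t => ∃ I : Finset (ZMod (8 * N) × ZMod (8 * N)), n ≤ I.card ∧
      (∀ p ∈ I, h ≤ W0 (wt t) N z s p.1 p.2 - T0 (wt t) N p.1 p.2 ∧
      ∃ v ∈ bx z r, On (wt t) (bx 0 N) (bd 0 N (p.1.val : ℤ)) (bd 0 N (p.2.val : ℤ)) v) ∧
      ∀ p ∈ I, ∀ q ∈ I, Cn E p q → p = q) fun E => ?_
  rw [measurableSet_setOfPred]
  refine Measurable.exists fun I => (mconst _).and ((Measurable.forall fun p =>
    (mconst _).imp ?_).and (mconst _))
  unfold W0 T0 On
  refine (mle measurable_const ((measurable_PT _ _ _).sub (measurable_PT _ _ _))).and ?_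
  refine Measurable.exists fun v => (mconst _).and ((mconst _).and ?_)
  exact measurableSet_setOfPred.1 (measurableSet_eq_fun
    ((measurable_PT _ _ _).add (measurable_PT _ _ _)) (measurable_PT _ _ _))

theorem bx_sub_far' {m N : ℕ} {z : V} (h : 2 * m ≤ N) (hz : z ∈ bx 0 (N / 2)) :
    bx 0 m ⊆ bx (-z) N := by
  refine bx_sub_far h ?_
  obtain ⟨h3, h4⟩ := hz
  rw [mem_bx]
  simp only [Prod.fst_zero, Prod.snd_zero, sub_zero, Prod.fst_neg, Prod.snd_neg, abs_neg]
    at h3 h4 ⊢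
  exact ⟨h3, h4⟩

variable {G : Measure ℝ} [IsProbabilityMeasure G]

end Vale.Agent.P158.C.Lin
end
end

section

section

/-! Many lines for a translation covariant field of weights. -/

namespace Vale.Agent.P158.C.Lin

open Filter Vale.Agent.P158.T1 MeasureTheory SimpleGraph CL
open scoped ENNReal

/-- Long paths starting in some box of radius larger than `r` are more expensive than its
boundary cycle. -/
def LenK (C₁ : ℝ) (r : ℕ) (t : Env) : Prop :=
  ∃ k : ℕ, r < k ∧ ∀ (x y : V) (p : latt.Walk x y), p.IsPath → x ∈ bx 0 k →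
    C₁ * r ≤ p.length → rs (wt t) 0 k < ww (wt t) p

/-- The trace of a bigeodesic on a box. -/
theorem trace_leK {t : Env} (hw : Adm (wt t)) {C₁ : ℝ} {r : ℕ} (hE : LenK C₁ r t) {v : ℤ → V}
    (hv : IsBi (wt t) v) (F : Finset V) (hF : ∀ x ∈ F, x ∈ bx 0 r ∧ x ∈ Set.range v) :
    F.card ≤ ⌈C₁ * r⌉₊ := by
  classical
  obtain ⟨k, hk, hE⟩ := hE
  rcases F.eq_empty_or_nonempty with rfl | ⟨x₀, hx₀⟩
  · simp only [Finset.card_empty, zero_le]
  have hfin : {i : ℤ | v i ∈ bx 0 k}.Finite :=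
    (bx_finite 0 k).preimage (isBi_inj hw hv).injOn
  have hnon : {i : ℤ | v i ∈ bx 0 k}.Nonempty := by
    obtain ⟨h1, i, rfl⟩ := hF x₀ hx₀
    exact ⟨i, bx_mono hk.le h1⟩
  obtain ⟨a, ha, hamin⟩ := Set.exists_min_image _ id hfin hnon
  obtain ⟨b, hb, hbmax⟩ := Set.exists_max_image _ id hfin hnon
  simp only [id, Set.mem_ofPred_eq] at ha hamin hb hbmax
  have hab : a ≤ b := hamin b hb
  have hba : v a ∈ bB 0 k := by
    refine mem_bB_of_adj ha (y := v (a - 1)) (fun h => ?_) ?_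
    · have := hamin _ h
      omega
    · have := isBi_adj hv (a - 1)
      rw [sub_add_cancel] at this
      exact this.symm
  have hbb : v b ∈ bB 0 k := by
    refine mem_bB_of_adj hb (y := v (b + 1)) (fun h => ?_) (isBi_adj hv b)
    have := hbmax _ h
    omega
  obtain ⟨n, rfl⟩ : ∃ n : ℕ, b = a + n := ⟨(b - a).toNat, by omega⟩
  obtain ⟨p, h1, h2, h3⟩ := exists_piece hw hv a n
  have hpath : p.IsPath := Geo.isPath (S := Set.univ) hw ⟨fun _ _ => trivial, h3⟩
  have hlen : ¬ C₁ * r ≤ p.length := fun h => by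
    have h4 := hE _ _ p hpath ha h
    rw [h3] at h4
    exact absurd (LinB.T_le_rs hw (by omega) hba hbb) (not_le.2 h4)
  rw [h1, not_le] at hlen
  have hn : n < ⌈C₁ * r⌉₊ := Nat.lt_ceil.2 hlen
  have hsub : F ⊆ (Finset.Icc a (a + n)).image v := fun x hx => by
    obtain ⟨h4, i, rfl⟩ := hF x hx
    have h5 : v i ∈ bx 0 k := bx_mono hk.le h4
    exact Finset.mem_image_of_mem v (Finset.mem_Icc.2 ⟨hamin i h5, hbmax i h5⟩)
  have h6 := (Finset.card_le_card hsub).trans Finset.card_image_le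
  rw [Int.card_Icc] at h6
  omega

/-- The deterministic part: enough translates in the slack event. -/
theorem exists_EbigK {t : Env} (hw : Adm (wt t)) (hU : Uq (wt t)) (hf : FB (wt t))
    (hNB : NB (wt t)) (hS : S3 (wt t)) {h : ℝ} (hh : 0 < h) {C₁ : ℝ} {r s n : ℕ}
    (hrs : r ≤ s) (hL0 : 0 < ⌈C₁ * r⌉₊) (hE : LenK C₁ r t)
    (hn : ((n * ⌈C₁ * r⌉₊ : ℕ) : ℝ) ≤
      ∑ x ∈ Erg.bF 0 r, (SE h).indicator (1 : Env → ℝ) (shE x t)) :
    ∃ m, t ∈ Ebig h n r s m := by
  classical
  set X := (Erg.bF 0 r).filter fun x => shE x t ∈ SE h with hX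
  have hcard : ∑ x ∈ Erg.bF 0 r, (SE h).indicator (1 : Env → ℝ) (shE x t) = X.card := by
    rw [hX, Finset.card_filter]
    push_cast
    refine Finset.sum_congr rfl fun x _ => ?_
    by_cases hx : shE x t ∈ SE h
    · rw [Set.indicator_of_mem hx, if_pos hx]; rfl
    · rw [Set.indicator_of_notMem hx, if_neg hx]
  rw [hcard] at hn
  obtain ⟨N₀, hN₀⟩ := LinB.many_of_points hw hU hf hNB hh
    (fun v hv hs v' hv' => by
      obtain ⟨i, j, hij⟩ := hS h v v' hh hv hs hv'
      exact ⟨j, i, hij.symm⟩) hrs hL0 X (fun x hx => by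
      rw [hX, Finset.mem_filter, Erg.mem_bF] at hx
      refine ⟨hx.1, mem_SE_sh hw (fun u => ?_) hx.2⟩
      rw [wt_shE]
      exact att_sh hw hf u) (fun v hv F hF => trace_leK hw hE hv F hF)
    (by exact_mod_cast hn)
  exact ⟨N₀, fun N z _ hz => hN₀ N z hz⟩

section Prob
variable {G : Measure ℝ} [IsProbabilityMeasure G]

/-- Almost sure properties of the field `F`. -/
structure Fld (G : Measure ℝ) [IsProbabilityMeasure G] (F : Env → Env) : Prop where
  meas : Measurable F
  sh : ∀ u t, F (shE u t) = shE u (F t)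
  adm : ∀ᵐ t ∂PG G, Adm (wt (F t))
  uq : ∀ᵐ t ∂PG G, Uq (wt (F t))
  fb : ∀ᵐ t ∂PG G, FB (wt (F t))
  nb : ∀ᵐ t ∂PG G, NB (wt (F t))
  s3 : ∀ᵐ t ∂PG G, S3 (wt (F t))
  len : ∃ C₁ : ℝ, 0 < C₁ ∧ ∀ δ : ℝ, 0 < δ → ∃ r₀ : ℕ, ∀ r ≥ r₀,
    PG G {t | ¬ LenK C₁ r (F t)} ≤ ENNReal.ofReal δ

variable {F : Env → Env}

theorem many_auxF (hF : Fld G F) {h : ℝ} (hh : 0 < h) (hpos : PG G (F ⁻¹' SE h) ≠ 0) :
    ∃ c : ℝ, 0 < c ∧ ∀ δ : ℝ, 0 < δ → ∃ r₀ : ℕ, ∀ r ≥ r₀, ∀ s ≥ r, ∃ m : ℕ,
      PG G (F ⁻¹' Ebig h ⌈c * r⌉₊ r s m)ᶜ ≤ ENNReal.ofReal δ := by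
  obtain ⟨C₁, hC₁, hLen⟩ := hF.len
  have hSm : MeasurableSet (F ⁻¹' SE h) := hF.meas (measurableSet_SE h)
  set d := (PG G).real (F ⁻¹' SE h) with hd
  have hd0 : 0 < d := by
    rw [hd, measureReal_def]
    exact ENNReal.toReal_pos hpos (measure_ne_top _ _)
  refine ⟨d / (C₁ + 1), by (clear * - hd0 hC₁; positivity), fun δ hδ => ?_⟩
  obtain ⟨r₁, hr₁⟩ := hLen (δ / 4) (by (clear * - hδ; positivity))
  have hη : 0 < min (d / 2) (δ / 4) := lt_min (by positivity) (by positivity)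
  obtain ⟨r₂, hr₂⟩ := Erg.erg_lower (G := G) hSm hη
  obtain ⟨r₃, hr₃⟩ := exists_nat_ge ((C₁ + 1) / d)
  refine ⟨max (max r₁ r₂) (max r₃ 1), fun r hr s hs => ?_⟩
  have g1 : r₁ ≤ r := ((le_max_left _ _).trans (le_max_left _ _)).trans hr
  have g2 : r₂ ≤ r := ((le_max_right _ _).trans (le_max_left _ _)).trans hr
  have g3 : r₃ ≤ r := ((le_max_left _ _).trans (le_max_right _ _)).trans hr
  have g4 : 1 ≤ r := ((le_max_right _ _).trans (le_max_right _ _)).trans hr
  have hr1 : (1 : ℝ) ≤ r := by exact_mod_cast g4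
  set n := ⌈d / (C₁ + 1) * r⌉₊ with hn
  set L := ⌈C₁ * r⌉₊ with hL
  -- arithmetic
  have harith : ((n * L : ℕ) : ℝ) ≤ (d - min (d / 2) (δ / 4)) * (2 * r + 1) ^ 2 := by
    have h1 : (n : ℝ) ≤ d / (C₁ + 1) * r + 1 := (Nat.ceil_lt_add_one (by (clear * - hd0 hC₁ g4; positivity))).le
    have h2 : (L : ℝ) ≤ (C₁ + 1) * r := by
      have := (Nat.ceil_lt_add_one (a := C₁ * r) (by positivity)).le
      linarith only [hr1, this]
    have h3 : (C₁ + 1) ≤ d * r := by
      have h4 : (C₁ + 1) / d ≤ r := hr₃.trans (by exact_mod_cast g3)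
      rw [div_le_iff₀ hd0] at h4
      linarith only [h4]
    push_cast
    calc (n : ℝ) * L ≤ (d / (C₁ + 1) * r + 1) * ((C₁ + 1) * r) :=
          mul_le_mul h1 h2 (by positivity) (by positivity)
      _ = d * r ^ 2 + (C₁ + 1) * r := by (clear * - hC₁ hd0 g4; field_simp)
      _ ≤ d * r ^ 2 + d * r * r := by nlinarith only [h3]
      _ = d / 2 * (2 * r) ^ 2 := by ring
      _ ≤ d / 2 * (2 * r + 1) ^ 2 := by
          refine mul_le_mul_of_nonneg_left ?_ (by positivity)
          nlinarith only [hr1]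
      _ ≤ _ := by
          refine mul_le_mul_of_nonneg_right ?_ (by positivity)
          linarith only [min_le_left (d / 2) (δ / 4)]
  -- the two bad events
  set B₁ : Set Env := {t | ¬ LenK C₁ r (F t)} with hB₁
  set B₂ : Set Env := {t | ∑ x ∈ Erg.bF 0 r, (F ⁻¹' SE h).indicator (1 : Env → ℝ) (shE x t) <
    (d - min (d / 2) (δ / 4)) * (2 * r + 1) ^ 2} with hB₂
  have hb₁ : PG G B₁ ≤ ENNReal.ofReal (δ / 4) := hr₁ r g1
  have hb₂ : PG G B₂ ≤ ENNReal.ofReal (δ / 4) := by
    rw [← ofReal_measureReal]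
    exact ENNReal.ofReal_le_ofReal ((hr₂ r g2 0).trans (min_le_right _ _))
  have hcov : ∀ᵐ t ∂PG G, t ∉ B₁ ∪ B₂ → ∃ m, F t ∈ Ebig h n r s m := by
    filter_upwards [hF.adm, hF.uq, hF.fb, hF.nb, hF.s3] with t e1 e2 e3 e4 e5 ht
    rw [Set.mem_union, not_or] at ht
    have e6 : LenK C₁ r (F t) := not_not.1 ht.1
    have e7 : ¬ (∑ x ∈ Erg.bF 0 r, (F ⁻¹' SE h).indicator (1 : Env → ℝ) (shE x t) <
      (d - min (d / 2) (δ / 4)) * (2 * r + 1) ^ 2) := ht.2
    rw [not_lt] at e7
    have e8 : ∀ x, (F ⁻¹' SE h).indicator (1 : Env → ℝ) (shE x t) =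
        (SE h).indicator (1 : Env → ℝ) (shE x (F t)) := by
      intro x
      rw [← hF.sh]
      rfl
    simp only [e8] at e7
    exact exists_EbigK e1 e2 e3 e4 e5 hh hs (Nat.ceil_pos.2 (by (clear * - hC₁ g4; positivity))) e6
      (harith.trans e7)
  have hunion : PG G (⋂ m, (F ⁻¹' Ebig h n r s m)ᶜ) ≤ ENNReal.ofReal (δ / 2) := by
    have h1 : (⋂ m, (F ⁻¹' Ebig h n r s m)ᶜ) ⊆
        (B₁ ∪ B₂) ∪ {t | ¬ (t ∉ B₁ ∪ B₂ → ∃ m, F t ∈ Ebig h n r s m)} := by
      intro t ht
      by_cases hB : t ∈ B₁ ∪ B₂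
      · exact Or.inl hB
      · right
        intro hc
        obtain ⟨m, hm⟩ := hc hB
        exact (Set.mem_iInter.1 ht m) hm
    calc PG G (⋂ m, (F ⁻¹' Ebig h n r s m)ᶜ)
        ≤ PG G (B₁ ∪ B₂) + PG G {t | ¬ (t ∉ B₁ ∪ B₂ → ∃ m, F t ∈ Ebig h n r s m)} :=
          (measure_mono h1).trans (measure_union_le _ _)
      _ = PG G (B₁ ∪ B₂) := by rw [ae_iff.1 hcov, add_zero]
      _ ≤ PG G B₁ + PG G B₂ := measure_union_le _ _
      _ ≤ ENNReal.ofReal (δ / 4) + ENNReal.ofReal (δ / 4) := add_le_add hb₁ hb₂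
      _ = ENNReal.ofReal (δ / 2) := by
          rw [← ENNReal.ofReal_add (by (clear * - hδ; positivity)) (by positivity)]
          congr 1; ring
  have hlim : Tendsto (fun m => PG G (F ⁻¹' Ebig h n r s m)ᶜ) atTop
      (nhds (PG G (⋂ m, (F ⁻¹' Ebig h n r s m)ᶜ))) :=
    tendsto_measure_iInter_atTop
      (fun m => (hF.meas (measurableSet_Ebig h n r s m)).compl.nullMeasurableSet)
      (fun i j hij => Set.compl_subset_compl.2 (Set.preimage_mono (Ebig_mono h n r s hij)))
      ⟨0, measure_ne_top _ _⟩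
  have hlt : PG G (⋂ m, (F ⁻¹' Ebig h n r s m)ᶜ) < ENNReal.ofReal δ :=
    hunion.trans_lt ((ENNReal.ofReal_lt_ofReal_iff hδ).2 (by linarith only [hδ]))
  obtain ⟨m, hm⟩ := (hlim.eventually_lt_const hlt).exists
  exact ⟨m, hm.le⟩

theorem ne_zero_of_slack (hF : Fld G F) {h : ℝ}
    (hne : ¬ ∀ᵐ t ∂PG G, ¬ ∃ v : ℤ → V, IsBi (wt (F t)) v ∧ v 0 = 0 ∧ SL h (wt (F t)) v) :
    PG G (F ⁻¹' SE h) ≠ 0 := by
  intro h0
  apply hne
  filter_upwards [hF.adm, hF.fb, measure_eq_zero_iff_ae_notMem.1 h0] with t hw hf ht hex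
  exact ht ((mem_SE_iff hw (att_of_fb hw hf fun _ _ _ _ => conn_univ _ _) h).2 hex)

/-- Many lines for the field `F`: box `bx 0 N`, window at `z`. -/
theorem manyWF (hF : Fld G F) {h : ℝ} (hh : 0 < h)
    (hne : ¬ ∀ᵐ t ∂PG G, ¬ ∃ v : ℤ → V, IsBi (wt (F t)) v ∧ v 0 = 0 ∧ SL h (wt (F t)) v) :
    ∃ c : ℝ, 0 < c ∧ ∀ δ : ℝ, 0 < δ → ∃ r₀ : ℕ, ∀ r ≥ r₀, ∀ s ≥ r, ∃ N₀ : ℕ, ∀ N ≥ N₀,
      ∀ z ∈ bx 0 (N / 2), MeasurableSet {t | ManyW h ⌈c * r⌉₊ (wt (F t)) N z r s} ∧
        PG G {t | ¬ ManyW h ⌈c * r⌉₊ (wt (F t)) N z r s} ≤ ENNReal.ofReal δ := by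
  obtain ⟨c, hc, H⟩ := many_auxF hF hh (ne_zero_of_slack hF hne)
  refine ⟨c, hc, fun δ hδ => ?_⟩
  obtain ⟨r₀, hr₀⟩ := H δ hδ
  refine ⟨r₀, fun r hr s hs => ?_⟩
  obtain ⟨m, hm⟩ := hr₀ r hr s hs
  refine ⟨2 * m + 1, fun N hN z hz =>
    ⟨hF.meas (measurableSet_ManyW h _ N z r s (by omega)), ?_⟩⟩
  have h1 : PG G (shE z ⁻¹' (F ⁻¹' Ebig h ⌈c * r⌉₊ r s m)ᶜ) =
      PG G (F ⁻¹' Ebig h ⌈c * r⌉₊ r s m)ᶜ :=
    (mp_sh (G := G) z).measure_preimage
      (hF.meas (measurableSet_Ebig h _ r s m)).compl.nullMeasurableSet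
  rw [← h1] at hm
  refine le_trans (measure_mono_ae ?_) hm
  filter_upwards [hF.adm] with t hw ht hE
  apply ht
  have hE' : F (shE z t) ∈ Ebig h ⌈c * r⌉₊ r s m := hE
  have h2 := hE' N (-z) (by omega) (bx_sub_far' (by omega) hz)
  rw [hF.sh, wt_shE] at h2
  exact manyW_of_many hw h2

end Prob

end Vale.Agent.P158.C.Lin
end
end

section

section

/-! Assembly of Plan C' for a field `F : Env → Env`: no bigeodesics of `wt (F t)` with slack. -/

namespace Vale.Agent.P158.C.FinF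

open Filter MeasureTheory Vale.Agent.P158.T1 Vale.Agent.P158.C Vale.Agent.P158.C.Brg
open scoped ENNReal

set_option linter.unusedSectionVars false

/-! ### Geometry of a box with a window -/

theorem conn_up {S : Set V} (a b : ℤ) (n : ℕ) (h : ∀ c : ℤ, b ≤ c → c ≤ b + n → (a, c) ∈ S) :
    Conn S (a, b) (a, b + n) := by
  induction n with
  | zero => simpa using Conn.refl' (S := S) (x := (a, b)) (h b le_rfl (by simp))
  | succ n ih =>
    refine (ih fun c h1 h2 => h c h1 (by push_cast; omega)).trans' ?_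
    push_cast
    rw [← add_assoc]
    exact Conn.of_adj (adj_up _ _) (h _ (by omega) (by push_cast; omega))
      (h _ (by omega) (by push_cast; omega))

theorem conn_right {S : Set V} (a b : ℤ) (n : ℕ) (h : ∀ c : ℤ, a ≤ c → c ≤ a + n → (c, b) ∈ S) :
    Conn S (a, b) (a + n, b) := by
  induction n with
  | zero => simpa only [CharP.cast_eq_zero, add_zero] using Conn.refl' (S := S) (x := (a, b)) (h a le_rfl (by simp))
  | succ n ih =>
    refine (ih fun c h1 h2 => h c h1 (by push_cast; omega)).trans' ?_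
    push_cast
    rw [← add_assoc]
    exact Conn.of_adj (adj_right _ _) (h _ (by omega) (by push_cast; omega))
      (h _ (by omega) (by push_cast; omega))

/-- Every point of the box outside the window is connected to the boundary. -/
theorem exists_conn_bB {N s : ℕ} {z x : V} (hx : x ∈ bx 0 N \ bx z s) :
    ∃ y ∈ bB 0 N, Conn (bx 0 N \ bx z s) x y := by
  obtain ⟨hx1, hx2⟩ := hx
  obtain ⟨x1, x2⟩ := x
  rw [mem_bx] at hx1 hx2
  simp only [Prod.fst_zero, Prod.snd_zero, sub_zero] at hx1 hx2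
  obtain ⟨a1, a2⟩ := hx1
  have b1 := abs_le.1 a1
  have b2 := abs_le.1 a2
  by_cases h : |x1 - z.1| ≤ s
  · have h' : ¬ |x2 - z.2| ≤ s := fun h' => hx2 ⟨h, h'⟩
    refine ⟨((N : ℤ), x2), ⟨⟨?_, ?_⟩, Or.inl ?_⟩, ?_⟩
    · simp
    · simpa only [Prod.snd_zero, sub_zero] using a2
    · simp
    · have := conn_right (S := bx 0 N \ bx z s) x1 x2 (N - x1).toNat (fun c h1 h2 => ?_)
      · rw [Int.toNat_of_nonneg (by omega)] at this
        convert this using 2
        ring
      · rw [Int.toNat_of_nonneg (by omega)] at h2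
        refine ⟨⟨?_, by simpa only [Prod.snd_zero, sub_zero] using a2⟩, fun h3 => h' h3.2⟩
        simp only [Prod.fst_zero, sub_zero]
        rw [abs_le]; constructor <;> omega
  · refine ⟨(x1, (N : ℤ)), ⟨⟨?_, ?_⟩, Or.inr ?_⟩, ?_⟩
    · simpa only [Prod.fst_zero, sub_zero] using a1
    · simp
    · simp only [Prod.snd_zero, sub_zero, Nat.abs_cast]
    · have := conn_up (S := bx 0 N \ bx z s) x1 x2 (N - x2).toNat (fun c h1 h2 => ?_)
      · rw [Int.toNat_of_nonneg (by omega)] at this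
        convert this using 2
        ring
      · rw [Int.toNat_of_nonneg (by omega)] at h2
        refine ⟨⟨by simpa only [Prod.fst_zero, sub_zero] using a1, ?_⟩, fun h3 => h h3.1⟩
        simp only [Prod.snd_zero, sub_zero]
        rw [abs_le]; constructor <;> omega

variable {N s : ℕ} {z : V}

theorem bB_sub [NeZero N] (hz : z ∈ bx 0 (N / 4)) (hs : 2 * s + 2 ≤ N) :
    bB 0 N ⊆ bx 0 N \ bx z s := by
  intro x hx
  refine ⟨hx.1, fun hx' => ?_⟩
  obtain ⟨i, rfl⟩ := UpDet.bz_surj hx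
  exact UpDet.bz_notMem hz (by omega) i hx'

theorem dom [NeZero N] (hK : KalStmt) (hz : z ∈ bx 0 (N / 4)) (hs : 2 * s + 2 ≤ N) :
    Dom (UpDet.bz N) (bx 0 N) z s where
  fin := bx_finite 0 N
  conn := fun _ hx _ hy => UpDet.conn_bx hx hy
  conn' := by
    intro x hx y hy
    obtain ⟨x', hx', h1⟩ := exists_conn_bB hx
    obtain ⟨y', hy', h2⟩ := exists_conn_bB hy
    obtain ⟨i, rfl⟩ := UpDet.bz_surj hx'
    obtain ⟨j, rfl⟩ := UpDet.bz_surj hy'
    exact h1.trans' ((UpDet.conn_bz (bB_sub hz hs) i j).trans' h2.symm')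
  mem := fun i => bB_sub hz hs (UpDet.bz_mem_bB i)
  kal := fun t ht => ⟨hK (wt t) 0 N _ (NeZero.pos N) (adm_of_pos ht) Set.Subset.rfl
      fun x hx => hx.1,
    hK (wt t) 0 N _ (NeZero.pos N) (adm_of_pos ht) Set.sdiff_subset (bB_sub hz hs)⟩

/-! ### Growth with a good event that does not see the lowering -/

theorem prob_lev_le {G : Measure ℝ} [IsProbabilityMeasure G] {α β ε : ℝ}
    (hG : RP G α β ε) {D : Finset latt.edgeSet} {B : Set Env} (hB : MeasurableSet B)
    (hs : ∀ t' t, Rch α β D t' t → t' ∈ B → t ∈ B) :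
    rsm (rl G α β ε) D (PG G) B ≤ PG G B := by
  have hP : rsm G D (PG G) = PG G := rsm_PG _
  rw [← lintegral_indicator_one hB, ← lintegral_indicator_one hB,
    ← lintegral_KL hG hP (measurable_one.indicator hB)]
  refine lintegral_mono fun t' => ?_
  by_cases ht' : t' ∈ B
  · have h1 := KL_mono hG (D := D) t' (F := fun _ => (1 : ℝ≥0∞)) (F' := B.indicator 1)
      (fun t ht => by rw [Set.indicator_of_mem (hs t' t ht ht')]; rfl)
    rw [KL_const hG] at h1
    rw [Set.indicator_of_mem ht']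
    exact h1
  · rw [Set.indicator_of_notMem ht']
    exact bot_le

theorem box_growthG {m : ℕ} [NeZero m] {b : ZMod m → V} {S : Set V} {z : V} {r : ℕ} {α β : ℝ}
    {G : Measure ℝ} [IsProbabilityMeasure G] {ε : ℝ} (hG : RP G α β ε)
    (h1 : ε < 1) {F : Env → Env} (hF : FldR F α β (tF z r)) (hd : Dom b S z r)
    {Good : Set Env} (hGm : MeasurableSet Good) (hGp : ∀ t ∈ Good, ∀ e, 0 < t e)
    (hGs : ∀ t' t, Rch α β (tF z r) t' t → (t' ∈ Good ↔ t ∈ Good))
    (hGood : PG G Goodᶜ ≤ 1 / 8)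
    {h g : ℝ} (hh : 0 < h) {N M n k : ℕ} (hg : 2 * (k : ℝ) * h ≤ g) (hg0 : 0 < g)
    (hgM : g ≤ M * (β - α))
    (hNM : 2 * (M : ℝ) + 4 ≤ N * (ε * ((1 - ε) ^ k * (G (Set.Iic α)).toReal)))
    {c : ℝ} (hc : ((tF z r).card : ℝ) * (k * ε) ^ 2 ≤ c)
    (hA : ENNReal.ofReal (Real.exp (c * (1 + 1 / (G (Set.Ici β)).toReal))) *
      PG G {t | ¬ FamF b S z r β h N n F t} ≤ 1 / 64) :
    ENNReal.ofReal h * n * k * (1 / 4) ≤
      ∫⁻ t in Good, ENNReal.ofReal (Brg.pot b S z r g (F t)) ∂PG G := by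
  classical
  rcases Nat.eq_zero_or_pos k with hk | hk
  · subst hk; simp only [CharP.cast_eq_zero, mul_zero, one_div, zero_mul, zero_le]
  have hk1 : (1 : ℝ) ≤ k := by exact_mod_cast hk
  set E : Set Env := {t | FamF b S z r β h N n F t} with hE
  have hEm : MeasurableSet E := measurableSet_FamF S z r β h N n hF.meas
  set A : Set Env := Good ∩ E with hAdef
  have hAm : MeasurableSet A := hGm.inter hEm
  set Φ : Env → ℝ≥0∞ := Good.indicator fun t => ENNReal.ofReal (Brg.pot b S z r g (F t)) with hΦ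
  have hΦm : Measurable Φ :=
    ((measurable_pot S z r g).comp hF.meas).ennreal_ofReal.indicator hGm
  have hP : rsm G (tF z r) (PG G) = PG G := rsm_PG _
  have hr0 : 0 ≤ h / g := by (clear * - hh hg0; positivity)
  have hr : 2 * (k : ℝ) * (h / g) ≤ 1 := by
    rw [← mul_div_assoc, div_le_one hg0]
    exact hg
  have hr1 : h / g ≤ 1 / 2 := by nlinarith only [hr, hk1]
  have hαβ := hG.lt
  rw [← lintegral_indicator hGm]
  refine growth hG h1 (D := tF z r) hP hΦm hAm (r := h / g) (N := N) (M := M)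
    (c := ENNReal.ofReal h) hr0 hr hNM ?_ ?_ ?_
  · intro t' t htt
    by_cases ht' : t' ∈ Good
    · have ht := (hGs t' t htt).1 ht'
      have hp' := hGp t' ht'
      simp only [hΦ, Set.indicator_of_mem ht', Set.indicator_of_mem ht]
      refine le_trans (mul_le_of_le_one_left bot_le ?_) (ENNReal.ofReal_le_ofReal
        (pot_mono hd hαβ hg0 (hF.pos t' hp') (hF.rch t' t hp' htt)))
      rw [← ENNReal.ofReal_one]
      exact ENNReal.ofReal_le_ofReal (by linarith only [hr0])
    · simp only [hΦ, Set.indicator_of_notMem ht', mul_zero]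
      exact bot_le
  · intro t' ht'
    obtain ⟨hGt, hFt⟩ := ht'
    obtain ⟨Q, hQ, hQt⟩ := pot_stepF hF hd hαβ hh hg0 (hGp t' hGt) hgM hFt
    refine ⟨Q, hQ, fun t htt => ?_⟩
    have ht := (hGs t' t htt).1 hGt
    simp only [hΦ, Set.indicator_of_mem hGt, Set.indicator_of_mem ht]
    have h2 := hQt t htt
    have h3 : ∑ i, ({t | M ≤ cnt α (Q i) t}.indicator 1 t : ℝ≥0∞) =
        ENNReal.ofReal (∑ i, ({t | M ≤ cnt α (Q i) t}.indicator 1 t : ℝ)) := by
      rw [ENNReal.ofReal_sum_of_nonneg]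
      · refine Finset.sum_congr rfl fun i _ => ?_
        by_cases hi : M ≤ cnt α (Q i) t
        · simp only [Set.mem_ofPred_eq, hi, Set.indicator_of_mem, Pi.one_apply, ENNReal.ofReal_one]
        · simp only [Set.mem_ofPred_eq, hi, not_false_eq_true, Set.indicator_of_notMem, ENNReal.ofReal_zero]
      · intro i _
        exact Set.indicator_nonneg (fun _ _ => zero_le_one) _
    have h4 : 0 ≤ ∑ i, ({t | M ≤ cnt α (Q i) t}.indicator 1 t : ℝ) :=
      Finset.sum_nonneg fun i _ => Set.indicator_nonneg (fun _ _ => zero_le_one) _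
    rw [h3, ← ENNReal.ofReal_mul (by linarith only [hr1]), ← ENNReal.ofReal_mul hh.le,
      ← ENNReal.ofReal_add (mul_nonneg (by linarith only [hr1])
        (pot_nonneg hd (hF.pos t' (hGp t' hGt)))) (mul_nonneg hh.le h4)]
    exact ENNReal.ofReal_le_ofReal h2
  · intro i hi1 hik
    have hl := lev_mem hG.nonneg h1 i
    have hli : lev ε i ≤ k * ε := (lev_le hG.nonneg h1 i).trans
      (mul_le_mul_of_nonneg_right (by exact_mod_cast hik) hG.nonneg)
    have hRi : RP G α β (lev ε i) := ⟨hG.prob, hG.lt, hG.lo, hG.hi, hl.1, hl.2.le, hG.pos⟩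
    have hpi := hRi.prob_rl
    have hpr := prob_rsm (G' := rl G α β (lev ε i)) (D := tF z r) (P := PG G)
    have h5 := hRi.rsm_le_exp (D := tF z r) (P := PG G) hP (c := c)
      (le_trans (mul_le_mul_of_nonneg_left (pow_le_pow_left₀ hl.1 hli 2)
        (Nat.cast_nonneg _)) hc) hEm.compl
    have h6 : rsm (rl G α β (lev ε i)) (tF z r) (PG G) Eᶜ ≤ 1 / 8 := by
      refine h5.trans ?_
      have h7 : (1 / 64 : ℝ≥0∞) ^ (1 / 2 : ℝ) = 1 / 8 := by
        have e1 : (1 / 64 : ℝ≥0∞) = (1 / 8) ^ (2 : ℝ) := by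
          rw [ENNReal.rpow_two, one_div, one_div, ← ENNReal.inv_pow]
          norm_num
        rw [e1, ← ENNReal.rpow_mul]
        norm_num
      rw [← h7]
      exact ENNReal.rpow_le_rpow hA (by norm_num)
    have h6' : rsm (rl G α β (lev ε i)) (tF z r) (PG G) Goodᶜ ≤ 1 / 8 := by
      refine (prob_lev_le hRi hGm.compl fun t' t htt ht' => ?_).trans hGood
      exact fun ht => ht' ((hGs t' t htt).2 ht)
    have h7 : rsm (rl G α β (lev ε i)) (tF z r) (PG G) Aᶜ ≤ 1 / 4 := by
      rw [hAdef, Set.compl_inter]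
      refine (measure_union_le _ _).trans ((add_le_add h6' h6).trans ?_)
      have e1 : (1 / 8 : ℝ≥0∞) = ENNReal.ofReal (1 / 8) := by
        rw [ENNReal.ofReal_div_of_pos (by norm_num)]; norm_num
      have e2 : (1 / 4 : ℝ≥0∞) = ENNReal.ofReal (1 / 4) := by
        rw [ENNReal.ofReal_div_of_pos (by norm_num)]; norm_num
      rw [e1, e2, ← ENNReal.ofReal_add (by norm_num) (by norm_num)]
      exact ENNReal.ofReal_le_ofReal (by norm_num)
    have h8 : rsm (rl G α β (lev ε i)) (tF z r) (PG G) A +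
        rsm (rl G α β (lev ε i)) (tF z r) (PG G) Aᶜ = 1 := by
      rw [measure_add_measure_compl hAm, measure_univ]
    have h9 : (3 / 4 : ℝ≥0∞) + 1 / 4 = 1 := by
      rw [← ENNReal.add_div]
      norm_num
      exact ENNReal.div_self (by norm_num) (by norm_num)
    have h10 : (3 / 4 : ℝ≥0∞) + 1 / 4 ≤
        rsm (rl G α β (lev ε i)) (tF z r) (PG G) A + 1 / 4 :=
      h9.le.trans (h8.symm.le.trans (add_le_add le_rfl h7))
    exact (ENNReal.add_le_add_iff_right
      (ENNReal.div_ne_top ENNReal.one_ne_top (by norm_num) : (1 / 4 : ℝ≥0∞) ≠ ∞)).1 h10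

/-! ### Probabilities -/

section Prob
variable {G : Measure ℝ} [IsProbabilityMeasure G] {α β : ℝ} {F : Env → Env}

/-- Heavy crossings of annuli, uniformly in the centre. -/
theorem agz (hβ : G (Set.Iio β) ≤ 1 / 16) : ∀ δ : ℝ, 0 < δ → ∃ r₀ : ℕ, ∀ r ≥ r₀, ∀ z : V,
    PG G {t | ¬ AG β t z r (2 * r)} ≤ ENNReal.ofReal δ := by
  intro δ hδ
  obtain ⟨C, θ, hC, hθ0, hθ1, hP⟩ := Pe.peierls G β hβ
  have hlim : Tendsto (fun r : ℕ => C * (((r : ℝ) + 1) * θ ^ r)) atTop (nhds 0) := by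
    have h1 := tendsto_self_mul_const_pow_of_lt_one hθ0.le hθ1
    have h2 := tendsto_pow_atTop_nhds_zero_of_lt_one hθ0.le hθ1
    have h3 := (h1.add h2).const_mul C
    simp only [add_zero, mul_zero] at h3
    refine h3.congr fun r => ?_
    ring
  obtain ⟨r₀, hr₀⟩ := (hlim.eventually (gt_mem_nhds hδ)).exists_forall_of_atTop
  refine ⟨r₀, fun r hr z => ?_⟩
  refine (hP z r (2 * r) (by omega)).trans (ENNReal.ofReal_le_ofReal ?_)
  have h4 := (hr₀ r hr).le
  have e : 2 * r - r = r := by omega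
  rw [e]
  calc _ = C * (((r : ℝ) + 1) * θ ^ r) := by ring
    _ ≤ δ := h4

/-- The ring sum is at most linear, with probability at least `15/16`. -/
theorem ring_markov (hFm : Measurable F) (hpos : ∀ᵐ t ∂PG G, ∀ e, 0 < F t e) {E : ℝ} (hE : 0 < E)
    (hEF : ∀ e, ∫⁻ t, ENNReal.ofReal (F t e) ∂PG G ≤ ENNReal.ofReal E) {N : ℕ} (hN : 0 < N) :
    PG G {t | ¬ rs (wt (F t)) 0 N ≤ 128 * E * N} ≤ 1 / 16 := by
  have hmeas : ∀ k : ℕ, Measurable fun t : Env => wt (F t) (bd 0 N (k : ℤ)) (bd 0 N ((k : ℤ) + 1)) :=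
    fun k => (UpAv.measurable_wt _ _).comp hFm
  have h1 : ∫⁻ t, ENNReal.ofReal (rs (wt (F t)) 0 N) ∂PG G ≤ ENNReal.ofReal (8 * N * E) := by
    have h2 : ∫⁻ t, ENNReal.ofReal (rs (wt (F t)) 0 N) ∂PG G =
        ∫⁻ t, ∑ k ∈ Finset.range (8 * N),
          ENNReal.ofReal (wt (F t) (bd 0 N (k : ℤ)) (bd 0 N ((k : ℤ) + 1))) ∂PG G := by
      refine lintegral_congr_ae ?_
      filter_upwards [hpos] with t ht
      unfold rs
      rw [ENNReal.ofReal_sum_of_nonneg]
      intro k _
      rw [wt_eq _ (bd_adj hN _)]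
      exact (ht _).le
    rw [h2, lintegral_finsetSum _ fun k _ => (hmeas k).ennreal_ofReal]
    have h3 : ∀ k ∈ Finset.range (8 * N),
        ∫⁻ t, ENNReal.ofReal (wt (F t) (bd 0 N (k : ℤ)) (bd 0 N ((k : ℤ) + 1))) ∂PG G ≤
          ENNReal.ofReal E := by
      intro k _
      refine le_trans (le_of_eq ?_) (hEF ⟨s(bd 0 N (k : ℤ), bd 0 N ((k : ℤ) + 1)), bd_adj hN _⟩)
      refine lintegral_congr fun t => ?_
      rw [wt_eq _ (bd_adj hN _)]
    refine (Finset.sum_le_sum h3).trans (le_of_eq ?_)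
    rw [Finset.sum_const, Finset.card_range, nsmul_eq_mul, ← ENNReal.ofReal_natCast,
      ← ENNReal.ofReal_mul (by positivity)]
    congr 1
    push_cast
    ring
  have hN0 : (0 : ℝ) < N := by exact_mod_cast hN
  have h4 : PG G {t | ¬ rs (wt (F t)) 0 N ≤ 128 * E * N} ≤
      PG G {t | ENNReal.ofReal (128 * E * N) ≤ ENNReal.ofReal (rs (wt (F t)) 0 N)} := by
    refine measure_mono fun t ht => ?_
    exact ENNReal.ofReal_le_ofReal (not_le.1 ht).le
  refine h4.trans ?_
  have hrm : Measurable fun t : Env => rs (wt (F t)) 0 N := (UpAv.measurable_rs 0 N).comp hFm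
  refine (meas_ge_le_lintegral_div hrm.ennreal_ofReal.aemeasurable ?_ ENNReal.ofReal_ne_top).trans ?_
  · exact (ENNReal.ofReal_pos.2 (by positivity)).ne'
  refine (ENNReal.div_le_div_right h1 _).trans (le_of_eq ?_)
  rw [← ENNReal.ofReal_div_of_pos (by positivity)]
  have e : 8 * (N : ℝ) * E / (128 * E * N) = 1 / 16 := by
    field_simp
    norm_num
  rw [e, ENNReal.ofReal_div_of_pos (by norm_num)]
  norm_num

/-- The path condition off a finite set of edges. -/
def PthOff (R L : ℝ) (N : ℕ) (D : Finset latt.edgeSet) (t : Env) : Prop :=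
  ∀ (x y : V) (p : latt.Walk x y), p.IsPath → (∀ v ∈ p.support, v ∈ bx 0 N) →
    L ≤ p.length → ∃ s : Finset latt.edgeSet, s ⊆ pe p ∧ Disjoint s D ∧ R < ∑ e ∈ s, t e

theorem path_off (hβ0 : 0 < β) (hβ : G (Set.Iio β) ≤ 1 / 16)
    (hpos : ∀ᵐ t ∂PG G, ∀ e, 0 < F t e) (hhigh : ∀ᵐ t ∂PG G, ∀ e, β ≤ t e → β ≤ F t e)
    {C' : ℝ} (hC' : 0 < C') :
    ∃ C₁ : ℝ, 1 ≤ C₁ ∧ ∀ (n : ℕ) (δ : ℝ), 0 < δ → ∃ N₀ : ℕ, ∀ N ≥ N₀, ∀ D : Finset latt.edgeSet,
      D.card ≤ n → PG G {t | ¬ PthOff (C' * N) (C₁ * N) N D (F t)} ≤ ENNReal.ofReal δ := by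
  classical
  refine ⟨max 1 (16 * C' / β), le_max_left _ _, fun n δ hδ => ?_⟩
  set C₁ := max 1 (16 * C' / β) with hC₁
  have hC1 : 1 ≤ C₁ := le_max_left _ _
  have hC2 : 16 * C' / β ≤ C₁ := le_max_right _ _
  obtain ⟨N₁, hN₁⟩ := PathP.tail_lim hC1 hδ
  obtain ⟨N₂, hN₂⟩ := exists_nat_gt (β * n / C')
  refine ⟨max N₁ N₂, fun N hN D hD => ?_⟩
  have hNr : β * (D.card : ℝ) < C' * N := by
    have h1 : β * (n : ℝ) / C' < N := lt_of_lt_of_le hN₂
      (by exact_mod_cast (le_max_right N₁ N₂).trans hN)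
    rw [div_lt_iff₀ hC'] at h1
    have h2 : β * (D.card : ℝ) ≤ β * n :=
      mul_le_mul_of_nonneg_left (by exact_mod_cast hD) hβ0.le
    linarith only [h1, h2]
  refine le_trans (measure_mono_ae ?_) ((PathP.tail_box hβ 0 N ⌈C₁ * N⌉₊).trans
    (ENNReal.ofReal_le_ofReal (hN₁ N ((le_max_left _ _).trans hN))))
  filter_upwards [hpos, hhigh] with t ht hhi hbad
  have hbad' : ¬ PthOff (C' * N) (C₁ * N) N D (F t) := hbad
  unfold PthOff at hbad'
  push Not at hbad'
  obtain ⟨x, y, p, hp, hsup, hlen, hle⟩ := hbad'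
  refine ⟨x, y, p, hsup x p.start_mem_support, hp, Nat.ceil_le.2 hlen, ?_⟩
  by_contra hcon
  push Not at hcon
  have h0 := hle ((pe p).filter fun e => e ∉ D) (Finset.filter_subset _ _)
    (Finset.disjoint_left.2 fun e he => (Finset.mem_filter.1 he).2)
  have h1 := PathP.sum_heavy hβ0 ht D (pe p)
  have h1' : Pe.nh β t (pe p) ≤ Pe.nh β (F t) (pe p) := by
    unfold Pe.nh
    refine Finset.card_le_card fun e he => ?_
    rw [Finset.mem_filter] at he ⊢
    exact ⟨he.1, hhi e he.2⟩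
  have h1'' : (Pe.nh β t (pe p) : ℝ) ≤ Pe.nh β (F t) (pe p) := by exact_mod_cast h1'
  have h2 : (p.length : ℝ) ≤ 8 * Pe.nh β t (pe p) := by exact_mod_cast hcon
  have h3 : 16 * C' * N ≤ β * (8 * Pe.nh β t (pe p)) := by
    calc 16 * C' * (N : ℝ) = β * (16 * C' / β * N) := by field_simp
      _ ≤ β * (C₁ * N) := by (clear * - hC2 hβ0; gcongr)
      _ ≤ β * p.length := by (clear * - hlen hβ0; gcongr)
      _ ≤ _ := by (clear * - h2 hβ0; gcongr)
  have h4 : β * (Pe.nh β t (pe p) : ℝ) ≤ β * Pe.nh β (F t) (pe p) :=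
    mul_le_mul_of_nonneg_left h1'' hβ0.le
  nlinarith only [h1, h3, hNr, h0, h4]

end Prob

/-! ### The good event -/

section Good
variable {N s : ℕ} {z : V} {α β : ℝ} {F : Env → Env}

theorem measurableSet_pos : MeasurableSet {t : Env | ∀ e, 0 < t e} := by
  have : {t : Env | ∀ e, 0 < t e} = ⋂ e, {t : Env | 0 < t e} := by ext t; simp only [Subtype.forall, Set.mem_ofPred_eq, Set.iInter_coe_set, Set.mem_iInter]
  rw [this]
  exact MeasurableSet.iInter fun e => measurableSet_lt measurable_const (measurable_pi_apply e)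

theorem measurable_PthOff (R L : ℝ) (N : ℕ) (D : Finset latt.edgeSet) :
    Measurable fun t : Env => PthOff R L N D t := by
  unfold PthOff
  refine Measurable.forall fun x => Measurable.forall fun y => Measurable.forall fun p =>
    (mconst _).imp ((mconst _).imp ((mconst _).imp (Measurable.exists fun s => (mconst _).and
      ((mconst _).and ?_))))
  exact measurableSet_setOfPred.1 (measurableSet_lt measurable_const
    (Finset.measurable_sum _ fun e _ => measurable_pi_apply e))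

/-- The good event. -/
def GoodS (R L : ℝ) (N : ℕ) (z : V) (s : ℕ) (F : Env → Env) : Set Env :=
  {t | (∀ e, 0 < t e) ∧ rs (wt (F t)) 0 N ≤ R ∧ PthOff R L N (tF z s) (F t)}

theorem measurableSet_GoodS (R L : ℝ) (N : ℕ) (z : V) (s : ℕ) (hF : Measurable F) :
    MeasurableSet (GoodS R L N z s F) := by
  refine measurableSet_pos.inter (MeasurableSet.inter ?_ ?_)
  · exact measurableSet_le ((UpAv.measurable_rs 0 N).comp hF) measurable_const
  · exact measurableSet_setOfPred.2 ((measurable_PthOff R L N (tF z s)).comp hF)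

theorem rch_pos (hα : 0 < α) (hαβ : α < β) {D : Finset latt.edgeSet} {t' t : Env}
    (h : Rch α β D t' t) : (∀ e, 0 < t' e) ↔ ∀ e, 0 < t e := by
  constructor
  · exact fun ht' => Rch.pos h ht'
  · intro hp e
    by_cases he : e ∈ D
    · rcases h.2 e he with h1 | ⟨h1, -, -⟩
      · rw [← h1]; exact hp e
      · linarith
    · rw [← h.1 e he]; exact hp e

theorem rs_congr [NeZero N] {u u' : Env} (hz : z ∈ bx 0 (N / 4)) (hs : 2 * s + 2 ≤ N)
    (h : ∀ e, e ∉ tF z s → u e = u' e) : rs (wt u) 0 N = rs (wt u') 0 N := by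
  have hN : 0 < N := NeZero.pos N
  unfold rs
  refine Finset.sum_congr rfl fun k _ => ?_
  rw [wt_eq u (bd_adj hN _), wt_eq u' (bd_adj hN _)]
  apply h
  rw [mem_tF]
  rintro ⟨x, hx, hx'⟩
  have hx2 : x ∈ s(bd 0 N (k : ℤ), bd 0 N ((k : ℤ) + 1)) := hx
  rw [Sym2.mem_iff] at hx2
  rcases hx2 with rfl | rfl
  · exact (bB_sub hz hs (bd_mem_bB hN _)).2 hx'
  · exact (bB_sub hz hs (bd_mem_bB hN _)).2 hx'

theorem pthOff_congr {R L : ℝ} {N : ℕ} {D : Finset latt.edgeSet} {u u' : Env}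
    (h : ∀ e, e ∉ D → u e = u' e) (hu : PthOff R L N D u) : PthOff R L N D u' := by
  intro x y p hp hp1 hp2
  obtain ⟨s, h1, h2, h3⟩ := hu x y p hp hp1 hp2
  refine ⟨s, h1, h2, h3.trans_eq (Finset.sum_congr rfl fun e he => ?_)⟩
  exact h e fun hD => Finset.disjoint_left.1 h2 he hD

theorem goodS_iff [NeZero N] {R L : ℝ} (hα : 0 < α) (hαβ : α < β) (hz : z ∈ bx 0 (N / 4))
    (hs : 2 * s + 2 ≤ N) (hF : FldR F α β (tF z s)) {t' t : Env} (h : Rch α β (tF z s) t' t) :
    t' ∈ GoodS R L N z s F ↔ t ∈ GoodS R L N z s F := by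
  have hp := rch_pos hα hαβ h
  constructor
  · rintro ⟨h1, h2, h3⟩
    have h4 := (hF.rch t' t h1 h).1
    exact ⟨hp.1 h1, by rw [rs_congr hz hs h4]; exact h2,
      pthOff_congr (fun e he => (h4 e he).symm) h3⟩
  · rintro ⟨h1, h2, h3⟩
    have h4 := (hF.rch t' t (hp.2 h1) h).1
    exact ⟨hp.2 h1, by rw [← rs_congr hz hs h4]; exact h2, pthOff_congr h4 h3⟩

/-- Lines and heavy annuli give a family of slack pairs. -/
theorem fam_of [NeZero N] (hd : Dom (UpDet.bz N) (bx 0 N) z (2 * s)) {h : ℝ} {n : ℕ} {t : Env}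
    (ht : ∀ e, 0 < F t e) (hM : Lin.ManyW h n (wt (F t)) N z s (2 * s))
    (hAG : AG β t z s (2 * s)) :
    FamF (UpDet.bz N) (bx 0 N) z (2 * s) β h ((s + 7) / 8) n F t := by
  classical
  obtain ⟨I, hn, hI, hdist⟩ := hM
  refine ⟨I, hn, fun p hp => (hI p hp).1, hdist, fun p hp => ?_⟩
  obtain ⟨-, v, hvr, hvS, hOn⟩ := hI p hp
  have hw := adm_of_pos ht
  have hatt := att_of_finite hw hd.fin hd.conn
  have hx := (hd.mem p.1).1
  have hy := (hd.mem p.2).1
  obtain ⟨q, hq, hq'⟩ := hatt v hvS _ hx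
  obtain ⟨q₂, hq₂, hq₂'⟩ := hatt v hvS _ hy
  refine ⟨q.reverse.append q₂, ?_, ?_, ?_⟩
  · intro x hx'
    rw [SimpleGraph.Walk.mem_support_append_iff] at hx'
    rcases hx' with hx' | hx'
    · exact hq x (by simpa using hx')
    · exact hq₂ x hx'
  · rw [ww_append, ww_reverse hw, hq', hq₂', PT_comm hw]
    exact hOn
  · have h1 := hAG v _ q hvr (hd.mem p.1).2
    have h2 : hv β t z s (2 * s) q ⊆ hQ β (tF z (2 * s)) t (q.reverse.append q₂) := by
      intro e he
      unfold hv at he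
      rw [Finset.mem_filter] at he
      rw [mem_hQ]
      refine ⟨?_, mem_tF.2 he.2.2.1, he.2.2.2⟩
      have h3 := he.1
      rw [mem_pe] at h3 ⊢
      obtain ⟨d, hd1, hd2⟩ := h3
      refine ⟨d.symm, ?_, ?_⟩
      · rw [SimpleGraph.Walk.darts_append, List.mem_append]
        left
        rw [SimpleGraph.Walk.darts_reverse, List.mem_reverse, List.mem_map]
        exact ⟨d, hd1, rfl⟩
      · rw [← hd2]
        exact Subtype.ext d.edge_symm
    have h3 := Finset.card_le_card h2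
    omega

end Good

/-! ### The assembly -/

section Main
variable {G : Measure ℝ} [IsProbabilityMeasure G] {α β : ℝ} {F : Env → Env}

theorem ae_pos' (hG : G (Set.Iic 0) = 0) : ∀ᵐ t ∂PG G, ∀ e, 0 < t e := by
  rw [ae_all_iff]
  intro e
  have h1 : MeasurePreserving (Function.eval e) (PG G) G :=
    measurePreserving_eval_infinitePi (fun _ : latt.edgeSet => G) e
  have h2 : PG G (Function.eval e ⁻¹' Set.Iic 0) = 0 := by
    rw [h1.measure_preimage measurableSet_Iic.nullMeasurableSet, hG]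
  refine measure_mono_null (fun t ht => ?_) h2
  have ht' : ¬ 0 < t e := ht
  exact not_lt.1 ht'

theorem pot_le {N s : ℕ} [NeZero N] {z : V} {g : ℝ} {t : Env}
    (hd : Dom (UpDet.bz N) (bx 0 N) z s) (ht : ∀ e, 0 < F t e) :
    Brg.pot (UpDet.bz N) (bx 0 N) z s g (F t) ≤
      mu (C.bT (wt (F t)) 0 N (bx 0 N \ bx z s)) (Ef (wt (F t)) 0 N z s) := by
  classical
  obtain ⟨kT, kW⟩ := hd.kal (F t) ht
  have e1 : C.bT (wt (F t)) 0 N (bx 0 N \ bx z s) =
      Brg.bT (UpDet.bz N) (bx 0 N \ bx z s) (F t) := rfl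
  have e2 : TN (wt (F t)) 0 N = Brg.bT (UpDet.bz N) (bx 0 N) (F t) := rfl
  unfold Brg.pot Ef
  rw [e1, e2]
  refine Finset.sum_le_sum_of_subset_of_nonneg (fun p hp => ?_) fun p hp _ => ?_
  · rw [Finset.mem_filter]
    exact ⟨Finset.mem_univ _, heavy_sub hp⟩
  · rw [Finset.mem_filter] at hp
    exact cell_nonneg_Ex kW kT hp.2

theorem goodS_sub {N s : ℕ} {z : V} {R L : ℝ} (hFp : ∀ t, (∀ e, 0 < t e) → ∀ e, 0 < F t e) :
    GoodS R L N z s F ⊆ F ⁻¹' UpAv.Gd R L N := by
  classical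
  rintro t ⟨h1, h2, h3⟩
  refine ⟨h2, fun x y p hp hp1 hp2 => ?_⟩
  obtain ⟨s', h4, -, h6⟩ := h3 x y p hp hp1 hp2
  have h7 := fun e => (hFp t h1 e).le
  refine h6.trans_le (le_trans ?_ (UpAv.ww_ge_filter h7 p hp fun e => e ∈ s'))
  refine Finset.sum_le_sum_of_subset_of_nonneg (fun e he => ?_) fun e _ _ => h7 e
  rw [Finset.mem_filter]
  exact ⟨h4 he, he⟩

theorem prob_good (hG0 : G (Set.Iic 0) = 0) {N s : ℕ} {z : V} {R L : ℝ}
    (h1 : PG G {t | ¬ rs (wt (F t)) 0 N ≤ R} ≤ 1 / 16)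
    (h2 : PG G {t | ¬ PthOff R L N (tF z s) (F t)} ≤ 1 / 16) :
    PG G (GoodS R L N z s F)ᶜ ≤ 1 / 8 := by
  have hsub : (GoodS R L N z s F)ᶜ ⊆ {t | ¬ ∀ e, 0 < t e} ∪
      ({t | ¬ rs (wt (F t)) 0 N ≤ R} ∪ {t | ¬ PthOff R L N (tF z s) (F t)}) := by
    intro t ht
    by_contra hcon
    simp only [Set.mem_union, Set.mem_ofPred_eq, not_or, not_not] at hcon
    exact ht ⟨hcon.1, hcon.2.1, hcon.2.2⟩
  have h0 : PG G {t | ¬ ∀ e, 0 < t e} = 0 := ae_iff.1 (ae_pos' hG0)
  refine (measure_mono hsub).trans ((measure_union_le _ _).trans ?_)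
  rw [h0, zero_add]
  refine (measure_union_le _ _).trans ((add_le_add h1 h2).trans (le_of_eq ?_))
  have e1 : (1 / 16 : ℝ≥0∞) = ENNReal.ofReal (1 / 16) := by
    rw [ENNReal.ofReal_div_of_pos (by norm_num)]; norm_num
  have e2 : (1 / 8 : ℝ≥0∞) = ENNReal.ofReal (1 / 8) := by
    rw [ENNReal.ofReal_div_of_pos (by norm_num)]; norm_num
  rw [e1, e2, ← ENNReal.ofReal_add (by norm_num) (by norm_num)]
  norm_num

theorem nm_aux {M k r : ℕ} {a A₀ ε : ℝ} (ha0 : 0 < a) (hA₀ : A₀ = 16 * (2 * M + 4) / a)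
    (hεr : ε * r = A₀) (hε0 : 0 ≤ ε) (hεk : 2 * (k + 1) * ε < 1) :
    2 * (M : ℝ) + 4 ≤ (((r + 7) / 8 : ℕ) : ℝ) * (ε * ((1 - ε) ^ k * a)) := by
  have h1 : (r : ℝ) / 8 ≤ (((r + 7) / 8 : ℕ) : ℝ) := by
    have : r ≤ 8 * ((r + 7) / 8) := by omega
    have : (r : ℝ) ≤ 8 * ((r + 7) / 8 : ℕ) := by exact_mod_cast this
    (clear * - this; linarith)
  have hk0 : (0 : ℝ) ≤ k := Nat.cast_nonneg k
  have h2 : (1 / 2 : ℝ) ≤ (1 - ε) ^ k := by
    have h4 := one_add_mul_le_pow (a := -ε) (by nlinarith only [hεk]) k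
    have e : (1 + -ε) = 1 - ε := by ring
    rw [e] at h4
    nlinarith only [hεk, h4]
  have h3 : 2 * (M : ℝ) + 4 = r / 8 * (ε * (1 / 2 * a)) := by
    have h5 : (r : ℝ) / 8 * (ε * (1 / 2 * a)) = (ε * r) * a / 16 := by ring
    rw [h5, hεr, hA₀]
    field_simp
  rw [h3]
  refine mul_le_mul h1 (mul_le_mul_of_nonneg_left ?_ hε0) (by (clear * - hε0 ha0; positivity)) (by (clear * -; positivity))
  exact mul_le_mul_of_nonneg_right h2 ha0.le

theorem card_aux {z : V} {r k : ℕ} {ε A₀ : ℝ} (hr : 1 ≤ r) (hεr : ε * r = A₀) :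
    ((tF z (2 * r)).card : ℝ) * (k * ε) ^ 2 ≤ 169 * (k * A₀) ^ 2 := by
  have h1 : ((tF z (2 * r)).card : ℝ) ≤ (13 * r) ^ 2 := by
    have h2 := card_tF_le z (2 * r)
    have h3 : (4 * (2 * r) + 5) ^ 2 ≤ (13 * r) ^ 2 := Nat.pow_le_pow_left (by omega) 2
    exact_mod_cast h2.trans h3
  calc ((tF z (2 * r)).card : ℝ) * (k * ε) ^ 2 ≤ (13 * r) ^ 2 * (k * ε) ^ 2 :=
        mul_le_mul_of_nonneg_right h1 (by (clear * -; positivity))
    _ = 169 * (k * (ε * r)) ^ 2 := by ring
    _ = _ := by rw [hεr]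

theorem contra_aux {h c A C' C₁ : ℝ} {k r : ℕ} (hh : 0 < h) (hc : 0 < c) (hA : 0 < A)
    (hC' : 0 < C') (hC₁ : 0 < C₁) (hr : 1 ≤ r) (hk : 8 * A * C' * C₁ < k * (h * c))
    (h1 : ENNReal.ofReal h * (⌈c * r⌉₊ : ℕ) * k * (1 / 4) ≤
      ENNReal.ofReal (A * (2 * r : ℕ) * C' * C₁)) : False := by
  have hr0 : (0 : ℝ) < r := by exact_mod_cast hr
  have h2 : ENNReal.ofReal (h * (c * r) * k * (1 / 4)) ≤
      ENNReal.ofReal h * (⌈c * r⌉₊ : ℕ) * k * (1 / 4) := by
    rw [ENNReal.ofReal_mul (by (clear * - hh hc hr; positivity)), ENNReal.ofReal_mul (by positivity),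
      ENNReal.ofReal_mul (by positivity), ENNReal.ofReal_natCast]
    refine mul_le_mul' (mul_le_mul' (mul_le_mul' le_rfl ?_) le_rfl) (le_of_eq ?_)
    · rw [← ENNReal.ofReal_natCast]
      exact ENNReal.ofReal_le_ofReal (Nat.le_ceil _)
    · rw [ENNReal.ofReal_div_of_pos (by norm_num)]; norm_num
  have h3 := h2.trans h1
  rw [ENNReal.ofReal_le_ofReal_iff (by (clear * - hA hr hC' hC₁; positivity))] at h3
  push_cast at h3
  have h4 : h * (c * r) * k * (1 / 4) = r * (k * (h * c)) / 4 := by ring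
  have h5 : A * (2 * r) * C' * C₁ = r * (8 * A * C' * C₁) / 4 := by ring
  rw [h4, h5] at h3
  nlinarith only [h3, hk, hr0]

theorem exp_aux {K δ : ℝ} (hK : 0 < K) (hδ : δ = 1 / (128 * K)) {x : ℝ≥0∞}
    (hx : x ≤ ENNReal.ofReal (2 * δ)) : ENNReal.ofReal K * x ≤ 1 / 64 := by
  refine (mul_le_mul' le_rfl hx).trans (le_of_eq ?_)
  rw [← ENNReal.ofReal_mul hK.le]
  have e1 : K * (2 * δ) = 1 / 64 := by
    rw [hδ]
    field_simp
    norm_num
  rw [e1, ENNReal.ofReal_div_of_pos (by norm_num)]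
  norm_num

theorem prob_fam {N r n : ℕ} [NeZero N] {z : V} {h δ : ℝ}
    (hd : Dom (UpDet.bz N) (bx 0 N) z (2 * r)) (hposF : ∀ᵐ t ∂PG G, ∀ e, 0 < F t e)
    (hδ0 : 0 ≤ δ) (h1 : PG G {t | ¬ Lin.ManyW h n (wt (F t)) N z r (2 * r)} ≤ ENNReal.ofReal δ)
    (h2 : PG G {t | ¬ AG β t z r (2 * r)} ≤ ENNReal.ofReal δ) :
    PG G {t | ¬ FamF (UpDet.bz N) (bx 0 N) z (2 * r) β h ((r + 7) / 8) n F t} ≤
      ENNReal.ofReal (2 * δ) := by
  have hsub : {t | ¬ FamF (UpDet.bz N) (bx 0 N) z (2 * r) β h ((r + 7) / 8) n F t} ⊆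
      {t | ¬ ∀ e, 0 < F t e} ∪ ({t | ¬ Lin.ManyW h n (wt (F t)) N z r (2 * r)} ∪
        {t | ¬ AG β t z r (2 * r)}) := by
    intro t ht
    by_contra hcon
    simp only [Set.mem_union, Set.mem_ofPred_eq, not_or, not_not] at hcon
    exact ht (fam_of hd hcon.1 hcon.2.1 hcon.2.2)
  have h0 : PG G {t | ¬ ∀ e, 0 < F t e} = 0 := ae_iff.1 hposF
  refine (measure_mono hsub).trans ((measure_union_le _ _).trans ?_)
  rw [h0, zero_add]
  refine (measure_union_le _ _).trans ((add_le_add h1 h2).trans ?_)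
  rw [← ENNReal.ofReal_add hδ0 hδ0]
  exact ENNReal.ofReal_le_ofReal (by linarith only [])

/-- No bigeodesics with slack for the field `F`. -/
theorem no_slackF (hRP : RP G α β 0) (hα : 0 < α) (hβ : G (Set.Iio β) ≤ 1 / 16)
    (hF : Lin.Fld G F) (hR : ∀ z s, FldR F α β (tF z s)) {E : ℝ} (hE : 0 < E)
    (hEF : ∀ e, ∫⁻ t, ENNReal.ofReal (F t e) ∂PG G ≤ ENNReal.ofReal E)
    (hK : KalStmt) (hD : UpDetStmt) {h : ℝ} (hh : 0 < h) :
    ∀ᵐ t ∂PG G, ¬ ∃ v : ℤ → V, IsBi (wt (F t)) v ∧ v 0 = 0 ∧ SL h (wt (F t)) v := by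
  classical
  by_contra hne
  have hαβ := hRP.lt
  have hβ0 : 0 < β := hα.trans hαβ
  have hβα : 0 < β - α := sub_pos.2 hαβ
  have hpos0 := ae_pos' hRP.pos
  have hFpos : ∀ t, (∀ e, 0 < t e) → ∀ e, 0 < F t e := (hR 0 0).pos
  have hposF : ∀ᵐ t ∂PG G, ∀ e, 0 < F t e := by
    filter_upwards [hpos0] with t ht
    exact hFpos t ht
  have hhigh : ∀ᵐ t ∂PG G, ∀ e, β ≤ t e → β ≤ F t e := by
    filter_upwards [hpos0] with t ht e he
    obtain ⟨x, hx⟩ : ∃ x, x ∈ (e : Sym2 V) := by
      induction e.1 using Sym2.ind with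
      | _ x y => exact ⟨x, Sym2.mem_mk_left x y⟩
    exact (hR x 0).high t ht e (mem_tF.2 ⟨x, hx, by simp only [mem_bx, sub_self, abs_zero, CharP.cast_eq_zero, Std.le_refl, and_self]⟩) he
  obtain ⟨c, hc, hM⟩ := Lin.manyWF hF hh hne
  set C' : ℝ := 128 * E with hC'
  have hC'0 : 0 < C' := by positivity
  obtain ⟨C₁, hC₁, hP⟩ := path_off hβ0 hβ hposF hhigh hC'0
  have hC₁0 : 0 < C₁ := by linarith only [hC₁]
  obtain ⟨A, hA, hU⟩ := UpAv.up_field hD
  obtain ⟨k, hk⟩ := exists_nat_gt (8 * A * C' * C₁ / (h * c))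
  have hk0 : (0 : ℝ) < k := lt_of_le_of_lt (by (clear * - hA hE hC₁ hh hc; positivity)) hk
  have hk' : 8 * A * C' * C₁ < k * (h * c) := by rwa [div_lt_iff₀ (by (clear * - hh hc; positivity))] at hk
  set g : ℝ := 2 * k * h with hg
  have hg0 : 0 < g := by (clear * - hk0 hh; positivity)
  obtain ⟨M, hMg⟩ := exists_nat_ge (g / (β - α))
  have hgM : g ≤ M * (β - α) := by rwa [div_le_iff₀ hβα] at hMg
  set a : ℝ := (G (Set.Iic α)).toReal with ha
  have ha0 : 0 < a := ENNReal.toReal_pos hRP.lo (measure_ne_top _ _)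
  set b : ℝ := (G (Set.Ici β)).toReal with hb
  set A₀ : ℝ := 16 * (2 * M + 4) / a with hA₀
  have hA₀0 : 0 < A₀ := by (clear * - ha0; positivity)
  set cc : ℝ := 169 * (k * A₀) ^ 2 with hcc
  set K : ℝ := Real.exp (cc * (1 + 1 / b)) with hKdef
  have hK0 : 0 < K := Real.exp_pos _
  set δ : ℝ := 1 / (128 * K) with hδ
  have hδ0 : 0 < δ := by positivity
  obtain ⟨r₁, hr₁⟩ := hM δ hδ0
  obtain ⟨r₂, hr₂⟩ := agz (G := G) hβ δ hδ0
  obtain ⟨r₃, hr₃⟩ := exists_nat_gt (2 * (k + 1) * A₀)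
  obtain ⟨r, hra, hrb, hrc, hrd⟩ : ∃ r : ℕ, r₁ ≤ r ∧ r₂ ≤ r ∧ r₃ ≤ r ∧ 1 ≤ r :=
    ⟨max (max r₁ r₂) (max r₃ 1), by simp, by simp, by simp, by simp⟩
  have hr0 : (0 : ℝ) < r := by exact_mod_cast hrd
  have hrA : 2 * (k + 1) * A₀ < r := hr₃.trans_le (by exact_mod_cast hrc)
  set ε : ℝ := A₀ / r with hε
  have hε0 : 0 < ε := by (clear * - ha0 hrd; positivity)
  have hεr : ε * r = A₀ := by rw [hε]; (clear * - hrd hA₀0; field_simp)
  have hεk : 2 * (k + 1) * ε < 1 := by
    rw [hε, ← mul_div_assoc, div_lt_one hr0]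
    exact hrA
  have hε1 : ε < 1 := by nlinarith only [hεk]
  obtain ⟨N₁, hN₁⟩ := hr₁ r hra (2 * r) (by omega)
  obtain ⟨N₂, hN₂⟩ := hP ((4 * (2 * r) + 5) ^ 2) (1 / 16) (by norm_num)
  obtain ⟨N, hNa, hNb, hNc⟩ : ∃ N : ℕ, N₁ ≤ N ∧ N₂ ≤ N ∧ 16 * r ≤ N :=
    ⟨max (max N₁ N₂) (16 * r), by simp, by simp, by simp⟩
  have hN0 : 0 < N := by omega
  have hNZ : NeZero N := ⟨hN0.ne'⟩
  have hNr : (1 : ℝ) ≤ N := by exact_mod_cast hN0
  set R : ℝ := C' * N with hRdef
  set L : ℝ := C₁ * N with hLdef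
  obtain ⟨z, hz, hzU⟩ := hU Env (PG G) (fun t => wt (F t)) N (2 * r) R L (by omega) (by omega)
    (by rw [hLdef]; nlinarith only [hNr, hC₁]) (by (clear * - hE hN0; positivity)) hF.adm (F ⁻¹' UpAv.Gd R L N)
    (hF.meas (UpAv.measurableSet_Gd R L N)) (fun t ht => ht)
  have hs : 2 * (2 * r) + 2 ≤ N := by omega
  have hd := dom hK hz hs
  have hz2 : z ∈ bx 0 (N / 2) := bx_mono (by omega) hz
  have hRPε : RP G α β ε := ⟨hRP.prob, hRP.lt, hRP.lo, hRP.hi, hε0.le, hε1.le, hRP.pos⟩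
  have hGm := measurableSet_GoodS R L N z (2 * r) hF.meas
  have hgood : PG G (GoodS R L N z (2 * r) F)ᶜ ≤ 1 / 8 := by
    refine prob_good hRP.pos (ring_markov hF.meas hposF hE hEF hN0) ?_
    refine (hN₂ N hNb (tF z (2 * r)) (card_tF_le z (2 * r))).trans (le_of_eq ?_)
    rw [ENNReal.ofReal_div_of_pos (by norm_num)]; norm_num
  have hfam := prob_fam (n := ⌈c * r⌉₊) hd hposF hδ0.le (hN₁ N hNa z hz2).2 (hr₂ r hrb z)
  have key := box_growthG (n := ⌈c * r⌉₊) (N := (r + 7) / 8) (M := M) (k := k) (h := h) (g := g)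
    hRPε hε1 (hR z (2 * r)) hd hGm (fun t ht => ht.1)
    (fun t' t htt => goodS_iff hα hαβ hz hs (hR z (2 * r)) htt) hgood hh (le_of_eq hg.symm)
    hg0 hgM (nm_aux ha0 hA₀ hεr hε0.le hεk) (c := cc) (card_aux hrd hεr) (exp_aux hK0 hδ hfam)
  have hup : ∫⁻ t in GoodS R L N z (2 * r) F,
      ENNReal.ofReal (Brg.pot (UpDet.bz N) (bx 0 N) z (2 * r) g (F t)) ∂PG G ≤
      ENNReal.ofReal (A * (2 * r : ℕ) * (R / N) * (L / N)) := by
    refine le_trans ?_ hzU
    refine le_trans ?_ (lintegral_mono_set (goodS_sub (s := 2 * r) (z := z) hFpos))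
    refine setLIntegral_mono' hGm fun t ht => ENNReal.ofReal_le_ofReal ?_
    exact pot_le hd (hFpos t ht.1)
  have h1 := key.trans hup
  have e1 : R / N = C' := by rw [hRdef]; (clear * - hN0 hC'0; field_simp)
  have e2 : L / N = C₁ := by rw [hLdef]; (clear * - hN0 hC₁; field_simp)
  rw [e1, e2] at h1
  exact contra_aux hh hc hA hC'0 hC₁0 hrd hk' h1

end Main

end Vale.Agent.P158.C.FinF
end
end

section

section

/-! (T5), (T6): the truncated environment has the same bigeodesics. -/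

namespace Vale.Agent.P158.C.TrB

open SimpleGraph Filter Vale.Agent.P158.T1

variable {w : V → V → ℝ} {M : ℝ} {t : Env}

theorem split_at {a b : V} (π : latt.Walk a b) {e : Sym2 V} (he : e ∈ π.edges) :
    ∃ (x y : V) (h : latt.Adj x y) (π₁ : latt.Walk a x) (π₂ : latt.Walk y b), s(x, y) = e ∧
      π = π₁.append (Walk.cons h π₂) := by
  induction π with
  | nil => simp at he
  | @cons u v z h p ih =>
    rw [Walk.edges_cons, List.mem_cons] at he
    rcases he with he | he
    · exact ⟨u, v, h, Walk.nil, p, he.symm, rfl⟩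
    · obtain ⟨x, y, hxy, π₁, π₂, e1, e2⟩ := ih he
      exact ⟨x, y, hxy, Walk.cons h π₁, π₂, e1, by rw [e2]; rfl⟩

open Classical in
/-- Number of uses of edges with a property. -/
noncomputable def ct (P : Sym2 V → Prop) {a b : V} (π : latt.Walk a b) : ℕ :=
  π.edges.countP fun e => P e

theorem ct_append (P : Sym2 V → Prop) {a b c : V} (p : latt.Walk a b) (q : latt.Walk b c) :
    ct P (p.append q) = ct P p + ct P q := by
  unfold ct
  rw [Walk.edges_append, List.countP_append]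

theorem ct_cons_pos {P : Sym2 V → Prop} {a b c : V} (h : latt.Adj a b) (q : latt.Walk b c)
    (hP : P s(a, b)) : ct P (Walk.cons h q) = ct P q + 1 := by
  unfold ct
  rw [Walk.edges_cons, List.countP_cons]
  simp [hP]

theorem ct_eq_zero {P : Sym2 V → Prop} {a b : V} {π : latt.Walk a b} :
    ct P π = 0 ↔ ∀ e ∈ π.edges, ¬ P e := by
  unfold ct
  rw [List.countP_eq_zero]
  simp only [decide_eq_true_eq]

/-- Weight of a light path inside a finite set. -/
theorem ww_light {K : Finset V} {a b : V} (p : latt.Walk a b) (hp : p.IsPath)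
    (hK : ∀ z ∈ p.support, z ∈ K) (hl : ∀ x y, latt.Adj x y → s(x, y) ∈ p.edges → w x y ≤ M)
    (hM : 0 ≤ M) : ww w p ≤ M * ((K.card : ℝ) - 1) := by
  have h1 : ∀ {x y : V} (q : latt.Walk x y),
      (∀ x y, latt.Adj x y → s(x, y) ∈ q.edges → w x y ≤ M) → ww w q ≤ M * q.length := by
    intro x y q
    induction q with
    | nil => simp [ww_nil]
    | @cons x y z h q ih =>
      intro hq
      rw [ww_cons, Walk.length_cons]
      have a1 := hq _ _ h (by simp)
      have a2 := ih fun x y hxy he => hq x y hxy (by simp [he])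
      push_cast
      linarith only [a1, a2]
  have h2 : p.length + 1 ≤ K.card := by
    rw [← Walk.length_support, ← List.toFinset_card_of_nodup hp.support_nodup]
    refine Finset.card_le_card fun z hz => hK z (List.mem_toFinset.1 hz)
  have h3 : (p.length : ℝ) ≤ (K.card : ℝ) - 1 := by
    have : ((p.length + 1 : ℕ) : ℝ) ≤ (K.card : ℝ) := by exact_mod_cast h2
    push_cast at this
    linarith only [this]
  exact (h1 p hl).trans (mul_le_mul_of_nonneg_left h3 hM)

/-- `K` is a detour around the edge `e` for walks from `a` to `b`. -/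
structure Det (M : ℝ) (t : Env) (a b : V) (e : latt.edgeSet) (K : Finset V) : Prop where
  lc : LC M t K
  left : ∀ x ∈ (e : Sym2 V), ∀ p : latt.Walk x a, ∃ z ∈ p.support, z ∈ K
  right : ∀ x ∈ (e : Sym2 V), ∀ p : latt.Walk x b, ∃ z ∈ p.support, z ∈ K

/-- Rerouting along a light circuit. -/
theorem reroute {a b : V} {e : latt.edgeSet} {K : Finset V} (hK : Det M t a b e K)
    (π : latt.Walk a b) (he : (e : Sym2 V) ∈ π.edges) :
    ∃ π' : latt.Walk a b, (∀ f ∈ π'.edges, f ∈ π.edges ∨ ∀ g : latt.edgeSet, (g : Sym2 V) = f →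
        t g ≤ M) ∧
      (∀ P : Sym2 V → Prop, P e → (∀ g : latt.edgeSet, t g ≤ M → ¬ P g) → ct P π' < ct P π) ∧
      ∀ u : V → V → ℝ, Adm u → 0 ≤ M → (∀ x y (h : latt.Adj x y), t ⟨s(x, y), h⟩ ≤ M → u x y ≤ M) →
        ∀ c : ℝ, (∀ x y, latt.Adj x y → s(x, y) = (e : Sym2 V) → c ≤ u x y) →
          ww u π' + c ≤ ww u π + M * ((K.card : ℝ) - 1) := by
  obtain ⟨x, y, hxy, π₁, π₂, e1, rfl⟩ := split_at π he
  obtain ⟨k₁, hk₁, hk₁K⟩ := hK.left x (by rw [← e1]; simp) π₁.reverse
  obtain ⟨k₂, hk₂, hk₂K⟩ := hK.right y (by rw [← e1]; simp) π₂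
  have hk₁' : k₁ ∈ π₁.support := by simpa using hk₁
  obtain ⟨κ, hκp, hκK, hκl⟩ := hK.lc k₁ hk₁K k₂ hk₂K
  refine ⟨((π₁.takeUntil k₁ hk₁').append κ).append (π₂.dropUntil k₂ hk₂), ?_, ?_, ?_⟩
  · intro f hf
    rw [Walk.edges_append, Walk.edges_append, List.mem_append, List.mem_append] at hf
    rcases hf with (hf | hf) | hf
    · left
      rw [Walk.edges_append, List.mem_append]
      exact Or.inl (π₁.edges_takeUntil_subset_edges hk₁' hf)
    · right
      intro g hg
      exact hκl g (hg ▸ hf)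
    · left
      rw [Walk.edges_append, List.mem_append, Walk.edges_cons, List.mem_cons]
      exact Or.inr (Or.inr (π₂.edges_dropUntil_subset_edges hk₂ hf))
  · intro P hPe hPl
    have h0 : ct P κ = 0 := by
      rw [ct_eq_zero]
      intro f hf
      have hfe : f ∈ latt.edgeSet := κ.edges_subset_edgeSet hf
      exact hPl ⟨f, hfe⟩ (hκl ⟨f, hfe⟩ hf)
    have h1 := congrArg (ct P) (π₁.take_spec hk₁')
    have h2 := congrArg (ct P) (π₂.take_spec hk₂)
    rw [ct_append] at h1 h2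
    rw [ct_append, ct_append, ct_append, ct_cons_pos hxy π₂ (by rw [e1]; exact hPe), h0]
    omega
  · intro u hu hM hul c hc
    have h1 := congrArg (ww u) (π₁.take_spec hk₁')
    have h2 := congrArg (ww u) (π₂.take_spec hk₂)
    rw [ww_append] at h1 h2
    have h3 := ww_light (w := u) κ hκp hκK
      (fun x y h he => hul x y h (hκl ⟨s(x, y), h⟩ he)) hM
    have h4 := ww_nonneg hu (π₁.dropUntil k₁ hk₁')
    have h5 := ww_nonneg hu (π₂.takeUntil k₂ hk₂)
    have h6 := hc x y hxy e1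
    rw [ww_append, ww_append, ww_append, ww_cons]
    linarith

/-- The truncated edges. -/
def Tc (M : ℝ) (t : Env) (f : Sym2 V) : Prop :=
  ∃ h : f ∈ latt.edgeSet, tl M t ⟨f, h⟩ + 1 < t ⟨f, h⟩

theorem tl_ge (hM : 0 < M) (e : latt.edgeSet) : M ≤ tl M t e := by
  unfold tl
  have : (1 : ℝ) ≤ max 1 (cs M t e : ℝ) := le_max_left _ _
  nlinarith only [hM, this]

theorem tl_ge_cs (hM : 0 < M) (e : latt.edgeSet) : M * cs M t e ≤ tl M t e := by
  unfold tl
  exact mul_le_mul_of_nonneg_left (le_max_right _ _) hM.le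

theorem Tr_of_le {e : latt.edgeSet} (h : t e ≤ tl M t e + 1) : Tr M t e = t e := if_pos h

theorem Tr_of_lt {e : latt.edgeSet} (h : tl M t e + 1 < t e) :
    Tr M t e = tl M t e + t e / (1 + t e) := if_neg (not_le.2 h)

theorem Tr_light (hM : 0 < M) {e : latt.edgeSet} (h : t e ≤ M) : Tr M t e = t e :=
  Tr_of_le (by linarith only [h, tl_ge (t := t) hM e])

theorem Tr_pos (hM : 0 < M) (ht : ∀ e, 0 < t e) (e : latt.edgeSet) : 0 < Tr M t e := by
  rcases le_or_gt (t e) (tl M t e + 1) with h | h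
  · rw [Tr_of_le h]; exact ht e
  · rw [Tr_of_lt h]
    have a1 := tl_ge (t := t) hM e
    have a2 : 0 < t e / (1 + t e) := div_pos (ht e) (by linarith only [hM, h, a1])
    linarith only [hM, a1, a2]

theorem Tr_le (ht : ∀ e, 0 < t e) (e : latt.edgeSet) : Tr M t e ≤ t e := by
  rcases le_or_gt (t e) (tl M t e + 1) with h | h
  · rw [Tr_of_le h]
  · rw [Tr_of_lt h]
    have a2 : t e / (1 + t e) ≤ 1 := by
      rw [div_le_one (by linarith only [ht e])]; linarith
    linarith

theorem tl_le_Tr (ht : ∀ e, 0 < t e) {e : latt.edgeSet} (h : tl M t e + 1 < t e) :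
    tl M t e ≤ Tr M t e := by
  rw [Tr_of_lt h]
  have a2 : 0 < t e / (1 + t e) := div_pos (ht e) (by linarith only [ht e])
  linarith only [a2]

theorem adm_of_pos (ht : ∀ e, 0 < t e) : Adm (wt t) :=
  ⟨wt_symm t, fun x y hxy => by rw [wt_mk _ hxy]; exact ht _⟩

theorem bx_sub_zero (x : V) (n : ℕ) : ∃ R : ℕ, bx x n ⊆ bx 0 R := by
  refine ⟨n + x.1.natAbs + x.2.natAbs, fun z hz => ?_⟩
  rw [mem_bx] at hz ⊢
  have h1 := hz.1
  have h2 := hz.2
  rw [abs_le] at h1 h2 ⊢
  rw [abs_le]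
  simp only [Prod.fst_zero, Prod.snd_zero, sub_zero]
  push_cast
  have a1 := le_abs_self x.1
  have a2 := neg_abs_le x.1
  have a3 := le_abs_self x.2
  have a4 := neg_abs_le x.2
  have a5 := abs_nonneg x.1
  have a6 := abs_nonneg x.2
  constructor <;> constructor <;> linarith

/-- Far away ends have detours around every edge. -/
theorem exists_det {e : latt.edgeSet} (hC : ∃ n, Circ M t e n) :
    ∃ (K : Finset V) (R : ℕ), K.card ≤ cs M t e ∧
      ∀ a b, a ∉ bx 0 R → b ∉ bx 0 R → Det M t a b e K := by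
  obtain ⟨K, -, hcard, hlc, hsep⟩ := Nat.sInf_mem hC
  obtain ⟨f, hf⟩ := e
  induction f using Sym2.ind with
  | _ x y =>
    obtain ⟨n₁, h₁⟩ := hsep x (by simp)
    obtain ⟨n₂, h₂⟩ := hsep y (by simp)
    obtain ⟨R₁, hR₁⟩ := bx_sub_zero x n₁
    obtain ⟨R₂, hR₂⟩ := bx_sub_zero y n₂
    have key : ∀ a, a ∉ bx 0 (max R₁ R₂) → ∀ u ∈ (s(x, y) : Sym2 V), ∀ p : latt.Walk u a,
        ∃ z ∈ p.support, z ∈ K := by
      intro a ha u hu p
      rw [Sym2.mem_iff] at hu
      rcases hu with rfl | rfl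
      · exact h₁ a (fun h => ha (bx_mono (le_max_left _ _) (hR₁ h))) p
      · exact h₂ a (fun h => ha (bx_mono (le_max_right _ _) (hR₂ h))) p
    exact ⟨K, max R₁ R₂, hcard, fun a b ha hb => ⟨hlc, key a ha, key b hb⟩⟩

/-- One radius for all edges of a walk. -/
theorem exists_radius (hC : ∀ e, ∃ n, Circ M t e n) (l : List (Sym2 V)) :
    ∃ R : ℕ, ∀ e : latt.edgeSet, (e : Sym2 V) ∈ l → ∃ K : Finset V, K.card ≤ cs M t e ∧
      ∀ a b, a ∉ bx 0 R → b ∉ bx 0 R → Det M t a b e K := by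
  induction l with
  | nil => exact ⟨0, by simp only [List.not_mem_nil, Prod.forall, IsEmpty.forall_iff, implies_true]⟩
  | cons f l ih =>
    obtain ⟨R, hR⟩ := ih
    by_cases hf : f ∈ latt.edgeSet
    · obtain ⟨K, R', hK, hd⟩ := exists_det (hC ⟨f, hf⟩)
      refine ⟨max R R', fun e he => ?_⟩
      rw [List.mem_cons] at he
      rcases he with he | he
      · obtain rfl : e = ⟨f, hf⟩ := Subtype.ext he
        exact ⟨K, hK, fun a b ha hb => hd a b (fun h => ha (bx_mono (le_max_right _ _) h))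
          (fun h => hb (bx_mono (le_max_right _ _) h))⟩
      · obtain ⟨K', hK', hd'⟩ := hR e he
        exact ⟨K', hK', fun a b ha hb => hd' a b (fun h => ha (bx_mono (le_max_left _ _) h))
          (fun h => hb (bx_mono (le_max_left _ _) h))⟩
    · refine ⟨R, fun e he => ?_⟩
      rw [List.mem_cons] at he
      rcases he with he | he
      · exact absurd (he ▸ e.2) hf
      · exact hR e he

theorem Tc_iff {e : latt.edgeSet} : Tc M t e ↔ tl M t e + 1 < t e :=
  ⟨fun ⟨_, h⟩ => h, fun h => ⟨e.2, h⟩⟩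

theorem not_Tc_light (hM : 0 < M) {e : latt.edgeSet} (h : t e ≤ M) : ¬ Tc M t e := by
  rw [Tc_iff]
  have := tl_ge (t := t) hM e
  linarith

/-- Walks without truncated edges have the same weight. -/
theorem ww_Tr_eq {a b : V} (π : latt.Walk a b) (h : ∀ e ∈ π.edges, ¬ Tc M t e) :
    ww (wt (Tr M t)) π = ww (wt t) π := by
  induction π with
  | nil => rfl
  | @cons x y z hxy p ih =>
    rw [ww_cons, ww_cons, ih fun e he => h e (by simp [he])]
    have h1 := h s(x, y) (by simp)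
    rw [wt_mk _ hxy, wt_mk _ hxy, Tr_of_le]
    by_contra hc
    exact h1 ⟨hxy, not_le.1 hc⟩

/-- Comparison of a walk in the truncated environment with passage times. -/
theorem T_le_Tr (hM : 0 < M) (ht : ∀ e, 0 < t e) {a b : V} : ∀ (n : ℕ) (π : latt.Walk a b),
    ct (Tc M t) π = n →
    (∀ e : latt.edgeSet, (e : Sym2 V) ∈ π.edges → Tc M t e →
      ∃ K : Finset V, K.card ≤ cs M t e ∧ Det M t a b e K) →
    T (wt t) a b ≤ ww (wt (Tr M t)) π ∧ (0 < n → T (wt t) a b + M ≤ ww (wt (Tr M t)) π) := by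
  intro n
  induction n using Nat.strong_induction_on with
  | _ n ih =>
    intro π hn hdet
    rcases Nat.eq_zero_or_pos n with h0 | h0
    · subst h0
      rw [ct_eq_zero] at hn
      refine ⟨?_, fun h => absurd h (lt_irrefl _)⟩
      rw [ww_Tr_eq π hn]
      exact T_le (adm_of_pos ht) π
    · have hex : ∃ f ∈ π.edges, Tc M t f := by
        by_contra hc
        push Not at hc
        rw [← ct_eq_zero] at hc
        omega
      obtain ⟨f, hf, hTf⟩ := hex
      obtain ⟨hfe, hTf'⟩ := hTf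
      set e : latt.edgeSet := ⟨f, hfe⟩ with he
      obtain ⟨K, hK, hD⟩ := hdet e hf ⟨hfe, hTf'⟩
      obtain ⟨π', h1, h2, h3⟩ := reroute hD π hf
      have h4 := h3 (wt (Tr M t)) (adm_of_pos (Tr_pos hM ht)) hM.le (fun x y h hl => by
        rw [wt_mk _ h, Tr_light hM hl]; exact hl) (tl M t e) (fun x y h hxy => by
        rw [wt_mk _ h]
        have : (⟨s(x, y), h⟩ : latt.edgeSet) = e := Subtype.ext hxy
        rw [this]
        exact tl_le_Tr ht hTf')
      have h5 : M * (K.card : ℝ) ≤ tl M t e :=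
        (mul_le_mul_of_nonneg_left (by exact_mod_cast hK) hM.le).trans (tl_ge_cs hM e)
      have h6 := ih _ (hn ▸ h2 (Tc M t) ⟨hfe, hTf'⟩ fun g hg => not_Tc_light hM hg) π' rfl
        (fun g hg hTg => by
          rcases h1 g hg with h | h
          · exact hdet g h hTg
          · exact absurd hTg (not_Tc_light hM (h g rfl)))
      have h7 : T (wt t) a b + M ≤ ww (wt (Tr M t)) π := by
        have := h6.1
        linarith only [h4, h5, h6]
      exact ⟨by linarith only [hM, h4, h5, h6], fun _ => h7⟩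

/-- Finite pieces of a biinfinite path as walks. -/
theorem exists_seg {v : ℤ → V} (hadj : ∀ k, latt.Adj (v k) (v (k + 1))) (i : ℤ) (n : ℕ) :
    ∃ p : latt.Walk (v i) (v (i + n)),
      (∀ f, f ∈ p.edges ↔ ∃ k : ℤ, i ≤ k ∧ k < i + n ∧ s(v k, v (k + 1)) = f) ∧
      ∀ (u : V → V → ℝ) (P : ℤ → ℝ), PosF u v P → ww u p = P (i + n) - P i := by
  induction n with
  | zero =>
    refine ⟨Walk.nil.copy rfl (by simp), ?_, ?_⟩
    · intro f
      simp only [Walk.edges_copy, Walk.edges_nil, List.not_mem_nil, Nat.cast_zero, add_zero,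
        false_iff, not_exists, not_and]
      intro k h1 h2
      omega
    · intro u P _
      have : ∀ {a b : V} (h : a = b), ww u ((Walk.nil : latt.Walk a a).copy rfl h) = 0 := by
        intro a b h; subst h; rfl
      rw [this]
      simp
  | succ n ih =>
    obtain ⟨p, h1, h2⟩ := ih
    have e : i + (n : ℤ) + 1 = i + ((n + 1 : ℕ) : ℤ) := by push_cast; ring
    have hc : ∀ {a b c : V} (q : latt.Walk a b) (h : b = c) (u : V → V → ℝ),
        ww u (q.copy rfl h) = ww u q := by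
      intro a b c q h u; subst h; rfl
    refine ⟨(p.append (Walk.cons (hadj (i + n)) Walk.nil)).copy rfl (congrArg v e), ?_, ?_⟩
    · intro f
      rw [Walk.edges_copy, Walk.edges_append, List.mem_append, h1]
      simp only [Walk.edges_cons, Walk.edges_nil, List.mem_singleton]
      constructor
      · rintro (⟨k, k1, k2, k3⟩ | h)
        · exact ⟨k, k1, by push_cast; omega, k3⟩
        · exact ⟨i + n, by omega, by push_cast; omega, h.symm⟩
      · rintro ⟨k, k1, k2, k3⟩
        push_cast at k2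
        rcases eq_or_lt_of_le (show k ≤ i + n by omega) with h | h
        · right
          rw [← k3, h]
        · exact Or.inl ⟨k, k1, h, k3⟩
    · intro u P hP
      rw [hc, ww_append, ww_cons, ww_nil, h2 u P hP, ← e, hP (i + n)]
      ring

/-- Injective paths leave every box, in both directions. -/
theorem exists_out {v : ℤ → V} (hinj : Function.Injective v) (R : ℕ) (i : ℤ) :
    (∃ k ≤ i, v k ∉ bx 0 R) ∧ ∃ k ≥ i, v k ∉ bx 0 R := by
  have hfin : {k | v k ∈ bx 0 R}.Finite := (bx_finite 0 R).preimage hinj.injOn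
  constructor
  · by_contra hc
    push Not at hc
    exact Set.Iic_infinite i (hfin.subset fun k hk => hc k hk)
  · by_contra hc
    push Not at hc
    exact Set.Ici_infinite i (hfin.subset fun k hk => hc k hk)

/-- A bigeodesic of a weight `u` that dominates the truncated weights of truncated edges does not
use truncated edges. -/
theorem not_Tc_of_bi (hM : 0 < M) (hC : ∀ e, ∃ n, Circ M t e n) {u : V → V → ℝ} (hu : Adm u)
    (hul : ∀ x y (h : latt.Adj x y), t ⟨s(x, y), h⟩ ≤ M → u x y ≤ M)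
    (hut : ∀ x y (h : latt.Adj x y), tl M t ⟨s(x, y), h⟩ + 1 < t ⟨s(x, y), h⟩ →
      tl M t ⟨s(x, y), h⟩ ≤ u x y)
    {v : ℤ → V} (hv : IsBi u v) (k : ℤ) : ¬ Tc M t s(v k, v (k + 1)) := by
  intro hT
  obtain ⟨P, hP⟩ := exists_posF u v
  have hadj := isBi_adj hv
  have hinj := isBi_inj hu hv
  set e : latt.edgeSet := ⟨s(v k, v (k + 1)), hadj k⟩ with he
  obtain ⟨K, R, hK, hD⟩ := exists_det (hC e)
  obtain ⟨⟨i, hi, hi'⟩, -⟩ := exists_out hinj R k
  obtain ⟨-, ⟨j, hj, hj'⟩⟩ := exists_out hinj R (k + 1)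
  obtain ⟨n, rfl⟩ := Int.le.dest (show i ≤ j by omega)
  obtain ⟨p, hp1, hp2⟩ := exists_seg hadj i n
  have hmem : (e : Sym2 V) ∈ p.edges := (hp1 _).2 ⟨k, hi, by omega, rfl⟩
  obtain ⟨π', -, -, h3⟩ := reroute (hD _ _ hi' hj') p hmem
  have hT' : tl M t e + 1 < t e := Tc_iff.1 hT
  have h4 := h3 u hu hM.le hul (tl M t e) fun x y h hxy => by
    have : (⟨s(x, y), h⟩ : latt.edgeSet) = e := Subtype.ext hxy
    have h5 := hut x y h
    rw [this] at h5
    exact h5 hT'
  have h5 : M * (K.card : ℝ) ≤ tl M t e :=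
    (mul_le_mul_of_nonneg_left (by exact_mod_cast hK) hM.le).trans (tl_ge_cs hM e)
  have h6 := T_le hu π'
  rw [isBi_T hv hP (show i ≤ i + n by omega)] at h6
  rw [hp2 u P hP] at h4
  linarith only [hM, h4, h5, h6]

theorem posF_Tr {v : ℤ → V} (hadj : ∀ k, latt.Adj (v k) (v (k + 1)))
    (h : ∀ k, ¬ Tc M t s(v k, v (k + 1))) {P : ℤ → ℝ} :
    PosF (wt (Tr M t)) v P ↔ PosF (wt t) v P := by
  have key : ∀ k, wt (Tr M t) (v k) (v (k + 1)) = wt t (v k) (v (k + 1)) := by
    intro k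
    rw [wt_mk _ (hadj k), wt_mk _ (hadj k), Tr_of_le]
    by_contra hc
    exact h k ⟨hadj k, not_le.1 hc⟩
  unfold PosF
  simp only [key]

/-- Main comparison: prolong a walk along the bigeodesic and reroute. -/
theorem main_le (hM : 0 < M) (ht : ∀ e, 0 < t e) (hC : ∀ e, ∃ n, Circ M t e n) {v : ℤ → V}
    (hv : IsBi (wt t) v) {P : ℤ → ℝ} (hP : PosF (wt t) v P) (i j : ℤ)
    (π : latt.Walk (v i) (v j)) (hij : i ≤ j) :
    P j - P i ≤ ww (wt (Tr M t)) π ∧
      ((∃ f ∈ π.edges, Tc M t f) → P j - P i + M ≤ ww (wt (Tr M t)) π) := by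
  have hw := adm_of_pos ht
  have hw' := adm_of_pos (Tr_pos hM ht)
  have hadj := isBi_adj hv
  have hinj := isBi_inj hw hv
  have hnT : ∀ k, ¬ Tc M t s(v k, v (k + 1)) := not_Tc_of_bi hM hC hw
    (fun x y h hl => by rw [wt_mk _ h]; exact hl)
    (fun x y h hl => by rw [wt_mk _ h]; (clear * - h hl; linarith)) hv
  have hP' : PosF (wt (Tr M t)) v P := (posF_Tr hadj hnT).2 hP
  obtain ⟨R, hR⟩ := exists_radius hC π.edges
  obtain ⟨⟨a, ha, ha'⟩, -⟩ := exists_out hinj R i
  obtain ⟨-, ⟨b, hb, hb'⟩⟩ := exists_out hinj R j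
  obtain ⟨n, rfl⟩ := Int.le.dest ha
  obtain ⟨m, rfl⟩ := Int.le.dest hb
  obtain ⟨p, hp1, hp2⟩ := exists_seg hadj a n
  obtain ⟨q, hq1, hq2⟩ := exists_seg hadj j m
  set QQ := (p.append π).append q with hQQ
  have hdet : ∀ e : latt.edgeSet, (e : Sym2 V) ∈ QQ.edges → Tc M t e →
      ∃ K : Finset V, K.card ≤ cs M t e ∧ Det M t (v a) (v (j + m)) e K := by
    intro e he hT
    rw [hQQ, Walk.edges_append, Walk.edges_append, List.mem_append, List.mem_append] at he
    rcases he with (he | he) | he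
    · obtain ⟨k, -, -, h⟩ := (hp1 _).1 he
      exact absurd (h ▸ hT) (hnT k)
    · obtain ⟨K, hK, hD⟩ := hR e he
      exact ⟨K, hK, hD _ _ ha' hb'⟩
    · obtain ⟨k, -, -, h⟩ := (hq1 _).1 he
      exact absurd (h ▸ hT) (hnT k)
  have h1 := T_le_Tr hM ht _ QQ rfl hdet
  have h2 : ww (wt (Tr M t)) QQ = (P (a + n) - P a) + ww (wt (Tr M t)) π + (P (j + m) - P j) := by
    rw [hQQ, ww_append, ww_append, hp2 _ P hP', hq2 _ P hP']
  rw [isBi_T hv hP (show a ≤ j + m by omega), h2] at h1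
  refine ⟨by linarith only [h1], fun ⟨f, hf, hT⟩ => ?_⟩
  have h3 : 0 < ct (Tc M t) QQ := by
    rw [Nat.pos_iff_ne_zero]
    intro h0
    rw [ct_eq_zero] at h0
    refine h0 f ?_ hT
    rw [hQQ, Walk.edges_append, Walk.edges_append, List.mem_append, List.mem_append]
    exact Or.inl (Or.inr hf)
  linarith only [h1.2 h3]

theorem trBi : TrBiStmt := by
  intro M t hM ht hC v
  have hw := adm_of_pos ht
  have hw' := adm_of_pos (Tr_pos hM ht)
  constructor
  · intro hv
    have hadj := isBi_adj hv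
    have hnT : ∀ k, ¬ Tc M t s(v k, v (k + 1)) := not_Tc_of_bi hM hC hw'
      (fun x y h hl => by rw [wt_mk _ h, Tr_light hM hl]; exact hl)
      (fun x y h hl => by rw [wt_mk _ h]; exact tl_le_Tr ht hl) hv
    obtain ⟨P, hP⟩ := exists_posF (wt (Tr M t)) v
    have hP' : PosF (wt t) v P := (posF_Tr hadj hnT).1 hP
    refine isBi_of_core hw hadj hP' fun i j π => ?_
    rcases le_total j i with hji | hij
    · have a1 := PosF.mono hw hadj hP' hji
      have a2 := ww_nonneg hw π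
      linarith only [a1, a2]
    · have a1 := T_le hw' π
      rw [isBi_T hv hP hij] at a1
      have a2 : ww (wt (Tr M t)) π ≤ ww (wt t) π := ww_mono (fun x y hxy => by
        rw [wt_mk _ hxy, wt_mk _ hxy]; exact Tr_le ht _) π
      linarith only [a1, a2]
  · intro hv
    have hadj := isBi_adj hv
    have hnT : ∀ k, ¬ Tc M t s(v k, v (k + 1)) := not_Tc_of_bi hM hC hw
      (fun x y h hl => by rw [wt_mk _ h]; exact hl)
      (fun x y h hl => by rw [wt_mk _ h]; linarith) hv
    obtain ⟨P, hP⟩ := exists_posF (wt t) v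
    have hP' : PosF (wt (Tr M t)) v P := (posF_Tr hadj hnT).2 hP
    refine isBi_of_core hw' hadj hP' fun i j π => ?_
    rcases le_total j i with hji | hij
    · have a1 := PosF.mono hw' hadj hP' hji
      have a2 := ww_nonneg hw' π
      linarith only [a1, a2]
    · exact (main_le hM ht hC hv hP i j π hij).1

theorem trSL : TrSLStmt := by
  intro M t hM ht hC v hv h
  have hw := adm_of_pos ht
  have hw' := adm_of_pos (Tr_pos hM ht)
  have hv' := (trBi M t hM ht hC v).2 hv
  have hadj := isBi_adj hv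
  have hnT : ∀ k, ¬ Tc M t s(v k, v (k + 1)) := not_Tc_of_bi hM hC hw
    (fun x y h hl => by rw [wt_mk _ h]; exact hl)
    (fun x y h hl => by rw [wt_mk _ h]; linarith) hv
  obtain ⟨P, hP⟩ := exists_posF (wt t) v
  have hP' : PosF (wt (Tr M t)) v P := (posF_Tr hadj hnT).2 hP
  constructor
  · intro H i j hi hj π hπ
    have a1 := H i j hi hj π hπ
    rw [isBi_T hv' hP' (by omega : i ≤ j)] at a1
    rw [isBi_T hv hP (by omega : i ≤ j)]
    have a2 : ww (wt (Tr M t)) π ≤ ww (wt t) π := ww_mono (fun x y hxy => by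
      rw [wt_mk _ hxy, wt_mk _ hxy]; exact Tr_le ht _) π
    linarith only [a1, a2]
  · intro hhM H i j hi hj π hπ
    have a1 := H i j hi hj π hπ
    rw [isBi_T hv hP (by omega : i ≤ j)] at a1
    rw [isBi_T hv' hP' (by omega : i ≤ j)]
    by_cases hT : ∃ f ∈ π.edges, Tc M t f
    · have := (main_le hM ht hC hv hP i j π (by omega)).2 hT
      linarith only [hhM, this]
    · push Not at hT
      rw [ww_Tr_eq π hT]
      exact a1

end Vale.Agent.P158.C.TrB
end
end

section

section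

/-! The truncated environment as a field. -/

namespace Vale.Agent.P158.C.TrF

open SimpleGraph MeasureTheory Filter Vale.Agent.P158.T1 Vale.Agent.P158.T1.Pe
open scoped ENNReal

variable {G : Measure ℝ} [IsProbabilityMeasure G] {M β : ℝ} {t : Env}

theorem Tr_high (hM : 0 < M) (hβ : β ≤ M) {e : latt.edgeSet} (ht : ∀ e, 0 < t e)
    (h : β ≤ t e) : β ≤ Tr M t e := by
  obtain ⟨h1, h2, -⟩ := TrB.tr_basic M t hM ht e
  rcases le_or_gt (t e) M with h3 | h3
  · rw [h1 h3]; exact h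
  · exact hβ.trans (h2 h3).le

/-- Balls are finite if long paths starting at the origin have many heavy edges. -/
theorem fb_of_long {t : Env} (ht : ∀ e, 0 < t e) (hβ0 : 0 < β)
    (hlong : ∃ ℓ : ℕ, ∀ (z : V) (p : latt.Walk 0 z), p.IsPath → ℓ ≤ p.length →
      p.length ≤ 8 * nh β t (pe p)) : FB (wt t) := by
  obtain ⟨ℓ, hℓ⟩ := hlong
  have hw := TrB.adm_of_pos ht
  intro s
  obtain ⟨N, hN⟩ := exists_nat_gt (8 * (s + 1) / β)
  refine (bx_finite 0 (max ℓ N)).subset ?_
  intro z hz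
  have hz' : T (wt t) 0 z ≤ s := hz
  by_contra hnot
  obtain ⟨p, -, hp⟩ := exists_walk hw (conn_univ 0 z) one_pos
  have hp' : ww (wt t) p < s + 1 := by
    have : PT (wt t) Set.univ 0 z = T (wt t) 0 z := rfl
    linarith only [hz', hp, this]
  have hlen : max ℓ N < p.bypass.length := by
    by_contra hlt
    push Not at hlt
    have h1 := mem_bx_of_walk (k := 0) (z := (0 : V)) p.bypass (center_mem 0 0)
    rw [zero_add] at h1
    exact hnot (bx_mono hlt h1)
  have h1 := hℓ z p.bypass p.bypass_isPath ((le_max_left _ _).trans hlen.le)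
  have h2 := nh_le_ww (β := β) ht p.bypass
  have h3 := ww_bypass_le hw p
  have h4 : (N : ℝ) < p.bypass.length := by
    exact_mod_cast (le_max_right ℓ N).trans_lt hlen
  have h5 : (p.bypass.length : ℝ) ≤ 8 * nh β t (pe p.bypass) := by exact_mod_cast h1
  rw [div_lt_iff₀ hβ0] at hN
  nlinarith only [hN, hp', h2, h3, hβ0, h4, h5]

theorem ae_fb_Tr [NullSingletonClass G] (hG : G (Set.Iio 0) = 0) (hM : 0 < M) (hβ0 : 0 < β)
    (hβ : G (Set.Iio β) ≤ 1 / 16) (hβM : β ≤ M) : ∀ᵐ t ∂PG G, FB (wt (Tr M t)) := by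
  filter_upwards [ae_pos G hG, ae_long_heavy hβ 0] with t ht hlong
  refine fb_of_long (TrB.Tr_pos hM ht) hβ0 ?_
  obtain ⟨ℓ, hℓ⟩ := hlong
  refine ⟨ℓ, fun z p hp hl => (hℓ z p hp hl).trans ?_⟩
  refine Nat.mul_le_mul_left 8 (Finset.card_le_card fun e he => ?_)
  rw [Finset.mem_filter] at he ⊢
  exact ⟨he.1, Tr_high hM hβM ht he.2⟩

/-- The field `Tr M` under `PG G`, given its length property. -/
theorem fld_tr [NullSingletonClass G] (hG : G (Set.Iio 0) = 0) (hM : 0 < M) (hβ0 : 0 < β)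
    (hβ : G (Set.Iio β) ≤ 1 / 16) (hβM : β ≤ M)
    (hC : ∀ᵐ t ∂PG G, ∀ e, ∃ n, Circ M t e n)
    (hNB : ∀ᵐ t ∂PG G, ∀ p, ¬ Br (wt t) p) (hS3 : S3Stmt G)
    (hlen : ∃ C₁ : ℝ, 0 < C₁ ∧ ∀ δ : ℝ, 0 < δ → ∃ r₀ : ℕ, ∀ r ≥ r₀,
      PG G {t | ¬ Lin.LenK C₁ r (Tr M t)} ≤ ENNReal.ofReal δ) : Lin.Fld G (Tr M) where
  meas := TrB.tr_meas M
  sh := TrB.tr_sh M
  adm := by
    filter_upwards [ae_pos G hG] with t ht
    exact TrB.adm_of_pos (TrB.Tr_pos hM ht)
  uq := TrB.tr_uq M hM
  fb := ae_fb_Tr hG hM hβ0 hβ hβM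
  nb := by
    filter_upwards [ae_pos G hG, hC, hNB] with t ht hc hb v v' hv hv' heq
    exact CL.nb_of_br (TrB.adm_of_pos ht) hb v v' ((TrB.trBi M t hM ht hc v).1 hv)
      ((TrB.trBi M t hM ht hc v').1 hv') heq
  s3 := by
    filter_upwards [ae_pos G hG, hC, hS3] with t ht hc hs h v v' hh hv hsl hv'
    have h1 := (TrB.trBi M t hM ht hc v).1 hv
    exact hs h v v' hh h1 ((TrB.trSL M t hM ht hc v h1 h).1 hsl)
      ((TrB.trBi M t hM ht hc v').1 hv')
  len := hlen

theorem dec_shE (α β M : ℝ) (u : V) (t : Env) :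
    Rlb.dec α β M (shE u t) = shE u (Rlb.dec α β M t) := rfl

/-- Change of labels. -/
theorem fld_dec {α : ℝ} (h1 : α < β) (h2 : β ≤ M) [IsProbabilityMeasure (Rlb.Gt G α β M)]
    {F : Env → Env} (hF : Lin.Fld G F) :
    Lin.Fld (Rlb.Gt G α β M) (fun t => F (Rlb.dec α β M t)) := by
  have hmap := Rlb.map_dec (G := G) h1 h2
  have hae : ∀ {p : Env → Prop}, (∀ᵐ t ∂PG G, p t) →
      ∀ᵐ t ∂PG (Rlb.Gt G α β M), p (Rlb.dec α β M t) := fun hp =>
    ae_of_ae_map Rlb.measurable_dec.aemeasurable (by rwa [hmap])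
  exact
  { meas := hF.meas.comp Rlb.measurable_dec
    sh := fun u t => by rw [dec_shE, hF.sh]
    adm := hae hF.adm
    uq := hae hF.uq
    fb := hae hF.fb
    nb := hae hF.nb
    s3 := hae hF.s3
    len := by
      obtain ⟨C₁, hC₁, hl⟩ := hF.len
      refine ⟨C₁, hC₁, fun δ hδ => ?_⟩
      obtain ⟨r₀, hr₀⟩ := hl δ hδ
      refine ⟨r₀, fun r hr => ?_⟩
      refine le_trans ?_ (hr₀ r hr)
      conv_rhs => rw [← hmap]
      exact le_trans le_rfl (Measure.le_map_apply Rlb.measurable_dec.aemeasurable _) }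

end Vale.Agent.P158.C.TrF
end
end

section

section

/-! (T11) Ring sums of an integrable stationary field. -/

namespace Vale.Agent.P158.C.RingAv

open Filter MeasureTheory Vale.Agent.P158.T1 Vale.Agent.P158.T1.Erg
open scoped ENNReal

/-! ### Layers -/

open Classical in
/-- Number of integers in `[1, K]` that are at most `a`. -/
noncomputable def lay (K : ℕ) (a : ℝ) : ℕ :=
  ((Finset.range K).filter fun i : ℕ => (i : ℝ) + 1 ≤ a).card

theorem lay_eq (K : ℕ) {a : ℝ} (ha : 0 ≤ a) : lay K a = min K ⌊a⌋₊ := by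
  classical
  have : ((Finset.range K).filter fun i : ℕ => (i : ℝ) + 1 ≤ a) = Finset.range (min K ⌊a⌋₊) := by
    ext i
    rw [Finset.mem_filter, Finset.mem_range, Finset.mem_range, lt_min_iff,
      Nat.lt_iff_add_one_le (m := i) (n := ⌊a⌋₊), Nat.le_floor_iff ha]
    push_cast
    rfl
  unfold lay
  rw [← Finset.card_range (min K ⌊a⌋₊), ← this]

theorem lay_le (K : ℕ) {a : ℝ} (ha : 0 ≤ a) : (lay K a : ℝ) ≤ a := by
  rw [lay_eq K ha]
  exact le_trans (by exact_mod_cast min_le_right _ _) (Nat.floor_le ha)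

theorem le_lay (K : ℕ) {a : ℝ} (ha : 0 ≤ a) : a ≤ 1 + lay K a + max (a - K) 0 := by
  rw [lay_eq K ha]
  rcases le_total K ⌊a⌋₊ with h | h
  · rw [min_eq_left h]
    linarith only [le_max_left (a - K) 0]
  · rw [min_eq_right h]
    linarith only [le_max_right (a - K) 0, Nat.lt_floor_add_one a]

theorem lay_sum (K : ℕ) (a : ℝ) :
    (lay K a : ℝ) = ∑ i ∈ Finset.range K, (1 - (Set.Iio ((i : ℝ) + 1)).indicator 1 a) := by
  classical
  unfold lay
  rw [Finset.card_filter]
  push_cast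
  refine Finset.sum_congr rfl fun i _ => ?_
  by_cases h : (i : ℝ) + 1 ≤ a
  · rw [if_pos h, Set.indicator_of_notMem (by simpa only [Set.mem_Iio, not_lt] using h)]
    norm_num
  · rw [if_neg h, Set.indicator_of_mem (by simpa only [Set.mem_Iio, not_le] using h)]
    simp

variable {G : Measure ℝ} [IsProbabilityMeasure G]

theorem measurable_shE (x : V) : Measurable (shE x) :=
  (mp_sh (G := Measure.dirac (0 : ℝ)) x).measurable

/-- Tails of an integrable function. -/
theorem exists_tail {f : Env → ℝ} (hf : Measurable f)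
    (hE : ∫⁻ t, ENNReal.ofReal (f t) ∂PG G ≠ ∞) {δ : ℝ} (hδ : 0 < δ) :
    ∃ K : ℕ, 1 ≤ K ∧ ∫⁻ t, ENNReal.ofReal (f t - K) ∂PG G ≤ ENNReal.ofReal δ := by
  have h := tendsto_lintegral_of_dominated_convergence (μ := PG G)
    (F := fun (K : ℕ) t => ENNReal.ofReal (f t - K)) (f := fun _ => 0)
    (fun t => ENNReal.ofReal (f t))
    (fun K => ENNReal.measurable_ofReal.comp (hf.sub_const _))
    (fun K => Eventually.of_forall fun t => ENNReal.ofReal_le_ofReal (by
      have : (0 : ℝ) ≤ K := Nat.cast_nonneg K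
      linarith)) hE
    (Eventually.of_forall fun t => by
      refine tendsto_const_nhds.congr' ?_
      filter_upwards [eventually_ge_atTop ⌈f t⌉₊] with K hK
      rw [ENNReal.ofReal_of_nonpos]
      have : f t ≤ K := (Nat.le_ceil _).trans (by exact_mod_cast hK)
      linarith only [this])
  rw [lintegral_zero] at h
  have h2 := (ENNReal.tendsto_nhds_zero.1 h) (ENNReal.ofReal δ) (by simpa only [gt_iff_lt, ENNReal.ofReal_pos] using hδ)
  obtain ⟨K, hK⟩ := eventually_atTop.1 (h2.and (eventually_ge_atTop 1))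
  exact ⟨K, (hK K le_rfl).2, (hK K le_rfl).1⟩

/-- Sum of the layer probabilities. -/
theorem sum_layers_le {f : Env → ℝ} (hf : Measurable f) (h0 : ∀ t, 0 ≤ f t)
    (hE : ∫⁻ t, ENNReal.ofReal (f t) ∂PG G ≠ ∞) (K : ℕ) :
    ∑ i ∈ Finset.range K, (1 - (PG G).real {t | f t < (i : ℝ) + 1}) ≤
      (∫⁻ t, ENNReal.ofReal (f t) ∂PG G).toReal := by
  have hint : Integrable f (PG G) := by
    refine ⟨hf.aestronglyMeasurable, ?_⟩
    rw [hasFiniteIntegral_iff_ofReal (Eventually.of_forall h0)]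
    exact hE.lt_top
  have hm : ∀ i : ℕ, MeasurableSet {t | f t < (i : ℝ) + 1} := fun i =>
    measurableSet_lt hf measurable_const
  have hi : ∀ i : ℕ, Integrable ({t | f t < (i : ℝ) + 1}.indicator (1 : Env → ℝ)) (PG G) :=
    fun i => (integrable_const 1).indicator (hm i)
  calc ∑ i ∈ Finset.range K, (1 - (PG G).real {t | f t < (i : ℝ) + 1})
      = ∑ i ∈ Finset.range K, ∫ t, (1 - {t | f t < (i : ℝ) + 1}.indicator (1 : Env → ℝ) t) ∂PG G := by
        refine Finset.sum_congr rfl fun i _ => ?_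
        rw [integral_sub (integrable_const 1) (hi i), integral_const, integral_indicator_one (hm i)]
        simp only [probReal_univ, smul_eq_mul, mul_one]
    _ = ∫ t, ∑ i ∈ Finset.range K, (1 - {t | f t < (i : ℝ) + 1}.indicator (1 : Env → ℝ) t) ∂PG G := by
        rw [integral_finsetSum]
        exact fun i _ => (integrable_const 1).sub (hi i)
    _ = ∫ t, (lay K (f t) : ℝ) ∂PG G := by
        refine integral_congr_ae (Eventually.of_forall fun t => ?_)
        simp only
        rw [lay_sum]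
        rfl
    _ ≤ ∫ t, f t ∂PG G := by
        refine integral_mono_of_nonneg (Eventually.of_forall fun t => Nat.cast_nonneg _) hint
          (Eventually.of_forall fun t => lay_le K (h0 t))
    _ = _ := integral_eq_lintegral_of_nonneg_ae (Eventually.of_forall h0) hf.aestronglyMeasurable

theorem avg_det {f : Env → ℝ} (h0 : ∀ t, 0 ≤ f t) {K r : ℕ} {η μ : ℝ} (hη : K * η ≤ 1)
    {p : ℕ → ℝ} (hp : ∑ i ∈ Finset.range K, (1 - p i) ≤ μ) {t : Env}
    (h1 : ∀ i < K, (p i - η) * (2 * r + 1) ^ 2 ≤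
      ∑ x ∈ bF 0 r, {t | f t < (i : ℝ) + 1}.indicator (1 : Env → ℝ) (shE x t))
    (h2 : ∑ x ∈ bF 0 r, max (f (shE x t) - K) 0 ≤ (2 * r + 1) ^ 2) :
    ∑ x ∈ bF 0 r, f (shE x t) ≤ (μ + 3) * (2 * r + 1) ^ 2 := by
  set n : ℝ := (2 * r + 1) ^ 2 with hn
  have hn0 : 0 < n := by (clear * -; positivity)
  have hcard : ((bF 0 r).card : ℝ) = n := by
    rw [card_bF]
    push_cast
    rfl
  have e1 : ∑ x ∈ bF 0 r, f (shE x t) ≤
      ∑ x ∈ bF 0 r, (1 + (lay K (f (shE x t)) : ℝ) + max (f (shE x t) - K) 0) :=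
    Finset.sum_le_sum fun x _ => le_lay K (h0 _)
  have e2 : ∑ x ∈ bF 0 r, (1 + (lay K (f (shE x t)) : ℝ) + max (f (shE x t) - K) 0) =
      n + ∑ x ∈ bF 0 r, (lay K (f (shE x t)) : ℝ) + ∑ x ∈ bF 0 r, max (f (shE x t) - K) 0 := by
    rw [Finset.sum_add_distrib, Finset.sum_add_distrib, Finset.sum_const, nsmul_eq_mul, hcard,
      mul_one]
  have e3 : ∑ x ∈ bF 0 r, (lay K (f (shE x t)) : ℝ) =
      ∑ i ∈ Finset.range K, (n - ∑ x ∈ bF 0 r,
        {t | f t < (i : ℝ) + 1}.indicator (1 : Env → ℝ) (shE x t)) := by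
    simp only [lay_sum]
    rw [Finset.sum_comm]
    refine Finset.sum_congr rfl fun i _ => ?_
    rw [Finset.sum_sub_distrib, Finset.sum_const, nsmul_eq_mul, hcard, mul_one]
    rfl
  have e4 : ∑ i ∈ Finset.range K, (n - ∑ x ∈ bF 0 r,
        {t | f t < (i : ℝ) + 1}.indicator (1 : Env → ℝ) (shE x t)) ≤
      ∑ i ∈ Finset.range K, ((1 - p i) * n + η * n) := by
    refine Finset.sum_le_sum fun i hi => ?_
    have := h1 i (Finset.mem_range.1 hi)
    linarith only [this]
  have e5 : ∑ i ∈ Finset.range K, ((1 - p i) * n + η * n) =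
      (∑ i ∈ Finset.range K, (1 - p i)) * n + K * η * n := by
    rw [Finset.sum_add_distrib, ← Finset.sum_mul, Finset.sum_const, Finset.card_range, nsmul_eq_mul]
    ring
  have e6 : (∑ i ∈ Finset.range K, (1 - p i)) * n ≤ μ * n :=
    mul_le_mul_of_nonneg_right hp hn0.le
  have e7 : K * η * n ≤ 1 * n := mul_le_mul_of_nonneg_right hη hn0.le
  linarith only [h2, e1, e2, e3, e4, e5, e6, e7]

theorem sum_max {κ : Type*} (s : Finset κ) (g : κ → ℝ) :
    ENNReal.ofReal (∑ x ∈ s, max (g x) 0) = ∑ x ∈ s, ENNReal.ofReal (g x) := by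
  rw [ENNReal.ofReal_sum_of_nonneg fun _ _ => le_max_right _ _]
  refine Finset.sum_congr rfl fun x _ => ?_
  rw [ENNReal.ofReal_max, ENNReal.ofReal_zero, max_eq_left zero_le]

/-- Averages of an integrable function over boxes are bounded in probability by a constant. -/
theorem avg_upper {f : Env → ℝ} (hf : Measurable f) (h0 : ∀ t, 0 ≤ f t)
    (hE : ∫⁻ t, ENNReal.ofReal (f t) ∂PG G ≠ ∞) :
    ∃ C : ℝ, 0 < C ∧ ∀ δ : ℝ, 0 < δ → ∃ r₀ : ℕ, ∀ r ≥ r₀,
      PG G {t | C * (2 * r + 1) ^ 2 < ∑ x ∈ bF 0 r, f (shE x t)} ≤ ENNReal.ofReal δ := by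
  set μ : ℝ := (∫⁻ t, ENNReal.ofReal (f t) ∂PG G).toReal with hμ
  have hμ0 : 0 ≤ μ := ENNReal.toReal_nonneg
  refine ⟨μ + 3, by (clear hf h0 hE hμ hμ0; positivity), ?_⟩
  intro δ hδ
  obtain ⟨K, hK1, hK⟩ := exists_tail hf hE (half_pos hδ)
  have hK0 : (0 : ℝ) < K := by exact_mod_cast hK1
  set η : ℝ := min (1 / K) (δ / (2 * K)) with hη
  have hη0 : 0 < η := lt_min (by (clear * - hK1; positivity)) (by positivity)
  have hη1 : K * η ≤ 1 := by
    calc K * η ≤ K * (1 / K) := by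
          gcongr
          exact min_le_left _ _
      _ = 1 := by field_simp
  have hη2 : K * η ≤ δ / 2 := by
    calc K * η ≤ K * (δ / (2 * K)) := by
          gcongr
          exact min_le_right _ _
      _ = δ / 2 := by (clear * - hK1 hδ; field_simp)
  have hm : ∀ i : ℕ, MeasurableSet {t | f t < (i : ℝ) + 1} := fun i =>
    measurableSet_lt hf measurable_const
  choose r' hr' using fun i : ℕ => erg_lower (G := G) (hm i) hη0
  refine ⟨(Finset.range K).sup r', ?_⟩
  intro r hr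
  have hr2 : ∀ i < K, r' i ≤ r := fun i hi =>
    (Finset.le_sup (f := r') (Finset.mem_range.2 hi)).trans hr
  set p : ℕ → ℝ := fun i => (PG G).real {t | f t < (i : ℝ) + 1} with hp
  set B : ℕ → Set Env := fun i => {t | ∑ x ∈ bF 0 r,
    {t | f t < (i : ℝ) + 1}.indicator (1 : Env → ℝ) (shE x t) < (p i - η) * (2 * r + 1) ^ 2} with hB
  set D : Set Env := {t | ENNReal.ofReal ((2 * r + 1) ^ 2) ≤
    ∑ x ∈ bF 0 r, ENNReal.ofReal (f (shE x t) - K)} with hD
  have hsub : {t | (μ + 3) * (2 * r + 1) ^ 2 < ∑ x ∈ bF 0 r, f (shE x t)} ⊆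
      (⋃ i ∈ Finset.range K, B i) ∪ D := by
    intro t ht
    by_contra hcon
    rw [Set.mem_union, not_or, Set.mem_iUnion₂, not_exists] at hcon
    obtain ⟨hc1, hc2⟩ := hcon
    have ht' : (μ + 3) * (2 * r + 1) ^ 2 < ∑ x ∈ bF 0 r, f (shE x t) := ht
    refine absurd ht' (not_lt.2 ?_)
    refine avg_det h0 hη1 (p := p) (sum_layers_le hf h0 hE K) ?_ ?_
    · intro i hi
      have := hc1 i
      rw [not_exists] at this
      exact not_lt.1 (this (Finset.mem_range.2 hi))
    · have h3 : ¬ ENNReal.ofReal ((2 * r + 1) ^ 2) ≤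
        ENNReal.ofReal (∑ x ∈ bF 0 r, max (f (shE x t) - K) 0) := by
        rw [sum_max]
        exact hc2
      have h4 := (ENNReal.ofReal_lt_ofReal_iff_of_nonneg
        (Finset.sum_nonneg fun _ _ => le_max_right _ _)).1 (not_le.1 h3)
      exact h4.le
  have hBi : ∀ i ∈ Finset.range K, PG G (B i) ≤ ENNReal.ofReal η := by
    intro i hi
    rw [← ofReal_measureReal]
    exact ENNReal.ofReal_le_ofReal (hr' i r (hr2 i (Finset.mem_range.1 hi)) 0)
  have hmeas : ∀ x : V, Measurable fun t : Env => ENNReal.ofReal (f (shE x t) - K) := fun x =>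
    ENNReal.measurable_ofReal.comp ((hf.comp (measurable_shE x)).sub_const _)
  have hDm : PG G D ≤ ENNReal.ofReal (δ / 2) := by
    have h1 : ∫⁻ t, ∑ x ∈ bF 0 r, ENNReal.ofReal (f (shE x t) - K) ∂PG G ≤
        ENNReal.ofReal ((2 * r + 1) ^ 2) * ENNReal.ofReal (δ / 2) := by
      rw [lintegral_finsetSum _ fun x _ => hmeas x]
      calc ∑ x ∈ bF 0 r, ∫⁻ t, ENNReal.ofReal (f (shE x t) - K) ∂PG G
          ≤ ∑ _x ∈ bF 0 r, ENNReal.ofReal (δ / 2) := by
            refine Finset.sum_le_sum fun x _ => ?_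
            have := (mp_sh (G := G) x).lintegral_comp
              (f := fun t => ENNReal.ofReal (f t - K))
              (ENNReal.measurable_ofReal.comp (hf.sub_const _))
            rw [this]
            exact hK
        _ = _ := by
            rw [Finset.sum_const, nsmul_eq_mul, card_bF]
            congr 1
            rw [← ENNReal.ofReal_natCast]
            push_cast
            rfl
    have hn0 : (0 : ℝ) < (2 * r + 1) ^ 2 := by (clear * -; positivity)
    refine (meas_ge_le_lintegral_div (Finset.measurable_sum _ fun x _ => hmeas x).aemeasurable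
      (ENNReal.ofReal_pos.2 hn0).ne' ENNReal.ofReal_ne_top).trans ?_
    refine (ENNReal.div_le_div_right h1 _).trans ?_
    rw [mul_comm, ENNReal.mul_div_cancel_right (ENNReal.ofReal_pos.2 hn0).ne' ENNReal.ofReal_ne_top]
  calc PG G {t | (μ + 3) * (2 * r + 1) ^ 2 < ∑ x ∈ bF 0 r, f (shE x t)}
      ≤ PG G (⋃ i ∈ Finset.range K, B i) + PG G D :=
        (measure_mono hsub).trans (measure_union_le _ _)
    _ ≤ ∑ i ∈ Finset.range K, PG G (B i) + PG G D := by
        gcongr
        exact measure_biUnion_finset_le _ _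
    _ ≤ ∑ _i ∈ Finset.range K, ENNReal.ofReal η + ENNReal.ofReal (δ / 2) :=
        add_le_add (Finset.sum_le_sum hBi) hDm
    _ = ENNReal.ofReal (K * η) + ENNReal.ofReal (δ / 2) := by
        rw [Finset.sum_const, Finset.card_range, nsmul_eq_mul, ENNReal.ofReal_mul hK0.le,
          ENNReal.ofReal_natCast]
    _ ≤ ENNReal.ofReal (δ / 2) + ENNReal.ofReal (δ / 2) := by
        (clear * - hη2; gcongr)
    _ = ENNReal.ofReal δ := by
        rw [← ENNReal.ofReal_add (by (clear * - hδ; positivity)) (by positivity), add_halves]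

/-! ### Rings -/

/-- Sum of the positive parts of the field over the edges at the origin. -/
noncomputable def fld (F : Env → Env) (t : Env) : ℝ := ∑ e ∈ tF 0 0, max (F t e) 0

theorem fld_nonneg (F : Env → Env) (t : Env) : 0 ≤ fld F t :=
  Finset.sum_nonneg fun _ _ => le_max_right _ _

theorem measurable_fld {F : Env → Env} (hF : Measurable F) : Measurable (fld F) :=
  Finset.measurable_sum _ fun e _ => ((measurable_pi_apply e).comp hF).max measurable_const

theorem lintegral_fld {F : Env → Env} (hF : Measurable F) {E : ℝ≥0∞} (hE : E ≠ ∞)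
    (h : ∀ e, ∫⁻ t, ENNReal.ofReal (F t e) ∂PG G ≤ E) :
    ∫⁻ t, ENNReal.ofReal (fld F t) ∂PG G ≠ ∞ := by
  unfold fld
  simp only [sum_max]
  have hm : ∀ e ∈ tF 0 0, Measurable fun t => ENNReal.ofReal (F t e) := fun e _ =>
    ENNReal.measurable_ofReal.comp ((measurable_pi_apply e).comp hF)
  rw [lintegral_finsetSum _ hm]
  refine ne_of_lt (lt_of_le_of_lt (Finset.sum_le_sum fun e _ => h e) ?_)
  rw [Finset.sum_const, nsmul_eq_mul]
  exact ENNReal.mul_lt_top (ENNReal.natCast_lt_top _) hE.lt_top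

theorem le_fld {F : Env → Env} (hF : ∀ u t, F (shE u t) = shE u (F t)) (t : Env) {x y : V}
    (h : latt.Adj x y) : wt (F t) x y ≤ fld F (shE x t) := by
  rw [wt_eq (F t) h]
  have hx : (0 : V) ∈ bx 0 0 := center_mem 0 0
  have hadj : latt.Adj (0 : V) (y - x) := by
    have h' : |x.1 - y.1| + |x.2 - y.2| = 1 := h
    show |(0 : V).1 - (y - x).1| + |(0 : V).2 - (y - x).2| = 1
    simp only [Prod.fst_zero, Prod.snd_zero, Prod.fst_sub, Prod.snd_sub, zero_sub, abs_neg]
    rw [abs_sub_comm, abs_sub_comm y.2]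
    exact h'
  set e₀ : latt.edgeSet := ⟨s(0, y - x), hadj⟩ with he₀
  have hse : se x e₀ = ⟨s(x, y), h⟩ := by
    apply Subtype.ext
    show Sym2.map _ s((0 : V), y - x) = s(x, y)
    rw [Sym2.map_mk]
    show s(0 + x, y - x + x) = s(x, y)
    rw [zero_add, sub_add_cancel]
  have h1 : F t ⟨s(x, y), h⟩ = F (shE x t) e₀ := by
    rw [hF, shE_apply, hse]
  rw [h1]
  have h2 : e₀ ∈ tF 0 0 := by
    rw [mem_tF]
    exact ⟨0, by simp only [he₀, Sym2.mem_iff, true_or], hx⟩
  calc F (shE x t) e₀ ≤ max (F (shE x t) e₀) 0 := le_max_left _ _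
    _ ≤ fld F (shE x t) :=
      Finset.single_le_sum (f := fun e => max (F (shE x t) e) 0) (fun _ _ => le_max_right _ _) h2

/-- Supremum norm. -/
def nrm (x : V) : ℕ := max x.1.natAbs x.2.natAbs

theorem nrm_of_bB {k : ℕ} {x : V} (h : x ∈ bB 0 k) : nrm x = k := by
  obtain ⟨⟨h1, h2⟩, h3⟩ := h
  simp only [Prod.fst_zero, Prod.snd_zero, sub_zero] at h1 h2 h3
  unfold nrm
  rw [Int.abs_eq_natAbs] at h1 h2 h3
  rw [Int.abs_eq_natAbs] at h3
  rcases h3 with h3 | h3 <;> omega

theorem sum_rings {r : ℕ} (hr : 1 ≤ r) (g : V → ℝ) (hg : ∀ x, 0 ≤ g x) :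
    ∑ k ∈ Finset.Icc r (2 * r), ∑ j ∈ Finset.range (8 * k), g (bd 0 k (j : ℤ)) ≤
      ∑ x ∈ bF 0 (2 * r), g x := by
  classical
  have h1 : ∀ k ∈ Finset.Icc r (2 * r), ∑ j ∈ Finset.range (8 * k), g (bd 0 k (j : ℤ)) ≤
      ∑ x ∈ ((bF 0 (2 * r)).filter fun x => nrm x ∈ Finset.Icc r (2 * r)) with nrm x = k, g x := by
    intro k hk
    obtain ⟨hk1, hk2⟩ := Finset.mem_Icc.1 hk
    have hk0 : 0 < k := by omega
    have hinj : Set.InjOn (fun j : ℕ => bd 0 k (j : ℤ)) (Finset.range (8 * k) : Set ℕ) := by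
      intro i hi j hj hij
      have hi' := Finset.mem_range.1 (Finset.mem_coe.1 hi)
      have hj' := Finset.mem_range.1 (Finset.mem_coe.1 hj)
      have := bd_injOn (z := 0) hk0 0 (x₁ := (i : ℤ)) (x₂ := (j : ℤ))
        ⟨by (clear * -; positivity), by push_cast; omega⟩ ⟨by (clear * -; positivity), by push_cast; (clear * - hj'; omega)⟩ hij
      exact_mod_cast this
    rw [← Finset.sum_image (f := g) (g := fun j : ℕ => bd 0 k (j : ℤ)) hinj]
    refine Finset.sum_le_sum_of_subset_of_nonneg ?_ fun x _ _ => hg x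
    intro x hx
    obtain ⟨j, _, rfl⟩ := Finset.mem_image.1 hx
    have hb := bd_mem_bB (z := 0) hk0 (j : ℤ)
    have hn := nrm_of_bB hb
    rw [Finset.mem_filter, Finset.mem_filter, hn]
    exact ⟨⟨mem_bF.2 (bx_mono hk2 hb.1), hk⟩, rfl⟩
  refine (Finset.sum_le_sum h1).trans ?_
  rw [Finset.sum_fiberwise_of_maps_to (t := Finset.Icc r (2 * r)) (g := nrm)
    fun x hx => (Finset.mem_filter.1 hx).2]
  exact Finset.sum_le_sum_of_subset_of_nonneg (Finset.filter_subset _ _) fun x _ _ => hg x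

theorem ringAv (G : Measure ℝ) [IsProbabilityMeasure G] : RingAvStmt G := by
  intro F hF hsh _ hE
  obtain ⟨E, hE, hE'⟩ := hE
  obtain ⟨C, hC, h⟩ := avg_upper (G := G) (measurable_fld hF) (fld_nonneg F)
    (lintegral_fld hF hE hE')
  refine ⟨25 * C, by (clear * - hC; positivity), ?_⟩
  intro δ hδ
  obtain ⟨r₀, hr₀⟩ := h δ hδ
  refine ⟨max 1 r₀, ?_⟩
  intro r hr
  have hr1 : 1 ≤ r := (le_max_left _ _).trans hr
  have hr1' : (1 : ℝ) ≤ r := by exact_mod_cast hr1
  have hr2 : r₀ ≤ 2 * r := (le_max_right 1 r₀).trans (hr.trans (by omega))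
  refine le_trans (measure_mono ?_) (hr₀ (2 * r) hr2)
  intro t ht
  have ht' : ¬ ∃ k : ℕ, r ≤ k ∧ k ≤ 2 * r ∧ rs (wt (F t)) 0 k ≤ 25 * C * r := ht
  push Not at ht'
  show C * (2 * ((2 * r : ℕ) : ℝ) + 1) ^ 2 < ∑ x ∈ bF 0 (2 * r), fld F (shE x t)
  have h1 : ∑ k ∈ Finset.Icc r (2 * r), 25 * C * (r : ℝ) <
      ∑ k ∈ Finset.Icc r (2 * r), rs (wt (F t)) 0 k := by
    refine Finset.sum_lt_sum_of_nonempty ⟨r, Finset.mem_Icc.2 ⟨le_rfl, by omega⟩⟩ fun k hk => ?_
    obtain ⟨h1, h2⟩ := Finset.mem_Icc.1 hk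
    exact ht' k h1 h2
  have h2 : ∑ k ∈ Finset.Icc r (2 * r), rs (wt (F t)) 0 k ≤
      ∑ x ∈ bF 0 (2 * r), fld F (shE x t) := by
    refine le_trans (Finset.sum_le_sum fun k hk => ?_)
      (sum_rings hr1 (fun x => fld F (shE x t)) fun x => fld_nonneg F _)
    obtain ⟨h1, h2⟩ := Finset.mem_Icc.1 hk
    unfold rs
    exact Finset.sum_le_sum fun j _ => le_fld hsh t (bd_adj (by omega) _)
  rw [Finset.sum_const, Nat.card_Icc, nsmul_eq_mul] at h1
  have h3 : ((2 * r + 1 - r : ℕ) : ℝ) = r + 1 := by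
    rw [show 2 * r + 1 - r = r + 1 by omega]
    push_cast
    rfl
  rw [h3] at h1
  refine lt_of_le_of_lt ?_ (h1.trans_le h2)
  push_cast
  have h4 : (2 * (2 * (r : ℝ)) + 1) ^ 2 ≤ 25 * (r * r) := by nlinarith only [hr1']
  calc C * (2 * (2 * (r : ℝ)) + 1) ^ 2 ≤ C * (25 * (r * r)) := by (clear * - h4 hC; gcongr)
    _ ≤ ((r : ℝ) + 1) * (25 * C * r) := by nlinarith only [hC]

end Vale.Agent.P158.C.RingAv
end
end

section

section

/-! Ring sums and good boxes for a field of weights. -/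

set_option linter.all false

namespace Vale.Agent.P158.C.GoodF

open Filter MeasureTheory Vale.Agent.P158.T1 Vale.Agent.P158.T1.Pe GoodLen
open scoped ENNReal

variable {G : Measure ℝ} [IsProbabilityMeasure G]

/-- `F` is positive and not smaller than `β` where `t` is at least `β`. -/
structure Lb (β : ℝ) (F : Env → Env) : Prop where
  pos : ∀ t : Env, (∀ e, 0 < t e) → ∀ e, 0 < F t e
  low : ∀ t : Env, (∀ e, 0 < t e) → ∀ e, β ≤ t e → β ≤ F t e

theorem nh_mono {β : ℝ} {F : Env → Env} (hF : Lb β F) {t : Env} (ht : ∀ e, 0 < t e)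
    (S : Finset latt.edgeSet) : nh β t S ≤ nh β (F t) S := by
  unfold nh
  refine Finset.card_le_card fun e he => ?_
  rw [Finset.mem_filter] at he ⊢
  exact ⟨he.1, hF.low t ht e he.2⟩

/-- The field `len` of `Lin.Fld`. -/
theorem len_field [NullSingletonClass G] (h0 : G (Set.Iio 0) = 0) {β : ℝ} (hβ0 : 0 < β)
    (hβ : G (Set.Iio β) ≤ 1 / 16) {F : Env → Env} (hFm : Measurable F)
    (hsh : ∀ u t, F (shE u t) = shE u (F t)) (hF : Lb β F) {E : ℝ≥0∞} (hE : E ≠ ∞)
    (hFE : ∀ e, ∫⁻ t, ENNReal.ofReal (F t e) ∂PG G ≤ E) :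
    ∃ C₁ : ℝ, 0 < C₁ ∧ ∀ δ : ℝ, 0 < δ → ∃ r₀ : ℕ, ∀ r ≥ r₀,
      PG G {t | ¬ Lin.LenK C₁ r (F t)} ≤ ENNReal.ofReal δ := by
  classical
  obtain ⟨C, hC, hR⟩ := RingAv.ringAv G F hFm hsh hF.pos ⟨E, hE, hFE⟩
  refine ⟨max 1 (8 * (2 * C + 1) / β), lt_max_of_lt_left one_pos, fun δ hδ => ?_⟩
  set C₁ : ℝ := max 1 (8 * (2 * C + 1) / β) with hC₁
  have hC1 : 1 ≤ C₁ := le_max_left _ _
  have hC2 : (2 * C + 1) ≤ β * C₁ / 8 := by
    have : 8 * (2 * C + 1) / β ≤ C₁ := le_max_right _ _
    rw [div_le_iff₀ hβ0] at this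
    linarith
  obtain ⟨r₁, hr₁⟩ := hR (δ / 2) (half_pos hδ)
  have hlim := ((tendsto_pow_const_mul_const_pow_of_lt_one 2 (r := 3 / 4) (by norm_num)
    (by norm_num)).const_mul 648)
  rw [mul_zero] at hlim
  obtain ⟨N₀, hN₀⟩ := Filter.eventually_atTop.1 ((tendsto_order.1 hlim).2 (δ / 2) (half_pos hδ))
  refine ⟨max (max r₁ N₀) 1, fun r hr => ?_⟩
  have g1 : r₁ ≤ r := ((le_max_left _ _).trans (le_max_left _ _)).trans hr
  have g2 : N₀ ≤ r := ((le_max_right _ _).trans (le_max_left _ _)).trans hr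
  have g3 : 1 ≤ r := (le_max_right _ _).trans hr
  have hrpos : (1 : ℝ) ≤ r := by exact_mod_cast g3
  have h1 := hr₁ (r + 1) (by omega)
  have h2 : PG G {t | ∃ x ∈ Pe.bxF 0 (2 * (r + 1)), ∃ (y : V) (p : latt.Walk x y), p.IsPath ∧
      r ≤ p.length ∧ 8 * nh β t (pe p) < p.length} ≤ ENNReal.ofReal (δ / 2) := by
    refine (peierls_box hβ 0 (2 * (r + 1)) r).trans (ENNReal.ofReal_le_ofReal ?_)
    refine le_trans ?_ (hN₀ r g2).le
    have h3 : (0 : ℝ) < (3 / 4) ^ r := by positivity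
    push_cast
    have h4 : (2 * (2 * ((r : ℝ) + 1)) + 1) ^ 2 ≤ 81 * (r : ℝ) ^ 2 := by nlinarith only [hrpos]
    calc (2 * (2 * ((r : ℝ) + 1)) + 1) ^ 2 * (8 * (3 / 4) ^ r)
        ≤ 81 * (r : ℝ) ^ 2 * (8 * (3 / 4) ^ r) := mul_le_mul_of_nonneg_right h4 (by positivity)
      _ = 648 * ((r : ℝ) ^ 2 * (3 / 4) ^ r) := by ring
  have h3 : PG G {t | ¬ ∀ e, 0 < t e} = 0 := ae_iff.1 (ae_pos G h0)
  have hsub : {t : Env | ¬ Lin.LenK C₁ r (F t)} ⊆
      ({t | ¬ ∃ k : ℕ, r + 1 ≤ k ∧ k ≤ 2 * (r + 1) ∧ rs (wt (F t)) 0 k ≤ C * ((r + 1 : ℕ) : ℝ)} ∪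
      {t | ∃ x ∈ Pe.bxF 0 (2 * (r + 1)), ∃ (y : V) (p : latt.Walk x y), p.IsPath ∧
      r ≤ p.length ∧ 8 * nh β t (pe p) < p.length}) ∪ {t | ¬ ∀ e, 0 < t e} := by
    intro t ht
    by_contra hnot
    simp only [Set.mem_union, Set.mem_ofPred_eq, not_or, not_not] at hnot
    obtain ⟨⟨⟨k, k1, k2, a1⟩, a2⟩, a3⟩ := hnot
    refine ht ⟨k, k1, ?_⟩
    intro x y p hp hx hlen
    have b0 : r ≤ p.length := by
      have : (r : ℝ) ≤ p.length := le_trans (by nlinarith only [hC1]) hlen
      exact_mod_cast this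
    have b1 : p.length ≤ 8 * nh β t (pe p) := by
      by_contra hc
      push Not at hc
      exact a2 ⟨x, Pe.mem_bxF.2 (bx_mono k2 hx), y, p, hp, b0, hc⟩
    have b2 := nh_le_ww (β := β) (hF.pos t a3) p
    have b3 : (p.length : ℝ) ≤ 8 * nh β t (pe p) := by exact_mod_cast b1
    have b3' : ((nh β t (pe p) : ℕ) : ℝ) ≤ nh β (F t) (pe p) := by
      exact_mod_cast nh_mono hF a3 (pe p)
    push_cast at a1
    have b4 : C * ((r : ℝ) + 1) ≤ 2 * C * r := by nlinarith only [hC, hrpos]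
    have b5 : (2 * C + 1) * r ≤ β * C₁ / 8 * r := mul_le_mul_of_nonneg_right hC2 (by linarith only [])
    have b6 : β * (C₁ * r) ≤ β * (8 * nh β (F t) (pe p)) :=
      mul_le_mul_of_nonneg_left (hlen.trans (b3.trans (by linarith only [b3']))) hβ0.le
    nlinarith only [hrpos, b2, a1, b4, b5, b6]
  calc PG G {t : Env | ¬ Lin.LenK C₁ r (F t)} ≤ _ := measure_mono hsub
    _ ≤ (ENNReal.ofReal (δ / 2) + ENNReal.ofReal (δ / 2)) + 0 :=
        (measure_union_le _ _).trans (add_le_add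
          ((measure_union_le _ _).trans (add_le_add h1 h2)) h3.le)
    _ = ENNReal.ofReal δ := by
        rw [add_zero, ← ENNReal.ofReal_add (by positivity) (by positivity), add_halves]

end Vale.Agent.P158.C.GoodF
end
end

section

section

/-! Plan C' without moments: the truncated environment is plugged into the field assembly. -/

namespace Vale.Agent.P158.C.FinT

open MeasureTheory Filter Vale.Agent.P158.T1 Vale.Agent.P158.C
open scoped ENNReal

variable {G : Measure ℝ} [IsProbabilityMeasure G] {α β M : ℝ}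

/-- The truncated weights seen from the labels. -/
noncomputable def FT (α β M : ℝ) (t : Env) : Env := Tr M (Rlb.dec α β M t)

theorem Tr_rch (hα : 0 < α) (hαβ : α < β) (hβM : β ≤ M) {D : Finset latt.edgeSet} {u' u : Env}
    (hu' : ∀ e, 0 < u' e) (hu : ∀ e, 0 < u e) (h : Rch α β D u' u)
    (hp : ∀ e, u e ≤ M ↔ u' e ≤ M) : Rch α β D (Tr M u') (Tr M u) := by
  have hM : 0 < M := by linarith
  have hloc := TrB.tr_loc M u u' hp
  refine ⟨fun e he => hloc e (h.1 e he), fun e he => ?_⟩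
  rcases h.2 e he with h1 | ⟨h1, h2, h3⟩
  · exact Or.inl (hloc e h1)
  · right
    have h4 := (TrB.tr_basic M u hM hu e).1 (by linarith only [hαβ, hβM, h3])
    rw [h4]
    exact ⟨TrF.Tr_high hM hβM hu' h1, h2, h3⟩

theorem fldR (hα : 0 < α) (hαβ : α < β) (hβM : β ≤ M) (D : Finset latt.edgeSet) :
    Brg.FldR (FT α β M) α β D := by
  have hM : 0 < M := by linarith
  have hd : ∀ t : Env, (∀ e, 0 < t e) → ∀ e, 0 < Rlb.dec α β M t e := fun t ht =>
    Rlb.dec_pos hα.le hαβ hβM ht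
  refine ⟨(TrB.tr_meas M).comp Rlb.measurable_dec, fun t ht => TrB.Tr_pos hM (hd t ht), ?_, ?_, ?_⟩
  · intro t' t ht' h
    have h1 := Rlb.dec_rch hαβ hβM h
    exact Tr_rch hα hαβ hβM (hd t' ht') (hd t (Brg.Rch.pos h ht')) h1.1 h1.2
  · intro t ht e _ he
    have h1 : Rlb.dec α β M t e = t e := by
      unfold Rlb.dec
      exact Rlb.phi_of_le he
    have h2 := (TrB.tr_basic M _ hM (hd t ht) e).1 (by rw [h1]; linarith only [hαβ, hβM, he])
    unfold FT
    rw [h2, h1]
    exact he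
  · intro t ht e _ he
    exact TrF.Tr_high hM hβM (hd t ht) (Rlb.phi_of_ge hαβ hβM he).1

omit [IsProbabilityMeasure G] in
theorem Gt_Iio (hαβ : α < β) (hβM : β ≤ M) (h1 : G (Set.Iio β) ≤ 1 / 32)
    (h2 : G (Set.Ioi M) ≤ 1 / 32) : Rlb.Gt G α β M (Set.Iio β) ≤ 1 / 16 := by
  unfold Rlb.Gt
  rw [Measure.map_apply Rlb.measurable_psi measurableSet_Iio]
  have hsub : Rlb.psi α β M ⁻¹' Set.Iio β ⊆ Set.Iio β ∪ Set.Ioi M := by
    intro s hs
    have hs' : Rlb.psi α β M s < β := hs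
    by_contra hc
    simp only [Set.mem_union, Set.mem_Iio, Set.mem_Ioi, not_or, not_lt] at hc
    have := (Rlb.psi_ge_iff hαβ hβM).2 hc
    linarith
  refine (measure_mono hsub).trans ((measure_union_le _ _).trans ((add_le_add h1 h2).trans
    (le_of_eq ?_)))
  have e1 : (1 / 32 : ℝ≥0∞) = ENNReal.ofReal (1 / 32) := by
    rw [ENNReal.ofReal_div_of_pos (by norm_num)]; norm_num
  have e2 : (1 / 16 : ℝ≥0∞) = ENNReal.ofReal (1 / 16) := by
    rw [ENNReal.ofReal_div_of_pos (by norm_num)]; norm_num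
  rw [e1, e2, ← ENNReal.ofReal_add (by norm_num) (by norm_num)]
  norm_num

/-- Large levels. -/
theorem exists_M (G : Measure ℝ) [IsProbabilityMeasure G] {η : ℝ≥0∞} (hη : 0 < η) :
    ∃ M₁ : ℝ, ∀ M ≥ M₁, G (Set.Ioi M) ≤ η := by
  have h1 : Tendsto (fun n : ℕ => G (Set.Ioi (n : ℝ))) atTop (nhds (G (⋂ n : ℕ, Set.Ioi (n : ℝ)))) :=
    tendsto_measure_iInter_atTop (fun n => measurableSet_Ioi.nullMeasurableSet)
      (fun i j hij => Set.Ioi_subset_Ioi (by exact_mod_cast hij)) ⟨0, measure_ne_top _ _⟩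
  have h2 : (⋂ n : ℕ, Set.Ioi (n : ℝ)) = ∅ := by
    ext x
    simp only [Set.mem_iInter, Set.mem_Ioi, Set.mem_empty_iff_false, iff_false, not_forall, not_lt]
    exact exists_nat_ge x
  rw [h2, measure_empty] at h1
  obtain ⟨n, hn⟩ := (h1.eventually_lt_const hη).exists
  exact ⟨n, fun M hM => (measure_mono (Set.Ioi_subset_Ioi hM)).trans hn.le⟩

/-- No bigeodesics with slack for the environment itself. -/
theorem no_slackT [NullSingletonClass G] (hG : G (Set.Iio 0) = 0)
    (hNB : ∀ᵐ t ∂PG G, ∀ p, ¬ Br (wt t) p) (hS3 : S3Stmt G) (hC : CircStmt G) {h : ℝ}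
    (hh : 0 < h) :
    ∀ᵐ t ∂PG G, ¬ ∃ v : ℤ → V, IsBi (wt t) v ∧ v 0 = 0 ∧ SL h (wt t) v := by
  obtain ⟨α, β, hα, hαβ, hlo, hhi⟩ := Fin.exists_levels (G := G) hG (η := 1 / 32) (by norm_num)
    (by norm_num)
  have hβ32 : G (Set.Iio β) ≤ 1 / 32 := by
    refine (measure_mono Set.Iio_subset_Iic_self).trans ?_
    rw [hhi, ENNReal.ofReal_div_of_pos (by norm_num)]
    simp
  obtain ⟨M₀, hM₀, hC⟩ := hC
  obtain ⟨M₁, hM₁⟩ := exists_M G (η := 1 / 32) (by simp only [one_div, ENNReal.inv_pos, ne_eq, ENNReal.ofNat_ne_top, not_false_eq_true])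
  set M : ℝ := max (max M₀ M₁) (max h β) with hMdef
  have hMa : M₀ ≤ M := (le_max_left _ _).trans (le_max_left _ _)
  have hMb : M₁ ≤ M := (le_max_right _ _).trans (le_max_left _ _)
  have hMc : h ≤ M := (le_max_left _ _).trans (le_max_right _ _)
  have hβM : β ≤ M := (le_max_right _ _).trans (le_max_right _ _)
  have hM : 0 < M := hM₀.trans_le hMa
  have hβ0 : 0 < β := hα.trans hαβ
  have hMG : G (Set.Ioi M) ≤ 1 / 32 := hM₁ M hMb
  obtain ⟨hCe, E, hE, hEtl⟩ := hC M hMa
  have hβ16 : G (Set.Iio β) ≤ 1 / 16 := hβ32.trans (by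
    rw [one_div, one_div]
    exact ENNReal.inv_le_inv.2 (by norm_num))
  -- expectation of the truncated weights
  have hTE : ∀ e, ∫⁻ t, ENNReal.ofReal (Tr M t e) ∂PG G ≤ E + 1 := by
    intro e
    have h1 : ∀ᵐ t ∂PG G, ENNReal.ofReal (Tr M t e) ≤ ENNReal.ofReal (tl M t e) + 1 := by
      filter_upwards [ae_pos G hG] with t ht
      have h2 := (TrB.tr_basic M t hM ht e).2.2.2.2
      refine (ENNReal.ofReal_le_ofReal h2).trans ?_
      refine ENNReal.ofReal_add_le.trans ?_
      simp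
    refine (lintegral_mono_ae h1).trans ?_
    rw [lintegral_add_right _ measurable_const]
    simp only [lintegral_const, measure_univ, mul_one]
    exact add_le_add (hEtl e) le_rfl
  have hE1 : E + 1 ≠ ∞ := ENNReal.add_ne_top.2 ⟨hE, ENNReal.one_ne_top⟩
  have hLb : GoodF.Lb β (Tr M) := ⟨fun t ht => TrB.Tr_pos hM ht, fun t ht e he =>
    TrF.Tr_high hM hβM ht he⟩
  have hlen := GoodF.len_field hG hβ0 hβ16 (TrB.tr_meas M) (TrB.tr_sh M) hLb hE1 hTE
  have hfld := TrF.fld_tr hG hM hβ0 hβ16 hβM hCe hNB hS3 hlen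
  have hfldD : Lin.Fld (Rlb.Gt G α β M) (FT α β M) := TrF.fld_dec hαβ hβM hfld
  have hmap := Rlb.map_dec (G := G) hαβ hβM
  have hMne : G (Set.Icc β M) ≠ 0 := by
    intro h0
    have h1 : (1 : ℝ≥0∞) ≤ G (Set.Iio β) + (G (Set.Icc β M) + G (Set.Ioi M)) := by
      rw [← measure_univ (μ := G)]
      refine (measure_mono ?_).trans ((measure_union_le _ _).trans
        (add_le_add le_rfl (measure_union_le _ _)))
      intro x _
      rcases lt_or_ge x β with h2 | h2
      · exact Or.inl h2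
      · rcases le_or_gt x M with h3 | h3
        · exact Or.inr (Or.inl ⟨h2, h3⟩)
        · exact Or.inr (Or.inr h3)
    rw [h0, zero_add] at h1
    have h2 := h1.trans (add_le_add hβ32 hMG)
    have e1 : (1 / 32 : ℝ≥0∞) = ENNReal.ofReal (1 / 32) := by
      rw [ENNReal.ofReal_div_of_pos (by norm_num)]; norm_num
    rw [e1, ← ENNReal.ofReal_add (by norm_num) (by norm_num), ← ENNReal.ofReal_one,
      ENNReal.ofReal_le_ofReal_iff (by norm_num)] at h2
    norm_num at h2
  have hloG : G (Set.Iic α) ≠ 0 := by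
    rw [hlo]
    exact (ENNReal.ofReal_pos.2 (by norm_num)).ne'
  have hRP : RP (Rlb.Gt G α β M) α β 0 := Rlb.rp_Gt hα.le hαβ hβM hloG hMne le_rfl zero_le_one
    (Fin.Iic_zero hG)
  -- expectation for the labels
  set E' : ℝ := (E + 1).toReal with hE'
  have hE'0 : 0 < E' := ENNReal.toReal_pos (by simp only [ne_eq, add_eq_zero, one_ne_zero, and_false, not_false_eq_true]) hE1
  have hEF : ∀ e, ∫⁻ t, ENNReal.ofReal (FT α β M t e) ∂PG (Rlb.Gt G α β M) ≤
      ENNReal.ofReal E' := by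
    intro e
    rw [hE', ENNReal.ofReal_toReal hE1]
    refine le_trans (le_of_eq ?_) (hTE e)
    have hm : Measurable fun t : Env => ENNReal.ofReal (Tr M t e) :=
      ((measurable_pi_apply e).comp (TrB.tr_meas M)).ennreal_ofReal
    conv_rhs => rw [← hmap]
    rw [lintegral_map hm Rlb.measurable_dec]
    rfl
  have key := FinF.no_slackF hRP hα (Gt_Iio hαβ hβM hβ32 hMG) hfldD
    (fun z s => fldR hα hαβ hβM _) hE'0 hEF (Ring.kal Cross.cross) (UpDet.upDet Cross.cross) hh
  -- back to the environment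
  have hSE : ∀ᵐ t ∂PG (Rlb.Gt G α β M), Tr M (Rlb.dec α β M t) ∉ Lin.SE h := by
    filter_upwards [key, hfldD.adm, hfldD.fb] with t ht hw hf hmem
    exact ht ((Lin.mem_SE_iff hw (att_of_fb hw hf fun _ _ _ _ => conn_univ _ _) h).1 hmem)
  have hSE' : ∀ᵐ t ∂PG G, Tr M t ∉ Lin.SE h := by
    have hms : MeasurableSet {t : Env | Tr M t ∉ Lin.SE h} :=
      (TrB.tr_meas M (Lin.measurableSet_SE h)).compl
    rw [← hmap, ae_map_iff Rlb.measurable_dec.aemeasurable hms]
    exact hSE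
  filter_upwards [hSE', ae_pos G hG, hCe, hfld.adm, hfld.fb] with t ht hpos hc hw hf hex
  obtain ⟨v, hv, hv0, hsl⟩ := hex
  refine ht ((Lin.mem_SE_iff hw (att_of_fb hw hf fun _ _ _ _ => conn_univ _ _) h).2 ⟨v, ?_, hv0, ?_⟩)
  · exact (TrB.trBi M t hM hpos hc v).2 hv
  · exact (TrB.trSL M t hM hpos hc v hv h).2 hMc hsl

/-- No bigeodesics, for every atomless law, given `MrgStmt`. -/
theorem finT [NullSingletonClass G] (hG : G (Set.Iio 0) = 0) (hM : MrgStmt G) :
    ∀ᵐ t ∂PG G, ∀ v : ℤ → V, ¬ IsBi (wt t) v := by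
  have hFB : FBStmt G := PathP.fb hG
  have hNB := nb hG hFB hM
  have hS : S3Stmt G := S3g.s3gen hG Cross.cross UqAE.uq_ae hFB hNB
  obtain ⟨h, hh, hs⟩ := slack (G := G) hG
  exact hs (no_slackT hG hNB hS (Crc.circ G RectCross.rectCross (Renorm.renorm G)) hh)

end Vale.Agent.P158.C.FinT
end
end

section

section

/-! Plan C', statement (4), for every atomless law with finite mean. -/

namespace Vale.Agent.P158.C.MrgA

open MeasureTheory

variable {G : Measure ℝ} [IsProbabilityMeasure G]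

end Vale.Agent.P158.C.MrgA
end
end

section

section

/-! The merge bound with a weaker bound on the number of vertices of geodesics in a block: no
moment assumption. -/

namespace Vale.Agent.P158.C

open SimpleGraph MeasureTheory Vale.Agent.P158.T1 Vale.Agent.P158.CL
open scoped ENNReal NNReal

/-- Geodesics of domains that contain `bx 0 R`, with ends outside `bx 0 R`, have at most `n`
vertices in `bx 0 K`. -/
def VB (n R K : ℕ) (t : Env) : Prop :=
  ∀ S : Set V, S.Finite → (∀ a ∈ S, ∀ b ∈ S, Conn S a b) → bx 0 R ⊆ S →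
    ∀ (x y : V) (l : latt.Walk x y), Geo (wt t) S l → x ∉ bx 0 R → y ∉ bx 0 R →
      ∀ F : Finset V, (∀ u ∈ F, u ∈ bx 0 K ∧ u ∈ l.support) → F.card ≤ n

/-- Geodesics have few vertices in some block, with large probability. -/
def VBStmt (G : Measure ℝ) [IsProbabilityMeasure G] : Prop :=
  ∀ c : ℝ, 0 < c → ∃ K R n : ℕ, K ≤ R ∧ (n : ℝ) ≤ c * (2 * K + 1) ^ 2 ∧
    PG G {t | ¬ VB n R K t} ≤ ENNReal.ofReal c

namespace MrgA

variable {G : Measure ℝ} [IsProbabilityMeasure G] {S A : Set V} {x y z p v s s' : V} {m : ℕ}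

theorem VB.sh {t : Env} {n R K : ℕ} (hw : Adm (wt t)) (h : VB n R K (shE z t)) (hf : S.Finite)
    (hc : ∀ a ∈ S, ∀ b ∈ S, Conn S a b) (hS : bx z R ⊆ S) {l : latt.Walk x y}
    (hl : Geo (wt t) S l) (hx : x ∉ bx z R) (hy : y ∉ bx z R) (F : Finset V)
    (hF : ∀ u ∈ F, u ∈ bx z K ∧ u ∈ l.support) : F.card ≤ n := by
  classical
  have hmem : ∀ {u : V} {r : ℕ}, u + -z ∈ bx 0 r ↔ u ∈ bx z r := by
    intro u r
    have e : u + -z - 0 = u - z := by abel
    show |(u + -z).1 - (0 : V).1| ≤ r ∧ |(u + -z).2 - (0 : V).2| ≤ r ↔ _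
    rw [← Prod.fst_sub, ← Prod.snd_sub, e, Prod.fst_sub, Prod.snd_sub]
    rfl
  have hS' : ∀ u, u ∈ trs (-z) S ↔ u + z ∈ S := fun u => by
    show u - -z ∈ S ↔ _
    rw [sub_neg_eq_add]
  have hsupp : ∀ {a b : V} (q : latt.Walk a b) (u : V),
      u ∈ (q.map (shHom (-z))).support ↔ u + z ∈ q.support := by
    intro a b q u
    rw [Walk.support_map, List.mem_map]
    constructor
    · rintro ⟨c, hc, rfl⟩
      have e : (shHom (-z)) c + z = c := neg_add_cancel_right c z
      rwa [e]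
    · intro h
      exact ⟨u + z, h, add_neg_cancel_right u z⟩
  have hgeo : Geo (wt (shE z t)) (trs (-z) S) (l.map (shHom (-z))) := by
    have h1 : ∀ u ∈ (l.map (shHom (-z))).support, u ∈ trs (-z) S := fun u hu =>
      (hS' u).2 (hl.1 _ ((hsupp l u).1 hu))
    refine ⟨h1, ?_⟩
    rw [wt_shE, ww_map, sh_sh, hl.2]
    have hcn : Conn (trs (-z) S) (shHom (-z) x) (shHom (-z) y) := ⟨_, h1⟩
    have h2 := PT_sh hw hcn z
    have e1 : shHom (-z) x + z = x := neg_add_cancel_right x z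
    have e2 : shHom (-z) y + z = y := neg_add_cancel_right y z
    have e3 : trs z (trs (-z) S) = S := by
      have := trs_trs (-z) S
      rwa [neg_neg] at this
    rw [e1, e2, e3] at h2
    exact h2.symm
  have hfin : (trs (-z) S).Finite := by
    have : trs (-z) S = (fun u => u + z) ⁻¹' S := by
      ext u; exact hS' u
    rw [this]
    exact hf.preimage (add_left_injective z).injOn
  have hcon : ∀ a ∈ trs (-z) S, ∀ b ∈ trs (-z) S, Conn (trs (-z) S) a b := by
    intro a ha b hb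
    have h1 := (hc _ ((hS' a).1 ha) _ ((hS' b).1 hb)).sh (-z)
    rwa [add_neg_cancel_right, add_neg_cancel_right] at h1
  have h3 := h (trs (-z) S) hfin hcon (fun u hu => (hS' u).2 (hS (by
      rw [← hmem, add_neg_cancel_right]; exact hu))) _ _ (l.map (shHom (-z))) hgeo
      (fun hxx => hx (hmem.1 hxx)) (fun hyy => hy (hmem.1 hyy)) (F.image fun u => u + -z) (by
        intro u hu
        rw [Finset.mem_image] at hu
        obtain ⟨a, ha, rfl⟩ := hu
        refine ⟨hmem.2 (hF a ha).1, (hsupp l _).2 ?_⟩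
        rw [neg_add_cancel_right]
        exact (hF a ha).2)
  rwa [Finset.card_image_of_injective _ (add_left_injective (-z))] at h3

/-- A block without two strands has few robust vertices. -/
theorem blockVB {t : Env} (hw : Adm (wt t)) (ht : TF (wt t)) (hT : TSet m S A y) {h : ℝ}
    {n R K : ℕ} (hE : VB n R K (shE z t)) (hz : bx z R ⊆ bx 0 m)
    (hD : ¬ Dbl (wt t) S A y h z K) :
    open Classical in
    ((Pe.bxF z K).filter fun v => RV (wt t) S A y h v).card ≤ n := by
  classical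
  have hA : Att (wt t) S := att_of_finite hw hT.fin hT.conn
  rcases Finset.eq_empty_or_nonempty ((Pe.bxF z K).filter fun v => RV (wt t) S A y h v) with
    he | ⟨v₀, hv₀⟩
  · rw [he]; simp
  rw [Finset.mem_filter, Pe.mem_bxF] at hv₀
  obtain ⟨hv₀, s₀, hs₀, p₀, hr₀⟩ := hv₀
  have hon := (ue_on hw hA (hT.hA hs₀).1 hT.hy.1 hr₀.1).2
  obtain ⟨l, hl, -⟩ := on_geo hA (hT.hA hs₀).1 hT.hy.1 hon
  refine VB.sh hw hE hT.fin hT.conn (hz.trans hT.box) hl (fun h => (hT.hA hs₀).2 (hz h))
    (fun h => hT.hy.2 (hz h)) _ fun v hv => ?_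
  rw [Finset.mem_filter, Pe.mem_bxF] at hv
  obtain ⟨hv, s, hs, p, hr⟩ := hv
  refine ⟨hv, ?_⟩
  have h1 : On (wt t) S s₀ y v := by
    by_contra hcon
    exact hD ⟨s, hs, s₀, hs₀, p, v, v₀, hr, hv, hv₀, hon, hcon⟩
  obtain ⟨l', hl', hv'⟩ := on_geo hA (hT.hA hs₀).1 hT.hy.1 h1
  rwa [hl'.unique hw ht hl] at hv'

/-- Expected number of robust vertices in a block. -/
theorem sum_rv_leVB [NullSingletonClass G] (h0 : G (Set.Iio 0) = 0) (hU : UqStmt G)
    (hT : TSet m S A y) {h : ℝ} {n R K : ℕ} (hz : bx z R ⊆ bx 0 m) :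
    ∑ v ∈ Pe.bxF z K, PG G {t | RV (wt t) S A y h v} ≤
      n + (2 * K + 1) ^ 2 * (PG G {t | Dbl (wt t) S A y h z K} +
        PG G {t | ¬ VB n R K t}) := by
  classical
  set B : Set Env := {t | Dbl (wt t) S A y h z K} ∪ {t | ¬ VB n R K (shE z t)} with hB
  set B' := toMeasurable (PG G) B with hB'
  have hBm : MeasurableSet B' := measurableSet_toMeasurable _ _
  have h1 : PG G B' ≤ PG G {t | Dbl (wt t) S A y h z K} + PG G {t | ¬ VB n R K t} := by
    rw [hB', measure_toMeasurable]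
    refine (measure_union_le _ _).trans (add_le_add le_rfl ?_)
    have h2 := Measure.le_map_apply (μ := PG G) (mp_sh (G := G) z).measurable.aemeasurable
      {t : Env | ¬ VB n R K t}
    rw [(mp_sh (G := G) z).map_eq] at h2
    exact h2
  rw [sum_measure_eq _ _ _ fun x _ => measurableSet_rv S A y h x]
  calc ∫⁻ t, ∑ x ∈ Pe.bxF z K, ({t : Env | RV (wt t) S A y h x}).indicator
        (fun _ => (1 : ℝ≥0∞)) t ∂PG G
      ≤ ∫⁻ t, ((n : ℝ≥0∞) + B'.indicator (fun _ => ((2 * K + 1) ^ 2 : ℝ≥0∞)) t) ∂PG G := by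
        refine lintegral_mono_ae ?_
        filter_upwards [ae_good h0 hU] with t ht
        rw [sum_ind]
        by_cases htB : t ∈ B'
        · rw [Set.indicator_of_mem htB]
          refine le_trans ?_ le_add_self
          have h3 := Finset.card_filter_le (Pe.bxF z K) fun x =>
            t ∈ {t : Env | RV (wt t) S A y h x}
          rw [Pe.card_bxF] at h3
          exact_mod_cast h3
        · rw [Set.indicator_of_notMem htB, add_zero]
          have htB2 : t ∉ B := fun h => htB (subset_toMeasurable _ _ h)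
          rw [hB, Set.mem_union, not_or] at htB2
          have h3 := blockVB ht.1 ht.2 hT (h := h) (K := K) (z := z)
            (by by_contra hcon; exact htB2.2 hcon) hz htB2.1
          exact_mod_cast h3
    _ = (n : ℝ≥0∞) + (2 * K + 1) ^ 2 * PG G B' := by
        rw [lintegral_add_left measurable_const, lintegral_const, measure_univ, mul_one,
          lintegral_indicator hBm, setLIntegral_const]
    _ ≤ _ := by gcongr

theorem sumR_rv_leVB [NullSingletonClass G] (h0 : G (Set.Iio 0) = 0) (hU : UqStmt G)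
    (hT : TSet m S A y) {h : ℝ} {n R K : ℕ} (hz : bx z R ⊆ bx 0 m) :
    ∑ v ∈ Pe.bxF z K, (PG G).real {t | RV (wt t) S A y h v} ≤
      n + (2 * (K : ℝ) + 1) ^ 2 * ((PG G).real {t | Dbl (wt t) S A y h z K} +
        (PG G).real {t | ¬ VB n R K t}) := by
  have h2 : PG G {t | Dbl (wt t) S A y h z K} + PG G {t | ¬ VB n R K t} ≠ ∞ :=
    ENNReal.add_ne_top.2 ⟨measure_ne_top _ _, measure_ne_top _ _⟩
  have hb := sum_rv_leVB h0 hU hT (h := h) (n := n) (K := K) hz
  rw [sqK] at hb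
  have h1 := ENNReal.toReal_mono (ENNReal.add_ne_top.2 ⟨ENNReal.natCast_ne_top _,
      ENNReal.mul_ne_top (ENNReal.natCast_ne_top _) h2⟩) hb
  rw [ENNReal.toReal_add (ENNReal.natCast_ne_top _)
    (ENNReal.mul_ne_top (ENNReal.natCast_ne_top _) h2), ENNReal.toReal_mul,
    ENNReal.toReal_natCast, ENNReal.toReal_natCast, toReal_sum_measure,
    ENNReal.toReal_add (measure_ne_top _ _) (measure_ne_top _ _)] at h1
  push_cast at h1
  exact h1

theorem blocksVB [NullSingletonClass G] (h0 : G (Set.Iio 0) = 0) (hU : UqStmt G)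
    (hT : TSet m S A y) {h c : ℝ} {n K r R a : ℕ} {Cw : ℝ≥0} (hc : 0 ≤ c)
    (hL : (PG G).real {t | ¬ VB n R K t} ≤ c) (ha : a + K + r + R + 3 = m)
    (hW : ∀ z : V, bx z (r + 1) ⊆ bx 0 m → PG G {t | Dbl (wt t) S A y h z K} ≤
        ENNReal.ofReal c + Cw * PG G {t | ∃ x ∈ bx z r, MV (wt t) S A y x}) :
    (2 * (K : ℝ) + 1) ^ 2 * ∑ v ∈ Pe.bxF 0 (a + 1), (PG G).real {t | RV (wt t) S A y h v} ≤
      (2 * (m : ℝ) + 1) ^ 2 * (n + (2 * (K : ℝ) + 1) ^ 2 * (2 * c)) +
        (2 * (K : ℝ) + 1) ^ 2 * (Cw * ((2 * (r : ℝ) + 1) ^ 2 * (8 * m))) := by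
  have h1 := swapR_ge (G := G) (fun v => {t : Env | RV (wt t) S A y h v}) (a + 1) K
  refine h1.trans ?_
  have h2 : ∀ z ∈ Pe.bxF 0 (a + 1 + K), ∑ v ∈ Pe.bxF z K, (PG G).real {t | RV (wt t) S A y h v} ≤
      (n + (2 * (K : ℝ) + 1) ^ 2 * (2 * c)) + (2 * (K : ℝ) + 1) ^ 2 * (Cw *
        ∑ x ∈ Pe.bxF z r, (PG G).real {t | MV (wt t) S A y x}) := by
    intro z hz
    rw [Pe.mem_bxF] at hz
    have h3 := sumR_rv_leVB h0 hU hT (n := n) (h := h) (K := K) (z := z) (R := R)
      (bx_sub_bx hz (by omega))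
    have h4 := toReal_bound hc (measure_ne_top _ _) (hW z (bx_sub_bx hz (by omega)))
    have h5 : (PG G {t | ∃ x ∈ bx z r, MV (wt t) S A y x}).toReal ≤
        ∑ x ∈ Pe.bxF z r, (PG G).real {t | MV (wt t) S A y x} := by
      have h6 : {t : Env | ∃ x ∈ bx z r, MV (wt t) S A y x} ⊆
          ⋃ x ∈ Pe.bxF z r, {t : Env | MV (wt t) S A y x} := by
        rintro t ⟨x, hx, hm⟩
        simp only [Set.mem_iUnion]
        exact ⟨x, Pe.mem_bxF.2 hx, hm⟩
      exact (measureReal_mono (μ := PG G) h6 (measure_ne_top _ _)).trans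
        (measureReal_biUnion_finset_le _ _)
    have h7 := mul_le_mul_of_nonneg_left h5 Cw.2
    have h8 : (PG G).real {t | Dbl (wt t) S A y h z K} ≤
        c + Cw * ∑ x ∈ Pe.bxF z r, (PG G).real {t | MV (wt t) S A y x} :=
      h4.trans (add_le_add le_rfl h7)
    exact arith3 (by (clear * -; positivity)) h3 h8 hL
  refine (Finset.sum_le_sum h2).trans ?_
  rw [Finset.sum_add_distrib, Finset.sum_const, Pe.card_bxF, nsmul_eq_mul, ← Finset.mul_sum,
    ← Finset.mul_sum]
  have h3 := swapR_le (G := G) (fun v => {t : Env | MV (wt t) S A y v}) (a + 1 + K) r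
  have h4 := sumR_mv_le' h0 hU hT (ρ := a + 1 + K + r) (by omega)
  have h5 : (0 : ℝ) ≤ (2 * (r : ℝ) + 1) ^ 2 := by (clear * -; positivity)
  have h6 := h3.trans (mul_le_mul_of_nonneg_left h4 h5)
  have h7 : (((2 * (a + 1 + K) + 1) ^ 2 : ℕ) : ℝ) ≤ (2 * (m : ℝ) + 1) ^ 2 := by
    have : (2 * (a + 1 + K) + 1) ^ 2 ≤ (2 * m + 1) ^ 2 := Nat.pow_le_pow_left (by omega) 2
    exact_mod_cast this
  have h8 : (0 : ℝ) ≤ n + (2 * (K : ℝ) + 1) ^ 2 * (2 * c) := by (clear * - hc; positivity)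
  have h9 := mul_le_mul_of_nonneg_right h7 h8
  have h10 : (0 : ℝ) ≤ (2 * (K : ℝ) + 1) ^ 2 := by (clear * -; positivity)
  have h11 := mul_le_mul_of_nonneg_left (mul_le_mul_of_nonneg_left h6 Cw.2) h10
  exact add_le_add h9 h11

/-- The expected number of merge vertices in a smaller box is small. -/
theorem treeFVB [NullSingletonClass G] (h0 : G (Set.Iio 0) = 0) (hU : UqStmt G)
    (hW : WinStmt G) (hE : EdgeStmt G) (hV : VBStmt G) : TreeFStmt G := by
  intro η hη
  obtain ⟨h, Ce, hh, hE⟩ := hE (η / 2000) (by positivity)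
  set c : ℝ := η / (4000 * (Ce + 1)) with hc
  have hCe : (0 : ℝ) ≤ Ce := Ce.2
  have hc0 : 0 < c := by positivity
  obtain ⟨K, R₀, n, hKR, hn, hV⟩ := hV c hc0
  obtain ⟨r, Cw, hKr, hW⟩ := hW K h c hh hc0
  have hCw : (0 : ℝ) ≤ Cw := Cw.2
  obtain ⟨m₁, hm₁⟩ := exists_nat_ge (1152 * Ce * (9 * Cw * (2 * (r : ℝ) + 1) ^ 2) / η)
  refine ⟨max (12 * (r + K + R₀ + 3)) m₁, fun m hm S A y hT k hk => ?_⟩
  have hm1 : 12 * (r + K + R₀ + 3) ≤ m := (le_max_left _ _).trans hm
  have hm2 : 1152 * Ce * (9 * Cw * (2 * (r : ℝ) + 1) ^ 2) / η ≤ m :=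
    hm₁.trans (by exact_mod_cast (le_max_right _ _).trans hm)
  obtain ⟨a, ha⟩ : ∃ a, a + K + r + R₀ + 3 = m := ⟨m - (K + r + R₀ + 3), by omega⟩
  obtain ⟨j, hj⟩ : ∃ j, k + j = a := ⟨a - k, by (clear * - hk hm1 ha; omega)⟩
  have hj4 : (m : ℝ) / 4 ≤ j := by
    have : m ≤ 4 * j := by omega
    have : (m : ℝ) ≤ 4 * j := by exact_mod_cast this
    linarith only [this]
  have hmpos : (1 : ℝ) ≤ m := by
    have : 1 ≤ m := by (clear * - hKR ha; omega)
    exact_mod_cast this
  set M := ∑ x ∈ Pe.bxF 0 k, (PG G).real {t | MV (wt t) S A y x} with hM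
  set R := ∑ v ∈ Pe.bxF 0 (a + 1), (PG G).real {t | RV (wt t) S A y h v} with hR
  have hM0 : 0 ≤ M := Finset.sum_nonneg fun _ _ => measureReal_nonneg
  -- rings
  have e1 := rings h0 hU hT k j (by omega)
  rw [hj, ← hM] at e1
  -- edges
  have e2 : ∑ x ∈ Pe.bxF 0 a, (PG G).real {t | TV (wt t) S A y x} ≤
      (2 * (m : ℝ) + 1) ^ 2 * (9 * (η / 2000)) + Ce * (9 * R) := by
    have f1 : ∀ x ∈ Pe.bxF 0 a, (PG G).real {t | TV (wt t) S A y x} ≤ 9 * (η / 2000) +
        Ce * ∑ v ∈ Pe.bxF x 1, (PG G).real {t | RV (wt t) S A y h v} := fun x _ =>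
      tv_le (by positivity) (fun p v => hE S A y hT.fin hT.conn (fun s hs => (hT.hA hs).1)
        hT.hy.1 p v) x
    refine (Finset.sum_le_sum f1).trans ?_
    rw [Finset.sum_add_distrib, Finset.sum_const, Pe.card_bxF, nsmul_eq_mul, ← Finset.mul_sum]
    have f2 := swapR_le (G := G) (fun v => {t : Env | RV (wt t) S A y h v}) a 1
    rw [← hR] at f2
    have f3 : (2 * ((1 : ℕ) : ℝ) + 1) ^ 2 * R = 9 * R := by norm_num
    rw [f3] at f2
    have f4 : (((2 * a + 1) ^ 2 : ℕ) : ℝ) ≤ (2 * (m : ℝ) + 1) ^ 2 := by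
      have : (2 * a + 1) ^ 2 ≤ (2 * m + 1) ^ 2 := Nat.pow_le_pow_left (by (clear * - ha; omega)) 2
      exact_mod_cast this
    exact add_le_add (mul_le_mul_of_nonneg_right f4 (by positivity))
      (mul_le_mul_of_nonneg_left f2 hCe)
  -- blocks
  have e3 := blocksVB h0 hU hT (n := n) (h := h) hc0.le (K := K) (r := r) (R := R₀) (a := a)
    (Cw := Cw) (by
      have := ENNReal.toReal_mono ENNReal.ofReal_ne_top hV
      rwa [ENNReal.toReal_ofReal hc0.le] at this) ha (fun z hz => hW m S A y hT z hz)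
  rw [← hR] at e3
  have hmm : (2 * (m : ℝ) + 1) ^ 2 ≤ 9 * m ^ 2 := arith4 hmpos
  have e5 : R ≤ 27 * c * m ^ 2 + 8 * Cw * (2 * (r : ℝ) + 1) ^ 2 * m :=
    arith2 hc0.le hmpos (by (clear * -; positivity)) e3 hn
  have e6 : (m : ℝ) / 4 * M ≤ 9 * m ^ 2 * (9 * (η / 2000)) +
      Ce * (9 * (27 * c * m ^ 2 + 8 * Cw * (2 * (r : ℝ) + 1) ^ 2 * m)) := by
    have g1 := mul_le_mul_of_nonneg_right hj4 hM0
    have g2 := mul_le_mul_of_nonneg_right hmm (by positivity : (0 : ℝ) ≤ 9 * (η / 2000))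
    have g3 := mul_le_mul_of_nonneg_left e5 hCe
    (clear h0 hU hh hc hV hKr hW hCw hm₁ hm2 hM; linarith)
  have e7 : Ce * c ≤ η / 4000 := arith5 hη hCe
  have e8 : 1152 * Ce * (9 * Cw * (2 * (r : ℝ) + 1) ^ 2) ≤ m * η := by
    rwa [div_le_iff₀ hη] at hm2
  have e9 : M ≤ η * m := arith1 hη hmpos e6 e7 e8
  have e10 : ∑ x ∈ Pe.bxF 0 k, PG G {t | MV (wt t) S A y x} = ENNReal.ofReal M := by
    rw [hM, ← toReal_sum_measure, ENNReal.ofReal_toReal (sum_ne_top _ _)]
  rw [e10]
  exact ENNReal.ofReal_le_ofReal e9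

/-- (4) The merge bound for every atomless law, from the bound on vertices of geodesics. -/
theorem mrgVB [NullSingletonClass G] (h0 : G (Set.Iio 0) = 0) (hV : VBStmt G) : MrgStmt G :=
  mrg_of_tree (treeFVB h0 UqAE.uq_ae (Low.win h0) (LowEdge.edge h0) hV)

end MrgA

end Vale.Agent.P158.C
end
end

section

section

/-! Geodesics have few vertices in some block, for every atomless law: the heavy edges of a ring
are truncated at the size of their light circuits. -/

namespace Vale.Agent.P158.C.VBp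

open SimpleGraph Filter MeasureTheory Vale.Agent.P158.T1 Vale.Agent.P158.CL TrB
open scoped ENNReal

variable {G : Measure ℝ} [IsProbabilityMeasure G] {w : V → V → ℝ} {M : ℝ} {t u : Env}
  {S : Set V} {a b x y : V}

/-! ### Deterministic part -/

/-- Rerouting along a light circuit, inside a set. -/
theorem reroute_S {e : latt.edgeSet} {K : Finset V} (hK : Det M t a b e K)
    (π : latt.Walk a b) (he : (e : Sym2 V) ∈ π.edges) (hπ : ∀ z ∈ π.support, z ∈ S)
    (hKS : ∀ z ∈ K, z ∈ S) :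
    ∃ π' : latt.Walk a b, (∀ z ∈ π'.support, z ∈ S) ∧
      (∀ P : Sym2 V → Prop, P e → (∀ g : latt.edgeSet, t g ≤ M → ¬ P g) → ct P π' < ct P π) ∧
      ∀ u : V → V → ℝ, Adm u → 0 ≤ M → (∀ x y (h : latt.Adj x y), t ⟨s(x, y), h⟩ ≤ M → u x y ≤ M) →
        ∀ c : ℝ, (∀ x y, latt.Adj x y → s(x, y) = (e : Sym2 V) → c ≤ u x y) →
          ww u π' + c ≤ ww u π + M * ((K.card : ℝ) - 1) := by
  obtain ⟨x, y, hxy, π₁, π₂, e1, rfl⟩ := split_at π he
  obtain ⟨k₁, hk₁, hk₁K⟩ := hK.left x (by rw [← e1]; simp) π₁.reverse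
  obtain ⟨k₂, hk₂, hk₂K⟩ := hK.right y (by rw [← e1]; simp) π₂
  have hk₁' : k₁ ∈ π₁.support := by simpa using hk₁
  obtain ⟨κ, hκp, hκK, hκl⟩ := hK.lc k₁ hk₁K k₂ hk₂K
  refine ⟨((π₁.takeUntil k₁ hk₁').append κ).append (π₂.dropUntil k₂ hk₂), ?_, ?_, ?_⟩
  · intro z hz
    rw [Walk.mem_support_append_iff, Walk.mem_support_append_iff] at hz
    rcases hz with (hz | hz) | hz
    · refine hπ z ?_
      rw [Walk.mem_support_append_iff]
      exact Or.inl (π₁.support_takeUntil_subset_support hk₁' hz)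
    · exact hKS z (hκK z hz)
    · refine hπ z ?_
      rw [Walk.mem_support_append_iff, Walk.support_cons, List.mem_cons]
      exact Or.inr (Or.inr (π₂.support_dropUntil_subset_support hk₂ hz))
  · intro P hPe hPl
    have h0 : ct P κ = 0 := by
      rw [ct_eq_zero]
      intro f hf
      have hfe : f ∈ latt.edgeSet := κ.edges_subset_edgeSet hf
      exact hPl ⟨f, hfe⟩ (hκl ⟨f, hfe⟩ hf)
    have h1 := congrArg (ct P) (π₁.take_spec hk₁')
    have h2 := congrArg (ct P) (π₂.take_spec hk₂)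
    rw [ct_append] at h1 h2
    rw [ct_append, ct_append, ct_append, ct_cons_pos hxy π₂ (by rw [e1]; exact hPe), h0]
    omega
  · intro u hu hM hul c hc
    have h1 := congrArg (ww u) (π₁.take_spec hk₁')
    have h2 := congrArg (ww u) (π₂.take_spec hk₂)
    rw [ww_append] at h1 h2
    have h3 := ww_light (w := u) κ hκp hκK
      (fun x y h he => hul x y h (hκl ⟨s(x, y), h⟩ he)) hM
    have h4 := ww_nonneg hu (π₁.dropUntil k₁ hk₁')
    have h5 := ww_nonneg hu (π₂.takeUntil k₂ hk₂)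
    have h6 := hc x y hxy e1
    rw [ww_append, ww_append, ww_append, ww_cons]
    linarith

/-- A property of edges, on `Sym2`. -/
def Sp2 (P : latt.edgeSet → Prop) (f : Sym2 V) : Prop := ∃ h : f ∈ latt.edgeSet, P ⟨f, h⟩

theorem ww_eq_off {P : latt.edgeSet → Prop} (hoff : ∀ e, ¬ P e → u e = t e) {a b : V}
    (π : latt.Walk a b) (h : ∀ f ∈ π.edges, ¬ Sp2 P f) : ww (wt u) π = ww (wt t) π := by
  induction π with
  | nil => rfl
  | @cons x y z hxy p ih =>
    rw [ww_cons, ww_cons, ih fun e he => h e (by simp [he]), wt_mk _ hxy, wt_mk _ hxy, hoff]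
    exact fun hP => h s(x, y) (by simp) ⟨hxy, hP⟩

/-- Truncation of some edges with light circuits inside `S` does not decrease the passage times
of `S` between `a` and `b`. -/
theorem PT_le_part (hM : 0 ≤ M) (ht : ∀ e, 0 < t e) (hu : ∀ e, 0 < u e)
    {P : latt.edgeSet → Prop} (hoff : ∀ e, ¬ P e → u e = t e) (hlight : ∀ e, t e ≤ M → ¬ P e)
    (hA : ∀ e, P e → ∃ K : Finset V, (∀ z ∈ K, z ∈ S) ∧ Det M t a b e K ∧
      M * ((K.card : ℝ) - 1) ≤ u e) : ∀ (n : ℕ) (π : latt.Walk a b), ct (Sp2 P) π = n →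
    (∀ z ∈ π.support, z ∈ S) → PT (wt t) S a b ≤ ww (wt u) π := by
  intro n
  induction n using Nat.strong_induction_on with
  | _ n ih =>
    intro π hn hπ
    rcases Nat.eq_zero_or_pos n with h0 | h0
    · subst h0
      rw [ct_eq_zero] at hn
      rw [ww_eq_off hoff π hn]
      exact PT_le (TrB.adm_of_pos ht) π hπ
    · have hex : ∃ f ∈ π.edges, Sp2 P f := by
        by_contra hc
        push Not at hc
        rw [← ct_eq_zero] at hc
        omega
      obtain ⟨f, hf, hfe, hPf⟩ := hex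
      obtain ⟨K, hKS, hD, hKu⟩ := hA ⟨f, hfe⟩ hPf
      obtain ⟨π', h1, h2, h3⟩ := reroute_S hD π hf hπ hKS
      have h4 := h3 (wt u) (TrB.adm_of_pos hu) hM (fun x y h hl => by
        rw [wt_mk _ h, hoff _ (hlight _ hl)]; exact hl) (u ⟨f, hfe⟩) (fun x y h hxy => by
        rw [wt_mk _ h]
        have : (⟨s(x, y), h⟩ : latt.edgeSet) = ⟨f, hfe⟩ := Subtype.ext hxy
        rw [this])
      have h5 := ih _ (hn ▸ h2 (Sp2 P) ⟨hfe, hPf⟩ fun g hg hP => by
        obtain ⟨hge, hP⟩ := hP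
        exact hlight g hg hP) π' rfl h1
      linarith only [hKu, h4, h5]

/-- Light circuit of `e` inside `bx 0 R`. -/
def Spd (R : ℕ) (e : latt.edgeSet) (K : Finset V) : Prop :=
  (∀ z ∈ K, z ∈ bx 0 R) ∧ ∀ a, a ∉ bx 0 R → ∀ x ∈ (e : Sym2 V), ∀ p : latt.Walk x a,
    ∃ z ∈ p.support, z ∈ K

/-- There is a light circuit of `e` of minimal size inside `bx 0 R`. -/
def CR (M : ℝ) (R : ℕ) (e : latt.edgeSet) (t : Env) : Prop :=
  ∃ K : Finset V, Spd R e K ∧ K.card ≤ cs M t e ∧ LC M t K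

theorem CR.mono {R R' : ℕ} (h : R ≤ R') {e : latt.edgeSet} (hC : CR M R e t) : CR M R' e t := by
  obtain ⟨K, ⟨h1, h2⟩, h3⟩ := hC
  exact ⟨K, ⟨fun z hz => bx_mono h (h1 z hz), fun a ha => h2 a fun ha' => ha (bx_mono h ha')⟩, h3⟩

theorem CR.det {R : ℕ} {e : latt.edgeSet} (hC : CR M R e t) (ha : a ∉ bx 0 R) (hb : b ∉ bx 0 R) :
    ∃ K : Finset V, (∀ z ∈ K, z ∈ bx 0 R) ∧ K.card ≤ cs M t e ∧ Det M t a b e K := by
  obtain ⟨K, ⟨h1, h2⟩, h3, h4⟩ := hC
  exact ⟨K, h1, h3, ⟨h4, h2 a ha, h2 b hb⟩⟩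

theorem exists_CR {e : latt.edgeSet} (hC : ∃ n, Circ M t e n) : ∃ R, CR M R e t := by
  obtain ⟨K, R, hK, hD⟩ := exists_det hC
  obtain ⟨R', hR'⟩ := CL.exists_bx_of_finite K.finite_toSet
  have hout : (((R : ℤ) + 1, 0) : V) ∉ bx 0 R := by
    rw [mem_bx]
    rintro ⟨h, -⟩
    rw [abs_le] at h
    simp only [Prod.fst_zero, sub_zero] at h
    omega
  refine ⟨max R R', K, ⟨fun z hz => bx_mono (le_max_right _ _) (hR' hz), fun a ha => ?_⟩, hK,
    (hD _ _ hout hout).lc⟩
  have ha' : a ∉ bx 0 R := fun h => ha (bx_mono (le_max_left _ _) h)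
  exact (hD a a ha' ha').left

open Classical in
/-- The environment truncated on the boundary cycle. -/
noncomputable def ut (M : ℝ) {N : ℕ} (hN : 0 < N) (t : Env) : Env := fun e =>
  if e ∈ GoodLen.ringF 0 hN ∧ tl M t e < t e then tl M t e else t e

/-- Comparison of a chord with the ring. -/
theorem chord {N R : ℕ} (hN : 0 < N) (hM : 0 < M) (ht : ∀ e, 0 < t e)
    (hD : ∀ e ∈ GoodLen.ringF 0 hN, CR M R e t) (hNR : N ≤ R) (hS : bx 0 R ⊆ S)
    {l : latt.Walk x y} (hl : Geo (wt t) S l) (hx : x ∉ bx 0 R) (hy : y ∉ bx 0 R) {i j : ℕ}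
    (hij : i ≤ j) (hi : l.getVert i ∈ bB 0 N) (hj : l.getVert j ∈ bB 0 N) :
    PT (wt t) S (l.getVert i) (l.getVert j) ≤ ∑ e ∈ GoodLen.ringF 0 hN, tl M t e := by
  classical
  have hw := TrB.adm_of_pos ht
  have htl : ∀ e, 0 < tl M t e := fun e => hM.trans_le (tl_ge hM e)
  have hupos : ∀ e, 0 < ut M hN t e := fun e => by
    unfold ut
    split_ifs
    · exact htl e
    · exact ht e
  have hu := TrB.adm_of_pos hupos
  have hle : ∀ e, ut M hN t e ≤ t e := fun e => by
    unfold ut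
    split_ifs with h
    · exact h.2.le
    · exact le_rfl
  obtain ⟨q, hq1, hq2⟩ := exists_geo (CLp.att_bx hu 0 N) hi.1 hj.1
  have hqS : ∀ z ∈ q.support, z ∈ S := fun z hz => hS (bx_mono hNR (hq1 z hz))
  have hring : ww (wt (ut M hN t)) q ≤ ∑ e ∈ GoodLen.ringF 0 hN, tl M t e := by
    rw [hq2]
    refine (MrgA.PT_le_rs hu hN subset_rfl hi hj).trans ?_
    rw [GoodLen.rs_eq _ 0 hN]
    refine Finset.sum_le_sum fun e he => ?_
    unfold ut
    split_ifs with h
    · exact le_rfl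
    · by_contra hcon
      exact h ⟨he, not_le.1 hcon⟩
  set π := ((l.take i).append q).append (l.drop j) with hπ
  have hπS : ∀ z ∈ π.support, z ∈ S := by
    intro z hz
    rw [hπ, Walk.mem_support_append_iff, Walk.mem_support_append_iff] at hz
    rcases hz with (hz | hz) | hz
    · exact hl.1 z (support_take_subset l i hz)
    · exact hqS z hz
    · exact hl.1 z (support_drop_subset l j hz)
  have key := PT_le_part (M := M) (u := ut M hN t) (a := x) (b := y) (S := S) hM.le ht hupos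
    (P := fun e => e ∈ GoodLen.ringF 0 hN ∧ tl M t e < t e)
    (fun e he => by unfold ut; rw [if_neg he])
    (fun e he hP => absurd hP.2 (not_lt.2 (he.trans (tl_ge hM e))))
    (fun e he => by
      obtain ⟨K, h1, h2, h3⟩ := (hD e he.1).det hx hy
      refine ⟨K, fun z hz => hS (h1 z hz), h3, ?_⟩
      unfold ut
      rw [if_pos he]
      have h4 : M * (K.card : ℝ) ≤ tl M t e :=
        (mul_le_mul_of_nonneg_left (by exact_mod_cast h2) hM.le).trans (tl_ge_cs hM e)
      linarith only [hM, h4]) _ π rfl hπS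
  rw [← hl.2, hπ, ww_append, ww_append] at key
  have k1 : ww (wt (ut M hN t)) (l.take i) ≤ ww (wt t) (l.take i) := ww_mono (fun x y hxy => by
    rw [wt_mk _ hxy, wt_mk _ hxy]; exact hle _) _
  have k2 : ww (wt (ut M hN t)) (l.drop j) ≤ ww (wt t) (l.drop j) := ww_mono (fun x y hxy => by
    rw [wt_mk _ hxy, wt_mk _ hxy]; exact hle _) _
  have k3 := ww_take_add_drop (w := wt t) l j
  have k4 : ww (wt t) (l.take i) + PT (wt t) S (l.getVert i) (l.getVert j) ≤
      ww (wt t) (l.take j) := by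
    have g1 := hl.take hw i
    have g2 := hl.take hw j
    have h1 : l.getVert i ∈ (l.take j).support := by
      have h0 := (l.take j).getVert_mem_support i
      rwa [Walk.take_getVert, min_eq_right hij] at h0
    have h2 := (MrgA.geo_on hw g2 h1).2
    rw [g1.2, g2.2, h2]
  linarith only [hring, key, k1, k2, k3, k4]

/-- Geodesics with far ends have few vertices in a block. -/
theorem trace_le {K R : ℕ} {C₁ : ℝ} (hM : 0 < M) (ht : ∀ e, 0 < t e)
    (hD : ∀ e ∈ GoodLen.ringF 0 (Nat.succ_pos K), CR M R e t) (hKR : K + 1 ≤ R)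
    (hE : ∀ (x y : V) (p : latt.Walk x y), p.IsPath → x ∈ bx 0 (K + 1) → C₁ * K ≤ p.length →
      ∑ e ∈ GoodLen.ringF 0 (Nat.succ_pos K), tl M t e < ww (wt t) p)
    (hS : bx 0 R ⊆ S) {l : latt.Walk x y} (hl : Geo (wt t) S l) (hx : x ∉ bx 0 R)
    (hy : y ∉ bx 0 R) (F : Finset V) (hF : ∀ u ∈ F, u ∈ bx 0 K ∧ u ∈ l.support) :
    F.card ≤ ⌈C₁ * K⌉₊ := by
  classical
  have hw := TrB.adm_of_pos ht
  rcases F.eq_empty_or_nonempty with rfl | ⟨x₀, hx₀⟩
  · simp
  set I := (Finset.range (l.length + 1)).filter fun i => l.getVert i ∈ bx 0 (K + 1) with hI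
  have hmem : ∀ u ∈ F, ∃ i ∈ I, l.getVert i = u := by
    intro u hu
    obtain ⟨h1, h2⟩ := hF u hu
    obtain ⟨i, hi, hi'⟩ := Walk.mem_support_iff_exists_getVert.1 h2
    refine ⟨i, ?_, hi⟩
    rw [hI, Finset.mem_filter, Finset.mem_range, hi]
    exact ⟨by omega, bx_mono (Nat.le_succ K) h1⟩
  have hne : I.Nonempty := by
    obtain ⟨i, hi, -⟩ := hmem x₀ hx₀
    exact ⟨i, hi⟩
  set a := I.min' hne with ha
  set b := I.max' hne with hb
  have haI := I.min'_mem hne
  have hbI := I.max'_mem hne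
  have hmin : ∀ i ∈ I, a ≤ i := fun i hi => I.min'_le i hi
  have hmax : ∀ i ∈ I, i ≤ b := fun i hi => I.le_max' i hi
  rw [← ha, hI, Finset.mem_filter, Finset.mem_range] at haI
  rw [← hb, hI, Finset.mem_filter, Finset.mem_range] at hbI
  obtain ⟨ha1, ha2⟩ := haI
  obtain ⟨hb1, hb2⟩ := hbI
  have hab : a ≤ b := hmin b (by rw [hI, Finset.mem_filter, Finset.mem_range]; exact ⟨hb1, hb2⟩)
  have ha0 : a ≠ 0 := by
    intro h
    rw [h, l.getVert_zero] at ha2
    exact hx (bx_mono hKR ha2)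
  have hbl : b ≠ l.length := by
    intro h
    rw [h, l.getVert_length] at hb2
    exact hy (bx_mono hKR hb2)
  have hba : l.getVert a ∈ bB 0 (K + 1) := by
    refine mem_bB_of_adj ha2 (y := l.getVert (a - 1)) (fun h => ?_) ?_
    · have := hmin (a - 1) (by rw [hI, Finset.mem_filter, Finset.mem_range]; exact ⟨by omega, h⟩)
      omega
    · have := l.adj_getVert_succ (i := a - 1) (by omega)
      rw [show a - 1 + 1 = a by omega] at this
      exact this.symm
  have hbb : l.getVert b ∈ bB 0 (K + 1) := by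
    refine mem_bB_of_adj hb2 (y := l.getVert (b + 1)) (fun h => ?_)
      (l.adj_getVert_succ (by omega))
    have := hmax (b + 1) (by rw [hI, Finset.mem_filter, Finset.mem_range]; exact ⟨by omega, h⟩)
    omega
  have hg : Geo (wt t) S ((l.drop a).take (b - a)) := (hl.drop hw a).take hw (b - a)
  have hend : (l.drop a).getVert (b - a) = l.getVert b := by
    rw [Walk.drop_getVert]
    congr 1
    omega
  have hlen : ((l.drop a).take (b - a)).length = b - a := by
    rw [Walk.take_length, Walk.drop_length]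
    omega
  have hlt : ¬ C₁ * K ≤ ((b - a : ℕ) : ℝ) := by
    intro h
    have h4 := hE _ _ ((l.drop a).take (b - a)) (hg.isPath hw) ha2 (by rw [hlen]; exact h)
    rw [hg.2, hend] at h4
    exact absurd (chord (Nat.succ_pos K) hM ht hD hKR hS hl hx hy hab hba hbb) (not_le.2 h4)
  rw [not_le] at hlt
  have hn : b - a < ⌈C₁ * K⌉₊ := Nat.lt_ceil.2 hlt
  have hsub : F ⊆ (Finset.Icc a b).image l.getVert := fun u hu => by
    obtain ⟨i, hi, rfl⟩ := hmem u hu
    exact Finset.mem_image_of_mem _ (Finset.mem_Icc.2 ⟨hmin i hi, hmax i hi⟩)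
  have h6 := (Finset.card_le_card hsub).trans Finset.card_image_le
  rw [Nat.card_Icc] at h6
  (clear * - hne hab hn h6; omega)

/-! ### Probabilistic part -/

theorem measurableSet_CR (M : ℝ) (R : ℕ) (e : latt.edgeSet) : MeasurableSet {t : Env | CR M R e t} := by
  have h : {t : Env | CR M R e t} = ⋃ K : Finset V, ⋃ _ : Spd R e K,
      ({t : Env | K.card ≤ cs M t e} ∩ {t : Env | LC M t K}) := by
    ext t
    simp only [CR, Set.mem_iUnion, Set.mem_ofPred_eq, Set.mem_inter_iff, exists_prop]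
  rw [h]
  refine MeasurableSet.iUnion fun K => MeasurableSet.iUnion fun _ => MeasurableSet.inter ?_
    (TrB.measurable_LC M K)
  exact measurableSet_le measurable_const (TrB.measurable_cs M e)

/-- Light circuits of finitely many edges inside a large box. -/
theorem exists_R (hC : ∀ᵐ t ∂PG G, ∀ e, ∃ n, Circ M t e n) (F : Finset latt.edgeSet) (K : ℕ)
    {δ : ℝ} (hδ : 0 < δ) :
    ∃ R ≥ K, PG G {t | ¬ ∀ e ∈ F, CR M R e t} ≤ ENNReal.ofReal δ := by
  have hanti : Antitone fun R : ℕ => {t : Env | ¬ ∀ e ∈ F, CR M R e t} := by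
    intro R R' h t ht hall
    exact ht fun e he => (hall e he).mono h
  have hmeas : ∀ R : ℕ, MeasurableSet {t : Env | ¬ ∀ e ∈ F, CR M R e t} := by
    intro R
    have : {t : Env | ¬ ∀ e ∈ F, CR M R e t} = (⋂ e ∈ F, {t : Env | CR M R e t})ᶜ := by
      ext t
      simp only [Set.mem_compl_iff, Set.mem_iInter, Set.mem_ofPred_eq]
    rw [this]
    exact (Finset.measurableSet_biInter F fun e _ => measurableSet_CR M R e).compl
  have hlim := tendsto_measure_iInter_atTop (μ := PG G)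
    (fun R => (hmeas R).nullMeasurableSet) hanti ⟨0, measure_ne_top _ _⟩
  have hzero : PG G (⋂ R : ℕ, {t : Env | ¬ ∀ e ∈ F, CR M R e t}) = 0 := by
    refine measure_mono_null ?_ (ae_iff.1 hC)
    intro t ht hall
    rw [Set.mem_iInter] at ht
    choose r hr using fun e => exists_CR (hall e)
    refine ht (F.sup r) fun e he => (hr e).mono (Finset.le_sup he)
  rw [hzero] at hlim
  obtain ⟨R, h1, h2⟩ := (((tendsto_order.1 hlim).2 _ (ENNReal.ofReal_pos.2 hδ)).and
    (eventually_ge_atTop K)).exists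
  exact ⟨R, h2, h1.le⟩

theorem vb_of [NullSingletonClass G] (h0 : G (Set.Iio 0) = 0) (hC : CircStmt G) : VBStmt G := by
  classical
  obtain ⟨M, hM, hC⟩ := hC
  obtain ⟨hC, E, hE, hCE⟩ := hC M le_rfl
  obtain ⟨β, hβ0, hβ⟩ := Pe.exists_level (G := G) h0 (η := 1 / 16) (by (clear * -; norm_num))
  intro c hc
  set m : ℝ := E.toReal with hm
  have hm0 : 0 ≤ m := ENNReal.toReal_nonneg
  have hEm : E = ENNReal.ofReal m := (ENNReal.ofReal_toReal hE).symm
  set D : ℝ := 24 * m / c + 1 with hD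
  have hD0 : 0 < D := by (clear * - hc; positivity)
  set C₁ : ℝ := max 1 (8 * (2 * D + 1) / β) with hC₁
  have hC1 : 1 ≤ C₁ := le_max_left _ _
  have hC2 : (2 * D + 1) ≤ β * C₁ / 8 := by
    have : 8 * (2 * D + 1) / β ≤ C₁ := le_max_right _ _
    rw [div_le_iff₀ hβ0] at this
    linarith only [this]
  have hc3 : 0 < c / 3 := by positivity
  obtain ⟨N₀, hN1, hN₀⟩ := GoodLen.poly_exp hc3
  obtain ⟨N₂, hN₂⟩ := exists_nat_gt ((C₁ + 1) / c)
  set K : ℕ := max N₀ N₂ with hK
  have hK1 : 1 ≤ K := hN1.trans (le_max_left _ _)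
  have hKpos : (1 : ℝ) ≤ K := by exact_mod_cast hK1
  have hK2 : (C₁ + 1) ≤ c * K := by
    have h1 : (N₂ : ℝ) ≤ K := by exact_mod_cast le_max_right _ _
    have h2 := hN₂.le.trans h1
    rw [div_le_iff₀ hc] at h2
    linarith only [h2]
  obtain ⟨R, hR1, hR2⟩ := exists_R (G := G) hC (GoodLen.ringF 0 (Nat.succ_pos K)) (K + 1) hc3
  refine ⟨K, R, ⌈C₁ * K⌉₊, by omega, ?_, ?_⟩
  · have h1 := (Nat.ceil_lt_add_one (show 0 ≤ C₁ * K by (clear * - hN1; positivity))).le
    refine h1.trans ?_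
    have h2 : C₁ * K + 1 ≤ (C₁ + 1) * K := by nlinarith only [hKpos]
    have h3 : (C₁ + 1) * K ≤ c * K * K := mul_le_mul_of_nonneg_right hK2 (by linarith only [])
    nlinarith only [hC1, hK2]
  · have h1 : PG G {t | D * (K + 1) < ∑ e ∈ GoodLen.ringF 0 (Nat.succ_pos K), tl M t e} ≤
        ENNReal.ofReal (c / 3) := by
      have hms1 : ∀ e : latt.edgeSet, Measurable fun t : Env => ENNReal.ofReal (tl M t e) :=
        fun e => ENNReal.measurable_ofReal.comp (TrB.measurable_tl M e)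
      have hms : Measurable fun t : Env =>
          ∑ e ∈ GoodLen.ringF 0 (Nat.succ_pos K), ENNReal.ofReal (tl M t e) :=
        Finset.measurable_sum _ fun e _ => hms1 e
      have hint : ∫⁻ t, ∑ e ∈ GoodLen.ringF 0 (Nat.succ_pos K), ENNReal.ofReal (tl M t e) ∂PG G ≤
          ENNReal.ofReal (8 * (K + 1) * m) := by
        rw [lintegral_finsetSum _ fun e _ => hms1 e]
        refine (Finset.sum_le_sum fun e _ => hCE e).trans ?_
        rw [Finset.sum_const, GoodLen.card_ringF, nsmul_eq_mul, hEm, ← ENNReal.ofReal_natCast,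
          ← ENNReal.ofReal_mul (by positivity)]
        push_cast
        exact le_rfl
      have hsub : {t : Env | D * (K + 1) < ∑ e ∈ GoodLen.ringF 0 (Nat.succ_pos K), tl M t e} ⊆
          {t | ENNReal.ofReal (D * (K + 1)) ≤
            ∑ e ∈ GoodLen.ringF 0 (Nat.succ_pos K), ENNReal.ofReal (tl M t e)} := by
        intro t ht
        show ENNReal.ofReal (D * (K + 1)) ≤
            ∑ e ∈ GoodLen.ringF 0 (Nat.succ_pos K), ENNReal.ofReal (tl M t e)
        rw [← ENNReal.ofReal_sum_of_nonneg fun e _ => (hM.le.trans (tl_ge hM e))]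
        exact ENNReal.ofReal_le_ofReal (le_of_lt ht)
      have hpos : 0 < D * (K + 1) := by (clear * - hc hN1; positivity)
      refine (measure_mono hsub).trans ?_
      refine (meas_ge_le_lintegral_div hms.aemeasurable
        (ENNReal.ofReal_pos.2 hpos).ne' ENNReal.ofReal_ne_top).trans ?_
      refine (ENNReal.div_le_div_right hint _).trans ?_
      rw [← ENNReal.ofReal_div_of_pos hpos]
      refine ENNReal.ofReal_le_ofReal ?_
      rw [div_le_div_iff₀ hpos (by norm_num)]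
      have hDc : c * D = 24 * m + c := by
        rw [hD]
        (clear * - hc hm0; field_simp)
      nlinarith only [hc, hDc]
    have h2 : PG G {t | ∃ x ∈ Pe.bxF 0 (K + 1), ∃ (y : V) (p : latt.Walk x y), p.IsPath ∧
        K ≤ p.length ∧ 8 * Pe.nh β t (pe p) < p.length} ≤ ENNReal.ofReal (c / 3) := by
      refine (GoodLen.peierls_box hβ 0 (K + 1) K).trans (ENNReal.ofReal_le_ofReal ?_)
      have := hN₀ K (le_max_left _ _)
      push_cast
      exact this
    have h3 : PG G {t | ¬ ∀ e, 0 < t e} = 0 := ae_iff.1 (ae_pos G h0)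
    have hsub : {t : Env | ¬ VB ⌈C₁ * K⌉₊ R K t} ⊆
        (({t | D * (K + 1) < ∑ e ∈ GoodLen.ringF 0 (Nat.succ_pos K), tl M t e} ∪
        {t | ∃ x ∈ Pe.bxF 0 (K + 1), ∃ (y : V) (p : latt.Walk x y), p.IsPath ∧
        K ≤ p.length ∧ 8 * Pe.nh β t (pe p) < p.length}) ∪
        {t | ¬ ∀ e ∈ GoodLen.ringF 0 (Nat.succ_pos K), CR M R e t}) ∪ {t | ¬ ∀ e, 0 < t e} := by
      intro t ht
      by_contra hnot
      simp only [Set.mem_union, Set.mem_ofPred_eq, not_or, not_not, not_lt] at hnot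
      obtain ⟨⟨⟨a1, a2⟩, a4⟩, a3⟩ := hnot
      refine ht ?_
      intro S _ _ hS x y l hl hx hy F hF
      refine trace_le hM a3 a4 hR1 ?_ hS hl hx hy F hF
      intro x y p hp hx hlen
      have b0 : K ≤ p.length := by
        have : (K : ℝ) ≤ p.length := le_trans (by nlinarith only [hC1]) hlen
        exact_mod_cast this
      have b1 : p.length ≤ 8 * Pe.nh β t (pe p) := by
        by_contra hc
        push Not at hc
        exact a2 ⟨x, Pe.mem_bxF.2 hx, y, p, hp, b0, hc⟩
      have b2 := Pe.nh_le_ww (β := β) a3 p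
      have b3 : (p.length : ℝ) ≤ 8 * Pe.nh β t (pe p) := by exact_mod_cast b1
      refine a1.trans_lt ?_
      have b5 : (2 * D + 1) * K ≤ β * C₁ / 8 * K := mul_le_mul_of_nonneg_right hC2 (by linarith only [])
      have b6 : β * (C₁ * K) ≤ β * (8 * Pe.nh β t (pe p)) :=
        mul_le_mul_of_nonneg_left (hlen.trans b3) hβ0.le
      nlinarith only [hKpos, b2, b5, b6, hD0]
    calc PG G {t : Env | ¬ VB ⌈C₁ * K⌉₊ R K t} ≤ _ := measure_mono hsub
      _ ≤ ((ENNReal.ofReal (c / 3) + ENNReal.ofReal (c / 3)) + ENNReal.ofReal (c / 3)) + 0 :=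
          (measure_union_le _ _).trans (add_le_add ((measure_union_le _ _).trans (add_le_add
            ((measure_union_le _ _).trans (add_le_add h1 h2)) hR2)) h3.le)
      _ = ENNReal.ofReal c := by
          rw [add_zero, ← ENNReal.ofReal_add (by positivity) (by positivity),
            ← ENNReal.ofReal_add (by positivity) (by positivity)]
          congr 1
          ring

end Vale.Agent.P158.C.VBp
end
end

section

section

/-! Light circuits and the merge bound for every atomless law: no moment assumption. -/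

namespace Vale.Agent.P158.C.MrgAll

open MeasureTheory

variable {G : Measure ℝ} [IsProbabilityMeasure G]

/-- (T9) for every law. -/
theorem circ_all : CircStmt G := Crc.circ G RectCross.rectCross (Renorm.renorm G)

/-- The bound on the number of vertices of geodesics in some block, for every atomless law. -/
theorem vb_all [NullSingletonClass G] (h0 : G (Set.Iio 0) = 0) : VBStmt G :=
  VBp.vb_of h0 circ_all

/-- (4) The merge bound for every atomless law. -/
theorem mrg_all [NullSingletonClass G] (h0 : G (Set.Iio 0) = 0) : MrgStmt G :=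
  MrgA.mrgVB h0 (vb_all h0)

end Vale.Agent.P158.C.MrgAll
end
end

section

section

/-! No bigeodesics for every atomless law. -/

namespace Vale.Agent.P158.C.Fin

open MeasureTheory

theorem no_bigeodesics_all (G : Measure ℝ) [IsProbabilityMeasure G] (hG : G (Set.Iio 0) = 0)
    (hatom : ∀ x, G {x} = 0)
    (Ω : Type*) [MeasurableSpace Ω] (P : Measure Ω) [IsProbabilityMeasure P]
    (t : latt.edgeSet → Ω → ℝ) (ht : ∀ e, Measurable (t e)) (hlaw : ∀ e, P.map (t e) = G)
    (hind : ProbabilityTheory.iIndepFun t P) :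
    ∀ᵐ ω ∂P, ∀ v : ℤ → V, ¬ IsBigeodesic (fun e => t e ω) v := by
  have : NullSingletonClass G := ⟨hatom⟩
  exact transfer hG (FinT.finT hG (MrgAll.mrg_all hG)) Ω P t ht hlaw hind

end Vale.Agent.P158.C.Fin
end
end
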